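import Vale.Agent.P106.G.NBa

/-! # Assembly of the one step inequality: terms -/

open MeasureTheory Complex Set
open scoped ENNReal NNReal ContDiff FourierTransform SchwartzMap ComplexConjugate

set_option linter.all false

namespace Vale.Agent.P106.G

/-- the weight -/
noncomputable def Vw (Λ : ℝ) (M N : ℕ) (a : E4 → ℂ) (z : E4) : ℝ≥0∞ := (Sq Λ M N a z ^ (1/2 : ℝ))⁻¹

theorem measurable_Vw (Λ : ℝ) (M N : ℕ) {a : E4 → ℂ} (ha : Integrable a) : Measurable (Vw Λ M N a) :=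
  ((measurable_Sq Λ M N ha).pow_const _).inv

theorem Sq_SV {Λ : ℝ} (hΛ : 0 < Λ) (M : ℕ) {N : ℕ} (hN : 1 ≤ N) (a : E4 → ℂ) : SV M (Λ / 10) (Sq Λ M N a) := by
  have : Sq Λ M N a = fun z => ∑ k ∈ grd N, Sk Λ M N a k z := by ext z; rfl
  rw [this]
  exact SV.sum fun k hk => Sk_SV hΛ M hN hk

theorem Vw_SV {Λ : ℝ} (hΛ : 0 < Λ) (M : ℕ) {N : ℕ} (hN : 1 ≤ N) (a : E4 → ℂ) : SV M (Λ / 10) (Vw Λ M N a) :=
  (Sq_SV hΛ M hN a).inv_sqrt (by positivity)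

theorem sub_mem {K N : ℕ} {κ k : ℤ × ℤ} (hκ : κ ∈ grd K) (hk : k ∈ grd N) : sub N κ k ∈ grd (K * N) := by
  unfold grd at *
  rw [Finset.mem_product, Finset.mem_Ico, Finset.mem_Ico] at *
  unfold sub
  push_cast
  obtain ⟨⟨a1, a2⟩, a3, a4⟩ := hκ
  obtain ⟨⟨b1, b2⟩, b3, b4⟩ := hk
  have hN : (0:ℤ) ≤ N := by omega
  refine ⟨⟨?_, ?_⟩, ?_, ?_⟩
  · have : 0 ≤ κ.1 * (N:ℤ) := mul_nonneg a1 hN
    omega
  · have : (κ.1 + 1) * (N:ℤ) ≤ K * N := mul_le_mul_of_nonneg_right (by omega) hN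
    linarith
  · have : 0 ≤ κ.2 * (N:ℤ) := mul_nonneg a3 hN
    omega
  · have : (κ.2 + 1) * (N:ℤ) ≤ K * N := mul_le_mul_of_nonneg_right (by omega) hN
    linarith

theorem Skk_SV {Λ : ℝ} (hΛ : 0 < Λ) (M : ℕ) {K N : ℕ} (hK : 1 ≤ K) (hN : 1 ≤ N) (a : E4 → ℂ) {κ : ℤ × ℤ} (hκ : κ ∈ grd K) :
    SV M (Λ / 10) (Skk Λ M K N a κ) := by
  have : Skk Λ M K N a κ = fun z => ∑ k ∈ grd N, Sk Λ M (K * N) a (sub N κ k) z := by ext z; rfl
  rw [this]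
  exact SV.sum fun k hk => Sk_SV hΛ M (Nat.mul_pos hK hN) (sub_mem hκ hk)

theorem measurable_Skk (Λ : ℝ) (M K N : ℕ) {a : E4 → ℂ} (ha : Integrable a) (κ : ℤ × ℤ) : Measurable (Skk Λ M K N a κ) := by
  have : Skk Λ M K N a κ = fun z => ∑ k ∈ grd N, Sk Λ M (K * N) a (sub N κ k) z := by ext z; rfl
  rw [this]
  exact Finset.measurable_sum _ fun k _ => measurable_Sk Λ M (K * N) ha _

/-- averaging against a weight -/
theorem conv_int {M M' : ℕ} (hM : M + 5 ≤ M') {K L : ℝ} (hK : 0 < K) (hKL : K ≤ L) {W f : E4 → ℝ≥0∞}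
    (hW : SV M L W) (hWm : Measurable W) (hf : Measurable f) :
    ∫⁻ z, (∫⁻ y, f y * wK M' K (z - y)) * W z ≤ cw 5 * ∫⁻ y, f y * W y := by
  have mw := measurable_wK M' K
  calc ∫⁻ z, (∫⁻ y, f y * wK M' K (z - y)) * W z = ∫⁻ z, ∫⁻ y, f y * wK M' K (z - y) * W z := by
        refine lintegral_congr fun z => ?_
        have m1 : Measurable (fun y => f y * wK M' K (z - y)) := hf.mul (mw.comp (by fun_prop))
        rw [lintegral_mul_const _ m1]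
    _ = ∫⁻ y, ∫⁻ z, f y * wK M' K (z - y) * W z := by
        apply lintegral_lintegral_swap
        apply Measurable.aemeasurable
        have m2 : Measurable (fun p : E4 × E4 => wK M' K (p.1 - p.2)) := mw.comp (by fun_prop)
        exact ((hf.comp measurable_snd).mul m2).mul (hWm.comp measurable_fst)
    _ = ∫⁻ y, f y * ∫⁻ z, wK M' K (z - y) * W z := by
        refine lintegral_congr fun y => ?_
        have m1 : Measurable (fun z => wK M' K (z - y) * W z) := (mw.comp (by fun_prop)).mul hWm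
        rw [← lintegral_const_mul _ m1]
        refine lintegral_congr fun z => ?_
        ring
    _ ≤ ∫⁻ y, f y * (cw 5 * W y) := by
        refine lintegral_mono fun y => ?_
        refine mul_le_mul' le_rfl ?_
        exact conv_SV hM hK hKL hW y
    _ = _ := by
        have mfW : Measurable (fun y => f y * W y) := hf.mul hWm
        rw [← lintegral_const_mul _ mfW]
        refine lintegral_congr fun y => ?_
        ring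

/-- the term of scale `K` -/
theorem term {Λ c0 : ℝ} (hΛ : 0 < Λ) {M M' K N : ℕ} {A B : ℝ≥0∞} (hM : M + 5 ≤ M') (hK : 1 ≤ K) (hN : 1 ≤ N)
    (hKL : (K:ℝ) ≤ Λ / 10) (hR : RefB Λ c0 M N A) {a : E4 → ℂ} (ha : Amp c0 (((K * N : ℕ):ℝ) ^ 2) a)
    {x : ℤ × ℤ → E4 → ℝ≥0∞} (mx : ∀ κ, Measurable (x κ))
    (hx : ∀ κ z, x κ z ^ 3 ≤ B * ∫⁻ y, ‖𝓕⁻ (ampk K κ a) y‖ₑ ^ 3 * wK M' K (z - y)) :
    ∫⁻ z, Vw Λ M (K * N) a z * (∑ κ ∈ grd K, x κ z ^ 2) ^ (3/2 : ℝ) ≤ B * cw 5 * A * ∫⁻ ζ, ‖a ζ‖ₑ ^ 2 := by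
  have hK0 : (0:ℝ) < K := by exact_mod_cast hK
  have hL : 0 < Λ / 10 := by positivity
  have mS : ∀ κ, Measurable (fun z => (Skk Λ M K N a κ z ^ (1/2 : ℝ))⁻¹) := fun κ =>
    ((measurable_Skk Λ M K N ha.int κ).pow_const _).inv
  calc ∫⁻ z, Vw Λ M (K * N) a z * (∑ κ ∈ grd K, x κ z ^ 2) ^ (3/2 : ℝ) ≤
      ∫⁻ z, ∑ κ ∈ grd K, x κ z ^ 3 * (Skk Λ M K N a κ z ^ (1/2 : ℝ))⁻¹ := by
        refine lintegral_mono fun z => ?_
        unfold Vw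
        rw [Sq_split, mul_comm]
        exact holder_pt (grd K) (fun κ => x κ z) (fun κ => Skk Λ M K N a κ z)
    _ = ∑ κ ∈ grd K, ∫⁻ z, x κ z ^ 3 * (Skk Λ M K N a κ z ^ (1/2 : ℝ))⁻¹ :=
        lintegral_finset_sum _ fun κ _ => ((mx κ).pow_const 3).mul (mS κ)
    _ ≤ ∑ κ ∈ grd K, B * cw 5 * A * ∫⁻ ζ, ‖ampk K κ a ζ‖ₑ ^ 2 := by
        refine Finset.sum_le_sum fun κ hκ => ?_
        have mf : Measurable (fun y => ‖𝓕⁻ (ampk K κ a) y‖ₑ ^ 3) :=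
          (continuous_inv (ha.ampk K κ).int).measurable.enorm.pow_const 3
        have hSV : SV M (Λ / 10) (fun z => (Skk Λ M K N a κ z ^ (1/2 : ℝ))⁻¹) := (Skk_SV hΛ M hK hN a hκ).inv_sqrt hL
        have mw := measurable_wK M' K
        calc ∫⁻ z, x κ z ^ 3 * (Skk Λ M K N a κ z ^ (1/2 : ℝ))⁻¹ ≤
            ∫⁻ z, B * ((∫⁻ y, ‖𝓕⁻ (ampk K κ a) y‖ₑ ^ 3 * wK M' K (z - y)) * (Skk Λ M K N a κ z ^ (1/2 : ℝ))⁻¹) := by
              refine lintegral_mono fun z => ?_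
              rw [← mul_assoc]
              exact mul_le_mul' (hx κ z) le_rfl
          _ = B * ∫⁻ z, (∫⁻ y, ‖𝓕⁻ (ampk K κ a) y‖ₑ ^ 3 * wK M' K (z - y)) * (Skk Λ M K N a κ z ^ (1/2 : ℝ))⁻¹ := by
              apply lintegral_const_mul
              refine Measurable.mul ?_ (mS κ)
              apply Measurable.lintegral_prod_right' (f := fun p : E4 × E4 => ‖𝓕⁻ (ampk K κ a) p.2‖ₑ ^ 3 * wK M' K (p.1 - p.2))
              exact (mf.comp measurable_snd).mul (mw.comp (by fun_prop))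
          _ ≤ B * (cw 5 * ∫⁻ y, ‖𝓕⁻ (ampk K κ a) y‖ₑ ^ 3 * (Skk Λ M K N a κ y ^ (1/2 : ℝ))⁻¹) :=
              mul_le_mul' le_rfl (conv_int hM hK0 hKL hSV (mS κ) mf)
          _ ≤ B * (cw 5 * (A * ∫⁻ ζ, ‖ampk K κ a ζ‖ₑ ^ 2)) :=
              mul_le_mul' le_rfl (mul_le_mul' le_rfl (hR.cap hΛ hK hN ha κ))
          _ = _ := by ring
    _ = B * cw 5 * A * ∑ κ ∈ grd K, ∫⁻ ζ, ‖ampk K κ a ζ‖ₑ ^ 2 := by rw [Finset.mul_sum]
    _ ≤ _ := mul_le_mul' le_rfl (lint_ampk_le ha K)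

/-- the term of scale `K0` -/
theorem term0 {Λ c0 : ℝ} (hΛ : 0 < Λ) {M K N : ℕ} {A : ℝ≥0∞} (hK : 1 ≤ K) (hN : 1 ≤ N)
    (hR : RefB Λ c0 M N A) {a : E4 → ℂ} (ha : Amp c0 (((K * N : ℕ):ℝ) ^ 2) a) :
    ∫⁻ z, Vw Λ M (K * N) a z * ∑ κ ∈ grd K, ‖𝓕⁻ (ampk K κ a) z‖ₑ ^ 3 ≤ A * ∫⁻ ζ, ‖a ζ‖ₑ ^ 2 := by
  have mf : ∀ κ, Measurable (fun y => ‖𝓕⁻ (ampk K κ a) y‖ₑ ^ 3) := fun κ =>
    (continuous_inv (ha.ampk K κ).int).measurable.enorm.pow_const 3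
  have mS : ∀ κ, Measurable (fun z => (Skk Λ M K N a κ z ^ (1/2 : ℝ))⁻¹) := fun κ =>
    ((measurable_Skk Λ M K N ha.int κ).pow_const _).inv
  calc _ ≤ ∫⁻ z, ∑ κ ∈ grd K, ‖𝓕⁻ (ampk K κ a) z‖ₑ ^ 3 * (Skk Λ M K N a κ z ^ (1/2 : ℝ))⁻¹ := by
        refine lintegral_mono fun z => ?_
        simp only
        rw [Finset.mul_sum]
        refine Finset.sum_le_sum fun κ hκ => ?_
        rw [mul_comm]
        refine mul_le_mul' le_rfl ?_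
        unfold Vw
        rw [Sq_split]
        apply ENNReal.inv_le_inv.2
        gcongr
        exact Finset.single_le_sum_of_canonicallyOrdered (f := fun κ => Skk Λ M K N a κ z) hκ
    _ = ∑ κ ∈ grd K, ∫⁻ z, ‖𝓕⁻ (ampk K κ a) z‖ₑ ^ 3 * (Skk Λ M K N a κ z ^ (1/2 : ℝ))⁻¹ :=
        lintegral_finset_sum _ fun κ _ => (mf κ).mul (mS κ)
    _ ≤ ∑ κ ∈ grd K, A * ∫⁻ ζ, ‖ampk K κ a ζ‖ₑ ^ 2 :=
        Finset.sum_le_sum fun κ _ => hR.cap hΛ hK hN ha κ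
    _ = A * ∑ κ ∈ grd K, ∫⁻ ζ, ‖ampk K κ a ζ‖ₑ ^ 2 := by rw [Finset.mul_sum]
    _ ≤ _ := mul_le_mul' le_rfl (lint_ampk_le ha K)

theorem Hs_SV (M : ℕ) {K : ℕ} (hK : 1 ≤ K) {c0 R : ℝ} {a : E4 → ℂ} (ha : Amp c0 R a) : SV M K (Hs M K a) := by
  have hK0 : (0:ℝ) < K := by exact_mod_cast hK
  have : Hs M K a = fun z => ∑ k ∈ grd K, Gsq M K (ampk K k a) z := by ext z; rfl
  rw [this]
  exact SV.sum fun k _ => Gsq_SV M hK0 (ha.ampk K k).int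

theorem measurable_Hs (M K : ℕ) {c0 R : ℝ} {a : E4 → ℂ} (ha : Amp c0 R a) : Measurable (Hs M K a) := by
  have : Hs M K a = fun z => ∑ k ∈ grd K, Gsq M K (ampk K k a) z := by ext z; rfl
  rw [this]
  exact Finset.measurable_sum _ fun k _ => measurable_Gsq M K (ha.ampk K k).int

end Vale.Agent.P106.G
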