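import Vale.Agent.P106.G.AsmT

/-! # Assembly: the one step inequality -/

open MeasureTheory Complex Set
open scoped ENNReal NNReal ContDiff FourierTransform SchwartzMap ComplexConjugate

set_option linter.all false

namespace Vale.Agent.P106.G

theorem avg' {M : ℕ} {K : ℕ} {L : ℝ} (hK : 1 ≤ K) (hKL : (K:ℝ) ≤ L) {W f : E4 → ℝ≥0∞} (hW : SV M L W) (hWm : Measurable W)
    (hf : Measurable f) :
    ∫⁻ z, W z * f z ≤ (2 ^ M * vb⁻¹) * ((K:ℝ≥0∞) ^ 4)⁻¹ * ∫⁻ c, W c * ∫⁻ z in Metric.closedBall c (K:ℝ), f z := by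
  have hK0 : (0:ℝ) < K := by exact_mod_cast hK
  have h := avg_ball hK0 hKL hW hWm hf
  have e1 : ENNReal.ofReal ((K:ℝ) ^ 4) = (K:ℝ≥0∞) ^ 4 := by rw [ENNReal.ofReal_pow hK0.le, ENNReal.ofReal_natCast]
  rw [e1, ENNReal.mul_inv (Or.inr vb_lt.ne) (Or.inr vb_pos.ne')] at h
  calc ∫⁻ z, W z * f z = ∫⁻ z, f z * W z := lintegral_congr fun z => mul_comm _ _
    _ ≤ _ := h
    _ = _ := by ring

theorem measurable_Gk (M K N : ℕ) {c0 R : ℝ} {a : E4 → ℂ} (ha : Amp c0 R a) (k : ℤ × ℤ) : Measurable (Gk M K N a k) :=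
  measurable_Gav M K (ha.ampk N k).int

/-- the trilinear term -/
theorem tri_term (M M2 : ℕ) (hM : M + 5 ≤ M2) (ν ε : ℝ) (hν : 0 < ν) (hε : 0 < ε) (hε1 : ε ≤ 1) : ∃ δ : ℝ, 0 < δ ∧ ∃ C : ℝ, 0 ≤ C ∧
    ∀ (K K' m N : ℕ), 1 ≤ K → K ≤ K' * m → 1 ≤ K' → 1 ≤ m → 1 ≤ N → 1 / (K':ℝ) ≤ δ → ∀ (Λ c0 : ℝ) (a : E4 → ℂ),
    Amp c0 (((K' * m * N : ℕ):ℝ) ^ 2) a → 0 < Λ → ((K' * m : ℕ):ℝ) ≤ Λ / 10 →
    c0 ≤ 1 / ((K' * m : ℕ):ℝ) → ∀ (k1 k2 k3 : ℤ × ℤ), k1 ∈ grd K' → k2 ∈ grd K' → k3 ∈ grd K' →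
    ν ≤ |d3 (cc K' k1) (cc K' k2) (cc K' k3)| → ∀ A : ℝ≥0∞, RefB Λ c0 M N A →
    ∫⁻ z, Vw Λ M (K' * m * N) a z * (Gk (5 + M2) K K' a k1 z * Gk (5 + M2) K K' a k2 z * Gk (5 + M2) K K' a k3 z) ≤
      (2 ^ M * vb⁻¹) * ENNReal.ofReal (C * ((K' * m : ℕ):ℝ) ^ ε) * cw 5 ^ 3 * (cw M2 ^ (1/2 : ℝ) * cw 5 * A * ∫⁻ ζ, ‖a ζ‖ₑ ^ 2) := by
  obtain ⟨δ, hδ, C, hC, hT⟩ := tri_ball M2 ν ε hν hε hε1
  refine ⟨δ, hδ, C, hC, ?_⟩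
  intro K K' m N hK hKK hK' hm hN hKδ Λ c0 a ha hΛ hKΛ hc k1 k2 k3 h1 h2 h3 hdet A hA
  have hK2 : 1 ≤ K' * m := Nat.mul_pos hK' hm
  have hNN : 1 ≤ K' * m * N := Nat.mul_pos hK2 hN
  have hK20 : (0:ℝ) < ((K' * m : ℕ):ℝ) := by exact_mod_cast hK2
  have hR : ((((K' * m * N : ℕ):ℝ) ^ 2))⁻¹ ≤ 1 / ((K' * m : ℕ):ℝ) := by
    rw [one_div]
    apply inv_anti₀ hK20
    have h5 : (((K' * m : ℕ):ℝ)) ≤ ((K' * m * N : ℕ):ℝ) := by exact_mod_cast Nat.le_mul_of_pos_right _ hN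
    have h6 : (1:ℝ) ≤ ((K' * m * N : ℕ):ℝ) := by exact_mod_cast hNN
    nlinarith
  have mG := fun k => measurable_Gk (5 + M2) K K' ha k
  have hV := Vw_SV hΛ M hNN a
  have mV := measurable_Vw Λ M (K' * m * N) ha.int
  have mH := measurable_Hs M2 (K' * m) ha
  have hkt : ((K' * m : ℕ):ℝ≥0∞) ≠ ⊤ := ENNReal.natCast_ne_top _
  have hk0 : ((K' * m : ℕ):ℝ≥0∞) ≠ 0 := by rw [ne_eq, Nat.cast_eq_zero]; omega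
  calc _ ≤ (2 ^ M * vb⁻¹) * (((K' * m : ℕ):ℝ≥0∞) ^ 4)⁻¹ * ∫⁻ c, Vw Λ M (K' * m * N) a c *
        ∫⁻ z in Metric.closedBall c ((K' * m : ℕ):ℝ), Gk (5 + M2) K K' a k1 z * Gk (5 + M2) K K' a k2 z * Gk (5 + M2) K K' a k3 z :=
        avg' hK2 hKΛ hV mV (((mG k1).mul (mG k2)).mul (mG k3))
    _ ≤ (2 ^ M * vb⁻¹) * (((K' * m : ℕ):ℝ≥0∞) ^ 4)⁻¹ * ∫⁻ c, Vw Λ M (K' * m * N) a c *
        (ENNReal.ofReal (C * ((K' * m : ℕ):ℝ) ^ (4 + ε)) * cw 5 ^ 3 * Hs M2 (K' * m) a c ^ (3/2 : ℝ)) := by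
        refine mul_le_mul' le_rfl (lintegral_mono fun c => mul_le_mul' le_rfl ?_)
        exact hT K K' m hK hKK hK' hm hKδ c0 _ a ha hc hR k1 k2 k3 h1 h2 h3 hdet c
    _ = (2 ^ M * vb⁻¹) * ((((K' * m : ℕ):ℝ≥0∞) ^ 4)⁻¹ * ENNReal.ofReal (C * ((K' * m : ℕ):ℝ) ^ (4 + ε))) * cw 5 ^ 3 *
        ∫⁻ c, Vw Λ M (K' * m * N) a c * (∑ k ∈ grd (K' * m), (Gsq M2 ((K' * m : ℕ):ℝ) (ampk (K' * m) k a) c ^ (1/2 : ℝ)) ^ 2) ^ (3/2 : ℝ) := by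
        have e1 : ∀ c, Vw Λ M (K' * m * N) a c *
            (ENNReal.ofReal (C * ((K' * m : ℕ):ℝ) ^ (4 + ε)) * cw 5 ^ 3 * Hs M2 (K' * m) a c ^ (3/2 : ℝ)) =
            (ENNReal.ofReal (C * ((K' * m : ℕ):ℝ) ^ (4 + ε)) * cw 5 ^ 3) * (Vw Λ M (K' * m * N) a c * Hs M2 (K' * m) a c ^ (3/2 : ℝ)) := by
          intro c; ring
        have mVH : Measurable (fun c => Vw Λ M (K' * m * N) a c * Hs M2 (K' * m) a c ^ (3/2 : ℝ)) := mV.mul (mH.pow_const _)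
        simp_rw [e1]
        rw [lintegral_const_mul _ mVH]
        have e2 : ∀ c, ∑ k ∈ grd (K' * m), (Gsq M2 ((K' * m : ℕ):ℝ) (ampk (K' * m) k a) c ^ (1/2 : ℝ)) ^ 2 = Hs M2 (K' * m) a c := by
          intro c
          unfold Hs
          refine Finset.sum_congr rfl fun k _ => ?_
          rw [← ENNReal.rpow_natCast, ← ENNReal.rpow_mul]; norm_num
        simp_rw [e2]
        ring
    _ ≤ (2 ^ M * vb⁻¹) * (ENNReal.ofReal (C * ((K' * m : ℕ):ℝ) ^ ε)) * cw 5 ^ 3 * (cw M2 ^ (1/2 : ℝ) * cw 5 * A * ∫⁻ ζ, ‖a ζ‖ₑ ^ 2) := by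
        have e3 : (((K' * m : ℕ):ℝ≥0∞) ^ 4)⁻¹ * ENNReal.ofReal (C * ((K' * m : ℕ):ℝ) ^ (4 + ε)) = ENNReal.ofReal (C * ((K' * m : ℕ):ℝ) ^ ε) := by
          have e4 : ENNReal.ofReal (C * ((K' * m : ℕ):ℝ) ^ (4 + ε)) = ((K' * m : ℕ):ℝ≥0∞) ^ 4 * ENNReal.ofReal (C * ((K' * m : ℕ):ℝ) ^ ε) := by
            rw [← ENNReal.ofReal_natCast (K' * m), ← ENNReal.ofReal_pow hK20.le, ← ENNReal.ofReal_mul (by positivity)]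
            congr 1
            rw [Real.rpow_add hK20]
            have : ((K' * m : ℕ):ℝ) ^ (4:ℝ) = ((K' * m : ℕ):ℝ) ^ (4:ℕ) := by
              rw [← Real.rpow_natCast]; norm_num
            rw [this]
            ring
          rw [e4, ← mul_assoc, ENNReal.inv_mul_cancel (pow_ne_zero _ hk0) (ENNReal.pow_ne_top hkt), one_mul]
        rw [e3]
        refine mul_le_mul' le_rfl ?_
        refine term hΛ (M' := M2) hM hK2 hN hKΛ hA ha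
          (x := fun k c => Gsq M2 ((K' * m : ℕ):ℝ) (ampk (K' * m) k a) c ^ (1/2 : ℝ)) ?_ ?_
        · intro κ
          exact (measurable_Gsq M2 _ (ha.ampk _ κ).int).pow_const _
        · intro κ z
          have e5 : (Gsq M2 ((K' * m : ℕ):ℝ) (ampk (K' * m) κ a) z ^ (1/2 : ℝ)) ^ 3 =
              Gsq M2 ((K' * m : ℕ):ℝ) (ampk (K' * m) κ a) z ^ (3/2 : ℝ) := by
            rw [← ENNReal.rpow_natCast, ← ENNReal.rpow_mul]; norm_num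
          rw [e5]
          exact Gsq_cube M2 hK20 (ha.ampk _ κ).int z

/-- the one step inequality -/
theorem one_step (M : ℕ) : ∃ Ca Cb : ℝ≥0∞, Ca ≠ ⊤ ∧ Cb ≠ ⊤ ∧ ∀ (ε : ℝ) (K0 m : ℕ), 0 < ε → ε ≤ 1 → 1 ≤ K0 → 1 ≤ m →
    ∃ δ : ℝ, 0 < δ ∧ ∃ Ct : ℝ, 0 ≤ Ct ∧ ∀ (q m2 N N0 N1 N2 : ℕ), 1 ≤ q → 1 ≤ m2 → 1 ≤ N2 → 1 / ((K0 * m * q : ℕ):ℝ) ≤ δ →
    N = K0 * N0 → N = K0 * m * N1 → N = K0 * m * q * m2 * N2 → ∀ (Λ c0 : ℝ) (A0 A1 A2 : ℝ≥0∞), 0 < Λ →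
    ((K0 * m * q * m2 : ℕ):ℝ) ≤ Λ / 10 → c0 ≤ 1 / ((K0 * m * q * m2 : ℕ):ℝ) →
    RefB Λ c0 M N0 A0 → RefB Λ c0 M N1 A1 → RefB Λ c0 M N2 A2 →
    RefB Λ c0 M N (10 ^ 8 * A0 + Ca * (K0:ℝ≥0∞) ^ 15 * A1 +
      Cb * (K0:ℝ≥0∞) ^ 13 * ((K0 * m : ℕ):ℝ≥0∞) ^ 21 * ((K0 * m * q : ℕ):ℝ≥0∞) ^ 6 * ENNReal.ofReal (Ct * ((K0 * m * q * m2 : ℕ):ℝ) ^ ε) * A2) := by
  set M2 := M + 5 with hM2
  obtain ⟨C, hC, hNB⟩ := NB (5 + M2)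
  have hv0 : vb⁻¹ ≠ ⊤ := ENNReal.inv_ne_top.2 vb_pos.ne'
  have hcw : ∀ n, 5 ≤ n → cw n ≠ ⊤ := fun n hn => (cw_lt_top hn).ne
  refine ⟨2 ^ M * vb⁻¹ * C * (cw (5 + M2) ^ 2 * cw 5), 2 ^ M * vb⁻¹ * C * ((2 ^ M * vb⁻¹) * cw 5 ^ 3 * (cw M2 ^ (1/2 : ℝ) * cw 5)), ?_, ?_, ?_⟩
  · have := hcw 5 le_rfl
    have := hcw (5 + M2) (by omega)
    finiteness
  · have := hcw 5 le_rfl
    have := hcw M2 (by omega)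
    finiteness
  intro ε K0 m hε hε1 hK0 hm
  have hK1 : 1 ≤ K0 * m := Nat.mul_pos hK0 hm
  have hK1r : (0:ℝ) < ((K0 * m : ℕ):ℝ) := by exact_mod_cast hK1
  obtain ⟨δ, hδ, Ct, hCt, hT⟩ := tri_term M M2 le_rfl (1 / ((K0 * m : ℕ):ℝ)) ε (by positivity) hε hε1
  refine ⟨δ, hδ, Ct, hCt, ?_⟩
  intro q m2 N N0 N1 N2 hq hm2 hN2 hδq e0 e1 e2 Λ c0 A0 A1 A2 hΛ hKΛ hc hA0 hA1 hA2
  have hK' : 1 ≤ K0 * m * q := Nat.mul_pos hK1 hq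
  have hK2 : 1 ≤ K0 * m * q * m2 := Nat.mul_pos hK' hm2
  have hN : 1 ≤ N := by rw [e2]; exact Nat.mul_pos hK2 hN2
  have hN0 : 1 ≤ N0 := by
    rcases Nat.eq_zero_or_pos N0 with h | h
    · rw [h, mul_zero] at e0; omega
    · exact h
  have hN1 : 1 ≤ N1 := by
    rcases Nat.eq_zero_or_pos N1 with h | h
    · rw [h, mul_zero] at e1; omega
    · exact h
  have hK12 : K0 * m ≤ K0 * m * q * m2 := by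
    rw [mul_assoc (K0 * m)]
    exact Nat.le_mul_of_pos_right _ (Nat.mul_pos hq hm2)
  have hK12r : ((K0 * m : ℕ):ℝ) ≤ ((K0 * m * q * m2 : ℕ):ℝ) := by exact_mod_cast hK12
  have hc1 : c0 ≤ 1 / ((K0 * m : ℕ):ℝ) := hc.trans (one_div_le_one_div_of_le hK1r hK12r)
  have hKΛ1 : ((K0 * m : ℕ):ℝ) ≤ Λ / 10 := hK12r.trans hKΛ
  intro a ha
  set E := ∫⁻ ζ, ‖a ζ‖ₑ ^ 2 with hE
  have mV := measurable_Vw Λ M N ha.int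
  have hVs := Vw_SV hΛ M hN a
  have hR1 : (((N:ℝ) ^ 2))⁻¹ ≤ 1 / ((K0 * m : ℕ):ℝ) := by
    rw [one_div]
    apply inv_anti₀ hK1r
    have h5 : (((K0 * m : ℕ):ℝ)) ≤ (N:ℝ) := by
      rw [e1]; exact_mod_cast Nat.le_mul_of_pos_right _ hN1
    have h6 : (1:ℝ) ≤ (N:ℝ) := by exact_mod_cast hN
    nlinarith
  have mF : ∀ κ, Measurable (fun z => ‖𝓕⁻ (ampk K0 κ a) z‖ₑ) := fun κ => (continuous_inv (ha.ampk K0 κ).int).measurable.enorm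
  -- the broad part for a pair
  have hpair : ∀ p : (ℤ × ℤ) × (ℤ × ℤ), Far p.1 p.2 →
      ∫⁻ z, Vw Λ M N a z * (‖𝓕⁻ (ampk K0 p.1 a) z‖ₑ * ‖𝓕⁻ (ampk K0 p.2 a) z‖ₑ) ^ (3/2 : ℝ) ≤
      (2 ^ M * vb⁻¹) * C * (K0:ℝ≥0∞) ^ 2 * (cw (5 + M2) ^ 2 * cw 5 * A1 * E) +
      (2 ^ M * vb⁻¹) * C * ((K0 * m : ℕ):ℝ≥0∞) ^ 21 * ((K0 * m * q : ℕ):ℝ≥0∞) ^ 6 *
        ((2 ^ M * vb⁻¹) * ENNReal.ofReal (Ct * ((K0 * m * q * m2 : ℕ):ℝ) ^ ε) * cw 5 ^ 3 * (cw M2 ^ (1/2 : ℝ) * cw 5 * A2 * E)) := by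
    intro p hp
    have mh : Measurable (fun z => (‖𝓕⁻ (ampk K0 p.1 a) z‖ₑ * ‖𝓕⁻ (ampk K0 p.2 a) z‖ₑ) ^ (3/2 : ℝ)) := ((mF p.1).mul (mF p.2)).pow_const _
    have mG := fun N k => measurable_Gk (5 + M2) (K0 * m) N ha k
    have mX : Measurable (fun c => (∑ k ∈ grd (K0 * m), Gk (5 + M2) (K0 * m) (K0 * m) a k c ^ 2) ^ (3/2 : ℝ)) :=
      (Finset.measurable_sum _ fun k _ => (mG _ k).pow_const 2).pow_const _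
    have mT : ∀ t : (ℤ × ℤ) × (ℤ × ℤ) × (ℤ × ℤ), Measurable (fun c => Gk (5 + M2) (K0 * m) (K0 * m * q) a t.1 c *
        Gk (5 + M2) (K0 * m) (K0 * m * q) a t.2.1 c * Gk (5 + M2) (K0 * m) (K0 * m * q) a t.2.2 c) := fun t =>
      ((mG _ _).mul (mG _ _)).mul (mG _ _)
    have hkt : ((K0 * m : ℕ):ℝ≥0∞) ≠ ⊤ := ENNReal.natCast_ne_top _
    have hk0 : ((K0 * m : ℕ):ℝ≥0∞) ≠ 0 := by rw [ne_eq, Nat.cast_eq_zero]; omega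
    set k1 := ((K0 * m : ℕ):ℝ≥0∞) with hk1
    -- narrow term
    have t1 : ∫⁻ c, Vw Λ M N a c * (∑ k ∈ grd (K0 * m), Gk (5 + M2) (K0 * m) (K0 * m) a k c ^ 2) ^ (3/2 : ℝ) ≤
        cw (5 + M2) ^ 2 * cw 5 * A1 * E := by
      subst e1
      refine term hΛ (M' := 5 + M2) (by omega) hK1 hN1 hKΛ1 hA1 ha (x := fun k c => Gk (5 + M2) (K0 * m) (K0 * m) a k c) ?_ ?_
      · intro κ; exact mG _ κ
      · intro κ z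
        exact Gav_cube (5 + M2) hK1r (ha.ampk _ κ).int z
    -- trilinear terms
    have t2 : ∀ t ∈ trip (K0 * m) (K0 * m * q), ∫⁻ c, Vw Λ M N a c * (Gk (5 + M2) (K0 * m) (K0 * m * q) a t.1 c *
        Gk (5 + M2) (K0 * m) (K0 * m * q) a t.2.1 c * Gk (5 + M2) (K0 * m) (K0 * m * q) a t.2.2 c) ≤
        (2 ^ M * vb⁻¹) * ENNReal.ofReal (Ct * ((K0 * m * q * m2 : ℕ):ℝ) ^ ε) * cw 5 ^ 3 * (cw M2 ^ (1/2 : ℝ) * cw 5 * A2 * E) := by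
      intro t ht
      unfold trip at ht
      rw [Finset.mem_filter, Finset.mem_product, Finset.mem_product] at ht
      obtain ⟨⟨g1, g2, g3⟩, hdet⟩ := ht
      subst e2
      exact hT (K0 * m) (K0 * m * q) m2 N2 hK1 hK12 hK' hm2 hN2 hδq Λ c0 a ha hΛ hKΛ hc _ _ _ g1 g2 g3 hdet A2 hA2
    have hcard : ((trip (K0 * m) (K0 * m * q)).card : ℝ≥0∞) ≤ ((K0 * m * q : ℕ):ℝ≥0∞) ^ 6 := by
      have h1 : (trip (K0 * m) (K0 * m * q)).card ≤ (K0 * m * q) ^ 6 := by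
        unfold trip
        refine (Finset.card_filter_le _ _).trans ?_
        rw [Finset.card_product, Finset.card_product, card_grd]
        exact le_of_eq (by ring)
      exact_mod_cast h1
    have t3 : ∫⁻ c, Vw Λ M N a c * ∑ t ∈ trip (K0 * m) (K0 * m * q), Gk (5 + M2) (K0 * m) (K0 * m * q) a t.1 c *
        Gk (5 + M2) (K0 * m) (K0 * m * q) a t.2.1 c * Gk (5 + M2) (K0 * m) (K0 * m * q) a t.2.2 c ≤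
        ((K0 * m * q : ℕ):ℝ≥0∞) ^ 6 * ((2 ^ M * vb⁻¹) * ENNReal.ofReal (Ct * ((K0 * m * q * m2 : ℕ):ℝ) ^ ε) * cw 5 ^ 3 * (cw M2 ^ (1/2 : ℝ) * cw 5 * A2 * E)) := by
      have mVt : ∀ t : (ℤ × ℤ) × (ℤ × ℤ) × (ℤ × ℤ), Measurable (fun c => Vw Λ M N a c * (Gk (5 + M2) (K0 * m) (K0 * m * q) a t.1 c *
        Gk (5 + M2) (K0 * m) (K0 * m * q) a t.2.1 c * Gk (5 + M2) (K0 * m) (K0 * m * q) a t.2.2 c)) := fun t => mV.mul (mT t)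
      simp_rw [Finset.mul_sum]
      rw [lintegral_finset_sum _ (fun t _ => mVt t)]
      refine (Finset.sum_le_sum t2).trans ?_
      rw [Finset.sum_const, nsmul_eq_mul]
      exact mul_le_mul' hcard le_rfl
    calc _ ≤ (2 ^ M * vb⁻¹) * (k1 ^ 4)⁻¹ * ∫⁻ c, Vw Λ M N a c *
          ∫⁻ z in Metric.closedBall c ((K0 * m : ℕ):ℝ), (‖𝓕⁻ (ampk K0 p.1 a) z‖ₑ * ‖𝓕⁻ (ampk K0 p.2 a) z‖ₑ) ^ (3/2 : ℝ) :=
          avg' hK1 hKΛ1 hVs mV mh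
      _ ≤ (2 ^ M * vb⁻¹) * (k1 ^ 4)⁻¹ * ∫⁻ c, ((C * (K0:ℝ≥0∞) ^ 2 * k1 ^ 4) * (Vw Λ M N a c * (∑ k ∈ grd (K0 * m), Gk (5 + M2) (K0 * m) (K0 * m) a k c ^ 2) ^ (3/2 : ℝ)) +
          (C * k1 ^ 25) * (Vw Λ M N a c * ∑ t ∈ trip (K0 * m) (K0 * m * q), Gk (5 + M2) (K0 * m) (K0 * m * q) a t.1 c *
            Gk (5 + M2) (K0 * m) (K0 * m * q) a t.2.1 c * Gk (5 + M2) (K0 * m) (K0 * m * q) a t.2.2 c)) := by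
          refine mul_le_mul' le_rfl (lintegral_mono fun c => ?_)
          refine (mul_le_mul' le_rfl (hNB K0 m q hK0 hm hq c0 _ a ha hc1 hR1 p.1 p.2 hp c)).trans (le_of_eq ?_)
          rw [← hk1]
          ring
      _ = (2 ^ M * vb⁻¹) * (k1 ^ 4)⁻¹ * ((C * (K0:ℝ≥0∞) ^ 2 * k1 ^ 4) * (∫⁻ c, Vw Λ M N a c * (∑ k ∈ grd (K0 * m), Gk (5 + M2) (K0 * m) (K0 * m) a k c ^ 2) ^ (3/2 : ℝ)) +
          (C * k1 ^ 25) * ∫⁻ c, Vw Λ M N a c * ∑ t ∈ trip (K0 * m) (K0 * m * q), Gk (5 + M2) (K0 * m) (K0 * m * q) a t.1 c *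
            Gk (5 + M2) (K0 * m) (K0 * m * q) a t.2.1 c * Gk (5 + M2) (K0 * m) (K0 * m * q) a t.2.2 c) := by
          have mVX : Measurable (fun c => Vw Λ M N a c * (∑ k ∈ grd (K0 * m), Gk (5 + M2) (K0 * m) (K0 * m) a k c ^ 2) ^ (3/2 : ℝ)) := mV.mul mX
          have mVT : Measurable (fun c => Vw Λ M N a c * ∑ t ∈ trip (K0 * m) (K0 * m * q), Gk (5 + M2) (K0 * m) (K0 * m * q) a t.1 c *
            Gk (5 + M2) (K0 * m) (K0 * m * q) a t.2.1 c * Gk (5 + M2) (K0 * m) (K0 * m * q) a t.2.2 c) :=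
            mV.mul (Finset.measurable_sum _ fun t _ => mT t)
          rw [lintegral_add_left (mVX.const_mul _), lintegral_const_mul _ mVX, lintegral_const_mul _ mVT]
      _ ≤ (2 ^ M * vb⁻¹) * (k1 ^ 4)⁻¹ * ((C * (K0:ℝ≥0∞) ^ 2 * k1 ^ 4) * (cw (5 + M2) ^ 2 * cw 5 * A1 * E) +
          (C * k1 ^ 25) * (((K0 * m * q : ℕ):ℝ≥0∞) ^ 6 * ((2 ^ M * vb⁻¹) * ENNReal.ofReal (Ct * ((K0 * m * q * m2 : ℕ):ℝ) ^ ε) * cw 5 ^ 3 * (cw M2 ^ (1/2 : ℝ) * cw 5 * A2 * E)))) := by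
          refine mul_le_mul' le_rfl (add_le_add (mul_le_mul' le_rfl t1) (mul_le_mul' le_rfl t3))
      _ = ((k1 ^ 4)⁻¹ * k1 ^ 4) * ((2 ^ M * vb⁻¹) * C * (K0:ℝ≥0∞) ^ 2 * (cw (5 + M2) ^ 2 * cw 5 * A1 * E) +
          (2 ^ M * vb⁻¹) * C * k1 ^ 21 * ((K0 * m * q : ℕ):ℝ≥0∞) ^ 6 *
          ((2 ^ M * vb⁻¹) * ENNReal.ofReal (Ct * ((K0 * m * q * m2 : ℕ):ℝ) ^ ε) * cw 5 ^ 3 * (cw M2 ^ (1/2 : ℝ) * cw 5 * A2 * E))) := by ring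
      _ = _ := by
          rw [ENNReal.inv_mul_cancel (pow_ne_zero _ hk0) (ENNReal.pow_ne_top hkt), one_mul]
  classical
  set PP := (grd K0 ×ˢ grd K0).filter (fun p => Far p.1 p.2) with hPP
  have hPc : (PP.card : ℝ≥0∞) ≤ (K0:ℝ≥0∞) ^ 4 := by
    have h1 : PP.card ≤ K0 ^ 4 := by
      rw [hPP]
      refine (Finset.card_filter_le _ _).trans ?_
      rw [Finset.card_product, card_grd]
      exact le_of_eq (by ring)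
    exact_mod_cast h1
  set T1 := (2 ^ M * vb⁻¹) * C * (K0:ℝ≥0∞) ^ 2 * (cw (5 + M2) ^ 2 * cw 5 * A1 * E) +
      (2 ^ M * vb⁻¹) * C * ((K0 * m : ℕ):ℝ≥0∞) ^ 21 * ((K0 * m * q : ℕ):ℝ≥0∞) ^ 6 *
        ((2 ^ M * vb⁻¹) * ENNReal.ofReal (Ct * ((K0 * m * q * m2 : ℕ):ℝ) ^ ε) * cw 5 ^ 3 * (cw M2 ^ (1/2 : ℝ) * cw 5 * A2 * E)) with hT1
  have mS0 : Measurable (fun z => Vw Λ M N a z * ∑ κ ∈ grd K0, ‖𝓕⁻ (ampk K0 κ a) z‖ₑ ^ 3) :=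
    mV.mul (Finset.measurable_sum _ fun κ _ => (mF κ).pow_const 3)
  have mS1 : ∀ p : (ℤ × ℤ) × (ℤ × ℤ), Measurable (fun z => Vw Λ M N a z * (‖𝓕⁻ (ampk K0 p.1 a) z‖ₑ * ‖𝓕⁻ (ampk K0 p.2 a) z‖ₑ) ^ (3/2 : ℝ)) := fun p =>
    mV.mul (((mF p.1).mul (mF p.2)).pow_const _)
  calc ∫⁻ z, ‖𝓕⁻ a z‖ₑ ^ 3 * (Sq Λ M N a z ^ (1/2 : ℝ))⁻¹ ≤
      ∫⁻ z, (10 ^ 8 * (Vw Λ M N a z * ∑ κ ∈ grd K0, ‖𝓕⁻ (ampk K0 κ a) z‖ₑ ^ 3) +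
        (K0:ℝ≥0∞) ^ 9 * ∑ p ∈ PP, Vw Λ M N a z * (‖𝓕⁻ (ampk K0 p.1 a) z‖ₑ * ‖𝓕⁻ (ampk K0 p.2 a) z‖ₑ) ^ (3/2 : ℝ)) := by
        refine lintegral_mono fun z => ?_
        have h1 : ‖𝓕⁻ a z‖ₑ ≤ ∑ κ ∈ grd K0, ‖𝓕⁻ (ampk K0 κ a) z‖ₑ := by
          rw [inv_split_all ha hK0 z]
          exact enorm_sum_le _ _
        have h2 := bg_pt K0 hK0 (fun κ => ‖𝓕⁻ (ampk K0 κ a) z‖ₑ)
        have h3 : ‖𝓕⁻ a z‖ₑ ^ 3 ≤ _ := (pow_le_pow_left' h1 3).trans h2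
        calc _ ≤ _ := mul_le_mul' h3 le_rfl
          _ = _ := by
            rw [← Finset.mul_sum]
            unfold Vw
            ring
    _ = 10 ^ 8 * (∫⁻ z, Vw Λ M N a z * ∑ κ ∈ grd K0, ‖𝓕⁻ (ampk K0 κ a) z‖ₑ ^ 3) +
        (K0:ℝ≥0∞) ^ 9 * ∑ p ∈ PP, ∫⁻ z, Vw Λ M N a z * (‖𝓕⁻ (ampk K0 p.1 a) z‖ₑ * ‖𝓕⁻ (ampk K0 p.2 a) z‖ₑ) ^ (3/2 : ℝ) := by
        rw [lintegral_add_left (mS0.const_mul _), lintegral_const_mul _ mS0,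
          lintegral_const_mul _ (Finset.measurable_sum _ fun p _ => mS1 p), lintegral_finset_sum _ fun p _ => mS1 p]
    _ ≤ 10 ^ 8 * (A0 * E) + (K0:ℝ≥0∞) ^ 9 * ((K0:ℝ≥0∞) ^ 4 * T1) := by
        refine add_le_add (mul_le_mul' le_rfl ?_) (mul_le_mul' le_rfl ?_)
        · subst e0
          exact term0 hΛ hK0 hN0 hA0 ha
        · calc _ ≤ ∑ p ∈ PP, T1 := by
                refine Finset.sum_le_sum fun p hp => ?_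
                rw [hPP, Finset.mem_filter] at hp
                exact hpair p hp.2
            _ = PP.card * T1 := by rw [Finset.sum_const, nsmul_eq_mul]
            _ ≤ _ := mul_le_mul' hPc le_rfl
    _ = _ := by
        rw [hT1]
        ring

end Vale.Agent.P106.G
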