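import Vale.Agent.P106.G.Asm

/-! # Assembly: the trilinear term -/

open MeasureTheory Complex Set
open scoped ENNReal NNReal ContDiff FourierTransform SchwartzMap ComplexConjugate

set_option linter.all false

namespace Vale.Agent.P106.G

theorem Gk_eq (M K N : ℕ) (a : E4 → ℂ) (k : ℤ × ℤ) (y : E4) :
    Gk M K N a k y = ∫⁻ u, ‖𝓕⁻ (ampk N k a) (y - u)‖ₑ * wK M K u := by
  unfold Gk Gav
  rw [← lintegral_sub_left_eq_self (fun z => ‖𝓕⁻ (ampk N k a) z‖ₑ * wK M K (y - z)) y]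
  refine lintegral_congr fun u => ?_
  rw [sub_sub_cancel]

theorem prod3 {f g h : E4 → ℝ≥0∞} (hf : Measurable f) (hg : Measurable g) (hh : Measurable h) :
    (∫⁻ u, f u) * (∫⁻ u, g u) * (∫⁻ u, h u) = ∫⁻ p : E4 × E4 × E4, f p.1 * g p.2.1 * h p.2.2 := by
  have e1 : ∫⁻ p : E4 × E4, g p.1 * h p.2 = (∫⁻ u, g u) * (∫⁻ u, h u) := by
    rw [Measure.volume_eq_prod]
    exact lintegral_prod_mul hg.aemeasurable hh.aemeasurable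
  have m2 : Measurable (fun p : E4 × E4 => g p.1 * h p.2) := (hg.comp measurable_fst).mul (hh.comp measurable_snd)
  have e2 : ∫⁻ p : E4 × E4 × E4, f p.1 * (fun q : E4 × E4 => g q.1 * h q.2) p.2 =
      (∫⁻ u, f u) * ∫⁻ p : E4 × E4, g p.1 * h p.2 := by
    rw [Measure.volume_eq_prod]
    exact lintegral_prod_mul hf.aemeasurable m2.aemeasurable
  rw [mul_assoc, ← e1, ← e2]
  refine lintegral_congr fun p => ?_
  simp only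
  ring

/-- the average of a product of three averages over a ball -/
theorem tri_ball (M2 : ℕ) (ν ε : ℝ) (hν : 0 < ν) (hε : 0 < ε) (hε1 : ε ≤ 1) : ∃ δ : ℝ, 0 < δ ∧ ∃ C : ℝ, 0 ≤ C ∧
    ∀ (K K' m : ℕ), 1 ≤ K → K ≤ K' * m → 1 ≤ K' → 1 ≤ m → 1 / (K':ℝ) ≤ δ → ∀ (c0 R : ℝ) (a : E4 → ℂ), Amp c0 R a →
    c0 ≤ 1 / ((K' * m : ℕ):ℝ) → R⁻¹ ≤ 1 / ((K' * m : ℕ):ℝ) → ∀ (k1 k2 k3 : ℤ × ℤ), k1 ∈ grd K' → k2 ∈ grd K' → k3 ∈ grd K' →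
    ν ≤ |d3 (cc K' k1) (cc K' k2) (cc K' k3)| → ∀ (y : E4),
    ∫⁻ z in Metric.closedBall y ((K' * m : ℕ):ℝ), Gk (5 + M2) K K' a k1 z * Gk (5 + M2) K K' a k2 z * Gk (5 + M2) K K' a k3 z ≤
      ENNReal.ofReal (C * ((K' * m : ℕ):ℝ) ^ (4 + ε)) * cw 5 ^ 3 * Hs M2 (K' * m) a y ^ (3/2 : ℝ) := by
  obtain ⟨δ, hδ, C, hC, hT⟩ := triP M2 ν ε hν hε hε1
  refine ⟨δ, hδ, C, hC, ?_⟩
  intro K K' m hK hKK hK' hm hKδ c0 R a ha hc hR k1 k2 k3 h1 h2 h3 hdet y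
  have hN : 1 ≤ K' * m := Nat.mul_pos hK' hm
  have hN0 : (0:ℝ) < ((K' * m : ℕ):ℝ) := by exact_mod_cast hN
  have hK0 : (0:ℝ) < K := by exact_mod_cast hK
  have hKN : (K:ℝ) ≤ ((K' * m : ℕ):ℝ) := by exact_mod_cast hKK
  have mw := measurable_wK (5 + M2) K
  have mF : ∀ k, Measurable (𝓕⁻ (ampk K' k a)) := fun k => (continuous_inv (ha.ampk K' k).int).measurable
  -- the integrand
  have e1 : ∀ z, Gk (5 + M2) K K' a k1 z * Gk (5 + M2) K K' a k2 z * Gk (5 + M2) K K' a k3 z =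
      ∫⁻ p : E4 × E4 × E4, (‖𝓕⁻ (ampk K' k1 a) (z - p.1)‖ₑ * wK (5 + M2) K p.1) *
        (‖𝓕⁻ (ampk K' k2 a) (z - p.2.1)‖ₑ * wK (5 + M2) K p.2.1) * (‖𝓕⁻ (ampk K' k3 a) (z - p.2.2)‖ₑ * wK (5 + M2) K p.2.2) := by
    intro z
    rw [Gk_eq, Gk_eq, Gk_eq]
    have mm : ∀ k, Measurable (fun u => ‖𝓕⁻ (ampk K' k a) (z - u)‖ₑ * wK (5 + M2) K u) := fun k =>
      ((mF k).comp (by fun_prop)).enorm.mul mw
    exact prod3 (mm k1) (mm k2) (mm k3)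
  have mI : Measurable (fun q : E4 × (E4 × E4 × E4) => (‖𝓕⁻ (ampk K' k1 a) (q.1 - q.2.1)‖ₑ * wK (5 + M2) K q.2.1) *
        (‖𝓕⁻ (ampk K' k2 a) (q.1 - q.2.2.1)‖ₑ * wK (5 + M2) K q.2.2.1) * (‖𝓕⁻ (ampk K' k3 a) (q.1 - q.2.2.2)‖ₑ * wK (5 + M2) K q.2.2.2)) := by
    have a1 : Measurable (fun q : E4 × (E4 × E4 × E4) => 𝓕⁻ (ampk K' k1 a) (q.1 - q.2.1)) := (mF k1).comp (by fun_prop)
    have a2 : Measurable (fun q : E4 × (E4 × E4 × E4) => 𝓕⁻ (ampk K' k2 a) (q.1 - q.2.2.1)) := (mF k2).comp (by fun_prop)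
    have a3 : Measurable (fun q : E4 × (E4 × E4 × E4) => 𝓕⁻ (ampk K' k3 a) (q.1 - q.2.2.2)) := (mF k3).comp (by fun_prop)
    have b1 : Measurable (fun q : E4 × (E4 × E4 × E4) => wK (5 + M2) K q.2.1) := mw.comp (by fun_prop)
    have b2 : Measurable (fun q : E4 × (E4 × E4 × E4) => wK (5 + M2) K q.2.2.1) := mw.comp (by fun_prop)
    have b3 : Measurable (fun q : E4 × (E4 × E4 × E4) => wK (5 + M2) K q.2.2.2) := mw.comp (by fun_prop)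
    exact ((a1.enorm.mul b1).mul (a2.enorm.mul b2)).mul (a3.enorm.mul b3)
  set Q := ENNReal.ofReal (C * ((K' * m : ℕ):ℝ) ^ (4 + ε)) with hQ
  set H := Hs M2 (K' * m) a y with hH
  have hsv := Hs_SV M2 hN ha
  -- the weights
  have hw : ∀ u : E4, wK (5 + M2) K u * Hs M2 (K' * m) a (y - u) ^ (1/2 : ℝ) ≤ wK 5 K u * H ^ (1/2 : ℝ) := by
    intro u
    have g1 : Hs M2 (K' * m) a (y - u) ≤ ENNReal.ofReal ((1 + ‖u‖ / K) ^ M2) * H := by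
      have := hsv y (-u)
      rw [norm_neg, ← sub_eq_add_neg] at this
      refine this.trans (mul_le_mul' (ENNReal.ofReal_le_ofReal ?_) le_rfl)
      have : ‖u‖ / ((K' * m : ℕ):ℝ) ≤ ‖u‖ / K := by
        have := norm_nonneg u
        gcongr
      gcongr
    have hc1 : 1 ≤ ENNReal.ofReal ((1 + ‖u‖ / K) ^ M2) := by
      rw [← ENNReal.ofReal_one]
      apply ENNReal.ofReal_le_ofReal
      apply one_le_pow₀
      have : 0 ≤ ‖u‖ / K := by positivity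
      linarith
    have g2 : Hs M2 (K' * m) a (y - u) ^ (1/2 : ℝ) ≤ ENNReal.ofReal ((1 + ‖u‖ / K) ^ M2) * H ^ (1/2 : ℝ) := by
      calc _ ≤ (ENNReal.ofReal ((1 + ‖u‖ / K) ^ M2) * H) ^ (1/2 : ℝ) := by gcongr
        _ = ENNReal.ofReal ((1 + ‖u‖ / K) ^ M2) ^ (1/2 : ℝ) * H ^ (1/2 : ℝ) := ENNReal.mul_rpow_of_nonneg _ _ (by norm_num)
        _ ≤ _ := by
          gcongr
          calc _ ≤ ENNReal.ofReal ((1 + ‖u‖ / K) ^ M2) ^ (1:ℝ) := ENNReal.rpow_le_rpow_of_exponent_le hc1 (by norm_num)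
            _ = _ := ENNReal.rpow_one _
    calc _ ≤ wK (5 + M2) K u * (ENNReal.ofReal ((1 + ‖u‖ / K) ^ M2) * H ^ (1/2 : ℝ)) := mul_le_mul' le_rfl g2
      _ = _ := by rw [← mul_assoc, wK_mul 5 M2 hK0]
  calc _ = ∫⁻ z in Metric.closedBall y ((K' * m : ℕ):ℝ), ∫⁻ p : E4 × E4 × E4, (‖𝓕⁻ (ampk K' k1 a) (z - p.1)‖ₑ * wK (5 + M2) K p.1) *
        (‖𝓕⁻ (ampk K' k2 a) (z - p.2.1)‖ₑ * wK (5 + M2) K p.2.1) * (‖𝓕⁻ (ampk K' k3 a) (z - p.2.2)‖ₑ * wK (5 + M2) K p.2.2) := by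
        simp_rw [e1]
    _ = ∫⁻ p : E4 × E4 × E4, ∫⁻ z in Metric.closedBall y ((K' * m : ℕ):ℝ), (‖𝓕⁻ (ampk K' k1 a) (z - p.1)‖ₑ * wK (5 + M2) K p.1) *
        (‖𝓕⁻ (ampk K' k2 a) (z - p.2.1)‖ₑ * wK (5 + M2) K p.2.1) * (‖𝓕⁻ (ampk K' k3 a) (z - p.2.2)‖ₑ * wK (5 + M2) K p.2.2) :=
        lintegral_lintegral_swap mI.aemeasurable
    _ ≤ ∫⁻ p : E4 × E4 × E4, (Q * (H ^ (1/2 : ℝ) * H ^ (1/2 : ℝ) * H ^ (1/2 : ℝ))) * (wK 5 K p.1 * wK 5 K p.2.1 * wK 5 K p.2.2) := by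
        refine lintegral_mono fun p => ?_
        have e2 : ∀ z, (‖𝓕⁻ (ampk K' k1 a) (z - p.1)‖ₑ * wK (5 + M2) K p.1) *
            (‖𝓕⁻ (ampk K' k2 a) (z - p.2.1)‖ₑ * wK (5 + M2) K p.2.1) * (‖𝓕⁻ (ampk K' k3 a) (z - p.2.2)‖ₑ * wK (5 + M2) K p.2.2) =
            (‖𝓕⁻ (ampk K' k1 a) (z - p.1)‖ₑ * ‖𝓕⁻ (ampk K' k2 a) (z - p.2.1)‖ₑ * ‖𝓕⁻ (ampk K' k3 a) (z - p.2.2)‖ₑ) *
            (wK (5 + M2) K p.1 * wK (5 + M2) K p.2.1 * wK (5 + M2) K p.2.2) := by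
          intro z; ring
        simp_rw [e2]
        have hwt : ∀ u, wK (5 + M2) K u ≠ ⊤ := fun u => by unfold wK; exact ENNReal.ofReal_ne_top
        rw [lintegral_mul_const' _ _ (ENNReal.mul_ne_top (ENNReal.mul_ne_top (hwt _) (hwt _)) (hwt _))]
        have hk : ∀ i : Fin 3, (![k1, k2, k3] : Fin 3 → ℤ × ℤ) i ∈ grd K' := by
          intro i
          fin_cases i
          · exact h1
          · exact h2
          · exact h3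
        have hmain := hT K' m hK' hm hKδ c0 R a ha hc hR ![k1, k2, k3] hk hdet y ![p.1, p.2.1, p.2.2]
        have hmain' : ∫⁻ z in Metric.closedBall y ((K' * m : ℕ):ℝ), ‖𝓕⁻ (ampk K' k1 a) (z - p.1)‖ₑ * ‖𝓕⁻ (ampk K' k2 a) (z - p.2.1)‖ₑ *
            ‖𝓕⁻ (ampk K' k3 a) (z - p.2.2)‖ₑ ≤ Q * (Hs M2 (K' * m) a (y - p.1) ^ (1/2 : ℝ) *
            Hs M2 (K' * m) a (y - p.2.1) ^ (1/2 : ℝ) * Hs M2 (K' * m) a (y - p.2.2) ^ (1/2 : ℝ)) := hmain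
        calc _ ≤ (Q * (Hs M2 (K' * m) a (y - p.1) ^ (1/2 : ℝ) *
            Hs M2 (K' * m) a (y - p.2.1) ^ (1/2 : ℝ) * Hs M2 (K' * m) a (y - p.2.2) ^ (1/2 : ℝ))) *
            (wK (5 + M2) K p.1 * wK (5 + M2) K p.2.1 * wK (5 + M2) K p.2.2) := mul_le_mul' hmain' le_rfl
          _ = Q * ((wK (5 + M2) K p.1 * Hs M2 (K' * m) a (y - p.1) ^ (1/2 : ℝ)) *
              (wK (5 + M2) K p.2.1 * Hs M2 (K' * m) a (y - p.2.1) ^ (1/2 : ℝ)) *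
              (wK (5 + M2) K p.2.2 * Hs M2 (K' * m) a (y - p.2.2) ^ (1/2 : ℝ))) := by ring
          _ ≤ Q * ((wK 5 K p.1 * H ^ (1/2 : ℝ)) * (wK 5 K p.2.1 * H ^ (1/2 : ℝ)) * (wK 5 K p.2.2 * H ^ (1/2 : ℝ))) :=
              mul_le_mul' le_rfl (mul_le_mul' (mul_le_mul' (hw _) (hw _)) (hw _))
          _ = _ := by ring
    _ = (Q * (H ^ (1/2 : ℝ) * H ^ (1/2 : ℝ) * H ^ (1/2 : ℝ))) * (cw 5 * cw 5 * cw 5) := by
        have m5 := measurable_wK 5 K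
        have mp : Measurable (fun p : E4 × E4 × E4 => wK 5 K p.1 * wK 5 K p.2.1 * wK 5 K p.2.2) :=
          ((m5.comp measurable_fst).mul (m5.comp (by fun_prop))).mul (m5.comp (by fun_prop))
        rw [lintegral_const_mul _ mp, ← prod3 m5 m5 m5, lint_wK 5 hK0]
    _ = _ := by
        have e3 : H ^ (3/2 : ℝ) = H ^ (1/2 : ℝ) * H ^ (1/2 : ℝ) * H ^ (1/2 : ℝ) := by
          rw [← ENNReal.rpow_add_of_nonneg _ _ (by norm_num) (by norm_num), ← ENNReal.rpow_add_of_nonneg _ _ (by norm_num) (by norm_num)]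
          norm_num
        rw [e3]
        ring

end Vale.Agent.P106.G
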