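import Vale.Agent.P106.G.TriQ

/-! # The bilinear estimate near a line -/

open MeasureTheory Complex Set
open scoped ENNReal NNReal ContDiff FourierTransform SchwartzMap ComplexConjugate

set_option linter.all false

namespace Vale.Agent.P106.G

open Vale.Agent.P106.Tri (ec norm_ec enorm_ec ec_add continuous_ec)
open Vale.Agent.P117 (fourierInv_mul_conv)

/-- convolution -/
noncomputable def cvv (f g : E4 → ℂ) (ζ : E4) : ℂ := ∫ t, f t * g (ζ - t)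

section
variable {f g : E4 → ℂ} (hf : Integrable f) (hg : Integrable g)

include hf hg in
theorem inv_cvv (z : E4) : 𝓕⁻ (cvv f g) z = 𝓕⁻ f z * 𝓕⁻ g z := (fourierInv_mul_conv hf hg z).symm

include hf hg in
theorem integrable_cvv : Integrable (cvv f g) :=
  hf.integrable_convolution (ContinuousLinearMap.mul ℂ ℂ) hg

include hf in
theorem continuous_cvv (hgc : Continuous g) {B : ℝ} (hB : ∀ ζ, ‖g ζ‖ ≤ B) : Continuous (cvv f g) := by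
  unfold cvv
  apply continuous_of_dominated (bound := fun t => B * ‖f t‖)
  · intro ζ
    exact hf.aestronglyMeasurable.mul (hgc.comp (by fun_prop)).aestronglyMeasurable
  · intro ζ
    filter_upwards with t
    rw [norm_mul, mul_comm]
    gcongr
    exact hB _
  · exact hf.norm.const_mul _
  · filter_upwards with t
    exact continuous_const.mul (hgc.comp (by fun_prop))

theorem cvv_supp {ζ : E4} (h : cvv f g ζ ≠ 0) : ∃ t, f t ≠ 0 ∧ g (ζ - t) ≠ 0 := by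
  by_contra hc
  push Not at hc
  apply h
  unfold cvv
  rw [integral_eq_zero_of_ae]
  filter_upwards with t
  by_cases ht : f t = 0
  · simp [ht]
  · rw [hc t ht]; simp
end

theorem geom_aux1 {u1 u2 D1 D2 K : ℤ} (hdot : |u1 * D1 + u2 * D2| ≤ 112 * K) (hdet : |u1 * D2 - D1 * u2| < 7 * K) :
    (u1 ^ 2 + u2 ^ 2) * (D1 ^ 2 + D2 ^ 2) ≤ 12593 * K ^ 2 := by
  have e : (u1 ^ 2 + u2 ^ 2) * (D1 ^ 2 + D2 ^ 2) = (u1 * D1 + u2 * D2) ^ 2 + (u1 * D2 - D1 * u2) ^ 2 := by ring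
  rw [e]
  have c1 : (u1 * D1 + u2 * D2) ^ 2 ≤ (112 * K) ^ 2 := by
    rw [← sq_abs (u1 * D1 + u2 * D2)]
    exact pow_le_pow_left₀ (abs_nonneg _) hdot 2
  have c2 : (u1 * D2 - D1 * u2) ^ 2 ≤ (7 * K) ^ 2 := by
    rw [← sq_abs (u1 * D2 - D1 * u2)]
    exact pow_le_pow_left₀ (abs_nonneg _) hdet.le 2
  calc _ ≤ (112 * K) ^ 2 + (7 * K) ^ 2 := add_le_add c1 c2
    _ = _ := by ring

theorem geom_aux2 {D1 D2 m : ℤ} (hm : 0 ≤ m) (h : 9 * m ≤ |D1| ∨ 9 * m ≤ |D2|) : 81 * m ^ 2 ≤ D1 ^ 2 + D2 ^ 2 := by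
  have h0 : (0:ℤ) ≤ 9 * m := by linarith
  rcases h with h | h
  · have : (9 * m) ^ 2 ≤ D1 ^ 2 := by
      rw [← sq_abs D1]
      exact pow_le_pow_left₀ h0 h 2
    have h2 := sq_nonneg D2
    have h3 : (9 * m) ^ 2 = 81 * m ^ 2 := by ring
    linarith
  · have : (9 * m) ^ 2 ≤ D2 ^ 2 := by
      rw [← sq_abs D2]
      exact pow_le_pow_left₀ h0 h 2
    have h2 := sq_nonneg D1
    have h3 : (9 * m) ^ 2 = 81 * m ^ 2 := by ring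
    linarith

theorem geom_aux3 {u1 u2 D1 D2 K m K0 : ℤ} (hKe : K = K0 * m) (h0 : 1 ≤ K0) (hm : 1 ≤ m)
    (hD : 81 * m ^ 2 ≤ D1 ^ 2 + D2 ^ 2) (hprod : (u1 ^ 2 + u2 ^ 2) * (D1 ^ 2 + D2 ^ 2) ≤ 12593 * K ^ 2) :
    |u1| ≤ 13 * K0 ∧ |u2| ≤ 13 * K0 := by
  have hfin : u1 ^ 2 + u2 ^ 2 ≤ 169 * K0 ^ 2 := by
    by_contra hc
    push Not at hc
    have h5 : 169 * K0 ^ 2 * (81 * m ^ 2) ≤ (u1 ^ 2 + u2 ^ 2) * (D1 ^ 2 + D2 ^ 2) :=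
      mul_le_mul hc.le hD (by positivity) (by positivity)
    have h6 : 12593 * K ^ 2 = 12593 * (K0 ^ 2 * m ^ 2) := by rw [hKe]; ring
    have h7 : 169 * K0 ^ 2 * (81 * m ^ 2) = 13689 * (K0 ^ 2 * m ^ 2) := by ring
    have h8 : (0:ℤ) < K0 ^ 2 * m ^ 2 := by positivity
    linarith
  have hA : (0:ℤ) ≤ 13 * K0 := by linarith
  have e : (13 * K0) ^ 2 = 169 * K0 ^ 2 := by ring
  constructor
  · apply abs_le_of_sq_le_sq _ hA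
    have := sq_nonneg u2
    linarith
  · apply abs_le_of_sq_le_sq _ hA
    have := sq_nonneg u1
    linarith

/-- the number of interacting pairs -/
theorem pair_geom (K0 m : ℕ) (hK0 : 1 ≤ K0) (hm : 1 ≤ m) {k k' l l' : ℤ × ℤ}
    (hk : k ∈ grd (K0 * m)) (hk' : k' ∈ grd (K0 * m)) (hl : l ∈ grd (K0 * m)) (hl' : l' ∈ grd (K0 * m))
    (hsep : 9 * (m:ℤ) ≤ |l.1 - k'.1| ∨ 9 * (m:ℤ) ≤ |l.2 - k'.2|)
    (hnt : |(l.1 - k.1) * (k'.2 - k.2) - (k'.1 - k.1) * (l.2 - k.2)| < 7 * ((K0 * m : ℕ):ℤ))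
    (h1 : |(l.1 + l'.1) - (k.1 + k'.1)| ≤ 32) (h2 : |(l.2 + l'.2) - (k.2 + k'.2)| ≤ 32)
    (h3 : |(l.1 ^ 2 + l.2 ^ 2 + l'.1 ^ 2 + l'.2 ^ 2) - (k.1 ^ 2 + k.2 ^ 2 + k'.1 ^ 2 + k'.2 ^ 2)| ≤ 32 * ((K0 * m : ℕ):ℤ)) :
    |l.1 - k.1| ≤ 13 * K0 ∧ |l.2 - k.2| ≤ 13 * K0 := by
  unfold grd at hk hk' hl hl'
  rw [Finset.mem_product, Finset.mem_Ico, Finset.mem_Ico] at hk hk' hl hl'
  obtain ⟨⟨ka, kb⟩, kc, kd⟩ := hk
  obtain ⟨⟨ka', kb'⟩, kc', kd'⟩ := hk'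
  obtain ⟨⟨la, lb⟩, lc, ld⟩ := hl
  obtain ⟨⟨la', lb'⟩, lc', ld'⟩ := hl'
  set K : ℤ := ((K0 * m : ℕ):ℤ) with hK
  have hKe : K = K0 * m := by rw [hK]; push_cast; ring
  have hK00 : (1:ℤ) ≤ K0 := by exact_mod_cast hK0
  have hm0 : (1:ℤ) ≤ m := by exact_mod_cast hm
  have hKpos : 1 ≤ K := by rw [hKe]; nlinarith
  set u1 := l.1 - k.1 with hu1
  set u2 := l.2 - k.2 with hu2
  set D1 := l.1 - k'.1 with hD1
  set D2 := l.2 - k'.2 with hD2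
  set e1 := (l.1 + l'.1) - (k.1 + k'.1) with he1
  set e2 := (l.2 + l'.2) - (k.2 + k'.2) with he2
  have hdet : |u1 * D2 - D1 * u2| < 7 * K := by
    have : u1 * (k'.2 - k.2) - (k'.1 - k.1) * u2 = -(u1 * D2 - D1 * u2) := by
      rw [hu1, hu2, hD1, hD2]; ring
    rw [this, abs_neg] at hnt
    exact hnt
  have hsum : 2 * (u1 * D1 + u2 * D2) = ((l.1 ^ 2 + l.2 ^ 2 + l'.1 ^ 2 + l'.2 ^ 2) - (k.1 ^ 2 + k.2 ^ 2 + k'.1 ^ 2 + k'.2 ^ 2)) +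
      (u1 * e1 + u2 * e2) - (e1 * (l'.1 + k'.1) + e2 * (l'.2 + k'.2)) := by
    rw [hu1, hu2, hD1, hD2, he1, he2]; ring
  have au1 : |u1| ≤ K := by rw [abs_le]; constructor <;> omega
  have au2 : |u2| ≤ K := by rw [abs_le]; constructor <;> omega
  have b1 : |u1 * e1| ≤ K * 32 := by
    rw [abs_mul]; exact mul_le_mul au1 h1 (abs_nonneg _) (by linarith)
  have b2 : |u2 * e2| ≤ K * 32 := by
    rw [abs_mul]; exact mul_le_mul au2 h2 (abs_nonneg _) (by linarith)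
  have b3 : |e1 * (l'.1 + k'.1)| ≤ 32 * (2 * K) := by
    rw [abs_mul]
    refine mul_le_mul h1 ?_ (abs_nonneg _) (by norm_num)
    rw [abs_le]; constructor <;> omega
  have b4 : |e2 * (l'.2 + k'.2)| ≤ 32 * (2 * K) := by
    rw [abs_mul]
    refine mul_le_mul h2 ?_ (abs_nonneg _) (by norm_num)
    rw [abs_le]; constructor <;> omega
  have hdot : |u1 * D1 + u2 * D2| ≤ 112 * K := by
    have h5 : |2 * (u1 * D1 + u2 * D2)| ≤ 224 * K := by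
      rw [hsum]
      rw [abs_le] at b1 b2 b3 b4 h3 ⊢
      constructor <;> linarith [b1.1, b1.2, b2.1, b2.2, b3.1, b3.2, b4.1, b4.2, h3.1, h3.2]
    rw [abs_mul, abs_two] at h5
    linarith
  exact geom_aux3 hKe hK00 hm0 (geom_aux2 (by linarith) hsep) (geom_aux1 hdot hdet)

/-- triples in general position -/
def Trv (K : ℕ) (k l j : ℤ × ℤ) : Prop :=
  7 * (K:ℤ) ≤ |(l.1 - k.1) * (j.2 - k.2) - (j.1 - k.1) * (l.2 - k.2)|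

theorem sum_close {N : ℕ} (hN : 1 ≤ N) {x : ℝ} {k k' l l' : ℤ} (h1 : |x - (k + k') / N| ≤ 16 / N)
    (h2 : |x - (l + l') / N| ≤ 16 / N) : |(l + l') - (k + k')| ≤ 32 := by
  have hN0 : (0:ℝ) < N := by exact_mod_cast hN
  have h3 : |(((l:ℝ) + l') - (k + k')) / N| ≤ 32 / N := by
    have : (((l:ℝ) + l') - (k + k')) / N = (x - (k + k') / N) - (x - (l + l') / N) := by ring
    rw [this]
    refine (abs_sub _ _).trans ?_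
    have : (32:ℝ) / N = 16 / N + 16 / N := by ring
    linarith
  rw [abs_div, abs_of_pos hN0, div_le_div_iff_of_pos_right hN0] at h3
  exact_mod_cast h3

theorem sq_close {N : ℕ} (hN : 1 ≤ N) {x : ℝ} {a b : ℤ} (h1 : |x - a / (N:ℝ) ^ 2| ≤ 16 / N)
    (h2 : |x - b / (N:ℝ) ^ 2| ≤ 16 / N) : |b - a| ≤ 32 * (N:ℤ) := by
  have hN0 : (0:ℝ) < N := by exact_mod_cast hN
  have h3 : |((b:ℝ) - a) / (N:ℝ) ^ 2| ≤ 32 * N / (N:ℝ) ^ 2 := by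
    have : ((b:ℝ) - a) / (N:ℝ) ^ 2 = (x - a / (N:ℝ) ^ 2) - (x - b / (N:ℝ) ^ 2) := by ring
    rw [this]
    refine (abs_sub _ _).trans ?_
    have : (32:ℝ) * N / (N:ℝ) ^ 2 = 16 / N + 16 / N := by field_simp; norm_num
    linarith
  rw [abs_div, abs_of_pos (by positivity : (0:ℝ) < (N:ℝ) ^ 2), div_le_div_iff_of_pos_right (by positivity)] at h3
  exact_mod_cast h3

open Classical in
theorem card_pairs (K0 m : ℕ) (hK0 : 1 ≤ K0) (hm : 1 ≤ m) {S S' : Finset (ℤ × ℤ)}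
    (hS : S ⊆ grd (K0 * m)) (hS' : S' ⊆ grd (K0 * m))
    (hsep : ∀ k ∈ S, ∀ k' ∈ S', 9 * (m:ℤ) ≤ |k.1 - k'.1| ∨ 9 * (m:ℤ) ≤ |k.2 - k'.2|)
    (hnt : ∀ k ∈ S, ∀ l ∈ S, ∀ j ∈ S', ¬ Trv (K0 * m) k l j)
    {c0 R : ℝ} {a : E4 → ℂ} (ha : Amp c0 R a) (hc : c0 ≤ 1 / ((K0 * m : ℕ):ℝ)) (hR : R⁻¹ ≤ 1 / ((K0 * m : ℕ):ℝ))
    (y : E4) (p : (ℤ × ℤ) × (ℤ × ℤ)) (hp : p ∈ S ×ˢ S') :
    ((S ×ˢ S').filter (fun q => ∃ ζ, cvv (gk ((K0 * m : ℕ):ℝ) (ampk (K0 * m) p.1 a) y) (gk ((K0 * m : ℕ):ℝ) (ampk (K0 * m) p.2 a) y) ζ ≠ 0 ∧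
      cvv (gk ((K0 * m : ℕ):ℝ) (ampk (K0 * m) q.1 a) y) (gk ((K0 * m : ℕ):ℝ) (ampk (K0 * m) q.2 a) y) ζ ≠ 0)).card ≤
      3080025 * K0 ^ 2 := by
  have hK : 1 ≤ K0 * m := Nat.mul_pos hK0 hm
  have hN0 : (0:ℝ) < ((K0 * m : ℕ):ℝ) := by exact_mod_cast hK
  rw [Finset.mem_product] at hp
  -- location of the supports
  have hloc : ∀ (k k' : ℤ × ℤ) (ζ : E4), cvv (gk ((K0 * m : ℕ):ℝ) (ampk (K0 * m) k a) y) (gk ((K0 * m : ℕ):ℝ) (ampk (K0 * m) k' a) y) ζ ≠ 0 →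
      |ζ 1 - (k.1 + k'.1) / ((K0 * m : ℕ):ℝ)| ≤ 16 / ((K0 * m : ℕ):ℝ) ∧ |ζ 2 - (k.2 + k'.2) / ((K0 * m : ℕ):ℝ)| ≤ 16 / ((K0 * m : ℕ):ℝ) ∧
      |ζ 3 - ((k.1 ^ 2 + k.2 ^ 2 + k'.1 ^ 2 + k'.2 ^ 2 : ℤ) : ℝ) / ((K0 * m : ℕ):ℝ) ^ 2| ≤ 16 / ((K0 * m : ℕ):ℝ) := by
    intro k k' ζ h
    obtain ⟨t, ht, ht'⟩ := cvv_supp h
    obtain ⟨_, a1, a2, a3⟩ := gk_cap_near hK ha hc hR ht
    obtain ⟨_, b1, b2, b3⟩ := gk_cap_near hK ha hc hR ht'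
    rw [PiLp.sub_apply] at b1 b2 b3
    have e16 : (16:ℝ) / ((K0 * m : ℕ):ℝ) = 8 / ((K0 * m : ℕ):ℝ) + 8 / ((K0 * m : ℕ):ℝ) := by ring
    rw [e16]
    refine ⟨?_, ?_, ?_⟩
    · have : ζ 1 - (k.1 + k'.1) / ((K0 * m : ℕ):ℝ) = (t 1 - k.1 / ((K0 * m : ℕ):ℝ)) + (ζ 1 - t 1 - k'.1 / ((K0 * m : ℕ):ℝ)) := by ring
      rw [this]; exact (abs_add_le _ _).trans (add_le_add a1 b1)
    · have : ζ 2 - (k.2 + k'.2) / ((K0 * m : ℕ):ℝ) = (t 2 - k.2 / ((K0 * m : ℕ):ℝ)) + (ζ 2 - t 2 - k'.2 / ((K0 * m : ℕ):ℝ)) := by ring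
      rw [this]; exact (abs_add_le _ _).trans (add_le_add a2 b2)
    · have : ζ 3 - ((k.1 ^ 2 + k.2 ^ 2 + k'.1 ^ 2 + k'.2 ^ 2 : ℤ) : ℝ) / ((K0 * m : ℕ):ℝ) ^ 2 =
          (t 3 - ((k.1 / ((K0 * m : ℕ):ℝ)) ^ 2 + (k.2 / ((K0 * m : ℕ):ℝ)) ^ 2)) +
          (ζ 3 - t 3 - ((k'.1 / ((K0 * m : ℕ):ℝ)) ^ 2 + (k'.2 / ((K0 * m : ℕ):ℝ)) ^ 2)) := by
        push_cast; ring
      rw [this]; exact (abs_add_le _ _).trans (add_le_add a3 b3)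
  set T := (S ×ˢ S').filter (fun q => ∃ ζ, cvv (gk ((K0 * m : ℕ):ℝ) (ampk (K0 * m) p.1 a) y) (gk ((K0 * m : ℕ):ℝ) (ampk (K0 * m) p.2 a) y) ζ ≠ 0 ∧
      cvv (gk ((K0 * m : ℕ):ℝ) (ampk (K0 * m) q.1 a) y) (gk ((K0 * m : ℕ):ℝ) (ampk (K0 * m) q.2 a) y) ζ ≠ 0) with hT
  have hTq : ∀ q ∈ T, (|q.1.1 - p.1.1| ≤ 13 * (K0:ℤ) ∧ |q.1.2 - p.1.2| ≤ 13 * (K0:ℤ)) ∧
      |(q.1.1 + q.2.1) - (p.1.1 + p.2.1)| ≤ 32 ∧ |(q.1.2 + q.2.2) - (p.1.2 + p.2.2)| ≤ 32 := by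
    intro q hq
    rw [hT, Finset.mem_filter, Finset.mem_product] at hq
    obtain ⟨⟨hq1, hq2⟩, ζ, z1, z2⟩ := hq
    obtain ⟨a1, a2, a3⟩ := hloc _ _ _ z1
    obtain ⟨b1, b2, b3⟩ := hloc _ _ _ z2
    have c1 := sum_close hK a1 b1
    have c2 := sum_close hK a2 b2
    have c3 := sq_close hK a3 b3
    refine ⟨?_, c1, c2⟩
    have hn := hnt p.1 hp.1 q.1 hq1 p.2 hp.2
    unfold Trv at hn
    push Not at hn
    exact pair_geom K0 m hK0 hm (hS hp.1) (hS' hp.2) (hS hq1) (hS' hq2) (hsep _ hq1 _ hp.2) hn c1 c2 c3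
  -- injection into a box
  have hcard : T.card ≤ ((Finset.Icc (p.1.1 - 13 * K0) (p.1.1 + 13 * K0) ×ˢ Finset.Icc (p.1.2 - 13 * K0) (p.1.2 + 13 * K0)) ×ˢ
      (Finset.Icc (p.1.1 + p.2.1 - 32) (p.1.1 + p.2.1 + 32) ×ˢ Finset.Icc (p.1.2 + p.2.2 - 32) (p.1.2 + p.2.2 + 32))).card := by
    apply Finset.card_le_card_of_injOn (fun q : (ℤ × ℤ) × (ℤ × ℤ) => (q.1, (q.1.1 + q.2.1, q.1.2 + q.2.2)))
    · intro q hq
      obtain ⟨⟨h1, h2⟩, h3, h4⟩ := hTq q hq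
      rw [abs_le] at h1 h2 h3 h4
      simp only [Finset.coe_product, Finset.coe_Icc, mem_prod, mem_Icc]
      refine ⟨⟨⟨by linarith [h1.1], by linarith [h1.2]⟩, by linarith [h2.1], by linarith [h2.2]⟩,
        ⟨by linarith [h3.1], by linarith [h3.2]⟩, by linarith [h4.1], by linarith [h4.2]⟩
    · intro q _ q' _ he
      simp only [Prod.ext_iff] at he
      obtain ⟨⟨h1, h2⟩, h3, h4⟩ := he
      refine Prod.ext (Prod.ext h1 h2) (Prod.ext ?_ ?_)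
      · linarith
      · linarith
  refine hcard.trans ?_
  rw [Finset.card_product, Finset.card_product, Finset.card_product, Int.card_Icc, Int.card_Icc, Int.card_Icc, Int.card_Icc]
  have e1 : (p.1.1 + 13 * K0 + 1 - (p.1.1 - 13 * K0)).toNat = 26 * K0 + 1 := by omega
  have e2 : (p.1.2 + 13 * K0 + 1 - (p.1.2 - 13 * K0)).toNat = 26 * K0 + 1 := by omega
  have e3 : (p.1.1 + p.2.1 + 32 + 1 - (p.1.1 + p.2.1 - 32)).toNat = 65 := by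
    have : p.1.1 + p.2.1 + 32 + 1 - (p.1.1 + p.2.1 - 32) = 65 := by ring
    rw [this]; rfl
  have e4 : (p.1.2 + p.2.2 + 32 + 1 - (p.1.2 + p.2.2 - 32)).toNat = 65 := by
    have : p.1.2 + p.2.2 + 32 + 1 - (p.1.2 + p.2.2 - 32) = 65 := by ring
    rw [this]; rfl
  rw [e1, e2, e3, e4]
  have h27 : 26 * K0 + 1 ≤ 27 * K0 := by omega
  calc (26 * K0 + 1) * (26 * K0 + 1) * (65 * 65) ≤ (27 * K0) * (27 * K0) * (65 * 65) := by gcongr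
    _ = _ := by ring

end Vale.Agent.P106.G
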