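import Vale.Agent.P106.G.BL

/-! # The bilinear estimate near a line, conclusion -/

open MeasureTheory Complex Set
open scoped ENNReal NNReal ContDiff FourierTransform SchwartzMap ComplexConjugate

set_option linter.all false

namespace Vale.Agent.P106.G

open Vale.Agent.P106.Tri (ec norm_ec enorm_ec ec_add continuous_ec)

/-- pointwise bound of a localised cap function -/
theorem gk_pt (M : ℕ) : ∃ C : ℝ, 0 ≤ C ∧ ∀ (N : ℕ), 1 ≤ N → ∀ (c0 R : ℝ) (a : E4 → ℂ), Amp c0 R a →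
    c0 ≤ 1 / N → R⁻¹ ≤ 1 / N → ∀ k y z, ‖𝓕⁻ (gk N (ampk N k a) y) z‖ₑ ≤
      ENNReal.ofReal (C * ((1 + ‖z - y‖ / N) ^ 2)⁻¹) * Gav M N (ampk N k a) y := by
  obtain ⟨C, hC, h⟩ := cap_le_Gav M
  obtain ⟨D, hD, hd⟩ := Psi_gk_decay (M + 2)
  refine ⟨D * C, by positivity, ?_⟩
  intro N hN c0 R a ha hc hR k y z
  have hN0 : (0:ℝ) < N := by exact_mod_cast hN
  have iA := (ha.ampk N k).int
  rw [inv_gk hN0 iA, enorm_mul]
  have h1 : ‖Psi ((r0 / (N:ℝ)) • (z - y))‖ₑ ≤ ENNReal.ofReal (D * ((1 + ‖z - y‖ / N) ^ (M + 2))⁻¹) := by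
    rw [← ofReal_norm]
    exact ENNReal.ofReal_le_ofReal (hd N hN0 _)
  have h2 := h N hN c0 R a ha hc hR k z
  have h3 := (Gav_SV M hN0 iA).sub z y
  calc _ ≤ ENNReal.ofReal (D * ((1 + ‖z - y‖ / N) ^ (M + 2))⁻¹) * (ENNReal.ofReal C *
        (ENNReal.ofReal ((1 + ‖z - y‖ / N) ^ M) * Gav M N (ampk N k a) y)) :=
        mul_le_mul' h1 (h2.trans (mul_le_mul' le_rfl h3))
    _ = _ := by
        rw [← mul_assoc, ← mul_assoc, ← ENNReal.ofReal_mul (by positivity), ← ENNReal.ofReal_mul (by positivity)]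
        congr 2
        rw [pow_add]
        field_simp

open Classical in
/-- the bilinear `L⁴` estimate -/
theorem BLq (M : ℕ) : ∃ C : ℝ≥0∞, C ≠ ⊤ ∧ ∀ (K0 m : ℕ), 1 ≤ K0 → 1 ≤ m → ∀ (S S' : Finset (ℤ × ℤ)),
    S ⊆ grd (K0 * m) → S' ⊆ grd (K0 * m) →
    (∀ k ∈ S, ∀ k' ∈ S', 9 * (m:ℤ) ≤ |k.1 - k'.1| ∨ 9 * (m:ℤ) ≤ |k.2 - k'.2|) →
    (∀ k ∈ S, ∀ l ∈ S, ∀ j ∈ S', ¬ Trv (K0 * m) k l j) →
    ∀ (c0 R : ℝ) (a : E4 → ℂ), Amp c0 R a → c0 ≤ 1 / ((K0 * m : ℕ):ℝ) → R⁻¹ ≤ 1 / ((K0 * m : ℕ):ℝ) → ∀ (y : E4),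
    ∫⁻ z in Metric.closedBall y ((K0 * m : ℕ):ℝ), (‖∑ k ∈ S, 𝓕⁻ (ampk (K0 * m) k a) z‖ₑ * ‖∑ k ∈ S', 𝓕⁻ (ampk (K0 * m) k a) z‖ₑ) ^ 2 ≤
      C * (K0:ℝ≥0∞) ^ 2 * ENNReal.ofReal (((K0 * m : ℕ):ℝ) ^ 4) *
        ((∑ k ∈ S, Gav M ((K0 * m : ℕ):ℝ) (ampk (K0 * m) k a) y ^ 2) * ∑ k ∈ S', Gav M ((K0 * m : ℕ):ℝ) (ampk (K0 * m) k a) y ^ 2) := by
  obtain ⟨B, hB, hpt⟩ := gk_pt M
  have hcw : cw 8 < ⊤ := cw_lt_top (by norm_num)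
  refine ⟨16 * 3080025 * ENNReal.ofReal (B ^ 4) * cw 8, ENNReal.mul_ne_top (ENNReal.mul_ne_top (ENNReal.mul_ne_top
    (by norm_num) (by norm_num)) ENNReal.ofReal_ne_top) hcw.ne, ?_⟩
  intro K0 m hK0 hm S S' hS hS' hsep hnt c0 R a ha hc hR y
  have hK : 1 ≤ K0 * m := Nat.mul_pos hK0 hm
  have hN0 : (0:ℝ) < ((K0 * m : ℕ):ℝ) := by exact_mod_cast hK
  set N := K0 * m with hN
  have iA : ∀ k, Integrable (ampk N k a) := fun k => (ha.ampk _ _).int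
  have hr : 0 < r0 / (N:ℝ) := div_pos r0_pos hN0
  set f : ℤ × ℤ → E4 → ℂ := fun k => gk N (ampk N k a) y with hf
  have fi : ∀ k, Integrable (f k) := fun k => integrable_ga hr (iA k) y
  have fc : ∀ k, Continuous (f k) := fun k => continuous_ga (iA k) y
  have ft : ∀ k, Integrable (𝓕⁻ (f k)) := fun k => integrable_inv_ga hr (iA k) y
  have ftc : ∀ k, Continuous (𝓕⁻ (f k)) := fun k => continuous_inv (fi k)
  set h : (ℤ × ℤ) × (ℤ × ℤ) → E4 → ℂ := fun p => cvv (f p.1) (f p.2) with hh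
  have hi : ∀ p, Integrable (h p) := fun p => integrable_cvv (fi p.1) (fi p.2)
  have hcn : ∀ p, Continuous (h p) := by
    intro p
    obtain ⟨D, hD⟩ := ga_bdd (κ := r0 / N) (iA p.2) y
    exact continuous_cvv (fi p.1) (fc p.2) hD
  have hit : ∀ p, Integrable (𝓕⁻ (h p)) := by
    intro p
    have e : 𝓕⁻ (h p) = fun z => 𝓕⁻ (f p.1) z * 𝓕⁻ (f p.2) z := by
      ext z; exact inv_cvv (fi p.1) (fi p.2) z
    rw [e]
    apply (ft p.1).mul_bdd (c := ∫ ζ, ‖f p.2 ζ‖)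
    · exact (ftc p.2).aestronglyMeasurable
    · filter_upwards with z
      exact norm_inv_le _ z
  -- energies of the products
  have hE : ∀ p, ∫⁻ ζ, ‖h p ζ‖ₑ ^ 2 ≤ ENNReal.ofReal (B ^ 4) * cw 8 * ENNReal.ofReal ((N:ℝ) ^ 4) *
      (Gav M N (ampk N p.1 a) y ^ 2 * Gav M N (ampk N p.2 a) y ^ 2) := by
    intro p
    rw [plancherel_inv (hi p) (hcn p) (hit p)]
    calc ∫⁻ z, ‖𝓕⁻ (h p) z‖ₑ ^ 2 ≤ ∫⁻ z, (ENNReal.ofReal (B ^ 4) * ENNReal.ofReal ((N:ℝ) ^ 4) *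
          (Gav M N (ampk N p.1 a) y ^ 2 * Gav M N (ampk N p.2 a) y ^ 2)) * wK 8 N (z - y) := by
          refine lintegral_mono fun z => ?_
          have e : 𝓕⁻ (h p) z = 𝓕⁻ (f p.1) z * 𝓕⁻ (f p.2) z := inv_cvv (fi p.1) (fi p.2) z
          rw [e, enorm_mul]
          have h1 := hpt N hK c0 R a ha hc hR p.1 y z
          have h2 := hpt N hK c0 R a ha hc hR p.2 y z
          calc (‖𝓕⁻ (f p.1) z‖ₑ * ‖𝓕⁻ (f p.2) z‖ₑ) ^ 2 ≤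
              ((ENNReal.ofReal (B * ((1 + ‖z - y‖ / N) ^ 2)⁻¹) * Gav M N (ampk N p.1 a) y) *
              (ENNReal.ofReal (B * ((1 + ‖z - y‖ / N) ^ 2)⁻¹) * Gav M N (ampk N p.2 a) y)) ^ 2 := by
                gcongr
            _ = ENNReal.ofReal (B * ((1 + ‖z - y‖ / N) ^ 2)⁻¹) ^ 4 *
                (Gav M N (ampk N p.1 a) y ^ 2 * Gav M N (ampk N p.2 a) y ^ 2) := by ring
            _ = (ENNReal.ofReal (B ^ 4) * ENNReal.ofReal ((N:ℝ) ^ 4)) * wK 8 N (z - y) *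
                (Gav M N (ampk N p.1 a) y ^ 2 * Gav M N (ampk N p.2 a) y ^ 2) := by
                congr 1
                unfold wK
                rw [← ENNReal.ofReal_pow (by positivity), ← ENNReal.ofReal_mul (by positivity),
                  ← ENNReal.ofReal_mul (by positivity)]
                congr 1
                have hX : 0 < 1 + ‖z - y‖ / (N:ℝ) := by positivity
                generalize 1 + ‖z - y‖ / (N:ℝ) = X at hX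
                rw [mul_pow, inv_pow, ← pow_mul]
                field_simp
            _ = _ := by ring
      _ = _ := by
          have mw : Measurable (fun z : E4 => wK 8 N (z - y)) := (measurable_wK 8 N).comp (by fun_prop)
          rw [lintegral_const_mul _ mw, lintegral_sub_right_eq_self (fun z => wK 8 N z) y, lint_wK 8 hN0]
          ring
  -- orthogonality
  have hover : ∀ p ∈ S ×ˢ S', ((S ×ˢ S').filter (fun q => ∃ ζ, h p ζ ≠ 0 ∧ h q ζ ≠ 0)).card ≤ 3080025 * K0 ^ 2 := by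
    intro p hp
    exact card_pairs K0 m hK0 hm hS hS' hsep hnt ha hc hR y p hp
  have hsum : ∫⁻ z, ‖𝓕⁻ (fun ζ => ∑ p ∈ S ×ˢ S', h p ζ) z‖ₑ ^ 2 ≤ ((3080025 * K0 ^ 2 : ℕ):ℝ≥0∞) * ∑ p ∈ S ×ˢ S', ∫⁻ ζ, ‖h p ζ‖ₑ ^ 2 := by
    have iS : Integrable (fun ζ => ∑ p ∈ S ×ˢ S', h p ζ) := integrable_finset_sum _ fun p _ => hi p
    have cS : Continuous (fun ζ => ∑ p ∈ S ×ˢ S', h p ζ) := continuous_finset_sum _ fun p _ => hcn p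
    refine (lintegral_sq_inv_le iS cS.measurable).trans ?_
    calc _ ≤ ∫⁻ ζ, ((3080025 * K0 ^ 2 : ℕ):ℝ≥0∞) * ∑ p ∈ S ×ˢ S', ‖h p ζ‖ₑ ^ 2 :=
          lintegral_mono fun ζ => overlap_pt (S ×ˢ S') h _ hover ζ
      _ = _ := by
          rw [lintegral_const_mul' _ _ (ENNReal.natCast_ne_top _),
            lintegral_finset_sum _ (fun p _ => ((hcn p).measurable.enorm.pow_const 2))]
  -- the window
  have hwin : ∀ z ∈ Metric.closedBall y (N:ℝ), (‖∑ k ∈ S, 𝓕⁻ (ampk N k a) z‖ₑ * ‖∑ k ∈ S', 𝓕⁻ (ampk N k a) z‖ₑ) ^ 2 ≤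
      16 * ‖𝓕⁻ (fun ζ => ∑ p ∈ S ×ˢ S', h p ζ) z‖ₑ ^ 2 := by
    intro z hz
    rw [Metric.mem_closedBall, dist_eq_norm] at hz
    have e1 : 𝓕⁻ (fun ζ => ∑ p ∈ S ×ˢ S', h p ζ) z = (Psi ((r0 / (N:ℝ)) • (z - y)) * ∑ k ∈ S, 𝓕⁻ (ampk N k a) z) *
        (Psi ((r0 / (N:ℝ)) • (z - y)) * ∑ k ∈ S', 𝓕⁻ (ampk N k a) z) := by
      rw [inv_sum _ (fun p _ => hi p), Finset.mul_sum, Finset.mul_sum, Finset.sum_mul_sum, ← Finset.sum_product']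
      refine Finset.sum_congr rfl fun p _ => ?_
      have e : 𝓕⁻ (h p) z = 𝓕⁻ (f p.1) z * 𝓕⁻ (f p.2) z := inv_cvv (fi p.1) (fi p.2) z
      rw [e]
      have e2 : ∀ k, 𝓕⁻ (f k) z = Psi ((r0 / (N:ℝ)) • (z - y)) * 𝓕⁻ (ampk N k a) z := fun k => inv_gk hN0 (iA k) y z
      rw [e2, e2]
    have h1 : 1/2 ≤ ‖Psi ((r0 / (N:ℝ)) • (z - y))‖ := by
      apply r0_spec
      rw [norm_smul, Real.norm_of_nonneg hr.le]
      calc r0 / N * ‖z - y‖ ≤ r0 / N * N := mul_le_mul_of_nonneg_left hz hr.le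
        _ = r0 := by field_simp
    have h2 : (1 : ℝ≥0∞) ≤ 16 * ‖Psi ((r0 / (N:ℝ)) • (z - y))‖ₑ ^ 4 := by
      rw [← ofReal_norm, ← ENNReal.ofReal_pow (norm_nonneg _), show (16 : ℝ≥0∞) = ENNReal.ofReal 16 by norm_num,
        ← ENNReal.ofReal_mul (by norm_num), ← ENNReal.ofReal_one]
      apply ENNReal.ofReal_le_ofReal
      have : (1/2 : ℝ) ^ 4 ≤ ‖Psi ((r0 / (N:ℝ)) • (z - y))‖ ^ 4 := by gcongr
      linarith
    rw [e1, enorm_mul, enorm_mul, enorm_mul]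
    calc (‖∑ k ∈ S, 𝓕⁻ (ampk N k a) z‖ₑ * ‖∑ k ∈ S', 𝓕⁻ (ampk N k a) z‖ₑ) ^ 2 =
        1 * (‖∑ k ∈ S, 𝓕⁻ (ampk N k a) z‖ₑ * ‖∑ k ∈ S', 𝓕⁻ (ampk N k a) z‖ₑ) ^ 2 := (one_mul _).symm
      _ ≤ (16 * ‖Psi ((r0 / (N:ℝ)) • (z - y))‖ₑ ^ 4) * (‖∑ k ∈ S, 𝓕⁻ (ampk N k a) z‖ₑ * ‖∑ k ∈ S', 𝓕⁻ (ampk N k a) z‖ₑ) ^ 2 := by
          gcongr
      _ = _ := by ring
  calc _ ≤ ∫⁻ z in Metric.closedBall y (N:ℝ), 16 * ‖𝓕⁻ (fun ζ => ∑ p ∈ S ×ˢ S', h p ζ) z‖ₑ ^ 2 :=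
        setLIntegral_mono' measurableSet_closedBall hwin
    _ ≤ ∫⁻ z, 16 * ‖𝓕⁻ (fun ζ => ∑ p ∈ S ×ˢ S', h p ζ) z‖ₑ ^ 2 := setLIntegral_le_lintegral _ _
    _ = 16 * ∫⁻ z, ‖𝓕⁻ (fun ζ => ∑ p ∈ S ×ˢ S', h p ζ) z‖ₑ ^ 2 := lintegral_const_mul' _ _ (by norm_num)
    _ ≤ 16 * (((3080025 * K0 ^ 2 : ℕ):ℝ≥0∞) * ∑ p ∈ S ×ˢ S', (ENNReal.ofReal (B ^ 4) * cw 8 * ENNReal.ofReal ((N:ℝ) ^ 4) *
      (Gav M N (ampk N p.1 a) y ^ 2 * Gav M N (ampk N p.2 a) y ^ 2))) := by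
        refine mul_le_mul' le_rfl (hsum.trans (mul_le_mul' le_rfl ?_))
        exact Finset.sum_le_sum fun p _ => hE p
    _ = _ := by
        rw [← Finset.mul_sum, Finset.sum_mul_sum, ← Finset.sum_product']
        push_cast
        ring

end Vale.Agent.P106.G
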