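import Vale.Agent.P106.G.Slice

/-! # Local orthogonality -/

open MeasureTheory Complex Set
open scoped ENNReal NNReal ContDiff FourierTransform SchwartzMap ComplexConjugate

set_option linter.all false

namespace Vale.Agent.P106.G

open Vale.Agent.P106.Tri (ec norm_ec enorm_ec ec_add continuous_ec)

/-- radius on which the bump is at least one half -/
noncomputable def r0 : ℝ := Classical.choose Psi_low

theorem r0_pos : 0 < r0 := (Classical.choose_spec Psi_low).1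
theorem r0_le : r0 ≤ 1 := (Classical.choose_spec Psi_low).2.1
theorem r0_spec {x : E4} (h : ‖x‖ ≤ r0) : 1/2 ≤ ‖Psi x‖ := (Classical.choose_spec Psi_low).2.2 x h

/-- the bump at scale `K` -/
noncomputable def gk (K : ℝ) (g : E4 → ℂ) (y : E4) : E4 → ℂ := ga (r0 / K) g y

theorem inv_gk {K : ℝ} (hK : 0 < K) {g : E4 → ℂ} (hg : Integrable g) (y z : E4) :
    𝓕⁻ (gk K g y) z = Psi ((r0 / K) • (z - y)) * 𝓕⁻ g z := inv_ga (div_pos r0_pos hK) hg y z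

theorem gk_supp {K : ℝ} (hK : 0 < K) {g : E4 → ℂ} {y ζ : E4} (h : gk K g y ζ ≠ 0) :
    ∃ t, g t ≠ 0 ∧ ‖ζ - t‖ ≤ 1 / K := by
  obtain ⟨t, h1, h2⟩ := ga_supp (div_pos r0_pos hK) h
  refine ⟨t, h1, h2.trans ?_⟩
  gcongr
  exact r0_le

theorem Psi_gk_decay (M : ℕ) : ∃ C : ℝ, 1 ≤ C ∧ ∀ (K : ℝ), 0 < K → ∀ x : E4,
    ‖Psi ((r0 / K) • x)‖ ≤ C * ((1 + ‖x‖ / K) ^ M)⁻¹ := by
  obtain ⟨C, hC, h⟩ := Psi_decay M
  have hr := r0_pos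
  have hr1 := r0_le
  refine ⟨(C + 1) * (r0⁻¹) ^ M, ?_, ?_⟩
  · have : 1 ≤ r0⁻¹ := by rw [one_le_inv₀ hr]; exact hr1
    have h2 : 1 ≤ r0⁻¹ ^ M := one_le_pow₀ this
    nlinarith
  intro K hK x
  refine (h _).trans ?_
  rw [norm_smul, Real.norm_of_nonneg (by positivity)]
  have h1 : r0 * (1 + ‖x‖ / K) ≤ 1 + r0 / K * ‖x‖ := by
    have : r0 / K * ‖x‖ = r0 * (‖x‖ / K) := by ring
    rw [this]; linarith
  have h2 : ((1 + r0 / K * ‖x‖) ^ M)⁻¹ ≤ ((r0 * (1 + ‖x‖ / K)) ^ M)⁻¹ := by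
    gcongr
  calc C * ((1 + r0 / K * ‖x‖) ^ M)⁻¹ ≤ (C + 1) * ((r0 * (1 + ‖x‖ / K)) ^ M)⁻¹ := by
        gcongr; linarith
    _ = _ := by rw [mul_pow, mul_inv, ← inv_pow r0]; ring

/-- energy of a localised piece -/
theorem gk_L2 (M : ℕ) : ∃ C : ℝ, 0 ≤ C ∧ ∀ (K : ℝ), 0 < K → ∀ (g : E4 → ℂ), Integrable g → ∀ y,
    ∫⁻ ζ, ‖gk K g y ζ‖ₑ ^ 2 ≤ ENNReal.ofReal (C * K ^ 4) * Gsq M K g y := by
  obtain ⟨C, hC, h⟩ := Psi_gk_decay M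
  refine ⟨C ^ 2, by positivity, ?_⟩
  intro K hK g hg y
  have hκ : 0 < r0 / K := div_pos r0_pos hK
  unfold gk
  rw [plancherel_inv (integrable_ga hκ hg y) (continuous_ga hg y) (integrable_inv_ga hκ hg y)]
  unfold Gsq
  rw [← lintegral_const_mul' _ _ ENNReal.ofReal_ne_top]
  refine lintegral_mono fun z => ?_
  rw [inv_ga hκ hg, enorm_mul, mul_pow]
  have h1 : ‖Psi ((r0 / K) • (z - y))‖ₑ ^ 2 ≤ ENNReal.ofReal (C ^ 2 * K ^ 4) * wK M K (y - z) := by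
    unfold wK
    rw [← ENNReal.ofReal_mul (by positivity), ← ofReal_norm, ← ENNReal.ofReal_pow (norm_nonneg _)]
    apply ENNReal.ofReal_le_ofReal
    have h2 := h K hK (z - y)
    have h3 : ‖z - y‖ = ‖y - z‖ := norm_sub_rev _ _
    rw [h3] at h2
    have h4 : (((1 + ‖y - z‖ / K) ^ M)⁻¹) ^ 2 ≤ ((1 + ‖y - z‖ / K) ^ M)⁻¹ := by
      have h5 : 1 ≤ (1 + ‖y - z‖ / K) ^ M := one_le_pow₀ (by
        have : 0 ≤ ‖y - z‖ / K := by positivity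
        linarith)
      have h6 : ((1 + ‖y - z‖ / K) ^ M)⁻¹ ≤ 1 := inv_le_one_of_one_le₀ h5
      have h7 : 0 ≤ ((1 + ‖y - z‖ / K) ^ M)⁻¹ := by positivity
      nlinarith
    calc ‖Psi ((r0 / K) • (z - y))‖ ^ 2 ≤ (C * ((1 + ‖y - z‖ / K) ^ M)⁻¹) ^ 2 := by gcongr
      _ = C ^ 2 * (((1 + ‖y - z‖ / K) ^ M)⁻¹) ^ 2 := by ring
      _ ≤ C ^ 2 * ((1 + ‖y - z‖ / K) ^ M)⁻¹ := by gcongr
      _ = _ := by field_simp
  calc _ ≤ (ENNReal.ofReal (C ^ 2 * K ^ 4) * wK M K (y - z)) * ‖𝓕⁻ g z‖ₑ ^ 2 := by gcongr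
    _ = _ := by ring

theorem gk_cap_near {N : ℕ} (hN : 1 ≤ N) {c0 R : ℝ} {a : E4 → ℂ} (ha : Amp c0 R a)
    (hc : c0 ≤ 1 / N) (hR : R⁻¹ ≤ 1 / N) {k : ℤ × ℤ} {y ζ : E4} (h : gk N (ampk N k a) y ζ ≠ 0) :
    |ζ 0 - 1| ≤ 8 / N ∧ |ζ 1 - k.1 / N| ≤ 8 / N ∧ |ζ 2 - k.2 / N| ≤ 8 / N ∧
      |ζ 3 - (((k.1:ℝ) / N) ^ 2 + ((k.2:ℝ) / N) ^ 2)| ≤ 8 / N := by
  have hN0 : (0:ℝ) < N := by exact_mod_cast hN
  obtain ⟨t, ht, hd⟩ := gk_supp hN0 h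
  obtain ⟨h0, h1, h2, h3⟩ := supp_cap ha hN hN0 le_rfl hc hR ht
  have e8 : (8:ℝ) / N = 1 / N + 7 * (1 / N) := by ring
  rw [e8]
  have key : ∀ (i : Fin 4) (x : ℝ), |t i - x| ≤ 7 * (1 / N) → |ζ i - x| ≤ 1 / N + 7 * (1 / N) := by
    intro i x hx
    have a1 : |ζ i - t i| ≤ 1 / N := by
      have := abs_coord_le (ζ - t) i
      rw [PiLp.sub_apply] at this
      exact this.trans hd
    have : ζ i - x = (ζ i - t i) + (t i - x) := by ring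
    rw [this]
    exact (abs_add_le _ _).trans (add_le_add a1 hx)
  exact ⟨key 0 _ h0, key 1 _ h1, key 2 _ h2, key 3 _ h3⟩

theorem idx_close {N : ℕ} (hN : 1 ≤ N) {x : ℝ} {k l : ℤ} (h1 : |x - k / N| ≤ 8 / N) (h2 : |x - l / N| ≤ 8 / N) :
    |l - k| ≤ 16 := by
  have hN0 : (0:ℝ) < N := by exact_mod_cast hN
  have h3 : |((l:ℝ) - k) / N| ≤ 16 / N := by
    have : ((l:ℝ) - k) / N = (x - k / N) - (x - l / N) := by ring
    rw [this]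
    refine (abs_sub _ _).trans ?_
    have : (16:ℝ) / N = 8 / N + 8 / N := by ring
    linarith
  rw [abs_div, abs_of_pos hN0, div_le_div_iff_of_pos_right hN0] at h3
  exact_mod_cast h3

theorem card_box_le {s : Finset (ℤ × ℤ)} (k : ℤ × ℤ) (A : ℕ) (h : ∀ l ∈ s, |l.1 - k.1| ≤ A ∧ |l.2 - k.2| ≤ A) :
    s.card ≤ (2 * A + 1) ^ 2 := by
  have hsub : s ⊆ Finset.Icc (k.1 - A) (k.1 + A) ×ˢ Finset.Icc (k.2 - A) (k.2 + A) := by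
    intro l hl
    obtain ⟨h1, h2⟩ := h l hl
    rw [abs_le] at h1 h2
    rw [Finset.mem_product, Finset.mem_Icc, Finset.mem_Icc]
    exact ⟨⟨by omega, by omega⟩, by omega, by omega⟩
  refine (Finset.card_le_card hsub).trans ?_
  rw [Finset.card_product, Int.card_Icc, Int.card_Icc]
  have e1 : (k.1 + A + 1 - (k.1 - A)).toNat = 2 * A + 1 := by omega
  have e2 : (k.2 + A + 1 - (k.2 - A)).toNat = 2 * A + 1 := by omega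
  rw [e1, e2]
  exact le_of_eq (by ring)

open Classical in
theorem LO (M : ℕ) : ∃ C : ℝ, 0 ≤ C ∧ ∀ (K : ℕ), 1 ≤ K → ∀ (c0 R : ℝ) (a : E4 → ℂ), Amp c0 R a → c0 ≤ 1 / K →
    R⁻¹ ≤ 1 / K → ∀ (S : Finset (ℤ × ℤ)) (y : E4),
    ∫⁻ ζ, ‖∑ k ∈ S, gk K (ampk K k a) y ζ‖ₑ ^ 2 ≤ ENNReal.ofReal (C * (K:ℝ) ^ 4) * ∑ k ∈ S, Gsq M K (ampk K k a) y := by
  obtain ⟨C, hC, h⟩ := gk_L2 M
  refine ⟨1089 * C, by positivity, ?_⟩
  intro K hK c0 R a ha hc hR S y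
  have hK0 : (0:ℝ) < K := by exact_mod_cast hK
  have hP : ∀ i ∈ S, (S.filter (fun j => ∃ ζ, gk K (ampk K i a) y ζ ≠ 0 ∧ gk K (ampk K j a) y ζ ≠ 0)).card ≤ 1089 := by
    intro i hi
    refine (card_box_le i 16 ?_).trans (by norm_num)
    intro l hl
    rw [Finset.mem_filter] at hl
    obtain ⟨_, ζ, h1, h2⟩ := hl
    obtain ⟨_, a1, a2, _⟩ := gk_cap_near hK ha hc hR h1
    obtain ⟨_, b1, b2, _⟩ := gk_cap_near hK ha hc hR h2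
    exact ⟨idx_close hK a1 b1, idx_close hK a2 b2⟩
  have m1 : ∀ k, Measurable (fun ζ => ‖gk K (ampk K k a) y ζ‖ₑ ^ 2) := fun k =>
    ((continuous_ga (ha.ampk K k).int y).measurable.enorm.pow_const 2)
  calc ∫⁻ ζ, ‖∑ k ∈ S, gk K (ampk K k a) y ζ‖ₑ ^ 2 ≤ ∫⁻ ζ, ((1089:ℕ):ℝ≥0∞) * ∑ k ∈ S, ‖gk K (ampk K k a) y ζ‖ₑ ^ 2 :=
        lintegral_mono fun ζ => overlap_pt S (fun k => gk K (ampk K k a) y) 1089 hP ζ
    _ = ((1089:ℕ):ℝ≥0∞) * ∑ k ∈ S, ∫⁻ ζ, ‖gk K (ampk K k a) y ζ‖ₑ ^ 2 := by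
        rw [lintegral_const_mul' _ _ (ENNReal.natCast_ne_top _), lintegral_finset_sum _ (fun k _ => m1 k)]
    _ ≤ ((1089:ℕ):ℝ≥0∞) * ∑ k ∈ S, ENNReal.ofReal (C * (K:ℝ) ^ 4) * Gsq M K (ampk K k a) y := by
        gcongr with k hk
        exact h K hK0 _ (ha.ampk K k).int y
    _ = _ := by
        rw [← Finset.mul_sum, ← mul_assoc]
        congr 1
        rw [mul_assoc 1089 C, ENNReal.ofReal_mul (p := 1089) (by norm_num)]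
        norm_num

end Vale.Agent.P106.G
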