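import Vale.Agent.P106.G.SlabS
import Vale.Agent.P106.G.LO

/-! # Local orthogonality and the crude pointwise bound in terms of the tube averages -/

open MeasureTheory Complex Set
open scoped ENNReal NNReal ContDiff FourierTransform SchwartzMap ComplexConjugate

set_option linter.all false

namespace Vale.Agent.P106.G

theorem Amp.mono {c0 c0' R R' : ℝ} {a : E4 → ℂ} (h : Amp c0 R a) (hc : c0 ≤ c0') (hR : R⁻¹ ≤ R'⁻¹) : Amp c0' R' a where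
  meas := h.meas
  int := h.int
  sq := h.sq
  supp := fun ζ hζ => by
    obtain ⟨⟨a1, a2⟩, a3, a4, a5⟩ := h.supp ζ hζ
    exact ⟨⟨a1, a2.trans (by linarith)⟩, a3, a4, a5.trans hR⟩

theorem TT_smul (N : ℕ) (k : ℤ × ℤ) (c : ℝ) (z : E4) : TT N k (c • z) = c • TT N k z := by
  apply ext4
  · simp only [TT, PiLp.smul_apply, smul_eq_mul, PiLp.toLp_apply, Matrix.cons_val_zero]; ring
  · simp only [TT, PiLp.smul_apply, smul_eq_mul, PiLp.toLp_apply, Matrix.cons_val_one, Matrix.cons_val_zero]; ring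
  · simp only [TT, PiLp.smul_apply, smul_eq_mul, PiLp.toLp_apply, Matrix.cons_val]; ring
  · simp only [TT, PiLp.smul_apply, smul_eq_mul, PiLp.toLp_apply, Matrix.cons_val]; ring

theorem norm_TT_le {N : ℕ} (hN : 1 ≤ N) {k : ℤ × ℤ} (hk : k ∈ grd N) (v : E4) : ‖TT N k v‖ ≤ 20 * (‖v‖ / N) := by
  have hN0 : (0:ℝ) < N := by exact_mod_cast hN
  by_cases hv : v = 0
  · subst hv
    have : TT N k (0:E4) = 0 := by
      have := TT_smul N k 0 (0:E4)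
      simpa using this
    rw [this]; simp
  have hv0 : 0 < ‖v‖ := norm_pos_iff.2 hv
  have h1 : ‖((N:ℝ) / ‖v‖) • v‖ ≤ N := by
    rw [norm_smul, Real.norm_of_nonneg (by positivity)]
    exact le_of_eq (by field_simp)
  have h2 := norm_TT_small hN hk h1
  rw [TT_smul, norm_smul, Real.norm_of_nonneg (by positivity)] at h2
  have h3 : ‖TT N k v‖ = (‖v‖ / N) * ((N:ℝ) / ‖v‖ * ‖TT N k v‖) := by field_simp
  rw [h3, mul_comm 20]
  gcongr

theorem lint_fj_scale {K : ℝ} (hK : 0 < K) : ∫⁻ s, fj K s = ENNReal.ofReal K * ∫⁻ s, fj 1 s := by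
  have e : ∀ s, fj K s = fj 1 (K⁻¹ * s) := by
    intro s
    unfold fj
    rw [abs_mul, abs_of_pos (inv_pos.2 hK), div_one]
    congr 4
    field_simp
  simp_rw [e]
  have h3 : ∫⁻ t : ℝ, fj 1 (K⁻¹ * t) = ∫⁻ T, fj 1 T ∂(Measure.map (K⁻¹ * ·) (volume : Measure ℝ)) :=
    (MeasureTheory.lintegral_map_equiv _ (Homeomorph.mulLeft₀ K⁻¹ (inv_ne_zero hK.ne')).toMeasurableEquiv).symm
  rw [h3, Real.map_volume_mul_left (inv_ne_zero hK.ne'), lintegral_smul_measure, inv_inv, abs_of_pos hK]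
  rfl

/-- the integral of a plank profile against a ball profile -/
theorem plank_int3 {K p1 p2 r s0 s1 s2 s3 : ℝ} (hK : 0 < K) :
    ∫⁻ z : E4, fj 1 (z 0 + p1 * z 1 + p2 * z 2 + r * z 3 - s0) * fj K (z 1 - s1) * fj K (z 2 - s2) * fj K (z 3 - s3) =
    (∫⁻ s, fj 1 s) ^ 4 * ENNReal.ofReal (K ^ 3) := by
  set A : Matrix (Fin 4) (Fin 4) ℝ := !![1, p1, p2, r; 0, 1, 0, 0; 0, 0, 1, 0; 0, 0, 0, 1] with hA
  have hdet : A.det = 1 := by
    rw [hA, Matrix.det_succ_row_zero]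
    simp [Fin.sum_univ_four, Matrix.det_fin_three, Fin.succAbove, Matrix.submatrix]
  have hne : A.det ≠ 0 := by rw [hdet]; norm_num
  set F : E4 → ℝ≥0∞ := fun w => fj 1 (w 0 - s0) * fj K (w 1 - s1) * fj K (w 2 - s2) * fj K (w 3 - s3) with hF
  have e : ∀ z : E4, fj 1 (z 0 + p1 * z 1 + p2 * z 2 + r * z 3 - s0) * fj K (z 1 - s1) * fj K (z 2 - s2) * fj K (z 3 - s3) = F (mat4 A z) := by
    intro z
    simp only [hF]
    rw [mat4_apply, mat4_apply, mat4_apply, mat4_apply]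
    simp [hA]
  simp_rw [e]
  rw [lintegral_mat4 hne F, hdet]
  have m1 := measurable_fj 1
  have mK := measurable_fj K
  rw [hF, prod4 (f0 := fun t => fj 1 (t - s0)) (f1 := fun t => fj K (t - s1)) (f2 := fun t => fj K (t - s2)) (f3 := fun t => fj K (t - s3))
    (m1.comp (by fun_prop)) (mK.comp (by fun_prop)) (mK.comp (by fun_prop)) (mK.comp (by fun_prop)),
    lintegral_sub_right_eq_self (fun t => fj 1 t), lintegral_sub_right_eq_self (fun t => fj K t),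
    lintegral_sub_right_eq_self (fun t => fj K t), lintegral_sub_right_eq_self (fun t => fj K t), lint_fj_scale hK,
    ENNReal.ofReal_pow hK.le]
  simp only [inv_one, abs_one, ENNReal.ofReal_one, one_mul]
  ring

/-- the average of the plank weight over a ball is bounded by the tube weight -/
theorem phk_conv (M : ℕ) : ∃ C : ℝ, 0 ≤ C ∧ ∀ (N : ℕ), 1 ≤ N → ∀ (k : ℤ × ℤ), k ∈ grd N → ∀ (y1 y' : E4),
    ∫⁻ z, phk 1 (M + 2) N k (z - y1) * wK (M + 6) (10 * N) (y' - z) ≤ ENNReal.ofReal C * Phk M N k (y' - y1) := by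
  set J := ∫⁻ s, fj 1 s with hJ
  have hJt : J ≠ ⊤ := lint_fj le_rfl
  refine ⟨200 ^ M * J.toReal ^ 4, by positivity, ?_⟩
  intro N hN k hk y1 y'
  have hN0 : (0:ℝ) < N := by exact_mod_cast hN
  set K : ℝ := 10 * N with hK
  have hK0 : 0 < K := by positivity
  set T : ℝ := ((N:ℝ) ^ 4)⁻¹ * (K ^ 4)⁻¹ * (200 ^ M * ((1 + ‖TT N k (y' - y1)‖) ^ M)⁻¹) with hT
  have hT0 : 0 ≤ T := by positivity
  have hpt : ∀ z, phk 1 (M + 2) N k (z - y1) * wK (M + 6) K (y' - z) ≤ ENNReal.ofReal T *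
      (fj 1 (z 0 + ((k.1:ℝ) / N) * z 1 + ((k.2:ℝ) / N) * z 2 + (((k.1:ℝ) / N) ^ 2 + ((k.2:ℝ) / N) ^ 2) * z 3 - LT N k y1 0) *
        fj K (z 1 - y' 1) * fj K (z 2 - y' 2) * fj K (z 3 - y' 3)) := by
    intro z
    have hL0 : z 0 + ((k.1:ℝ) / N) * z 1 + ((k.2:ℝ) / N) * z 2 + (((k.1:ℝ) / N) ^ 2 + ((k.2:ℝ) / N) ^ 2) * z 3 - LT N k y1 0 =
        LT N k (z - y1) 0 := by
      rw [LT_sub, PiLp.sub_apply, LT0 (z := z)]
    rw [hL0]
    unfold phk wK fj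
    rw [← ENNReal.ofReal_mul (by positivity), ← ENNReal.ofReal_mul (by positivity), ← ENNReal.ofReal_mul (by positivity),
      ← ENNReal.ofReal_mul (by positivity), ← ENNReal.ofReal_mul (by positivity)]
    apply ENNReal.ofReal_le_ofReal
    rw [div_one, div_one]
    set X := 1 + ‖LT N k (z - y1)‖ with hX
    set Y := 1 + ‖y' - z‖ / K with hY
    set W := 1 + ‖TT N k (y' - y1)‖ with hW
    have hX1 : 1 ≤ X := by have := norm_nonneg (LT N k (z - y1)); linarith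
    have hY1 : 1 ≤ Y := by have : 0 ≤ ‖y' - z‖ / K := by positivity
                           linarith
    have hW1 : 1 ≤ W := by have := norm_nonneg (TT N k (y' - y1)); linarith
    have hWXY : W ≤ 200 * (X * Y) := by
      have e1 : TT N k (y' - y1) = TT N k (z - y1) - TT N k (z - y') := by
        rw [← TT_sub]; congr 1; abel
      have h1 : ‖TT N k (y' - y1)‖ ≤ ‖TT N k (z - y1)‖ + ‖TT N k (z - y')‖ := by rw [e1]; exact norm_sub_le _ _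
      have h2 := norm_TT_le_LT hN k (z - y1)
      have h3 := norm_TT_le hN hk (z - y')
      rw [norm_sub_rev] at h3
      have h4 : 20 * (‖y' - z‖ / N) = 200 * (‖y' - z‖ / K) := by rw [hK]; field_simp; ring
      rw [h4] at h3
      have h5 : 0 ≤ ‖y' - z‖ / K := by positivity
      have h6 := norm_nonneg (LT N k (z - y1))
      calc W ≤ X + 200 * (‖y' - z‖ / K) := by rw [hW, hX]; linarith
        _ ≤ 200 * (X * Y) := by
          rw [hY]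
          nlinarith
    have hX0 : 0 < X := by linarith
    have hY0 : 0 < Y := by linarith
    have hW0 : 0 < W := by linarith
    have p1 : (X ^ M)⁻¹ * (Y ^ M)⁻¹ ≤ 200 ^ M * (W ^ M)⁻¹ := by
      have : W ^ M ≤ 200 ^ M * (X ^ M * Y ^ M) := by
        rw [← mul_pow, ← mul_pow]
        exact pow_le_pow_left₀ hW0.le hWXY M
      rw [← mul_inv, ← div_eq_mul_inv, inv_eq_one_div, div_le_div_iff₀ (by positivity) (by positivity)]
      linarith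
    have p2 : (X ^ 2)⁻¹ ≤ ((1 + |LT N k (z - y1) 0|) ^ 2)⁻¹ := by
      have := abs_coord_le (LT N k (z - y1)) 0
      apply inv_anti₀ (by positivity)
      apply pow_le_pow_left₀ (by positivity)
      rw [hX]; linarith
    have p3 : ∀ i : Fin 4, (Y ^ 2)⁻¹ ≤ ((1 + |z i - y' i| / K) ^ 2)⁻¹ := by
      intro i
      have h1 := abs_coord_le (y' - z) i
      rw [PiLp.sub_apply, abs_sub_comm] at h1
      apply inv_anti₀ (by positivity)
      apply pow_le_pow_left₀ (by positivity)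
      rw [hY]
      gcongr
    have e2 : (X ^ (M + 2))⁻¹ = (X ^ M)⁻¹ * (X ^ 2)⁻¹ := by rw [pow_add, mul_inv]
    have e3 : (Y ^ (M + 6))⁻¹ = (Y ^ M)⁻¹ * ((Y ^ 2)⁻¹ * (Y ^ 2)⁻¹ * (Y ^ 2)⁻¹) := by
      rw [pow_add, mul_inv]; congr 1
      rw [← mul_inv, ← mul_inv]; congr 1; ring
    rw [e2, e3]
    calc ((N:ℝ) ^ 4)⁻¹ * ((X ^ M)⁻¹ * (X ^ 2)⁻¹) * ((K ^ 4)⁻¹ * ((Y ^ M)⁻¹ * ((Y ^ 2)⁻¹ * (Y ^ 2)⁻¹ * (Y ^ 2)⁻¹))) =
        ((N:ℝ) ^ 4)⁻¹ * (K ^ 4)⁻¹ * ((X ^ M)⁻¹ * (Y ^ M)⁻¹) * ((X ^ 2)⁻¹ * (Y ^ 2)⁻¹ * (Y ^ 2)⁻¹ * (Y ^ 2)⁻¹) := by ring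
      _ ≤ ((N:ℝ) ^ 4)⁻¹ * (K ^ 4)⁻¹ * (200 ^ M * (W ^ M)⁻¹) * (((1 + |LT N k (z - y1) 0|) ^ 2)⁻¹ * ((1 + |z 1 - y' 1| / K) ^ 2)⁻¹ *
          ((1 + |z 2 - y' 2| / K) ^ 2)⁻¹ * ((1 + |z 3 - y' 3| / K) ^ 2)⁻¹) := by
          have q1 := p3 1
          have q2 := p3 2
          have q3 := p3 3
          gcongr
      _ = _ := by rw [hT]
  calc _ ≤ ∫⁻ z : E4, ENNReal.ofReal T *
      (fj 1 (z 0 + ((k.1:ℝ) / N) * z 1 + ((k.2:ℝ) / N) * z 2 + (((k.1:ℝ) / N) ^ 2 + ((k.2:ℝ) / N) ^ 2) * z 3 - LT N k y1 0) *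
        fj K (z 1 - y' 1) * fj K (z 2 - y' 2) * fj K (z 3 - y' 3)) := lintegral_mono hpt
    _ = ENNReal.ofReal T * (J ^ 4 * ENNReal.ofReal (K ^ 3)) := by
        rw [lintegral_const_mul' _ _ ENNReal.ofReal_ne_top, plank_int3 hK0]
    _ ≤ _ := by
        unfold Phk
        rw [← ENNReal.ofReal_toReal hJt, ← ENNReal.ofReal_pow ENNReal.toReal_nonneg, ← ENNReal.ofReal_mul (by positivity),
          ← ENNReal.ofReal_mul (by positivity), ← ENNReal.ofReal_mul (by positivity), ENNReal.toReal_ofReal ENNReal.toReal_nonneg]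
        apply ENNReal.ofReal_le_ofReal
        rw [hT]
        set j := J.toReal with hj
        have hj0 : 0 ≤ j := ENNReal.toReal_nonneg
        have e1 : (K ^ 4)⁻¹ * K ^ 3 = K⁻¹ := by field_simp
        have e2 : K⁻¹ ≤ (N:ℝ)⁻¹ := by
          apply inv_anti₀ hN0
          rw [hK]; linarith
        have e3 : ((N:ℝ) ^ 4)⁻¹ * (N:ℝ)⁻¹ = ((N:ℝ) ^ 5)⁻¹ := by field_simp
        calc ((N:ℝ) ^ 4)⁻¹ * (K ^ 4)⁻¹ * (200 ^ M * ((1 + ‖TT N k (y' - y1)‖) ^ M)⁻¹) * (j ^ 4 * K ^ 3) =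
            (200 ^ M * j ^ 4) * (((N:ℝ) ^ 4)⁻¹ * ((K ^ 4)⁻¹ * K ^ 3)) * ((1 + ‖TT N k (y' - y1)‖) ^ M)⁻¹ := by ring
          _ ≤ (200 ^ M * j ^ 4) * (((N:ℝ) ^ 4)⁻¹ * (N:ℝ)⁻¹) * ((1 + ‖TT N k (y' - y1)‖) ^ M)⁻¹ := by
              rw [e1]; gcongr
          _ = _ := by rw [e3]; ring

/-- ball averages are bounded by tube averages -/
theorem Gsq_le_tube (M : ℕ) : ∃ C : ℝ≥0∞, C ≠ ⊤ ∧ ∀ (N : ℕ), 1 ≤ N → ∀ (a : E4 → ℂ), Amp 1 ((N:ℝ) ^ 2) a →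
    ∀ k ∈ grd N, ∀ y', Gsq (M + 6) (10 * N) (ampk N k a) y' ≤ C * ∫⁻ y1, ‖𝓕⁻ (ampk N k a) y1‖ₑ ^ 2 * Phk M N k (y' - y1) := by
  obtain ⟨C1, hC1, h1⟩ := sq_le_Sk (Λ := 1) (c0 := 1) le_rfl le_rfl (M + 2)
  obtain ⟨C2, hC2, h2⟩ := phk_conv M
  refine ⟨C1 * ENNReal.ofReal C2, ENNReal.mul_ne_top hC1 ENNReal.ofReal_ne_top, ?_⟩
  intro N hN a ha k hk y'
  have mf : Measurable (fun y1 => ‖𝓕⁻ (ampk N k a) y1‖ₑ ^ 2) := (continuous_inv (ha.ampk N k).int).measurable.enorm.pow_const 2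
  have mp := measurable_phk 1 (M + 2) N k
  have mw := measurable_wK (M + 6) (10 * (N:ℝ))
  have mP := measurable_Phk M N k
  unfold Gsq
  calc ∫⁻ z, ‖𝓕⁻ (ampk N k a) z‖ₑ ^ 2 * wK (M + 6) (10 * N) (y' - z) ≤
      ∫⁻ z, C1 * ∫⁻ y1, ‖𝓕⁻ (ampk N k a) y1‖ₑ ^ 2 * (phk 1 (M + 2) N k (z - y1) * wK (M + 6) (10 * N) (y' - z)) := by
        refine lintegral_mono fun z => ?_
        have e : ∫⁻ y1, ‖𝓕⁻ (ampk N k a) y1‖ₑ ^ 2 * (phk 1 (M + 2) N k (z - y1) * wK (M + 6) (10 * N) (y' - z)) =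
            Sk 1 (M + 2) N a k z * wK (M + 6) (10 * N) (y' - z) := by
          unfold Sk
          have hm : Measurable (fun y1 => ‖𝓕⁻ (ampk N k a) y1‖ₑ ^ 2 * phk 1 (M + 2) N k (z - y1)) := mf.mul (mp.comp (by fun_prop))
          rw [← lintegral_mul_const _ hm]
          refine lintegral_congr fun y1 => ?_
          rw [mul_assoc]
        rw [e, ← mul_assoc]
        exact mul_le_mul' (h1 N hN a ha k z) le_rfl
    _ = C1 * ∫⁻ z, ∫⁻ y1, ‖𝓕⁻ (ampk N k a) y1‖ₑ ^ 2 * (phk 1 (M + 2) N k (z - y1) * wK (M + 6) (10 * N) (y' - z)) :=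
        lintegral_const_mul' _ _ hC1
    _ = C1 * ∫⁻ y1, ∫⁻ z, ‖𝓕⁻ (ampk N k a) y1‖ₑ ^ 2 * (phk 1 (M + 2) N k (z - y1) * wK (M + 6) (10 * N) (y' - z)) := by
        congr 1
        apply lintegral_lintegral_swap
        have a1 : Measurable (fun q : E4 × E4 => ‖𝓕⁻ (ampk N k a) q.2‖ₑ ^ 2) := mf.comp measurable_snd
        have a2 : Measurable (fun q : E4 × E4 => phk 1 (M + 2) N k (q.1 - q.2)) := mp.comp (by fun_prop)
        have a3 : Measurable (fun q : E4 × E4 => wK (M + 6) (10 * (N:ℝ)) (y' - q.1)) := mw.comp (by fun_prop)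
        exact (a1.mul (a2.mul a3)).aemeasurable
    _ ≤ C1 * ∫⁻ y1, ‖𝓕⁻ (ampk N k a) y1‖ₑ ^ 2 * (ENNReal.ofReal C2 * Phk M N k (y' - y1)) := by
        refine mul_le_mul' le_rfl (lintegral_mono fun y1 => ?_)
        have hm : Measurable (fun z => phk 1 (M + 2) N k (z - y1) * wK (M + 6) (10 * (N:ℝ)) (y' - z)) :=
          (mp.comp (by fun_prop)).mul (mw.comp (by fun_prop))
        rw [lintegral_const_mul _ hm]
        exact mul_le_mul' le_rfl (h2 N hN k hk y1 y')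
    _ = _ := by
        have hm : Measurable (fun y1 => ‖𝓕⁻ (ampk N k a) y1‖ₑ ^ 2 * Phk M N k (y' - y1)) := mf.mul (mP.comp (by fun_prop))
        have e : ∀ y1, ‖𝓕⁻ (ampk N k a) y1‖ₑ ^ 2 * (ENNReal.ofReal C2 * Phk M N k (y' - y1)) =
            ENNReal.ofReal C2 * (‖𝓕⁻ (ampk N k a) y1‖ₑ ^ 2 * Phk M N k (y' - y1)) := fun y1 => by ring
        simp_rw [e]
        rw [lintegral_const_mul _ hm, mul_assoc]

theorem gk_near {N : ℕ} (hN : 1 ≤ N) {R : ℝ} {a : E4 → ℂ} (ha : Amp 1 R a) {k : ℤ × ℤ} (hk : k ∈ grd N) {y ζ : E4}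
    (h : gk (10 * N) (ampk N k a) y ζ ≠ 0) :
    9/10 ≤ ζ 0 ∧ |ζ 1 - (k.1:ℝ) / N * ζ 0| ≤ 4 / N ∧ |ζ 2 - (k.2:ℝ) / N * ζ 0| ≤ 4 / N := by
  have hN0 : (0:ℝ) < N := by exact_mod_cast hN
  have hN1 : (1:ℝ) ≤ N := by exact_mod_cast hN
  obtain ⟨t, ht, hd⟩ := gk_supp (K := 10 * N) (by positivity) h
  obtain ⟨hc, ha0⟩ := ampk_ne ht
  obtain ⟨⟨s0, s0'⟩, ⟨s1, s1'⟩, ⟨s2, s2'⟩, s3⟩ := ha.supp t ha0
  have ht0 : 0 < t 0 := by linarith
  obtain ⟨g1, g2, g3, g4⟩ := grd_bd hk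
  unfold cpi at hc
  rw [Prod.ext_iff] at hc
  obtain ⟨k1, k2⟩ := hc
  simp only at k1 k2
  rw [Int.floor_eq_iff] at k1 k2
  have hK : 1 / (10 * (N:ℝ)) ≤ 1 / N := one_div_le_one_div_of_le hN0 (by linarith)
  have hK2 : 1 / (10 * (N:ℝ)) ≤ 1 / 10 := one_div_le_one_div_of_le (by norm_num) (by linarith)
  have hco : ∀ i : Fin 4, |ζ i - t i| ≤ 1 / (10 * (N:ℝ)) := by
    intro i
    have := abs_coord_le (ζ - t) i
    rw [PiLp.sub_apply] at this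
    exact this.trans hd
  have key : ∀ (i : Fin 4) (j : ℤ), (j:ℝ) ≤ N * (t i / t 0) → N * (t i / t 0) < j + 1 → 0 ≤ (j:ℝ) / N → (j:ℝ) / N ≤ 1 →
      |ζ i - (j:ℝ) / N * ζ 0| ≤ 4 / N := by
    intro i j h1 h2 h3 h4
    have e1 : |t i - (j:ℝ) / N * t 0| ≤ 2 / N := by
      have e : t i - (j:ℝ) / N * t 0 = (N * (t i / t 0) - j) * t 0 / N := by field_simp
      rw [e, abs_div, abs_of_pos hN0, abs_mul, abs_of_pos ht0]
      apply div_le_div_of_nonneg_right _ hN0.le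
      have : |N * (t i / t 0) - j| ≤ 1 := by rw [abs_le]; constructor <;> linarith
      have h9 : |N * (t i / t 0) - j| * t 0 ≤ 1 * 2 := mul_le_mul this (by linarith) ht0.le (by norm_num)
      linarith
    have e2 : ζ i - (j:ℝ) / N * ζ 0 = (t i - (j:ℝ) / N * t 0) + (ζ i - t i) - (j:ℝ) / N * (ζ 0 - t 0) := by ring
    rw [e2]
    have e3 : |(j:ℝ) / N * (ζ 0 - t 0)| ≤ 1 / N := by
      rw [abs_mul, abs_of_nonneg h3]
      calc (j:ℝ) / N * |ζ 0 - t 0| ≤ 1 * (1 / (10 * (N:ℝ))) := by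
            gcongr
            exact hco 0
        _ ≤ _ := by linarith
    refine (abs_sub _ _).trans ?_
    have e4 := (abs_add_le (t i - (j:ℝ) / N * t 0) (ζ i - t i))
    have e5 := hco i
    have e6 : (4:ℝ) / N = 2 / N + 1 / N + 1 / N := by ring
    rw [e6]
    linarith
  refine ⟨?_, key 1 k.1 k1.1 k1.2 g1 g2, key 2 k.2 k2.1 k2.2 g3 g4⟩
  have := hco 0
  rw [abs_le] at this
  linarith

theorem idx_close2 {N : ℕ} (hN : 1 ≤ N) {x s : ℝ} (hs : 9/10 ≤ s) {k l : ℤ} (h1 : |x - (k:ℝ) / N * s| ≤ 4 / N) (h2 : |x - (l:ℝ) / N * s| ≤ 4 / N) :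
    |l - k| ≤ 8 := by
  have hN0 : (0:ℝ) < N := by exact_mod_cast hN
  have h3 : |((l:ℝ) - k) * s / N| ≤ 8 / N := by
    have : ((l:ℝ) - k) * s / N = (x - (k:ℝ) / N * s) - (x - (l:ℝ) / N * s) := by ring
    rw [this]
    refine (abs_sub _ _).trans ?_
    have : (8:ℝ) / N = 4 / N + 4 / N := by ring
    linarith
  rw [abs_div, abs_of_pos hN0, div_le_div_iff_of_pos_right hN0, abs_mul, abs_of_pos (by linarith : 0 < s)] at h3
  have h4 : |(l:ℝ) - k| < 9 := by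
    have h0 := abs_nonneg ((l:ℝ) - k)
    nlinarith
  have h5 : |l - k| < 9 := by exact_mod_cast h4
  omega

theorem norm_shT_le10 {b1 b2 : ℝ} (h1 : |b1| ≤ 1) (h2 : |b2| ≤ 1) (z : E4) : ‖shT b1 b2 z‖ ≤ 10 * ‖z‖ := by
  have z0 := abs_coord_le z 0
  have z1 := abs_coord_le z 1
  have z2 := abs_coord_le z 2
  have z3 := abs_coord_le z 3
  have hn := norm_nonneg z
  have m : ∀ {b x : ℝ}, |b| ≤ 1 → |x| ≤ ‖z‖ → |b * x| ≤ ‖z‖ := by
    intro b x hb hx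
    rw [abs_mul]
    calc |b| * |x| ≤ 1 * ‖z‖ := mul_le_mul hb hx (abs_nonneg _) (by norm_num)
      _ = _ := one_mul _
  have q : ∀ {b : ℝ}, |b| ≤ 1 → |b ^ 2| ≤ 1 := by
    intro b hb
    rw [abs_pow]
    exact pow_le_one₀ (abs_nonneg _) hb
  have c1 := m h1 z1
  have c2 := m h2 z2
  have c3 := m (q h1) z3
  have c4 := m (q h2) z3
  have c5 := m h1 z3
  have c6 := m h2 z3
  rw [abs_le] at z0 z1 z2 z3 c1 c2 c3 c4 c5 c6
  have hb := norm4_le (shT b1 b2 z) (r := 5 * ‖z‖) (by positivity) (by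
    intro i
    fin_cases i
    · show |shT b1 b2 z 0| ≤ _
      rw [shT0, abs_le]; constructor <;> linarith [z0.1, z0.2, c1.1, c1.2, c2.1, c2.2, c3.1, c3.2, c4.1, c4.2]
    · show |shT b1 b2 z 1| ≤ _
      rw [shT1, abs_le]; constructor <;> linarith [z1.1, z1.2, c5.1, c5.2]
    · show |shT b1 b2 z 2| ≤ _
      rw [shT2, abs_le]; constructor <;> linarith [z2.1, z2.2, c6.1, c6.2]
    · show |shT b1 b2 z 3| ≤ _
      rw [shT3, abs_le]; constructor <;> linarith [z3.1, z3.2])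
  linarith

open Classical in
theorem stLOC2 : StLOC2 := by
  intro M
  obtain ⟨C1, hC1, h1⟩ := gk_L2 (M + 6)
  obtain ⟨C2, hC2, h2⟩ := Gsq_le_tube M
  refine ⟨4 * 289 * C1 * 10 ^ 4 * C2.toReal, by positivity, ?_⟩
  intro N hN a c0 R ha hc hNR b1 b2 hb1 hb2 y
  have hN0 : (0:ℝ) < N := by exact_mod_cast hN
  have hN1 : (1:ℝ) ≤ N := by exact_mod_cast hN
  have hN2 : (0:ℝ) < (N:ℝ) ^ 2 := by positivity
  have ha' : Amp 1 ((N:ℝ) ^ 2) a := ha.mono hc (inv_anti₀ hN2 hNR)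
  have hK0 : (0:ℝ) < 10 * N := by positivity
  have hN11 : 1 / (N:ℝ) ≤ 1 := by rw [div_le_one hN0]; exact hN1
  set y' := shT b1 b2 y with hy'
  set G : E4 → ℝ≥0∞ := fun z => ‖𝓕⁻ a z‖ₑ ^ 2 with hG
  have step1 : ∫⁻ z in Metric.closedBall y (N:ℝ), G (shT b1 b2 z) ≤ ∫⁻ z in Metric.closedBall y' (10 * (N:ℝ)), G z := by
    rw [← lintegral_indicator measurableSet_closedBall, ← lintegral_indicator measurableSet_closedBall,
      ← lint_shT b1 b2 ((Metric.closedBall y' (10 * (N:ℝ))).indicator G)]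
    refine lintegral_mono fun z => ?_
    by_cases hz : z ∈ Metric.closedBall y (N:ℝ)
    · rw [indicator_of_mem hz, indicator_of_mem]
      rw [Metric.mem_closedBall, dist_eq_norm] at hz ⊢
      rw [hy', ← shT_sub]
      refine (norm_shT_le10 (hb1.trans hN11) (hb2.trans hN11) _).trans ?_
      linarith
    · rw [indicator_of_notMem hz]; exact zero_le
  set g : ℤ × ℤ → E4 → ℂ := fun k => gk (10 * N) (ampk N k a) y' with hg
  have gi : ∀ k, Integrable (g k) := fun k => integrable_ga (div_pos r0_pos hK0) (ha.ampk N k).int y'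
  have gc : ∀ k, Continuous (g k) := fun k => continuous_ga (ha.ampk N k).int y'
  have step2 : ∀ z ∈ Metric.closedBall y' (10 * (N:ℝ)), G z ≤ 4 * ‖𝓕⁻ (fun ζ => ∑ k ∈ grd N, g k ζ) z‖ₑ ^ 2 := by
    intro z hz
    rw [Metric.mem_closedBall, dist_eq_norm] at hz
    have e : 𝓕⁻ (fun ζ => ∑ k ∈ grd N, g k ζ) z = Psi ((r0 / (10 * N)) • (z - y')) * 𝓕⁻ a z := by
      rw [inv_sum _ (fun k _ => gi k), inv_split_all ha hN z, Finset.mul_sum]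
      refine Finset.sum_congr rfl fun k _ => ?_
      exact inv_gk hK0 (ha.ampk N k).int y' z
    have hr : 1/2 ≤ ‖Psi ((r0 / (10 * N)) • (z - y'))‖ := by
      apply r0_spec
      rw [norm_smul, Real.norm_of_nonneg (by have := r0_pos; positivity)]
      calc r0 / (10 * N) * ‖z - y'‖ ≤ r0 / (10 * N) * (10 * N) := by
            have := r0_pos
            gcongr
        _ = r0 := by field_simp
    rw [e, enorm_mul, mul_pow, hG]
    have h4 : (1:ℝ≥0∞) ≤ 4 * ‖Psi ((r0 / (10 * N)) • (z - y'))‖ₑ ^ 2 := by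
      rw [← ofReal_norm, ← ENNReal.ofReal_pow (norm_nonneg _), show (4:ℝ≥0∞) = ENNReal.ofReal 4 by norm_num,
        ← ENNReal.ofReal_mul (by norm_num), ← ENNReal.ofReal_one]
      apply ENNReal.ofReal_le_ofReal
      nlinarith
    calc ‖𝓕⁻ a z‖ₑ ^ 2 = 1 * ‖𝓕⁻ a z‖ₑ ^ 2 := (one_mul _).symm
      _ ≤ (4 * ‖Psi ((r0 / (10 * N)) • (z - y'))‖ₑ ^ 2) * ‖𝓕⁻ a z‖ₑ ^ 2 := by gcongr
      _ = _ := by ring
  have hP : ∀ i ∈ grd N, ((grd N).filter (fun j => ∃ ζ, g i ζ ≠ 0 ∧ g j ζ ≠ 0)).card ≤ 289 := by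
    intro i hi
    refine (card_box_le i 8 ?_).trans (by norm_num)
    intro l hl
    rw [Finset.mem_filter] at hl
    obtain ⟨hl0, ζ, q1, q2⟩ := hl
    obtain ⟨a0, a1, a2⟩ := gk_near hN ha' hi q1
    obtain ⟨_, d1, d2⟩ := gk_near hN ha' hl0 q2
    exact ⟨idx_close2 hN a0 a1 d1, idx_close2 hN a0 a2 d2⟩
  have m1 : ∀ k, Measurable (fun ζ => ‖g k ζ‖ₑ ^ 2) := fun k => ((gc k).measurable.enorm.pow_const 2)
  have sc : Continuous (fun ζ => ∑ k ∈ grd N, g k ζ) := continuous_finset_sum _ fun k _ => gc k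
  have si : Integrable (fun ζ => ∑ k ∈ grd N, g k ζ) := integrable_finset_sum _ fun k _ => gi k
  calc ∫⁻ z in Metric.closedBall y (N:ℝ), ‖𝓕⁻ a (shT b1 b2 z)‖ₑ ^ 2 ≤ ∫⁻ z in Metric.closedBall y' (10 * (N:ℝ)), G z := step1
    _ ≤ ∫⁻ z in Metric.closedBall y' (10 * (N:ℝ)), 4 * ‖𝓕⁻ (fun ζ => ∑ k ∈ grd N, g k ζ) z‖ₑ ^ 2 :=
        setLIntegral_mono' measurableSet_closedBall step2
    _ ≤ ∫⁻ z, 4 * ‖𝓕⁻ (fun ζ => ∑ k ∈ grd N, g k ζ) z‖ₑ ^ 2 := setLIntegral_le_lintegral _ _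
    _ = 4 * ∫⁻ z, ‖𝓕⁻ (fun ζ => ∑ k ∈ grd N, g k ζ) z‖ₑ ^ 2 := lintegral_const_mul' _ _ (by norm_num)
    _ ≤ 4 * ∫⁻ ζ, ‖∑ k ∈ grd N, g k ζ‖ₑ ^ 2 := mul_le_mul' le_rfl (lintegral_sq_inv_le si sc.measurable)
    _ ≤ 4 * ∫⁻ ζ, ((289:ℕ):ℝ≥0∞) * ∑ k ∈ grd N, ‖g k ζ‖ₑ ^ 2 :=
        mul_le_mul' le_rfl (lintegral_mono fun ζ => overlap_pt (grd N) g 289 hP ζ)
    _ = 4 * (((289:ℕ):ℝ≥0∞) * ∑ k ∈ grd N, ∫⁻ ζ, ‖g k ζ‖ₑ ^ 2) := by
        rw [lintegral_const_mul' _ _ (ENNReal.natCast_ne_top _), lintegral_finset_sum _ (fun k _ => m1 k)]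
    _ ≤ 4 * (((289:ℕ):ℝ≥0∞) * ∑ k ∈ grd N, ENNReal.ofReal (C1 * (10 * (N:ℝ)) ^ 4) *
          (C2 * ∫⁻ y1, ‖𝓕⁻ (ampk N k a) y1‖ₑ ^ 2 * Phk M N k (y' - y1))) := by
        refine mul_le_mul' le_rfl (mul_le_mul' le_rfl (Finset.sum_le_sum fun k hk => ?_))
        refine (h1 (10 * N) hK0 _ (ha.ampk N k).int y').trans ?_
        exact mul_le_mul' le_rfl (h2 N hN a ha' k hk y')
    _ = _ := by
        unfold Mu
        rw [← Finset.mul_sum, ← Finset.mul_sum]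
        rw [← ENNReal.ofReal_toReal hC2]
        have e1 : (((289:ℕ):ℝ≥0∞)) = ENNReal.ofReal 289 := by norm_num
        have e2 : (4:ℝ≥0∞) = ENNReal.ofReal 4 := by norm_num
        rw [e1, e2, ← mul_assoc, ← mul_assoc, ← mul_assoc, ← ENNReal.ofReal_mul (by norm_num), ← ENNReal.ofReal_mul (by norm_num),
          ← ENNReal.ofReal_mul (by positivity), ENNReal.toReal_ofReal ENNReal.toReal_nonneg]
        congr 2
        ring


/-- the plank weight is bounded by the tube weight -/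
theorem phk_le_Phk (M : ℕ) {N : ℕ} (hN : 1 ≤ N) (k : ℤ × ℤ) (z : E4) : phk 1 M N k z ≤ ENNReal.ofReal N * Phk M N k z := by
  have hN0 : (0:ℝ) < N := by exact_mod_cast hN
  unfold phk Phk
  rw [← ENNReal.ofReal_mul hN0.le]
  apply ENNReal.ofReal_le_ofReal
  rw [div_one]
  have h1 := norm_TT_le_LT hN k z
  have h2 : ((1 + ‖LT N k z‖) ^ M)⁻¹ ≤ ((1 + ‖TT N k z‖) ^ M)⁻¹ := by
    apply inv_anti₀ (by positivity)
    apply pow_le_pow_left₀ (by positivity)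
    linarith
  have e : (N:ℝ) * (((N:ℝ) ^ 5)⁻¹ * ((1 + ‖TT N k z‖) ^ M)⁻¹) = ((N:ℝ) ^ 4)⁻¹ * ((1 + ‖TT N k z‖) ^ M)⁻¹ := by
    field_simp
  rw [e]
  gcongr

theorem stBER : StBER := by
  intro M
  obtain ⟨C1, hC1, h1⟩ := sq_le_Sk (Λ := 1) (c0 := 1) le_rfl le_rfl M
  refine ⟨C1.toReal, ENNReal.toReal_nonneg, ?_⟩
  intro N hN a c0 R ha hc hNR y
  have hN0 : (0:ℝ) < N := by exact_mod_cast hN
  have hN1 : (1:ℝ) ≤ N := by exact_mod_cast hN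
  have hN2 : (0:ℝ) < (N:ℝ) ^ 2 := by positivity
  have ha' : Amp 1 ((N:ℝ) ^ 2) a := ha.mono hc (inv_anti₀ hN2 hNR)
  have hs : ∀ k, Sk 1 M N a k y ≤ ENNReal.ofReal N * ∫⁻ y1, ‖𝓕⁻ (ampk N k a) y1‖ₑ ^ 2 * Phk M N k (y - y1) := by
    intro k
    unfold Sk
    rw [← lintegral_const_mul' _ _ ENNReal.ofReal_ne_top]
    refine lintegral_mono fun y1 => ?_
    calc _ ≤ ‖𝓕⁻ (ampk N k a) y1‖ₑ ^ 2 * (ENNReal.ofReal N * Phk M N k (y - y1)) := mul_le_mul' le_rfl (phk_le_Phk M hN k _)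
      _ = _ := by ring
  calc ‖𝓕⁻ a y‖ₑ ^ 2 = ‖∑ k ∈ grd N, 𝓕⁻ (ampk N k a) y‖ₑ ^ 2 := by rw [← inv_split_all ha hN y]
    _ ≤ ((grd N).card : ℝ≥0∞) * ∑ k ∈ grd N, ‖𝓕⁻ (ampk N k a) y‖ₑ ^ 2 := enorm_sum_sq_le _ _
    _ ≤ ENNReal.ofReal ((N:ℝ) ^ 2) * ∑ k ∈ grd N, C1 * (ENNReal.ofReal N * ∫⁻ y1, ‖𝓕⁻ (ampk N k a) y1‖ₑ ^ 2 * Phk M N k (y - y1)) := by
        refine mul_le_mul' ?_ (Finset.sum_le_sum fun k hk => (h1 N hN a ha' k y).trans (mul_le_mul' le_rfl (hs k)))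
        rw [card_grd]
        norm_cast
    _ = (ENNReal.ofReal ((N:ℝ) ^ 2) * C1 * ENNReal.ofReal N) * Mu M N a y := by
        unfold Mu
        rw [← Finset.mul_sum, ← Finset.mul_sum]
        ring
    _ ≤ _ := by
        refine mul_le_mul' ?_ le_rfl
        rw [← ENNReal.ofReal_toReal hC1, ← ENNReal.ofReal_mul (by positivity), ← ENNReal.ofReal_mul (by positivity),
          ENNReal.toReal_ofReal ENNReal.toReal_nonneg]
        apply ENNReal.ofReal_le_ofReal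
        have h3 : (N:ℝ) ^ 3 ≤ (N:ℝ) ^ 20 := pow_le_pow_right₀ hN1 (by norm_num)
        have hc1 : 0 ≤ C1.toReal := ENNReal.toReal_nonneg
        calc (N:ℝ) ^ 2 * C1.toReal * N = C1.toReal * (N:ℝ) ^ 3 := by ring
          _ ≤ _ := by gcongr

end Vale.Agent.P106.G
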