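import Vale.Agent.P106.G.KinA
import Vale.Agent.P106.G.Loc2

/-! # Preparations for the assembly: change of variables, transport -/

open MeasureTheory Complex Set
open scoped ENNReal NNReal ContDiff FourierTransform

set_option linter.all false

namespace Vale.Agent.P106.G

open Vale.Agent.P117 (Adm)

/-- matrix of the coordinates `(t, y)` -/
noncomputable def Hyp.Zm (H : Hyp) : Matrix (Fin 4) (Fin 4) ℝ :=
  !![0, 1, 0, 0; 0, 0, 1, 0; 0, 0, 0, 1; 1, -H.s, -H.q1, -H.q2]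

theorem Zm_det (H : Hyp) : H.Zm.det = -1 := by
  unfold Hyp.Zm
  rw [Matrix.det_succ_row_zero]
  simp [Fin.sum_univ_four, Matrix.det_fin_three, Fin.succAbove, Matrix.submatrix]

theorem mat4_Zm (H : Hyp) (t : ℝ) (y : E3) : mat4 H.Zm (cn t y) = H.zt t y := by
  apply ext4
  · rw [mat4_apply]; simp [Hyp.Zm, Hyp.zt, cn0, cn1, cn2, cn3]
  · rw [mat4_apply]; simp [Hyp.Zm, Hyp.zt, cn0, cn1, cn2, cn3]
  · rw [mat4_apply]; simp [Hyp.Zm, Hyp.zt, cn0, cn1, cn2, cn3]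
  · rw [mat4_apply]; simp [Hyp.Zm, Hyp.zt, cn0, cn1, cn2, cn3]; ring

theorem lint_zt (H : Hyp) {F : E4 → ℝ≥0∞} (hF : Measurable F) : ∫⁻ z, F z = ∫⁻ t : ℝ, ∫⁻ y : E3, F (H.zt t y) := by
  have hne : H.Zm.det ≠ 0 := by rw [Zm_det]; norm_num
  have h1 := lintegral_mat4 hne F
  rw [Zm_det] at h1
  have h2 : ∫⁻ z, F z = ∫⁻ w, F (mat4 H.Zm w) := by rw [h1]; simp
  have hm : Measurable (fun w => F (mat4 H.Zm w)) := hF.comp (mat4 H.Zm).continuous_of_finiteDimensional.measurable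
  rw [h2, lint4 hm]
  simp_rw [mat4_Zm]

theorem continuous_zt (H : Hyp) : Continuous (fun p : ℝ × E3 => H.zt p.1 p.2) := by
  unfold Hyp.zt
  apply (PiLp.continuous_toLp 2 _).comp
  apply continuous_pi
  intro i
  fin_cases i <;> simp <;> fun_prop

theorem measurable_zt (H : Hyp) (t : ℝ) : Measurable (H.zt t) :=
  (continuous_zt H).measurable.comp (measurable_const.prodMk measurable_id)

theorem continuous_tm (H : Hyp) : Continuous H.tm := by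
  unfold Hyp.tm; fun_prop

theorem cont_sp3 : Continuous sp3 := by
  unfold sp3
  apply (PiLp.continuous_toLp 2 _).comp
  apply continuous_pi
  intro i
  fin_cases i <;> simp <;> fun_prop

theorem sp3_zt (H : Hyp) (t : ℝ) (y : E3) : sp3 (H.zt t y) = y := by
  apply ext3 <;> simp [sp3, Hyp.zt]

theorem abs_tm_le {H : Hyp} (hb : H.Bd) (z : E4) : |H.tm z| ≤ 2 * ‖z‖ := by
  obtain ⟨s0, s1, q1, q2, D0, D1⟩ := hb
  have z0 := abs_coord_le z 0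
  have z1 := abs_coord_le z 1
  have z2 := abs_coord_le z 2
  have z3 := abs_coord_le z 3
  have a0 : |H.s * z 0| ≤ 1/64 * ‖z‖ := by rw [abs_mul, abs_of_pos s0]; exact mul_le_mul s1 z0 (abs_nonneg _) (by norm_num)
  have a1 : |H.q1 * z 1| ≤ 1/16 * ‖z‖ := by rw [abs_mul]; exact mul_le_mul q1 z1 (abs_nonneg _) (by norm_num)
  have a2 : |H.q2 * z 2| ≤ 1/16 * ‖z‖ := by rw [abs_mul]; exact mul_le_mul q2 z2 (abs_nonneg _) (by norm_num)
  unfold Hyp.tm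
  have hn := norm_nonneg z
  calc |H.s * z 0 + H.q1 * z 1 + H.q2 * z 2 + z 3| ≤ |H.s * z 0| + |H.q1 * z 1| + |H.q2 * z 2| + |z 3| :=
        (abs_add_le _ _).trans (add_le_add (abs_add_three _ _ _) le_rfl)
    _ ≤ _ := by linarith

theorem norm_bp_le {H : Hyp} (hb : H.Bd) {v1 v2 : ℝ} (hm : 1 ≤ H.m v1 v2) (h1 : 0 ≤ v1) (h1' : v1 ≤ 1) (h2 : 0 ≤ v2) (h2' : v2 ≤ 1)
    (z : E4) : ‖H.bp v1 v2 z‖ ≤ 20 * ‖z‖ := by
  have z0 := abs_coord_le z 0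
  have z1 := abs_coord_le z 1
  have z2 := abs_coord_le z 2
  have hn := norm_nonneg z
  have ht := abs_tm_le hb z
  have hq : |H.tm z / H.m v1 v2| ≤ 2 * ‖z‖ := by
    rw [abs_div, abs_of_pos (by linarith : 0 < H.m v1 v2)]
    exact (div_le_self (abs_nonneg _) hm).trans ht
  set q := H.tm z / H.m v1 v2 with hqd
  have b0 : |H.bp v1 v2 z 0| ≤ 5 * ‖z‖ := by
    show |z 0 - q * (v1 ^ 2 + v2 ^ 2)| ≤ _
    have : |q * (v1 ^ 2 + v2 ^ 2)| ≤ 2 * ‖z‖ * 2 := by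
      rw [abs_mul, abs_of_nonneg (by positivity : 0 ≤ v1 ^ 2 + v2 ^ 2)]
      exact mul_le_mul hq (by nlinarith) (by positivity) (by positivity)
    exact (abs_sub _ _).trans (by linarith)
  have b1 : |H.bp v1 v2 z 1| ≤ 5 * ‖z‖ := by
    show |z 1 + 2 * q * v1| ≤ _
    have : |2 * q * v1| ≤ 2 * (2 * ‖z‖) * 1 := by
      rw [abs_mul, abs_mul, abs_of_pos (by norm_num : (0:ℝ) < 2), abs_of_nonneg h1]
      gcongr
    exact (abs_add_le _ _).trans (by linarith)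
  have b2 : |H.bp v1 v2 z 2| ≤ 5 * ‖z‖ := by
    show |z 2 + 2 * q * v2| ≤ _
    have : |2 * q * v2| ≤ 2 * (2 * ‖z‖) * 1 := by
      rw [abs_mul, abs_mul, abs_of_pos (by norm_num : (0:ℝ) < 2), abs_of_nonneg h2]
      gcongr
    exact (abs_add_le _ _).trans (by linarith)
  exact (norm3_le1 _).trans (by linarith)

theorem cont_bp (H : Hyp) (v1 v2 : ℝ) : Continuous (H.bp v1 v2) := by
  unfold Hyp.bp
  have := continuous_tm H
  apply (PiLp.continuous_toLp 2 _).comp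
  apply continuous_pi
  intro i
  fin_cases i <;> simp <;> fun_prop

theorem measurable_Wu (H : Hyp) (N : ℕ) {ν : ℤ × ℤ → E3 → ℝ≥0∞} (hν : ∀ k, Measurable (ν k)) : Measurable (H.Wu N ν) := by
  unfold Hyp.Wu
  exact Finset.measurable_sum _ fun k _ => (hν k).comp (cont_bp H _ _).measurable

/-- slow variation of the transported density -/
theorem Wu_slow {H : Hyp} (hH : H.ok2) {N : ℕ} (hN : 1 ≤ N) {C d : ℝ} {ν : ℤ × ℤ → E3 → ℝ≥0∞} (hd : 20 * (N:ℝ) ≤ d)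
    (hν : ∀ k y y', ‖y - y'‖ ≤ d → ν k y ≤ ENNReal.ofReal C * ν k y') {z u : E4} (h : dist z u ≤ N) :
    H.Wu N ν z ≤ ENNReal.ofReal C * H.Wu N ν u := by
  unfold Hyp.Wu
  rw [Finset.mul_sum]
  refine Finset.sum_le_sum fun k hk => ?_
  obtain ⟨g1, g2, g3, g4⟩ := grd_bd hk
  apply hν
  rw [← bp_sub]
  refine (norm_bp_le hH.ok.bd (hH.m_bd g1 g2 g3 g4).1 g1 g2 g3 g4 _).trans ?_
  rw [dist_eq_norm] at h
  linarith

/-- transport preserves the mass -/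
theorem lint_bp (H : Hyp) (v1 v2 t : ℝ) (f : E3 → ℝ≥0∞) : ∫⁻ y : E3, f (H.bp v1 v2 (H.zt t y)) = ∫⁻ y, f y := by
  have e : ∀ y, H.bp v1 v2 (H.zt t y) = y + !₂[-(t / H.m v1 v2 * (v1 ^ 2 + v2 ^ 2)), 2 * (t / H.m v1 v2) * v1, 2 * (t / H.m v1 v2) * v2] := by
    intro y
    unfold Hyp.bp
    rw [tm_zt]
    apply ext3
    · simp [Hyp.zt]; ring
    · simp [Hyp.zt]
    · simp [Hyp.zt]
  simp_rw [e]
  exact lintegral_add_right_eq_self f _

theorem lint_Wu (H : Hyp) (N : ℕ) {ν : ℤ × ℤ → E3 → ℝ≥0∞} (hν : ∀ k, Measurable (ν k)) (a b : ℝ) :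
    ∫⁻ z in {z | a ≤ H.tm z ∧ H.tm z ≤ b}, H.Wu N ν z = ENNReal.ofReal (b - a) * Eng N ν := by
  have mS : MeasurableSet {z : E4 | a ≤ H.tm z ∧ H.tm z ≤ b} :=
    (measurableSet_le measurable_const (continuous_tm H).measurable).inter
      (measurableSet_le (continuous_tm H).measurable measurable_const)
  have mW := measurable_Wu H N hν
  rw [← lintegral_indicator mS, lint_zt H (mW.indicator mS)]
  have e : ∀ t, ∫⁻ y : E3, {z : E4 | a ≤ H.tm z ∧ H.tm z ≤ b}.indicator (H.Wu N ν) (H.zt t y) =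
      (Icc a b).indicator (fun _ => Eng N ν) t := by
    intro t
    by_cases ht : t ∈ Icc a b
    · rw [indicator_of_mem ht]
      have e1 : ∀ y, {z : E4 | a ≤ H.tm z ∧ H.tm z ≤ b}.indicator (H.Wu N ν) (H.zt t y) = H.Wu N ν (H.zt t y) := by
        intro y
        apply indicator_of_mem
        simp only [mem_setOf_eq, tm_zt]
        exact ht
      simp_rw [e1]
      unfold Hyp.Wu Eng
      rw [lintegral_finset_sum]
      · refine Finset.sum_congr rfl fun k _ => ?_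
        exact lint_bp H _ _ t (ν k)
      · intro k _
        exact (hν k).comp ((cont_bp H _ _).measurable.comp (measurable_zt H t))
    · rw [indicator_of_notMem ht]
      have e1 : ∀ y, {z : E4 | a ≤ H.tm z ∧ H.tm z ≤ b}.indicator (H.Wu N ν) (H.zt t y) = 0 := by
        intro y
        apply indicator_of_notMem
        simp only [mem_setOf_eq, tm_zt]
        exact ht
      simp_rw [e1]
      simp
  simp_rw [e]
  rw [lintegral_indicator measurableSet_Icc, setLIntegral_const, Real.volume_Icc, mul_comm]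

/-- homogeneity -/
theorem tm_smul (H : Hyp) (c : ℝ) (z : E4) : H.tm (c • z) = c * H.tm z := by
  unfold Hyp.tm
  simp only [PiLp.smul_apply, smul_eq_mul]
  ring

theorem bp_smul (H : Hyp) (v1 v2 c : ℝ) (z : E4) : H.bp v1 v2 (c • z) = c • H.bp v1 v2 z := by
  unfold Hyp.bp
  rw [tm_smul]
  apply ext3
  · simp; ring
  · simp; ring
  · simp; ring

theorem Eng_scale (N : ℕ) {r δ : ℝ} (hr : 0 < r) (hδ : 0 ≤ δ) (ν : ℤ × ℤ → E3 → ℝ≥0∞) (hν : ∀ k, Measurable (ν k)) :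
    Eng N (fun k x => ENNReal.ofReal δ * ν k (r • x)) = ENNReal.ofReal (δ * (r ^ 3)⁻¹) * Eng N ν := by
  unfold Eng
  rw [Finset.mul_sum]
  refine Finset.sum_congr rfl fun k _ => ?_
  have hm : Measurable (fun x : E3 => ν k (r • x)) := (hν k).comp (measurable_const_smul r)
  rw [lintegral_const_mul _ hm, ENNReal.ofReal_mul hδ, mul_assoc]
  congr 1
  have h := Vale.Agent.P106.Tri.lintegral_smul3 hr (hν k)
  rw [h]

theorem geo_unit {Cx : ℕ} (hGEO : StGEO Cx) {c C1 T0 : ℝ} (hc : 0 < c) (hT0 : 1 ≤ T0) {δ : ℝ} (hδ : 0 < δ) :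
    ∃ K : ℝ, 0 ≤ K ∧ ∀ (N : ℕ) (H : Hyp), 1 ≤ N → H.ok → ∀ (ν1 ν2 : ℤ × ℤ → E3 → ℝ≥0∞),
    (∀ k, Measurable (ν1 k)) → (∀ k, Measurable (ν2 k)) →
    (∀ k y y', ‖y - y'‖ ≤ N → ν1 k y ≤ ENNReal.ofReal C1 * ν1 k y') →
    (∀ k y y', ‖y - y'‖ ≤ N → ν2 k y ≤ ENNReal.ofReal C1 * ν2 k y') →
    (∀ y, ∑ k ∈ grd N, ν1 k y ≤ ENNReal.ofReal (C1 * (N:ℝ) ^ δ)) → (∀ y, ∑ k ∈ grd N, ν2 k y ≤ ENNReal.ofReal (C1 * (N:ℝ) ^ δ)) →
    Eng N ν1 < ⊤ → Eng N ν2 < ⊤ → Eng N ν1 ≠ 0 → Eng N ν2 ≠ 0 → Sepf N c ν1 ν2 →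
    ∀ (X : Set E4) (w1 w2 e1 e2 : ℝ), MeasurableSet X → (∀ z ∈ X, (N:ℝ) ^ 2 ≤ H.tm z ∧ H.tm z ≤ T0 * (N:ℝ) ^ 2) →
    0 ≤ w1 → 0 ≤ w2 → 0 ≤ e1 → 0 ≤ e2 → e1 ≤ 1 → e2 ≤ 1 →
    (∀ z ∈ X, ENNReal.ofReal w1 ≤ H.Wu N ν1 z ∧ H.Wu N ν1 z ≤ ENNReal.ofReal (C1 * w1)) →
    (∀ z ∈ X, ENNReal.ofReal w2 ≤ H.Wu N ν2 z ∧ H.Wu N ν2 z ≤ ENNReal.ofReal (C1 * w2)) →
    ENNReal.ofReal (e1 * (N:ℝ) ^ 2) * Eng N ν1 ≤ ENNReal.ofReal w1 * volume X →
    ENNReal.ofReal (e2 * (N:ℝ) ^ 2) * Eng N ν2 ≤ ENNReal.ofReal w2 * volume X →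
    (w1 * w2) ^ 14 * (e1 * e2) ^ Cx ≤ K * (N:ℝ) ^ (26 + 28 * δ) * (1 + Real.log N) ^ Cx := by
  obtain ⟨K, hK, h⟩ := hGEO c C1 T0 hc hT0
  refine ⟨K, hK, ?_⟩
  intro N H hN hH ν1 ν2 m1 m2 s1 s2 u1 u2 f1 f2 n1 n2 hsep X w1 w2 e1 e2 mX hX hw1 hw2 he1 he2 he1' he2' g1 g2 q1 q2
  have hNr1 : (1:ℝ) ≤ N := by exact_mod_cast hN
  have hN0 : (0:ℝ) < N := by linarith
  set r : ℝ := (N:ℝ) ^ 2 with hr
  have hr0 : 0 < r := by positivity
  set D : ℝ := (N:ℝ) ^ (-δ) with hD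
  have hD0 : 0 < D := by positivity
  have hDN : D * (N:ℝ) ^ δ = 1 := by
    rw [hD, ← Real.rpow_add hN0, neg_add_cancel, Real.rpow_zero]
  have dens : ∀ (ν : ℤ × ℤ → E3 → ℝ≥0∞), (∀ k, Measurable (ν k)) →
      (∀ k y y', ‖y - y'‖ ≤ N → ν k y ≤ ENNReal.ofReal C1 * ν k y') →
      (∀ y, ∑ k ∈ grd N, ν k y ≤ ENNReal.ofReal (C1 * (N:ℝ) ^ δ)) → Eng N ν < ⊤ →
      Dens N C1 ((N:ℝ)⁻¹) (fun k x => ENNReal.ofReal D * ν k (r • x)) := by
    intro ν m s u f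
    refine ⟨fun k => ((m k).comp (measurable_const_smul r)).const_mul _, ?_, ?_, ?_⟩
    · intro k y y' hy
      have : ‖r • y - r • y'‖ ≤ N := by
        rw [← smul_sub, norm_smul, Real.norm_of_nonneg hr0.le]
        calc r * ‖y - y'‖ ≤ r * (N:ℝ)⁻¹ := by gcongr
          _ = N := by rw [hr]; field_simp
      calc ENNReal.ofReal D * ν k (r • y) ≤ ENNReal.ofReal D * (ENNReal.ofReal C1 * ν k (r • y')) := mul_le_mul' le_rfl (s k _ _ this)
        _ = _ := by ring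
    · intro y
      rw [← Finset.mul_sum]
      calc _ ≤ ENNReal.ofReal D * ENNReal.ofReal (C1 * (N:ℝ) ^ δ) := mul_le_mul' le_rfl (u _)
        _ = _ := by
          rw [← ENNReal.ofReal_mul hD0.le]
          congr 1
          calc D * (C1 * (N:ℝ) ^ δ) = C1 * (D * (N:ℝ) ^ δ) := by ring
            _ = C1 := by rw [hDN, mul_one]
    · rw [Eng_scale N hr0 hD0.le ν m]
      exact ENNReal.mul_lt_top ENNReal.ofReal_lt_top f
  have hW : ∀ (ν : ℤ × ℤ → E3 → ℝ≥0∞) z, H.W N (fun k x => ENNReal.ofReal D * ν k (r • x)) z = ENNReal.ofReal D * H.Wu N ν (r • z) := by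
    intro ν z
    unfold Hyp.W Hyp.Wu
    rw [Finset.mul_sum]
    refine Finset.sum_congr rfl fun k _ => ?_
    rw [bp_smul]
  set X' : Set E4 := (fun z => r • z) ⁻¹' X with hX'
  have mX' : MeasurableSet X' := (measurable_const_smul r) mX
  have vX' : volume X' = ENNReal.ofReal ((r ^ 4)⁻¹) * volume X := by
    rw [hX', Measure.addHaar_preimage_smul _ hr0.ne']
    congr 2
    simp [abs_of_pos hr0]
  have hNE : ∀ (ν : ℤ × ℤ → E3 → ℝ≥0∞), (∀ k, Measurable (ν k)) → Eng N ν ≠ 0 → Eng N (fun k x => ENNReal.ofReal D * ν k (r • x)) ≠ 0 := by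
    intro ν m n
    rw [Eng_scale N hr0 hD0.le ν m]
    refine mul_ne_zero ?_ n
    rw [ne_eq, ENNReal.ofReal_eq_zero, not_le]
    positivity
  have hEn : ∀ (ν : ℤ × ℤ → E3 → ℝ≥0∞) (e w : ℝ), (∀ k, Measurable (ν k)) → 0 ≤ e → 0 ≤ w →
      ENNReal.ofReal (e * r) * Eng N ν ≤ ENNReal.ofReal w * volume X →
      ENNReal.ofReal e * Eng N (fun k x => ENNReal.ofReal D * ν k (r • x)) ≤ ENNReal.ofReal (D * w) * volume X' := by
    intro ν e w m he hw hq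
    rw [Eng_scale N hr0 hD0.le ν m, vX']
    calc ENNReal.ofReal e * (ENNReal.ofReal (D * (r ^ 3)⁻¹) * Eng N ν) = ENNReal.ofReal (D * (r ^ 4)⁻¹) * (ENNReal.ofReal (e * r) * Eng N ν) := by
          rw [← mul_assoc, ← mul_assoc, ← ENNReal.ofReal_mul he, ← ENNReal.ofReal_mul (by positivity)]
          congr 2
          field_simp
      _ ≤ ENNReal.ofReal (D * (r ^ 4)⁻¹) * (ENNReal.ofReal w * volume X) := mul_le_mul' le_rfl hq
      _ = _ := by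
          rw [← mul_assoc, ← mul_assoc, ← ENNReal.ofReal_mul (by positivity), ← ENNReal.ofReal_mul (by positivity)]
          congr 2
          ring
  have hb : ∀ (ν : ℤ × ℤ → E3 → ℝ≥0∞) (w : ℝ), 0 ≤ w → (∀ z ∈ X, ENNReal.ofReal w ≤ H.Wu N ν z ∧ H.Wu N ν z ≤ ENNReal.ofReal (C1 * w)) →
      ∀ z ∈ X', ENNReal.ofReal (D * w) ≤ H.W N (fun k x => ENNReal.ofReal D * ν k (r • x)) z ∧
        H.W N (fun k x => ENNReal.ofReal D * ν k (r • x)) z ≤ ENNReal.ofReal (C1 * (D * w)) := by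
    intro ν w hw hz z hzX
    rw [hW]
    obtain ⟨a, b⟩ := hz _ hzX
    constructor
    · rw [ENNReal.ofReal_mul hD0.le]
      exact mul_le_mul' le_rfl a
    · have : C1 * (D * w) = D * (C1 * w) := by ring
      rw [this, ENNReal.ofReal_mul hD0.le]
      exact mul_le_mul' le_rfl b
  have hsep' : Sepf N c (fun k x => ENNReal.ofReal D * ν1 k (r • x)) (fun k x => ENNReal.ofReal D * ν2 k (r • x)) := by
    intro k hk k' hk' h1 h2
    obtain ⟨y, hy⟩ := h1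
    obtain ⟨y', hy'⟩ := h2
    exact hsep k hk k' hk' ⟨_, right_ne_zero_of_mul hy⟩ ⟨_, right_ne_zero_of_mul hy'⟩
  have main := h N H hN hH _ _ (dens ν1 m1 s1 u1 f1) (dens ν2 m2 s2 u2 f2) hsep' X' (D * w1) (D * w2) e1 e2 mX'
    (by
      intro z hz
      obtain ⟨a, b⟩ := hX _ hz
      rw [tm_smul] at a b
      constructor
      · exact le_of_mul_le_mul_left (by linarith) hr0
      · exact le_of_mul_le_mul_left (by linarith) hr0)
    (by positivity) (by positivity) he1 he2 he1' he2' (hb ν1 w1 hw1 g1) (hb ν2 w2 hw2 g2) (hEn ν1 e1 w1 m1 he1 hw1 q1)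
    (hEn ν2 e2 w2 m2 he2 hw2 q2) (hNE ν1 m1 n1) (hNE ν2 m2 n2)
  have e3 : (D * w1 * (D * w2)) ^ 14 = D ^ 28 * (w1 * w2) ^ 14 := by ring
  rw [e3] at main
  have hD28 : D ^ 28 * (N:ℝ) ^ (28 * δ) = 1 := by
    have : (N:ℝ) ^ (28 * δ) = ((N:ℝ) ^ δ) ^ 28 := by
      rw [← Real.rpow_natCast, ← Real.rpow_mul hN0.le]; congr 1; push_cast; ring
    rw [this, ← mul_pow, hDN, one_pow]
  have hNp : (0:ℝ) < (N:ℝ) ^ (28 * δ) := by positivity
  calc (w1 * w2) ^ 14 * (e1 * e2) ^ Cx = (N:ℝ) ^ (28 * δ) * (D ^ 28 * (w1 * w2) ^ 14 * (e1 * e2) ^ Cx) := by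
        calc (w1 * w2) ^ 14 * (e1 * e2) ^ Cx = (D ^ 28 * (N:ℝ) ^ (28 * δ)) * ((w1 * w2) ^ 14 * (e1 * e2) ^ Cx) := by rw [hD28, one_mul]
          _ = _ := by ring
    _ ≤ (N:ℝ) ^ (28 * δ) * (K * (N:ℝ) ^ 26 * (1 + Real.log N) ^ Cx) := by gcongr
    _ = _ := by
        rw [Real.rpow_add hN0]
        have : (N:ℝ) ^ (26:ℝ) = (N:ℝ) ^ 26 := by exact_mod_cast Real.rpow_natCast (N:ℝ) 26
        rw [this]
        ring

end Vale.Agent.P106.G
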