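import Vale.Agent.P106.G.Resc

/-! # Interfaces between the refined square function, the kinetic densities and the geometric estimate -/

open MeasureTheory Complex Set
open scoped ENNReal NNReal ContDiff FourierTransform

set_option linter.all false

namespace Vale.Agent.P106.G

open Vale.Agent.P117 (Adm)

/-- (transposed) Galilean shear by the velocity `b` -/
noncomputable def shT (b1 b2 : ℝ) (z : E4) : E4 :=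
  !₂[z 0 + b1 * z 1 + b2 * z 2 + (b1 ^ 2 + b2 ^ 2) * z 3, z 1 + 2 * b1 * z 3, z 2 + 2 * b2 * z 3, z 3]

/-- [SLABs] the slab estimate for two grids shifted by at most `1/N` -/
def StSLABs : Prop := ∀ (Λ c : ℝ) (M : ℕ), 1 ≤ Λ → 0 < c → 4 ≤ M → ∃ C : ℝ, 0 ≤ C ∧
  ∀ (N : ℕ), 1 ≤ N → ∀ (a a' : E4 → ℂ) (c0 R b1 b2 b1' b2' : ℝ), Amp c0 R a → Amp c0 R a' →
  |b1| ≤ 1 / N → |b2| ≤ 1 / N → |b1'| ≤ 1 / N → |b2'| ≤ 1 / N →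
  (∀ ζ ζ', a ζ ≠ 0 → a' ζ' ≠ 0 → c ≤ |ζ 1 / ζ 0 - ζ' 1 / ζ' 0| ∨ c ≤ |ζ 2 / ζ 0 - ζ' 2 / ζ' 0|) →
  8 / N ≤ c → ∀ y : E4,
    ∫⁻ z in Metric.closedBall y N, Sq Λ M N a (shT b1 b2 z) * Sq Λ M N a' (shT b1' b2' z) ≤
      ENNReal.ofReal (C * (N:ℝ) ^ 4) * (Mu (M - 2) N a (shT b1 b2 y) * Mu (M - 2) N a' (shT b1' b2' y))

/-- [LOC2] local orthogonality -/
def StLOC2 : Prop := ∀ M : ℕ, ∃ C : ℝ, 0 ≤ C ∧ ∀ (N : ℕ), 1 ≤ N → ∀ (a : E4 → ℂ) (c0 R : ℝ), Amp c0 R a → c0 ≤ 1 → (N:ℝ) ^ 2 ≤ R →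
  ∀ (b1 b2 : ℝ), |b1| ≤ 1 / N → |b2| ≤ 1 / N → ∀ y : E4,
    ∫⁻ z in Metric.closedBall y N, ‖𝓕⁻ a (shT b1 b2 z)‖ₑ ^ 2 ≤ ENNReal.ofReal (C * (N:ℝ) ^ 4) * Mu M N a (shT b1 b2 y)

/-- [BER] crude pointwise bound -/
def StBER : Prop := ∀ M : ℕ, ∃ C : ℝ, 0 ≤ C ∧ ∀ (N : ℕ), 1 ≤ N → ∀ (a : E4 → ℂ) (c0 R : ℝ), Amp c0 R a → c0 ≤ 1 → (N:ℝ) ^ 2 ≤ R →
  ∀ y : E4, ‖𝓕⁻ a y‖ₑ ^ 2 ≤ ENNReal.ofReal (C * (N:ℝ) ^ 20) * Mu M N a y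

/-- transported density, not normalised -/
noncomputable def Hyp.Wu (H : Hyp) (N : ℕ) (ν : ℤ × ℤ → E3 → ℝ≥0∞) (z : E4) : ℝ≥0∞ :=
  ∑ k ∈ grd N, ν k (H.bp (k.1 / N) (k.2 / N) z)

/-- [KIN] kinetic densities of a solution with bounded data: the function is the sum of four amplitudes with respect to
shifted grids, their tube averages are bounded by the transported densities `ν` -/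
def StKIN : Prop := ∀ ε : ℝ, 0 < ε → ∃ M0 : ℕ, ∀ (c0 B : ℝ) (M : ℕ) (φ1 φ2 : ℝ → ℂ), 0 < c0 → c0 ≤ 1 → 1 ≤ B → M0 ≤ M →
  Vcut φ1 → Vcut φ2 →
  ∃ (C : ℝ) (N0 : ℕ), 1 ≤ C ∧ 1 ≤ N0 ∧
  ∀ (N : ℕ) (R : ℝ) (H : Hyp) (h : E3 → ℂ), N0 ≤ N → (N:ℝ) ^ 2 ≤ R → R ≤ B * (N:ℝ) ^ 2 → H.ok2 → Adm volume h →
  (∀ y, ‖h y‖ ≤ 1) →
  ∃ (ν : ℤ × ℤ → E3 → ℝ≥0∞) (a : Fin 2 × Fin 2 → E4 → ℂ) (b1 b2 : Fin 2 × Fin 2 → ℝ),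
    (∀ o, |b1 o| ≤ 1 / N ∧ |b2 o| ≤ 1 / N) ∧
    (∀ o, Amp c0 ((N:ℝ) ^ 2) (a o)) ∧
    (∀ o ζ, a o ζ ≠ 0 → ∃ v1 v2, φ1 v1 ≠ 0 ∧ φ2 v2 ≠ 0 ∧ |ζ 1 / ζ 0 - v1| ≤ 3 / N ∧ |ζ 2 / ζ 0 - v2| ≤ 3 / N) ∧
    (∀ t ∈ Icc R (2 * R), ∀ y ∈ Metric.ball (0:E3) R,
      ‖H.U (H.mu (chi0 c0) φ1 φ2) h t y‖ ≤ ∑ o, ‖𝓕⁻ (a o) (shT (b1 o) (b2 o) (H.zt t y))‖) ∧
    (∀ o z, |H.tm z| ≤ 3 * R → Mu M N (a o) (shT (b1 o) (b2 o) z) ≤ ENNReal.ofReal C * H.Wu N ν z) ∧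
    (∀ k, Measurable (ν k)) ∧
    (∀ k, (∃ y, ν k y ≠ 0) → ∃ v1 v2, φ1 v1 ≠ 0 ∧ φ2 v2 ≠ 0 ∧ |(k.1:ℝ) / N - v1| ≤ 3 / N ∧ |(k.2:ℝ) / N - v2| ≤ 3 / N) ∧
    (∀ k y y', ‖y - y'‖ ≤ 10 * R / N → ν k y ≤ ENNReal.ofReal C * ν k y') ∧
    (∀ y, ∑ k ∈ grd N, ν k y ≤ ENNReal.ofReal (C * (N:ℝ) ^ ε)) ∧
    Eng N ν ≤ ENNReal.ofReal C * ∫⁻ y, ‖h y‖ₑ ^ 2 ∧
    (∀ o, ∫⁻ ζ, ‖a o ζ‖ₑ ^ 2 ≤ ENNReal.ofReal (C * R) * Eng N ν)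

/-- [CHAIN] the combinatorial part, in abstract form: `f_j = |F_j|`, `S_j` the square functions, `W_j` the transported
densities, `E_j` the space-time energies -/
def StCHAIN (Cx : ℕ) : Prop := ∀ (p ε' : ℝ), 2 < p → p ≤ 2 + 28 / (70 + Cx) → 0 < ε' → ∃ ε : ℝ, 0 < ε ∧
  ∀ (C K : ℝ), 2 ≤ C → 0 ≤ K → ∃ C' : ℝ, 0 ≤ C' ∧
  ∀ (N : ℕ) (Q Q' : Set E4) (f S W : Fin 2 → E4 → ℝ≥0∞) (E : Fin 2 → ℝ), 2 ≤ N → MeasurableSet Q → MeasurableSet Q' →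
  (∀ z ∈ Q, Metric.closedBall z N ⊆ Q') →
  (∀ j, Measurable (f j)) → (∀ j, Measurable (S j)) → (∀ j, Measurable (W j)) → (∀ j, 0 < E j) →
  (∀ j, ∫⁻ z, f j z ^ 3 / S j z ^ (1/2 : ℝ) ≤ ENNReal.ofReal (C * (N:ℝ) ^ ε * E j)) →
  (∀ z ∈ Q, ∫⁻ u in Metric.closedBall z N, S 0 u * S 1 u ≤ ENNReal.ofReal (C * (N:ℝ) ^ 4) * (W 0 z * W 1 z)) →
  (∀ j, ∀ z ∈ Q, ∫⁻ u in Metric.closedBall z N, f j u ^ 2 ≤ ENNReal.ofReal (C * (N:ℝ) ^ 4) * W j z) →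
  (∀ j, ∀ z ∈ Q, f j z ^ 2 ≤ ENNReal.ofReal (C * (N:ℝ) ^ 20) * W j z) →
  (∀ j, ∀ z ∈ Q, f j z ≤ ENNReal.ofReal (C * (N:ℝ) ^ 20)) →
  (∀ j, ∀ z ∈ Q', W j z ≤ ENNReal.ofReal (C * (N:ℝ) ^ 20)) →
  (∀ j z u, dist z u ≤ N → W j z ≤ ENNReal.ofReal C * W j u) →
  (∀ j, ∫⁻ z in Q, f j z ^ 2 ≤ ENNReal.ofReal (C * E j)) →
  (∀ j, ∫⁻ z in Q', W j z ≤ ENNReal.ofReal (C * E j)) →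
  (∀ (X : Set E4) (μ e : Fin 2 → ℝ), MeasurableSet X → X ⊆ Q' → (∀ j, 0 < μ j) → (∀ j, 0 ≤ e j) → (∀ j, e j ≤ 1) →
    (∀ j, ∀ z ∈ X, ENNReal.ofReal (μ j) ≤ W j z ∧ W j z ≤ ENNReal.ofReal (C ^ 3 * μ j)) →
    (∀ j, ENNReal.ofReal (e j * E j) ≤ ENNReal.ofReal (μ j) * volume X) →
    (μ 0 * μ 1) ^ 14 * (e 0 * e 1) ^ Cx ≤ K * (N:ℝ) ^ (26 + ε)) →
  ∫⁻ z in Q, (f 0 z * f 1 z) ^ (p / 2) ≤ ENNReal.ofReal (C' * (N:ℝ) ^ ((13 / 28) * (p - 2) + ε') * Real.sqrt (E 0 * E 1))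

end Vale.Agent.P106.G
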