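import Vale.Agent.P106.G.Chain
import Vale.Agent.P106.G.DefsK

/-! # The chain in the form `StCHAIN` -/

open MeasureTheory Complex Set
open scoped ENNReal NNReal

set_option linter.all false

namespace Vale.Agent.P106.G

theorem pow_log (C : ℝ) (hC : 1 ≤ C) (ε : ℝ) (hε : 0 < ε) : ∃ D : ℝ, 0 ≤ D ∧ ∀ N : ℕ, 1 ≤ N →
    ∃ L : ℕ, C * (N:ℝ) ^ 20 ≤ 2 ^ L ∧ (4 * (L:ℝ) + 1) ^ 4 ≤ D * (N:ℝ) ^ ε := by
  set δ := ε / 80 with hδ
  have hδ0 : 0 < δ := by positivity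
  have hl2 : 0 < Real.log 2 := Real.log_pos (by norm_num)
  set A := 5 + 4 / (δ * Real.log 2) with hA
  have hA0 : 0 < A := by positivity
  refine ⟨A ^ 4 * C ^ (4 * δ), by positivity, ?_⟩
  intro N hN
  have hN1 : (1:ℝ) ≤ N := by exact_mod_cast hN
  have hN0 : (0:ℝ) < N := by linarith
  set X := C * (N:ℝ) ^ 20 with hX
  have hX1 : 1 ≤ X := by
    have := one_le_pow₀ hN1 (n := 20)
    calc (1:ℝ) = 1 * 1 := by norm_num
      _ ≤ _ := by rw [hX]; gcongr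
  have hX0 : 0 < X := by linarith
  have hlog0 : 0 ≤ Real.logb 2 X := Real.logb_nonneg (by norm_num) hX1
  refine ⟨⌈Real.logb 2 X⌉₊, ?_, ?_⟩
  · have h1 : Real.logb 2 X ≤ (⌈Real.logb 2 X⌉₊ : ℝ) := Nat.le_ceil _
    calc X = (2:ℝ) ^ (Real.logb 2 X) := (Real.rpow_logb (by norm_num) (by norm_num) hX0).symm
      _ ≤ (2:ℝ) ^ ((⌈Real.logb 2 X⌉₊ : ℕ) : ℝ) := Real.rpow_le_rpow_of_exponent_le (by norm_num) h1
      _ = _ := Real.rpow_natCast _ _
  · have h2 : (⌈Real.logb 2 X⌉₊ : ℝ) ≤ Real.logb 2 X + 1 := (Nat.ceil_lt_add_one hlog0).le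
    have h3 : Real.logb 2 X ≤ X ^ δ / (δ * Real.log 2) := by
      unfold Real.logb
      rw [div_le_div_iff₀ hl2 (by positivity)]
      have := Real.log_le_rpow_div hX0.le hδ0
      have h5 : Real.log X * δ ≤ X ^ δ := by rwa [le_div_iff₀ hδ0] at this
      calc Real.log X * (δ * Real.log 2) = (Real.log X * δ) * Real.log 2 := by ring
        _ ≤ _ := by gcongr
    have hXd : 1 ≤ X ^ δ := Real.one_le_rpow hX1 hδ0.le
    have h4 : 4 * (⌈Real.logb 2 X⌉₊ : ℝ) + 1 ≤ A * X ^ δ := by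
      have : A * X ^ δ = 5 * X ^ δ + 4 * (X ^ δ / (δ * Real.log 2)) := by rw [hA]; ring
      rw [this]
      linarith
    calc (4 * (⌈Real.logb 2 X⌉₊ : ℝ) + 1) ^ 4 ≤ (A * X ^ δ) ^ 4 := by gcongr
      _ = A ^ 4 * (X ^ δ) ^ 4 := by ring
      _ = A ^ 4 * X ^ (4 * δ) := by
          congr 1
          rw [← Real.rpow_natCast, ← Real.rpow_mul hX0.le]
          congr 1
          push_cast; ring
      _ = A ^ 4 * C ^ (4 * δ) * (N:ℝ) ^ ε := by
          rw [hX, Real.mul_rpow (by linarith) (by positivity), ← Real.rpow_natCast (N:ℝ) 20, ← Real.rpow_mul hN0.le, mul_assoc]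
          congr 3
          rw [hδ]; push_cast; ring

theorem stCHAIN (Cx : ℕ) : StCHAIN Cx := by
  intro p ε' hp hp2 hε'
  set ε := ε' / 3 with hε
  have hε0 : 0 < ε := by positivity
  refine ⟨ε, hε0, ?_⟩
  intro C K hC hK
  have hC1 : 1 ≤ C := by linarith
  have hC0 : 0 < C := by linarith
  have hvb := vbr_pos
  have hpC : (p - 2) * (70 + Cx) ≤ 28 := by
    have h70 : (0:ℝ) < 70 + Cx := by positivity
    have : p - 2 ≤ 28 / (70 + Cx) := by linarith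
    rwa [le_div_iff₀ h70] at this
  obtain ⟨D, hD, hL⟩ := pow_log C hC1 ε hε0
  set s := (p - 2) / 56 with hs
  have hs0 : 0 < s := by rw [hs]; linarith
  have hs1 : s ≤ 1 := by
    have : p - 2 ≤ 28 := by
      have h70 : (1:ℝ) ≤ 70 + Cx := by
        have : (0:ℝ) ≤ Cx := Nat.cast_nonneg _
        linarith
      nlinarith
    rw [hs]; linarith
  set C' := C + D * 4 ^ (p / 2) * (4 * C ^ 4 * (1 + vb.toReal⁻¹)) * (256 * C ^ 3) * K ^ s with hC'
  refine ⟨C', by positivity, ?_⟩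
  intro N Q Q' f S W E hN mQ mQ' hQQ mf mS mW hE hR hSl hLo hBe hfU hWU hHa hf2 hT hG
  have hN1 : 1 ≤ N := by omega
  obtain ⟨L, hL1, hL2⟩ := hL N hN1
  have hNr1 : (1:ℝ) ≤ N := by exact_mod_cast hN1
  have hNr0 : (0:ℝ) < N := by linarith
  have hNε : 1 ≤ (N:ℝ) ^ ε := Real.one_le_rpow hNr1 hε0.le
  set B := 256 * C ^ 3 * (N:ℝ) ^ ε with hB
  have hC3 : 1 ≤ C ^ 3 := one_le_pow₀ hC1
  have hC13 : C ≤ C ^ 3 := le_self_pow₀ hC1 (by norm_num)
  have hC23 : C ^ 2 ≤ C ^ 3 := pow_le_pow_right₀ hC1 (by norm_num)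
  have hB1 : 1 ≤ B := by
    rw [hB]
    calc (1:ℝ) = 1 * 1 * 1 := by norm_num
      _ ≤ 256 * C ^ 3 * (N:ℝ) ^ ε := by gcongr; norm_num
  have hBC : 256 * C ^ 3 ≤ B := by
    rw [hB]; nlinarith [mul_pos (show (0:ℝ) < 16 by norm_num) (pow_pos hC0 3)]
  have hBR : C * (N:ℝ) ^ ε ≤ B := by
    rw [hB]
    have : C ≤ 256 * C ^ 3 := by linarith
    gcongr
  set Ω' := Metric.thickening ((N:ℝ) / 2) Q with hΩ'
  have hΩQ : Ω' ⊆ Q' := by
    intro y hy
    obtain ⟨z, hz, hd⟩ := Metric.mem_thickening_iff.1 hy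
    exact hQQ z hz (Metric.mem_closedBall.2 (by linarith))
  have hQQ' : Q ⊆ Q' := fun z hz => hQQ z hz (Metric.mem_closedBall_self hNr0.le)
  have hN4 : (N:ℝ) ^ 4 = 256 * ((N:ℝ) / 4) ^ 4 := by ring
  -- neighbours
  have nb : ∀ y ∈ Ω', ∃ z ∈ Q, Metric.closedBall y ((N:ℝ) / 4) ⊆ Metric.closedBall z (N:ℝ) ∧ ∀ j, W j z ≤ ENNReal.ofReal C * W j y := by
    intro y hy
    obtain ⟨z, hz, hd⟩ := Metric.mem_thickening_iff.1 hy
    refine ⟨z, hz, ?_, fun j => hHa j z y (by rw [dist_comm]; linarith)⟩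
    intro u hu
    rw [Metric.mem_closedBall] at hu ⊢
    calc dist u z ≤ dist u y + dist y z := dist_triangle _ _ _
      _ ≤ N := by linarith
  have hcd : ∀ j, Cdat ((N:ℝ) / 4) C B (2 ^ L) (E j) Q Ω' (f j) (S j) (W j) := by
    intro j
    refine ⟨mf j, mS j, mW j, ?_, ?_, ?_, ?_, hf2 j, ?_, ?_, ?_⟩
    · refine (hR j).trans (ENNReal.ofReal_le_ofReal ?_)
      have := hE j
      gcongr
    · intro y hy
      obtain ⟨z, hz, hsub, hWz⟩ := nb y hy
      calc ∫⁻ u in Metric.closedBall y ((N:ℝ) / 4), f j u ^ 2 ≤ ∫⁻ u in Metric.closedBall z (N:ℝ), f j u ^ 2 := lintegral_mono_set hsub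
        _ ≤ ENNReal.ofReal (C * (N:ℝ) ^ 4) * W j z := hLo j z hz
        _ ≤ ENNReal.ofReal (C * (N:ℝ) ^ 4) * (ENNReal.ofReal C * W j y) := by gcongr; exact hWz j
        _ = ENNReal.ofReal ((256 * C ^ 2) * ((N:ℝ) / 4) ^ 4) * W j y := by
            rw [← mul_assoc, ← ENNReal.ofReal_mul (by positivity)]
            congr 2
            ring
        _ ≤ _ := by
            gcongr
            linarith
    · intro y z hyz
      exact hHa j z y (by rw [dist_eq_norm]; linarith)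
    · exact (lintegral_mono_set hΩQ).trans (hT j)
    · intro z hz
      refine (hBe j z hz).trans ?_
      gcongr
    · intro z hz
      exact (hfU j z hz).trans (ENNReal.ofReal_le_ofReal hL1)
    · intro z hz
      exact (hWU j z (hQQ' hz)).trans (ENNReal.ofReal_le_ofReal hL1)
  have hmain := chain (p := p) (Cx := Cx) hp hpC hC1 (N := (N:ℝ) / 4) (B := B) (L := L) (Γ := K * (N:ℝ) ^ (26 + ε))
    (by positivity) hB1 (hE 0) (hE 1) (by positivity) mQ (hcd 0) (hcd 1)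
    (fun z hz => by
      intro y hy
      rw [Metric.mem_closedBall] at hy
      exact Metric.mem_thickening_iff.2 ⟨z, hz, by linarith⟩)
    (by
      intro y hy
      obtain ⟨z, hz, hsub, hWz⟩ := nb y hy
      calc ∫⁻ u in Metric.closedBall y ((N:ℝ) / 4), S 0 u * S 1 u ≤ ∫⁻ u in Metric.closedBall z (N:ℝ), S 0 u * S 1 u :=
            lintegral_mono_set hsub
        _ ≤ ENNReal.ofReal (C * (N:ℝ) ^ 4) * (W 0 z * W 1 z) := hSl z hz
        _ ≤ ENNReal.ofReal (C * (N:ℝ) ^ 4) * ((ENNReal.ofReal C * W 0 y) * (ENNReal.ofReal C * W 1 y)) := by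
            gcongr
            · exact hWz 0
            · exact hWz 1
        _ = ENNReal.ofReal ((256 * C ^ 3) * ((N:ℝ) / 4) ^ 4) * (W 0 y * W 1 y) := by
            have e : (256 * C ^ 3) * ((N:ℝ) / 4) ^ 4 = (C * (N:ℝ) ^ 4) * (C * C) := by ring
            rw [e, ENNReal.ofReal_mul (p := C * (N:ℝ) ^ 4) (by positivity), ENNReal.ofReal_mul (p := C) (q := C) hC0.le]
            ring
        _ ≤ _ := by gcongr)
    (by
      intro Y w1 w2 e1 e2 mY hY hw1 hw2 e1n e1l e2n e2l a1 a2 g1 g2 hv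
      have hr : ∀ {w : ℝ}, 0 < w → 2 * C ^ 2 * w ≤ C ^ 3 * w := by
        intro w hw
        have : 2 * C ^ 2 ≤ C ^ 3 := by
          rw [pow_succ C 2, mul_comm]
          gcongr
        gcongr
      have := hG Y ![w1, w2] ![e1, e2] mY (hY.trans hΩQ) (by intro j; fin_cases j <;> assumption)
        (by intro j; fin_cases j <;> assumption) (by intro j; fin_cases j <;> assumption)
        (by
          intro j z hz
          fin_cases j
          · exact ⟨(a1 z hz).1, (a1 z hz).2.trans (ENNReal.ofReal_le_ofReal (hr hw1))⟩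
          · exact ⟨(a2 z hz).1, (a2 z hz).2.trans (ENNReal.ofReal_le_ofReal (hr hw2))⟩)
        (by intro j; fin_cases j <;> assumption)
      simpa using this)
  refine hmain.trans (ENNReal.ofReal_le_ofReal ?_)
  rw [Real.sqrt_eq_rpow]
  have hE01 : 0 ≤ (E 0 * E 1) ^ (1/2 : ℝ) := by
    have h0 := hE 0
    have h1 := hE 1
    positivity
  refine mul_le_mul_of_nonneg_right ?_ hE01
  set V := vb.toReal with hV
  have hVi : 0 < V⁻¹ := by positivity
  rw [← hs]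
  have hΓ : (K * (N:ℝ) ^ (26 + ε)) ^ s ≤ K ^ s * (N:ℝ) ^ ((13 / 28) * (p - 2) + ε) := by
    rw [Real.mul_rpow hK (by positivity), ← Real.rpow_mul hNr0.le]
    gcongr
    have e1 : (26 + ε) * s = (13 / 28) * (p - 2) + ε * s := by rw [hs]; ring
    rw [e1]
    have : ε * s ≤ ε * 1 := by gcongr
    linarith
  have hNp : 1 ≤ (N:ℝ) ^ ((13 / 28) * (p - 2) + ε') := by
    apply Real.one_le_rpow hNr1
    have : 0 < p - 2 := by linarith
    positivity
  have hsplit : (N:ℝ) ^ ((13 / 28) * (p - 2) + ε') = (N:ℝ) ^ ε * (N:ℝ) ^ ε * (N:ℝ) ^ ((13 / 28) * (p - 2) + ε) := by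
    rw [← Real.rpow_add hNr0, ← Real.rpow_add hNr0]
    congr 1
    rw [hε]; ring
  calc C + (4 * (L:ℝ) + 1) ^ 4 * 4 ^ (p / 2) * (4 * C ^ 4 * (1 + V⁻¹)) * B * (K * (N:ℝ) ^ (26 + ε)) ^ s ≤
      C + (D * (N:ℝ) ^ ε) * 4 ^ (p / 2) * (4 * C ^ 4 * (1 + V⁻¹)) * B * (K ^ s * (N:ℝ) ^ ((13 / 28) * (p - 2) + ε)) := by gcongr
    _ = C * 1 + D * 4 ^ (p / 2) * (4 * C ^ 4 * (1 + V⁻¹)) * (256 * C ^ 3) * K ^ s *
        ((N:ℝ) ^ ε * (N:ℝ) ^ ε * (N:ℝ) ^ ((13 / 28) * (p - 2) + ε)) := by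
          rw [hB]; ring
    _ ≤ C * (N:ℝ) ^ ((13 / 28) * (p - 2) + ε') + D * 4 ^ (p / 2) * (4 * C ^ 4 * (1 + V⁻¹)) * (256 * C ^ 3) * K ^ s *
        ((N:ℝ) ^ ε * (N:ℝ) ^ ε * (N:ℝ) ^ ((13 / 28) * (p - 2) + ε)) := by gcongr
    _ = _ := by rw [← hsplit, hC']; ring

end Vale.Agent.P106.G
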