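import Vale.Agent.P106.G.AsmS

/-! # The refined square function estimate -/

open MeasureTheory Complex Set
open scoped ENNReal NNReal ContDiff FourierTransform SchwartzMap ComplexConjugate

set_option linter.all false

namespace Vale.Agent.P106.G

theorem RefB.mono {Λ c0 : ℝ} {M N : ℕ} {A B : ℝ≥0∞} (h : RefB Λ c0 M N A) (hAB : A ≤ B) : RefB Λ c0 M N B :=
  fun a ha => (h a ha).trans (mul_le_mul' hAB le_rfl)

theorem big_pow {K0 : ℕ} (hK : 2 ≤ K0) {ε : ℝ} (hε : 0 < ε) (X : ℝ) : ∃ n0 : ℕ, ∀ n ≥ n0, X ≤ ((K0:ℝ) ^ n) ^ ε := by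
  obtain ⟨n0, hn0⟩ := exists_nat_ge ((max X 1) ^ (1/ε))
  refine ⟨n0, fun n hn => ?_⟩
  have h1 : (n0:ℝ) ≤ (K0:ℝ) ^ n := by
    have h2 : n0 ≤ K0 ^ n := by
      calc n0 ≤ n := hn
        _ ≤ 2 ^ n := Nat.lt_two_pow_self.le
        _ ≤ K0 ^ n := Nat.pow_le_pow_left hK n
    exact_mod_cast h2
  have h0 : (0:ℝ) < max X 1 := lt_of_lt_of_le one_pos (le_max_right _ _)
  calc X ≤ max X 1 := le_max_left _ _
    _ = ((max X 1) ^ (1/ε)) ^ ε := by
        rw [← Real.rpow_mul h0.le, one_div, inv_mul_cancel₀ hε.ne', Real.rpow_one]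
    _ ≤ ((K0:ℝ) ^ n) ^ ε := by
        apply Real.rpow_le_rpow (by positivity) (hn0.trans h1) hε.le

theorem ref_main (M : ℕ) (ε : ℝ) (hε : 0 < ε) (hε1 : ε ≤ 1) : ∃ (K0 : ℕ) (c0 Λ C : ℝ), 2 ≤ K0 ∧ 0 < c0 ∧ 1 ≤ Λ ∧ 0 ≤ C ∧
    ∀ n : ℕ, RefB Λ c0 M (K0 ^ n) (ENNReal.ofReal (C * ((K0:ℝ) ^ n) ^ ε)) := by
  obtain ⟨Ca, Cb, hCa, hCb, hstep⟩ := one_step M
  set ca := Ca.toReal with hca
  set cb := Cb.toReal with hcb
  have eCa : Ca = ENNReal.ofReal ca := (ENNReal.ofReal_toReal hCa).symm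
  have eCb : Cb = ENNReal.ofReal cb := (ENNReal.ofReal_toReal hCb).symm
  have hca0 : 0 ≤ ca := ENNReal.toReal_nonneg
  have hcb0 : 0 ≤ cb := ENNReal.toReal_nonneg
  -- K0
  obtain ⟨K0, hK0, hK0e⟩ : ∃ K0 : ℕ, 2 ≤ K0 ∧ 3 * 10 ^ 8 ≤ (K0:ℝ) ^ ε := by
    obtain ⟨n0, h⟩ := big_pow (le_refl 2) hε (3 * 10 ^ 8)
    refine ⟨2 ^ (n0 + 1), ?_, ?_⟩
    · calc 2 = 2 ^ 1 := by norm_num
        _ ≤ 2 ^ (n0 + 1) := Nat.pow_le_pow_right (by norm_num) (by omega)
    · have := h (n0 + 1) (by omega)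
      push_cast at this ⊢
      exact this
  have hK00 : 1 ≤ K0 := by omega
  have hK0r : (0:ℝ) < K0 := by exact_mod_cast hK00
  have hK0r1 : (1:ℝ) ≤ K0 := by exact_mod_cast hK00
  -- K1
  obtain ⟨n1, hn1⟩ := big_pow hK0 hε (3 * (ca * (K0:ℝ) ^ 15))
  set m := K0 ^ n1 with hm
  have hm1 : 1 ≤ m := Nat.pos_of_ne_zero (pow_ne_zero _ (by omega))
  obtain ⟨δ, hδ, Ct, hCt, hstep⟩ := hstep (ε/2) K0 m (by linarith) (by linarith) hK00 hm1
  -- K'
  obtain ⟨nq, hnq⟩ := big_pow hK0 one_pos δ⁻¹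
  set q := K0 ^ nq with hq
  have hq1 : 1 ≤ q := Nat.pos_of_ne_zero (pow_ne_zero _ (by omega))
  have hK'e : K0 * m * q = K0 ^ (1 + n1 + nq) := by rw [hm, hq, pow_add, pow_add, pow_one]
  have hδq : 1 / ((K0 * m * q : ℕ):ℝ) ≤ δ := by
    rw [hK'e]
    have := hnq (1 + n1 + nq) (by omega)
    rw [Real.rpow_one] at this
    push_cast
    rw [one_div]
    exact inv_le_of_inv_le₀ hδ this
  -- K2
  set X := 3 * (cb * (K0:ℝ) ^ 13 * ((K0 * m : ℕ):ℝ) ^ 21 * ((K0 * m * q : ℕ):ℝ) ^ 6 * Ct) with hX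
  obtain ⟨n2, hn2⟩ := big_pow hK0 (half_pos hε) X
  set m2 := K0 ^ n2 with hm2
  have hm21 : 1 ≤ m2 := Nat.pos_of_ne_zero (pow_ne_zero _ (by omega))
  set b := 1 + n1 + nq + n2 with hb
  have hK2e : K0 * m * q * m2 = K0 ^ b := by rw [hK'e, hm2, hb, ← pow_add]
  have hK1e : K0 * m = K0 ^ (1 + n1) := by rw [hm, pow_add, pow_one]
  set Λ : ℝ := 10 * ((K0 * m * q * m2 : ℕ):ℝ) with hΛ
  have hK21 : (1:ℝ) ≤ ((K0 * m * q * m2 : ℕ):ℝ) := by
    rw [hK2e]; push_cast; exact one_le_pow₀ hK0r1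
  have hΛ1 : 1 ≤ Λ := by rw [hΛ]; linarith
  set c0 : ℝ := 1 / ((K0 * m * q * m2 : ℕ):ℝ) with hc0
  have hc00 : 0 < c0 := by rw [hc0]; positivity
  have hc01 : c0 ≤ 1 := by rw [hc0, div_le_one (by linarith)]; exact hK21
  -- base constants
  have hcr : ∀ n : ℕ, ∃ C : ℝ≥0∞, C ≠ ⊤ ∧ RefB Λ c0 M (K0 ^ n) C := fun n =>
    crude hΛ1 hc01 M (K0 ^ n) (Nat.pos_of_ne_zero (pow_ne_zero _ (by omega)))
  choose Cn hCn hCnR using hcr
  set Cf : ℝ := ∑ n ∈ Finset.range b, (Cn n).toReal with hCf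
  have hCf0 : 0 ≤ Cf := Finset.sum_nonneg fun _ _ => ENNReal.toReal_nonneg
  have hCfn : ∀ n < b, Cn n ≤ ENNReal.ofReal Cf := by
    intro n hn
    rw [← ENNReal.ofReal_toReal (hCn n)]
    apply ENNReal.ofReal_le_ofReal
    exact Finset.single_le_sum (f := fun n => (Cn n).toReal) (fun _ _ => ENNReal.toReal_nonneg) (Finset.mem_range.2 hn)
  refine ⟨K0, c0, Λ, Cf, hK0, hc00, hΛ1, hCf0, ?_⟩
  intro n
  induction n using Nat.strong_induction_on with
  | _ n ih =>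
    by_cases hn : n < b
    · refine (hCnR n).mono ((hCfn n hn).trans (ENNReal.ofReal_le_ofReal ?_))
      have : 1 ≤ ((K0:ℝ) ^ n) ^ ε := Real.one_le_rpow (one_le_pow₀ hK0r1) hε.le
      nlinarith
    · push Not at hn
      have h0 := ih (n - 1) (by omega)
      have h1 := ih (n - (1 + n1)) (by omega)
      have h2 := ih (n - b) (by omega)
      have q0 : K0 ^ n = K0 * K0 ^ (n - 1) := by
        rw [← pow_succ']; congr 1; omega
      have q1 : K0 ^ n = K0 * m * K0 ^ (n - (1 + n1)) := by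
        rw [hK1e, ← pow_add]; congr 1; omega
      have q2 : K0 ^ n = K0 * m * q * m2 * K0 ^ (n - b) := by
        rw [hK2e, ← pow_add]; congr 1; omega
      have hmain := hstep q m2 (K0 ^ n) (K0 ^ (n - 1)) (K0 ^ (n - (1 + n1))) (K0 ^ (n - b)) hq1 hm21
        (Nat.pos_of_ne_zero (pow_ne_zero _ (by omega))) hδq q0 q1 q2 Λ c0 _ _ _ (by linarith)
        (by rw [hΛ]; linarith) (le_of_eq hc0) h0 h1 h2
      refine hmain.mono ?_
      -- arithmetic
      set G : ℕ → ℝ := fun j => ((K0:ℝ) ^ j) ^ ε with hG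
      have hGpos : ∀ j, 0 < G j := fun j => by rw [hG]; positivity
      have hGadd : ∀ i j, G (i + j) = G i * G j := by
        intro i j
        simp only [hG]
        rw [pow_add, Real.mul_rpow (by positivity) (by positivity)]
      have g0 : 10 ^ 8 * G (n - 1) ≤ G n / 3 := by
        have e : G n = G 1 * G (n - 1) := by rw [← hGadd]; congr 1; omega
        have : 3 * 10 ^ 8 ≤ G 1 := by simp only [hG, pow_one]; exact hK0e
        have hp := hGpos (n - 1)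
        rw [e]
        nlinarith
      have g1 : ca * (K0:ℝ) ^ 15 * G (n - (1 + n1)) ≤ G n / 3 := by
        have e : G n = G (1 + n1) * G (n - (1 + n1)) := by rw [← hGadd]; congr 1; omega
        have h3 : 3 * (ca * (K0:ℝ) ^ 15) ≤ G (1 + n1) := hn1 (1 + n1) (by omega)
        have hp := hGpos (n - (1 + n1))
        rw [e]
        nlinarith
      have g2 : cb * (K0:ℝ) ^ 13 * ((K0 * m : ℕ):ℝ) ^ 21 * ((K0 * m * q : ℕ):ℝ) ^ 6 * (Ct * ((K0 * m * q * m2 : ℕ):ℝ) ^ (ε/2)) * G (n - b) ≤ G n / 3 := by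
        have e : G n = G b * G (n - b) := by rw [← hGadd]; congr 1; omega
        have h3 : X ≤ ((K0:ℝ) ^ b) ^ (ε/2) := hn2 b (by omega)
        have hp := hGpos (n - b)
        have e4 : ((K0 * m * q * m2 : ℕ):ℝ) = (K0:ℝ) ^ b := by rw [hK2e]; push_cast; rfl
        have e5 : G b = ((K0:ℝ) ^ b) ^ (ε/2) * ((K0:ℝ) ^ b) ^ (ε/2) := by
          simp only [hG]
          rw [← Real.rpow_add (by positivity)]
          congr 1; ring
        rw [e4, e, e5]
        set Y := ((K0:ℝ) ^ b) ^ (ε/2) with hY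
        have hY0 : 0 ≤ Y := by rw [hY]; positivity
        have h5 : X * Y ≤ Y * Y := by gcongr
        have h6 : X * Y * G (n - b) ≤ Y * Y * G (n - b) := by gcongr
        have e7 : cb * (K0:ℝ) ^ 13 * ((K0 * m : ℕ):ℝ) ^ 21 * ((K0 * m * q : ℕ):ℝ) ^ 6 * (Ct * Y) * G (n - b) = X * Y * G (n - b) / 3 := by
          rw [hX]; ring
        rw [e7]
        linarith
      have total : 10 ^ 8 * (Cf * G (n - 1)) + ca * (K0:ℝ) ^ 15 * (Cf * G (n - (1 + n1))) +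
          cb * (K0:ℝ) ^ 13 * ((K0 * m : ℕ):ℝ) ^ 21 * ((K0 * m * q : ℕ):ℝ) ^ 6 * (Ct * ((K0 * m * q * m2 : ℕ):ℝ) ^ (ε/2)) * (Cf * G (n - b)) ≤ Cf * G n := by
        have f0 : Cf * (10 ^ 8 * G (n - 1)) ≤ Cf * (G n / 3) := by gcongr
        have f1 : Cf * (ca * (K0:ℝ) ^ 15 * G (n - (1 + n1))) ≤ Cf * (G n / 3) := by gcongr
        have f2 := mul_le_mul_of_nonneg_left g2 hCf0
        calc _ = Cf * (10 ^ 8 * G (n - 1)) + Cf * (ca * (K0:ℝ) ^ 15 * G (n - (1 + n1))) +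
              Cf * (cb * (K0:ℝ) ^ 13 * ((K0 * m : ℕ):ℝ) ^ 21 * ((K0 * m * q : ℕ):ℝ) ^ 6 * (Ct * ((K0 * m * q * m2 : ℕ):ℝ) ^ (ε/2)) * G (n - b)) := by ring
          _ ≤ Cf * (G n / 3) + Cf * (G n / 3) + Cf * (G n / 3) := add_le_add (add_le_add f0 f1) f2
          _ = _ := by ring
      refine le_trans (le_of_eq ?_) (ENNReal.ofReal_le_ofReal total)
      have p0 := (hGpos (n - 1)).le
      have p1 := (hGpos (n - (1 + n1))).le
      have p2 := (hGpos (n - b)).le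
      have e10 : (10:ℝ≥0∞) ^ 8 = ENNReal.ofReal (10 ^ 8) := by
        rw [ENNReal.ofReal_pow (by norm_num), ENNReal.ofReal_ofNat]
      rw [ENNReal.ofReal_add (by positivity) (by positivity), ENNReal.ofReal_add (by positivity) (by positivity)]
      congr 1
      · congr 1
        · rw [e10, ← ENNReal.ofReal_mul (by positivity)]
        · rw [eCa, ← ENNReal.ofReal_natCast K0, ← ENNReal.ofReal_pow (by positivity), ← ENNReal.ofReal_mul (by positivity),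
            ← ENNReal.ofReal_mul (by positivity)]
      · rw [eCb, ← ENNReal.ofReal_natCast K0, ← ENNReal.ofReal_natCast (K0 * m), ← ENNReal.ofReal_natCast (K0 * m * q),
          ← ENNReal.ofReal_pow (by positivity), ← ENNReal.ofReal_pow (by positivity), ← ENNReal.ofReal_pow (by positivity),
          ← ENNReal.ofReal_mul (by positivity), ← ENNReal.ofReal_mul (by positivity), ← ENNReal.ofReal_mul (by positivity),
          ← ENNReal.ofReal_mul (by positivity), ← ENNReal.ofReal_mul (by positivity)]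

/-- the refined square function estimate -/
theorem stREF : StREF := by
  intro ε M hε
  obtain ⟨K0, c0, Λ, C, hK0, hc0, hΛ, hC, h⟩ := ref_main M (min ε 1) (lt_min hε one_pos) (min_le_right _ _)
  refine ⟨K0, c0, Λ, C, hK0, hc0, hΛ, hC, ?_⟩
  intro n a ha
  have hK : (1:ℝ) ≤ K0 := by exact_mod_cast (by omega : 1 ≤ K0)
  have ha' : Amp c0 (((K0 ^ n : ℕ):ℝ) ^ 2) a := by push_cast; exact ha
  have := h n a ha'
  simp_rw [div_eq_mul_inv]
  refine this.trans (mul_le_mul' (ENNReal.ofReal_le_ofReal ?_) le_rfl)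
  gcongr
  · exact one_le_pow₀ hK
  · exact min_le_left _ _

end Vale.Agent.P106.G
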