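import Vale.Agent.P106.G.BrA
import Vale.Agent.P106.G.ChainB
import Vale.Agent.P106.G.Ref

/-! # The assembly of the bilinear estimate: large `R` -/

open MeasureTheory Complex Set
open scoped ENNReal NNReal ContDiff FourierTransform

set_option linter.all false

namespace Vale.Agent.P106.G

open Vale.Agent.P117 (Adm)

/-- the output of `StKIN` -/
structure Kout (c0 : ℝ) (M : ℕ) (ε C : ℝ) (N : ℕ) (R : ℝ) (H : Hyp) (φ1 φ2 : ℝ → ℂ) (h : E3 → ℂ) (ν : ℤ × ℤ → E3 → ℝ≥0∞)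
    (a : Fin 2 × Fin 2 → E4 → ℂ) (b1 b2 : Fin 2 × Fin 2 → ℝ) : Prop where
  sh : ∀ o, |b1 o| ≤ 1 / N ∧ |b2 o| ≤ 1 / N
  amp : ∀ o, Amp c0 ((N:ℝ) ^ 2) (a o)
  dir : ∀ o ζ, a o ζ ≠ 0 → ∃ v1 v2, φ1 v1 ≠ 0 ∧ φ2 v2 ≠ 0 ∧ |ζ 1 / ζ 0 - v1| ≤ 3 / N ∧ |ζ 2 / ζ 0 - v2| ≤ 3 / N
  rep : ∀ t ∈ Icc R (2 * R), ∀ y ∈ Metric.ball (0:E3) R,
      ‖H.U (H.mu (chi0 c0) φ1 φ2) h t y‖ ≤ ∑ o, ‖𝓕⁻ (a o) (shT (b1 o) (b2 o) (H.zt t y))‖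
  mu : ∀ o z, |H.tm z| ≤ 3 * R → Mu M N (a o) (shT (b1 o) (b2 o) z) ≤ ENNReal.ofReal C * H.Wu N ν z
  meas : ∀ k, Measurable (ν k)
  dirν : ∀ k, (∃ y, ν k y ≠ 0) → ∃ v1 v2, φ1 v1 ≠ 0 ∧ φ2 v2 ≠ 0 ∧ |(k.1:ℝ) / N - v1| ≤ 3 / N ∧ |(k.2:ℝ) / N - v2| ≤ 3 / N
  slow : ∀ k y y', ‖y - y'‖ ≤ 10 * R / N → ν k y ≤ ENNReal.ofReal C * ν k y'
  sum : ∀ y, ∑ k ∈ grd N, ν k y ≤ ENNReal.ofReal (C * (N:ℝ) ^ ε)
  eng : Eng N ν ≤ ENNReal.ofReal C * ∫⁻ y, ‖h y‖ₑ ^ 2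
  ea : ∀ o, ∫⁻ ζ, ‖a o ζ‖ₑ ^ 2 ≤ ENNReal.ofReal (C * R) * Eng N ν

theorem kin_out (hKIN : StKIN) {ε : ℝ} (hε : 0 < ε) : ∃ M0 : ℕ, ∀ (c0 B : ℝ) (M : ℕ) (φ1 φ2 : ℝ → ℂ), 0 < c0 → c0 ≤ 1 → 1 ≤ B → M0 ≤ M →
    Vcut φ1 → Vcut φ2 → ∃ (C : ℝ) (N0 : ℕ), 1 ≤ C ∧ 1 ≤ N0 ∧
    ∀ (N : ℕ) (R : ℝ) (H : Hyp) (h : E3 → ℂ), N0 ≤ N → (N:ℝ) ^ 2 ≤ R → R ≤ B * (N:ℝ) ^ 2 → H.ok2 → Adm volume h →
    (∀ y, ‖h y‖ ≤ 1) → ∃ ν a b1 b2, Kout c0 M ε C N R H φ1 φ2 h ν a b1 b2 := by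
  obtain ⟨M0, h⟩ := hKIN ε hε
  refine ⟨M0, ?_⟩
  intro c0 B M φ1 φ2 h1 h2 h3 h4 h5 h6
  obtain ⟨C, N0, hC, hN0, h7⟩ := h c0 B M φ1 φ2 h1 h2 h3 h4 h5 h6
  refine ⟨C, N0, hC, hN0, ?_⟩
  intro N R H h k1 k2 k3 k4 k5 k6
  obtain ⟨ν, a, b1, b2, p1, p2, p3, p4, p5, p6, p7, p8, p9, p10, p11⟩ := h7 N R H h k1 k2 k3 k4 k5 k6
  exact ⟨ν, a, b1, b2, ⟨p1, p2, p3, p4, p5, p6, p7, p8, p9, p10, p11⟩⟩

theorem ennsum_rpow_le {ι : Type*} (s : Finset ι) (x : ι → ℝ≥0∞) {q : ℝ} (hq : 0 < q) :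
    (∑ i ∈ s, x i) ^ q ≤ (s.card : ℝ≥0∞) ^ q * ∑ i ∈ s, x i ^ q := by
  classical
  rcases s.eq_empty_or_nonempty with he | hne
  · subst he
    simp only [Finset.sum_empty, mul_zero, Finset.card_empty]
    rw [ENNReal.zero_rpow_of_pos hq]
  · obtain ⟨i, hi, hmax⟩ := s.exists_max_image x hne
    calc (∑ i ∈ s, x i) ^ q ≤ ((s.card : ℝ≥0∞) * x i) ^ q := by
          apply ENNReal.rpow_le_rpow _ hq.le
          calc ∑ j ∈ s, x j ≤ ∑ j ∈ s, x i := Finset.sum_le_sum hmax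
            _ = _ := by rw [Finset.sum_const, nsmul_eq_mul]
      _ = (s.card : ℝ≥0∞) ^ q * x i ^ q := ENNReal.mul_rpow_of_nonneg _ _ hq.le
      _ ≤ _ := by
          gcongr
          exact Finset.single_le_sum_of_canonicallyOrdered (f := fun i => x i ^ q) hi

theorem lint_sq_le_vol {h : E3 → ℂ} {G : Set E3} (hG : MeasurableSet G) (hh : ∀ y, ‖h y‖ ≤ G.indicator (fun _ => (1:ℝ)) y) :
    ∫⁻ y, ‖h y‖ₑ ^ 2 ≤ volume G := by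
  calc ∫⁻ y, ‖h y‖ₑ ^ 2 ≤ ∫⁻ y, G.indicator (fun _ => (1:ℝ≥0∞)) y := by
        refine lintegral_mono fun y => ?_
        have h1 := hh y
        by_cases hy : y ∈ G
        · rw [indicator_of_mem hy] at h1 ⊢
          rw [← ofReal_norm, ← ENNReal.ofReal_pow (norm_nonneg _), ← ENNReal.ofReal_one]
          exact ENNReal.ofReal_le_ofReal (pow_le_one₀ (norm_nonneg _) h1)
        · rw [indicator_of_notMem hy] at h1 ⊢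
          have : h y = 0 := norm_le_zero_iff.1 h1
          rw [this]; simp
    _ = volume G := by rw [lintegral_indicator hG, setLIntegral_const, one_mul]

section
variable {c0 : ℝ} {M : ℕ} {ε C : ℝ} {N : ℕ} {R : ℝ} {H : Hyp} {φ1 φ2 : ℝ → ℂ} {h : E3 → ℂ} {ν : ℤ × ℤ → E3 → ℝ≥0∞}
    {a : Fin 2 × Fin 2 → E4 → ℂ} {b1 b2 : Fin 2 × Fin 2 → ℝ}

/-- the sheared function -/
noncomputable def Fs (a : Fin 2 × Fin 2 → E4 → ℂ) (b1 b2 : Fin 2 × Fin 2 → ℝ) (o : Fin 2 × Fin 2) (z : E4) : ℝ≥0∞ :=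
  ‖𝓕⁻ (a o) (shT (b1 o) (b2 o) z)‖ₑ

/-- the sheared square function -/
noncomputable def Ss (Λ : ℝ) (M N : ℕ) (a : Fin 2 × Fin 2 → E4 → ℂ) (b1 b2 : Fin 2 × Fin 2 → ℝ) (o : Fin 2 × Fin 2) (z : E4) : ℝ≥0∞ :=
  Sq Λ M N (a o) (shT (b1 o) (b2 o) z)

theorem measurable_Fs (hk : Kout c0 M ε C N R H φ1 φ2 h ν a b1 b2) (o : Fin 2 × Fin 2) : Measurable (Fs a b1 b2 o) := by
  unfold Fs
  exact ((continuous_inv (hk.amp o).int).measurable.enorm).comp (continuous_shT _ _).measurable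

theorem measurable_Ss (hk : Kout c0 M ε C N R H φ1 φ2 h ν a b1 b2) (Λ : ℝ) (M' : ℕ) (o : Fin 2 × Fin 2) :
    Measurable (Ss Λ M' N a b1 b2 o) := by
  unfold Ss
  have : Measurable (Sq Λ M' N (a o)) := by
    have e : Sq Λ M' N (a o) = fun z => ∑ k ∈ grd N, Sk Λ M' N (a o) k z := by
      ext z; exact Sq_eq _ _ _ _ _
    rw [e]
    exact Finset.measurable_sum _ fun k _ => measurable_Sk Λ M' N (hk.amp o).int k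
  exact this.comp (continuous_shT _ _).measurable

/-- energy bound -/
theorem Kout.e2 (hk : Kout c0 M ε C N R H φ1 φ2 h ν a b1 b2) (hC : 0 ≤ C) {G : Set E3} (hG : MeasurableSet G)
    (hh : ∀ y, ‖h y‖ ≤ G.indicator (fun _ => (1:ℝ)) y) : Eng N ν ≤ ENNReal.ofReal C * volume G :=
  hk.eng.trans (mul_le_mul' le_rfl (lint_sq_le_vol hG hh))

theorem Kout.e3 (hk : Kout c0 M ε C N R H φ1 φ2 h ν a b1 b2) (hC : 0 ≤ C) (hR : 0 ≤ R) {G : Set E3} (hG : MeasurableSet G)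
    (hGt : volume G < ⊤) (hh : ∀ y, ‖h y‖ ≤ G.indicator (fun _ => (1:ℝ)) y) (o : Fin 2 × Fin 2) :
    ∫⁻ ζ, ‖a o ζ‖ₑ ^ 2 ≤ ENNReal.ofReal (C ^ 2 * R * (volume G).toReal) := by
  refine (hk.ea o).trans ((mul_le_mul' le_rfl (hk.e2 hC hG hh)).trans (le_of_eq ?_))
  rw [← ENNReal.ofReal_toReal hGt.ne, ← ENNReal.ofReal_mul hC, ← ENNReal.ofReal_mul (by positivity), ENNReal.toReal_ofReal ENNReal.toReal_nonneg]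
  congr 1
  ring

/-- crude bound for the transported density -/
theorem Kout.Wle (hk : Kout c0 M ε C N R H φ1 φ2 h ν a b1 b2) (z : E4) :
    H.Wu N ν z ≤ ENNReal.ofReal ((N:ℝ) ^ 2 * (C * (N:ℝ) ^ ε)) := by
  unfold Hyp.Wu
  calc ∑ k ∈ grd N, ν k (H.bp (k.1 / N) (k.2 / N) z) ≤ ∑ k ∈ grd N, ENNReal.ofReal (C * (N:ℝ) ^ ε) := by
        refine Finset.sum_le_sum fun k hk' => ?_
        exact (Finset.single_le_sum_of_canonicallyOrdered (f := fun l => ν l (H.bp (k.1 / N) (k.2 / N) z)) hk').trans (hk.sum _)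
    _ = _ := by
        have e : (((N ^ 2 : ℕ)) : ℝ≥0∞) = ENNReal.ofReal ((N:ℝ) ^ 2) := by
          rw [← ENNReal.ofReal_natCast]; push_cast; rfl
        rw [Finset.sum_const, card_grd, nsmul_eq_mul, ENNReal.ofReal_mul (p := (N:ℝ) ^ 2) (by positivity), e]

theorem Fs_int (hk : Kout c0 M ε C N R H φ1 φ2 h ν a b1 b2) (o : Fin 2 × Fin 2) :
    ∫⁻ z, Fs a b1 b2 o z ^ 2 ≤ ∫⁻ ζ, ‖a o ζ‖ₑ ^ 2 := by
  unfold Fs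
  rw [lint_shT (b1 o) (b2 o) (fun z => ‖𝓕⁻ (a o) z‖ₑ ^ 2)]
  exact lintegral_sq_inv_le (hk.amp o).int (hk.amp o).meas

end

end Vale.Agent.P106.G
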