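import Vale.Agent.P106.G.BrB

/-! # The assembly of the bilinear estimate: one pair of pieces -/

open MeasureTheory Complex Set
open scoped ENNReal NNReal ContDiff FourierTransform

set_option linter.all false

namespace Vale.Agent.P106.G

open Vale.Agent.P117 (Adm)

theorem log_pow_le (m : ℕ) (hm : 1 ≤ m) {η : ℝ} (hη : 0 < η) : ∃ D : ℝ, 0 ≤ D ∧ ∀ N : ℕ, 1 ≤ N →
    (1 + Real.log N) ^ m ≤ D * (N:ℝ) ^ η := by
  have hm0 : (0:ℝ) < m := by exact_mod_cast hm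
  set s := η / m with hs
  have hs0 : 0 < s := by positivity
  refine ⟨(1 + s⁻¹) ^ m, by positivity, ?_⟩
  intro N hN
  have hN1 : (1:ℝ) ≤ N := by exact_mod_cast hN
  have hN0 : (0:ℝ) < N := by linarith
  have h1 := Real.log_le_rpow_div hN0.le hs0
  have h2 : 1 ≤ (N:ℝ) ^ s := Real.one_le_rpow hN1 hs0.le
  have h3 : 1 + Real.log N ≤ (1 + s⁻¹) * (N:ℝ) ^ s := by
    calc 1 + Real.log N ≤ (N:ℝ) ^ s + (N:ℝ) ^ s / s := add_le_add h2 h1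
      _ = _ := by rw [div_eq_mul_inv]; ring
  have h0 : 0 ≤ 1 + Real.log N := by
    have := Real.log_nonneg hN1
    linarith
  calc (1 + Real.log N) ^ m ≤ ((1 + s⁻¹) * (N:ℝ) ^ s) ^ m := pow_le_pow_left₀ h0 h3 m
    _ = (1 + s⁻¹) ^ m * (N:ℝ) ^ η := by
        rw [mul_pow, ← Real.rpow_natCast ((N:ℝ) ^ s), ← Real.rpow_mul hN0.le]
        congr 2
        rw [hs]; field_simp

/-- the region of integration -/
def Qr (H : Hyp) (R : ℝ) : Set E4 := {z | (R ≤ H.tm z ∧ H.tm z ≤ 2 * R) ∧ sp3 z ∈ Metric.ball (0:E3) R}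

theorem mQr (H : Hyp) (R : ℝ) : MeasurableSet (Qr H R) := by
  have m1 := (continuous_tm H).measurable
  exact ((measurableSet_le measurable_const m1).inter (measurableSet_le m1 measurable_const)).inter
    (cont_sp3.measurable measurableSet_ball)

def Qr' (H : Hyp) (N R : ℝ) : Set E4 := {z | N ^ 2 ≤ H.tm z ∧ H.tm z ≤ 3 * R}

theorem mQr' (H : Hyp) (N R : ℝ) : MeasurableSet (Qr' H N R) := by
  have m1 := (continuous_tm H).measurable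
  exact (measurableSet_le measurable_const m1).inter (measurableSet_le m1 measurable_const)

theorem Kout.mono {c0 : ℝ} {M : ℕ} {ε C C' : ℝ} {N : ℕ} {R : ℝ} {H : Hyp} {φ1 φ2 : ℝ → ℂ} {h : E3 → ℂ} {ν : ℤ × ℤ → E3 → ℝ≥0∞}
    {a : Fin 2 × Fin 2 → E4 → ℂ} {b1 b2 : Fin 2 × Fin 2 → ℝ} (hk : Kout c0 M ε C N R H φ1 φ2 h ν a b1 b2) (hC : C ≤ C')
    (hR : 0 ≤ R) : Kout c0 M ε C' N R H φ1 φ2 h ν a b1 b2 where
  sh := hk.sh
  amp := hk.amp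
  dir := hk.dir
  rep := hk.rep
  mu := fun o z hz => (hk.mu o z hz).trans (mul_le_mul' (ENNReal.ofReal_le_ofReal hC) le_rfl)
  meas := hk.meas
  dirν := hk.dirν
  slow := fun k y y' hy => (hk.slow k y y' hy).trans (mul_le_mul' (ENNReal.ofReal_le_ofReal hC) le_rfl)
  sum := fun y => (hk.sum y).trans (ENNReal.ofReal_le_ofReal (by
    have : 0 ≤ (N:ℝ) ^ ε := by positivity
    gcongr))
  eng := hk.eng.trans (mul_le_mul' (ENNReal.ofReal_le_ofReal hC) le_rfl)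
  ea := fun o => (hk.ea o).trans (mul_le_mul' (ENNReal.ofReal_le_ofReal (by gcongr)) le_rfl)

theorem sep_half {N : ℕ} (hN : 1 ≤ N) {c x v x' v' : ℝ} (hcN : 16 / (N:ℝ) ≤ c) (h : |x - v| ≤ 3 / N) (h' : |x' - v'| ≤ 3 / N)
    (hs : c ≤ |v - v'|) : c / 2 ≤ |x - x'| := by
  have hN0 : (0:ℝ) < N := by exact_mod_cast hN
  have e : v - v' = (x - x') - (x - v) + (x' - v') := by ring
  have h1 : |v - v'| ≤ |x - x'| + |x - v| + |x' - v'| := by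
    rw [e]
    exact (abs_add_le _ _).trans (add_le_add (abs_sub _ _) le_rfl)
  have e3 : 3 / (N:ℝ) = 3 * (1 / N) := by ring
  have e16 : 16 / (N:ℝ) = 16 * (1 / N) := by ring
  have h0 : 0 < 1 / (N:ℝ) := by positivity
  rw [e3] at h h'
  rw [e16] at hcN
  linarith

/-- the hypotheses of the chain for one function -/
theorem one_fn {CC c0 c0' Λ CR CL CB ε1 εK C P q : ℝ} {K0 M n N : ℕ} {R : ℝ} {H : Hyp} (hCR : 0 ≤ CR) (hCL : 0 ≤ CL) (hCB : 0 ≤ CB)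
    (hRP : CR ≤ P) (hLP : CL ≤ P) (hBP : CB ≤ P) (hP1 : 1 ≤ P) (hq : q = 12 * (K0:ℝ) ^ 2) (hC : 1 ≤ C) (hCC : CC = P * q * (2 * C ^ 2))
    (hK0r : (2:ℝ) ≤ K0) (hεK1 : εK ≤ 1) (hc0le : c0 ≤ c0') (hc01 : c0 ≤ 1) (hNn : N = K0 ^ n) (hN2 : 2 ≤ N)
    (hR1 : 4 * (N:ℝ) ^ 2 ≤ R) (hR2 : R ≤ 4 * (K0:ℝ) ^ 2 * (N:ℝ) ^ 2) (hH : H.ok2)
    (href : ∀ (n : ℕ) (a : E4 → ℂ), Amp c0' (((K0:ℝ) ^ n) ^ 2) a →
      ∫⁻ z, ‖𝓕⁻ a z‖ₑ ^ 3 / Sq Λ (M + 2) (K0 ^ n) a z ^ (1/2 : ℝ) ≤ ENNReal.ofReal (CR * ((K0:ℝ) ^ n) ^ ε1) * ∫⁻ ζ, ‖a ζ‖ₑ ^ 2)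
    (hloc : ∀ (N : ℕ), 1 ≤ N → ∀ (a : E4 → ℂ) (c0 R : ℝ), Amp c0 R a → c0 ≤ 1 → (N:ℝ) ^ 2 ≤ R →
      ∀ (b1 b2 : ℝ), |b1| ≤ 1 / N → |b2| ≤ 1 / N → ∀ y : E4,
      ∫⁻ z in Metric.closedBall y N, ‖𝓕⁻ a (shT b1 b2 z)‖ₑ ^ 2 ≤ ENNReal.ofReal (CL * (N:ℝ) ^ 4) * Mu M N a (shT b1 b2 y))
    (hber : ∀ (N : ℕ), 1 ≤ N → ∀ (a : E4 → ℂ) (c0 R : ℝ), Amp c0 R a → c0 ≤ 1 → (N:ℝ) ^ 2 ≤ R →
      ∀ y : E4, ‖𝓕⁻ a y‖ₑ ^ 2 ≤ ENNReal.ofReal (CB * (N:ℝ) ^ 20) * Mu M N a y)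
    {φ1 φ2 : ℝ → ℂ} {h : E3 → ℂ} {ν : ℤ × ℤ → E3 → ℝ≥0∞} {a : Fin 2 × Fin 2 → E4 → ℂ} {b1 b2 : Fin 2 × Fin 2 → ℝ} {G : Set E3}
    (hk : Kout c0 M εK C N R H φ1 φ2 h ν a b1 b2) (mG : MeasurableSet G) (tG : volume G < ⊤)
    (hh : ∀ y, ‖h y‖ ≤ G.indicator (fun _ => (1:ℝ)) y) (o : Fin 2 × Fin 2) :
      (∫⁻ z, Fs a b1 b2 o z ^ 3 / Ss Λ (M + 2) N a b1 b2 o z ^ (1/2 : ℝ) ≤ ENNReal.ofReal (CC * (N:ℝ) ^ ε1 * ((N:ℝ) ^ 2 * C * (volume G).toReal))) ∧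
      (∀ z ∈ Qr H R, ∫⁻ u in Metric.closedBall z N, Fs a b1 b2 o u ^ 2 ≤ ENNReal.ofReal (CC * (N:ℝ) ^ 4) * H.Wu N ν z) ∧
      (∀ z ∈ Qr H R, Fs a b1 b2 o z ^ 2 ≤ ENNReal.ofReal (CC * (N:ℝ) ^ 20) * H.Wu N ν z) ∧
      (∀ z ∈ Qr H R, Fs a b1 b2 o z ≤ ENNReal.ofReal (CC * (N:ℝ) ^ 20)) ∧
      (∀ z ∈ Qr' H N R, H.Wu N ν z ≤ ENNReal.ofReal (CC * (N:ℝ) ^ 20)) ∧
      (∀ z u, dist z u ≤ N → H.Wu N ν z ≤ ENNReal.ofReal CC * H.Wu N ν u) ∧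
      (∫⁻ z in Qr H R, Fs a b1 b2 o z ^ 2 ≤ ENNReal.ofReal (CC * ((N:ℝ) ^ 2 * C * (volume G).toReal))) ∧
      (∫⁻ z in Qr' H N R, H.Wu N ν z ≤ ENNReal.ofReal (CC * ((N:ℝ) ^ 2 * C * (volume G).toReal))) := by
  have hN1 : 1 ≤ N := by omega
  have hNr2 : (2:ℝ) ≤ N := by exact_mod_cast hN2
  have hNr1 : (1:ℝ) ≤ N := by linarith
  have hNr0 : (0:ℝ) < N := by linarith
  have hC0 : 0 < C := by linarith
  have hq1 : 48 ≤ q := by rw [hq]; nlinarith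
  have hq4 : 4 * (K0:ℝ) ^ 2 ≤ q := by rw [hq]; nlinarith
  have hC2 : C ≤ C ^ 2 := le_self_pow₀ hC (by norm_num)
  have hC21 : 1 ≤ C ^ 2 := one_le_pow₀ hC
  have key : ∀ {x y z : ℝ}, 0 ≤ x → x ≤ P → 0 ≤ y → y ≤ q → 0 ≤ z → z ≤ 2 * C ^ 2 → x * y * z ≤ CC := by
    intro x y z hx hx' hy hy' hz hz'
    rw [hCC]; gcongr
  have hCCC : C ≤ CC := by
    have := key (x := 1) (y := 1) (z := C) (by norm_num) hP1 (by norm_num) (by linarith) hC0.le (by linarith)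
    linarith
  have hCCn : 0 ≤ CC := by linarith
  have hR0 : 0 < R := by
    have : 0 < 4 * (N:ℝ) ^ 2 := by positivity
    linarith
  have hRn : 0 ≤ R := hR0.le
  have hNc : (N:ℝ) = (K0:ℝ) ^ n := by rw [hNn]; push_cast; rfl
  set g := (volume G).toReal with hg
  have hgn : 0 ≤ g := ENNReal.toReal_nonneg
  have hmu : ∀ z ∈ Qr H R, Mu M N (a o) (shT (b1 o) (b2 o) z) ≤ ENNReal.ofReal C * H.Wu N ν z := by
    intro z hz
    apply hk.mu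
    have := hz.1
    rw [abs_of_nonneg (by linarith [this.1])]
    linarith [this.2]
  have hea := hk.e3 hC0.le hRn mG tG hh o
  have hW20 : ∀ z, H.Wu N ν z ≤ ENNReal.ofReal (C * (N:ℝ) ^ 20) := by
    intro z
    refine (hk.Wle z).trans (ENNReal.ofReal_le_ofReal ?_)
    have : (N:ℝ) ^ εK ≤ (N:ℝ) ^ 18 := by
      calc (N:ℝ) ^ εK ≤ (N:ℝ) ^ (1:ℝ) := Real.rpow_le_rpow_of_exponent_le hNr1 hεK1
        _ = N := Real.rpow_one _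
        _ ≤ _ := le_self_pow₀ hNr1 (by norm_num)
    calc (N:ℝ) ^ 2 * (C * (N:ℝ) ^ εK) ≤ (N:ℝ) ^ 2 * (C * (N:ℝ) ^ 18) := by gcongr
      _ = _ := by ring
  have hb20 : ∀ z ∈ Qr H R, Fs a b1 b2 o z ^ 2 ≤ ENNReal.ofReal (CB * C * (N:ℝ) ^ 20) * H.Wu N ν z := by
    intro z hz
    unfold Fs
    calc _ ≤ ENNReal.ofReal (CB * (N:ℝ) ^ 20) * Mu M N (a o) (shT (b1 o) (b2 o) z) :=
          hber N hN1 (a o) c0 _ (hk.amp o) hc01 le_rfl _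
      _ ≤ ENNReal.ofReal (CB * (N:ℝ) ^ 20) * (ENNReal.ofReal C * H.Wu N ν z) := mul_le_mul' le_rfl (hmu z hz)
      _ = _ := by
        rw [← mul_assoc, ← ENNReal.ofReal_mul (by positivity)]
        congr 2
        ring
  refine ⟨?_, ?_, ?_, ?_, ?_, ?_, ?_, ?_⟩
  · unfold Fs Ss
    rw [lint_shT (b1 o) (b2 o) (fun z => ‖𝓕⁻ (a o) z‖ₑ ^ 3 / Sq Λ (M + 2) N (a o) z ^ (1/2 : ℝ))]
    have hamp : Amp c0' (((K0:ℝ) ^ n) ^ 2) (a o) := by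
      have := (hk.amp o).mono hc0le (le_refl ((N:ℝ) ^ 2)⁻¹)
      rwa [hNc] at this
    have h1 := href n (a o) hamp
    rw [← hNn, ← hNc] at h1
    refine h1.trans ((mul_le_mul' le_rfl hea).trans ?_)
    rw [← ENNReal.ofReal_mul (by positivity)]
    apply ENNReal.ofReal_le_ofReal
    have h2 := key (x := CR) (y := 4 * (K0:ℝ) ^ 2) (z := C) hCR (by assumption) (by positivity) hq4 hC0.le (by linarith)
    calc CR * (N:ℝ) ^ ε1 * (C ^ 2 * R * g) ≤ CR * (N:ℝ) ^ ε1 * (C ^ 2 * (4 * (K0:ℝ) ^ 2 * (N:ℝ) ^ 2) * g) := by gcongr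
      _ = (CR * (4 * (K0:ℝ) ^ 2) * C) * ((N:ℝ) ^ ε1 * ((N:ℝ) ^ 2 * C * g)) := by ring
      _ ≤ CC * ((N:ℝ) ^ ε1 * ((N:ℝ) ^ 2 * C * g)) := by gcongr
      _ = _ := by ring
  · intro z hz
    unfold Fs
    calc _ ≤ ENNReal.ofReal (CL * (N:ℝ) ^ 4) * Mu M N (a o) (shT (b1 o) (b2 o) z) :=
          hloc N hN1 (a o) c0 _ (hk.amp o) hc01 le_rfl (b1 o) (b2 o) (hk.sh o).1 (hk.sh o).2 z
      _ ≤ ENNReal.ofReal (CL * (N:ℝ) ^ 4) * (ENNReal.ofReal C * H.Wu N ν z) := mul_le_mul' le_rfl (hmu z hz)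
      _ ≤ _ := by
        rw [← mul_assoc, ← ENNReal.ofReal_mul (by positivity)]
        refine mul_le_mul' (ENNReal.ofReal_le_ofReal ?_) le_rfl
        have h2 := key (x := CL) (y := 1) (z := C) hCL (by assumption) (by norm_num) (by linarith) hC0.le (by linarith)
        calc CL * (N:ℝ) ^ 4 * C = (CL * 1 * C) * (N:ℝ) ^ 4 := by ring
          _ ≤ _ := by gcongr
  · intro z hz
    refine (hb20 z hz).trans (mul_le_mul' (ENNReal.ofReal_le_ofReal ?_) le_rfl)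
    have h2 := key (x := CB) (y := 1) (z := C) hCB (by assumption) (by norm_num) (by linarith) hC0.le (by linarith)
    calc CB * C * (N:ℝ) ^ 20 = (CB * 1 * C) * (N:ℝ) ^ 20 := by ring
      _ ≤ _ := by gcongr
  · intro z hz
    have h1 : Fs a b1 b2 o z ^ 2 ≤ ENNReal.ofReal (CC * (N:ℝ) ^ 20) ^ 2 := by
      calc Fs a b1 b2 o z ^ 2 ≤ ENNReal.ofReal (CB * C * (N:ℝ) ^ 20) * ENNReal.ofReal (C * (N:ℝ) ^ 20) :=
            (hb20 z hz).trans (mul_le_mul' le_rfl (hW20 z))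
        _ ≤ _ := by
          rw [← ENNReal.ofReal_mul (by positivity), ← ENNReal.ofReal_pow (by positivity)]
          apply ENNReal.ofReal_le_ofReal
          have h2 := key (x := CB) (y := 1) (z := C) hCB (by assumption) (by norm_num) (by linarith) hC0.le (by linarith)
          calc CB * C * (N:ℝ) ^ 20 * (C * (N:ℝ) ^ 20) = (CB * 1 * C) * C * ((N:ℝ) ^ 20) ^ 2 := by ring
            _ ≤ CC * CC * ((N:ℝ) ^ 20) ^ 2 := by gcongr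
            _ = _ := by ring
    have h3 : Fs a b1 b2 o z ^ (2:ℝ) ≤ ENNReal.ofReal (CC * (N:ℝ) ^ 20) ^ (2:ℝ) := by
      rw [show (2:ℝ) = ((2:ℕ):ℝ) by norm_num, ENNReal.rpow_natCast, ENNReal.rpow_natCast]
      exact h1
    exact (ENNReal.rpow_le_rpow_iff (by norm_num : (0:ℝ) < 2)).1 h3
  · intro z hz
    exact (hW20 z).trans (ENNReal.ofReal_le_ofReal (by gcongr))
  · intro z u hzu
    refine (Wu_slow hH hN1 (d := 10 * R / N) (C := C) ?_ hk.slow hzu).trans (mul_le_mul' (ENNReal.ofReal_le_ofReal hCCC) le_rfl)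
    rw [le_div_iff₀ hNr0]
    nlinarith
  · refine (setLIntegral_le_lintegral _ _).trans ((Fs_int hk o).trans (hea.trans (ENNReal.ofReal_le_ofReal ?_)))
    have h2 := key (x := 1) (y := 4 * (K0:ℝ) ^ 2) (z := C) (by norm_num) hP1 (by positivity) hq4 hC0.le (by linarith)
    calc C ^ 2 * R * g ≤ C ^ 2 * (4 * (K0:ℝ) ^ 2 * (N:ℝ) ^ 2) * g := by gcongr
      _ = (1 * (4 * (K0:ℝ) ^ 2) * C) * ((N:ℝ) ^ 2 * C * g) := by ring
      _ ≤ _ := by gcongr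
  · unfold Qr'
    rw [lint_Wu H N hk.meas]
    calc ENNReal.ofReal (3 * R - (N:ℝ) ^ 2) * Eng N ν ≤ ENNReal.ofReal (3 * R) * (ENNReal.ofReal C * volume G) := by
          refine mul_le_mul' (ENNReal.ofReal_le_ofReal ?_) (hk.e2 hC0.le mG hh)
          nlinarith
      _ = ENNReal.ofReal (3 * R * (C * g)) := by
          rw [← ENNReal.ofReal_toReal tG.ne, ← ENNReal.ofReal_mul hC0.le, ← ENNReal.ofReal_mul (by positivity)]
      _ ≤ _ := by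
          apply ENNReal.ofReal_le_ofReal
          have h2 := key (x := 1) (y := q) (z := 1) (by norm_num) hP1 (by linarith) le_rfl (by norm_num) (by linarith)
          calc 3 * R * (C * g) ≤ 3 * (4 * (K0:ℝ) ^ 2 * (N:ℝ) ^ 2) * (C * g) := by gcongr
            _ = (1 * q * 1) * ((N:ℝ) ^ 2 * C * g) := by rw [hq]; ring
            _ ≤ _ := by gcongr

end Vale.Agent.P106.G
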