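import Vale.Agent.P106.G.BrC

/-! # The assembly of the bilinear estimate: one pair of pieces, conclusion -/

open MeasureTheory Complex Set
open scoped ENNReal NNReal ContDiff FourierTransform

set_option linter.all false

namespace Vale.Agent.P106.G

open Vale.Agent.P117 (Adm)

/-- the density is not zero when it is large on a set of positive measure -/
theorem Eng_ne {H : Hyp} {N : ℕ} {ν : ℤ × ℤ → E3 → ℝ≥0∞} (hm : ∀ k, Measurable (ν k)) {A B w : ℝ} (hw : 0 < w) {X : Set E4}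
    (mX : MeasurableSet X) (hX : ∀ z ∈ X, A ≤ H.tm z ∧ H.tm z ≤ B) (hW : ∀ z ∈ X, ENNReal.ofReal w ≤ H.Wu N ν z)
    (hv : volume X ≠ 0) : Eng N ν ≠ 0 := by
  intro h0
  have h1 := lint_Wu H N hm A B
  rw [h0, mul_zero] at h1
  have h2 : ENNReal.ofReal w * volume X ≤ 0 := by
    rw [← h1]
    calc ENNReal.ofReal w * volume X = ∫⁻ z in X, ENNReal.ofReal w := by rw [setLIntegral_const]
      _ ≤ ∫⁻ z in X, H.Wu N ν z := setLIntegral_mono' mX hW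
      _ ≤ _ := lintegral_mono_set (fun z hz => hX z hz)
  have h3 : ENNReal.ofReal w * volume X ≠ 0 := mul_ne_zero (by rw [ne_eq, ENNReal.ofReal_eq_zero, not_le]; exact hw) hv
  exact h3 (le_antisymm h2 zero_le)

theorem sepf_of {c0 : ℝ} {M : ℕ} {ε C : ℝ} {N : ℕ} {R : ℝ} {H : Hyp} {φ1 φ2 φ1' φ2' : ℝ → ℂ} {h h' : E3 → ℂ} {ν ν' : ℤ × ℤ → E3 → ℝ≥0∞}
    {a a' : Fin 2 × Fin 2 → E4 → ℂ} {b1 b2 b1' b2' : Fin 2 × Fin 2 → ℝ} (hk : Kout c0 M ε C N R H φ1 φ2 h ν a b1 b2)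
    (hk' : Kout c0 M ε C N R H φ1' φ2' h' ν' a' b1' b2') {c : ℝ} (hN : 1 ≤ N) (hcN : 16 / (N:ℝ) ≤ c)
    (hsep : ∀ v1 v2 v1' v2', φ1 v1 * φ2 v2 ≠ 0 → φ1' v1' * φ2' v2' ≠ 0 → c ≤ |v1 - v1'| ∨ c ≤ |v2 - v2'|) :
    Sepf N (c / 2) ν ν' := by
  intro k hk1 k' hk2 h1 h2
  obtain ⟨v1, v2, p1, p2, p3, p4⟩ := hk.dirν k h1
  obtain ⟨v1', v2', q1, q2, q3, q4⟩ := hk'.dirν k' h2
  rcases hsep v1 v2 v1' v2' (mul_ne_zero p1 p2) (mul_ne_zero q1 q2) with h | h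
  · left
    have := sep_half hN hcN p3 q3 h
    rwa [← sub_div] at this
  · right
    have := sep_half hN hcN p4 q4 h
    rwa [← sub_div] at this

theorem sepa_of {c0 : ℝ} {M : ℕ} {ε C : ℝ} {N : ℕ} {R : ℝ} {H : Hyp} {φ1 φ2 φ1' φ2' : ℝ → ℂ} {h h' : E3 → ℂ} {ν ν' : ℤ × ℤ → E3 → ℝ≥0∞}
    {a a' : Fin 2 × Fin 2 → E4 → ℂ} {b1 b2 b1' b2' : Fin 2 × Fin 2 → ℝ} (hk : Kout c0 M ε C N R H φ1 φ2 h ν a b1 b2)
    (hk' : Kout c0 M ε C N R H φ1' φ2' h' ν' a' b1' b2') {c : ℝ} (hN : 1 ≤ N) (hcN : 16 / (N:ℝ) ≤ c)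
    (hsep : ∀ v1 v2 v1' v2', φ1 v1 * φ2 v2 ≠ 0 → φ1' v1' * φ2' v2' ≠ 0 → c ≤ |v1 - v1'| ∨ c ≤ |v2 - v2'|) (o o' : Fin 2 × Fin 2) :
    ∀ ζ ζ', a o ζ ≠ 0 → a' o' ζ' ≠ 0 → c / 2 ≤ |ζ 1 / ζ 0 - ζ' 1 / ζ' 0| ∨ c / 2 ≤ |ζ 2 / ζ 0 - ζ' 2 / ζ' 0| := by
  intro ζ ζ' h1 h2
  obtain ⟨v1, v2, p1, p2, p3, p4⟩ := hk.dir o ζ h1
  obtain ⟨v1', v2', q1, q2, q3, q4⟩ := hk'.dir o' ζ' h2
  rcases hsep v1 v2 v1' v2' (mul_ne_zero p1 p2) (mul_ne_zero q1 q2) with h | h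
  · exact Or.inl (sep_half hN hcN p3 q3 h)
  · exact Or.inr (sep_half hN hcN p4 q4 h)

theorem qr_sub {H : Hyp} (hbd : H.Bd) {N : ℕ} {R : ℝ} (hNr2 : (2:ℝ) ≤ N) (hR1 : 4 * (N:ℝ) ^ 2 ≤ R) :
    ∀ z ∈ Qr H R, Metric.closedBall z (N:ℝ) ⊆ Qr' H N R := by
  intro z hz y hy
  rw [Metric.mem_closedBall, dist_eq_norm] at hy
  have h1 := abs_tm_le hbd (y - z)
  rw [tm_sub] at h1
  have h2 : |H.tm y - H.tm z| ≤ 2 * N := h1.trans (by linarith)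
  rw [abs_le] at h2
  obtain ⟨h3, h4⟩ := hz.1
  have h5 : 2 * (N:ℝ) ≤ (N:ℝ) ^ 2 := by nlinarith
  constructor
  · linarith [h2.1]
  · linarith [h2.2]

section
variable {c0 : ℝ} {M : ℕ} {ε C : ℝ} {N : ℕ} {R : ℝ} {H : Hyp} {φ1 φ2 φ1' φ2' : ℝ → ℂ} {h h' : E3 → ℂ} {ν ν' : ℤ × ℤ → E3 → ℝ≥0∞}
    {a a' : Fin 2 × Fin 2 → E4 → ℂ} {b1 b2 b1' b2' : Fin 2 × Fin 2 → ℝ}

theorem br_slab {Λ CC CS c : ℝ} (hCS : 0 ≤ CS) (hC0 : 0 < C) (hN1 : 1 ≤ N) (hcN : 16 / (N:ℝ) ≤ c) (hCC : CS * C ^ 2 ≤ CC) (hR : 0 ≤ R)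
    (hslab : ∀ (N : ℕ), 1 ≤ N → ∀ (a a' : E4 → ℂ) (c0 R b1 b2 b1' b2' : ℝ), Amp c0 R a → Amp c0 R a' →
      |b1| ≤ 1 / N → |b2| ≤ 1 / N → |b1'| ≤ 1 / N → |b2'| ≤ 1 / N →
      (∀ ζ ζ', a ζ ≠ 0 → a' ζ' ≠ 0 → c / 2 ≤ |ζ 1 / ζ 0 - ζ' 1 / ζ' 0| ∨ c / 2 ≤ |ζ 2 / ζ 0 - ζ' 2 / ζ' 0|) →
      8 / N ≤ c / 2 → ∀ y : E4,
      ∫⁻ z in Metric.closedBall y N, Sq Λ (M + 2) N a (shT b1 b2 z) * Sq Λ (M + 2) N a' (shT b1' b2' z) ≤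
      ENNReal.ofReal (CS * (N:ℝ) ^ 4) * (Mu (M + 2 - 2) N a (shT b1 b2 y) * Mu (M + 2 - 2) N a' (shT b1' b2' y)))
    (hk : Kout c0 M ε C N R H φ1 φ2 h ν a b1 b2) (hk' : Kout c0 M ε C N R H φ1' φ2' h' ν' a' b1' b2')
    (hsep : ∀ v1 v2 v1' v2', φ1 v1 * φ2 v2 ≠ 0 → φ1' v1' * φ2' v2' ≠ 0 → c ≤ |v1 - v1'| ∨ c ≤ |v2 - v2'|) (o o' : Fin 2 × Fin 2) :
    ∀ z ∈ Qr H R, ∫⁻ u in Metric.closedBall z (N:ℝ), Ss Λ (M + 2) N a b1 b2 o u * Ss Λ (M + 2) N a' b1' b2' o' u ≤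
      ENNReal.ofReal (CC * (N:ℝ) ^ 4) * (H.Wu N ν z * H.Wu N ν' z) := by
  intro z hz
  have hmu : |H.tm z| ≤ 3 * R := by
    have := hz.1
    rw [abs_of_nonneg (by linarith [this.1])]
    linarith [this.2]
  have h1 := hslab N hN1 (a o) (a' o') c0 ((N:ℝ) ^ 2) (b1 o) (b2 o) (b1' o') (b2' o') (hk.amp o) (hk'.amp o') (hk.sh o).1 (hk.sh o).2
    (hk'.sh o').1 (hk'.sh o').2 (sepa_of hk hk' hN1 hcN hsep o o') (by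
      have e : 8 / (N:ℝ) = (16 / N) / 2 := by ring
      rw [e]; linarith) z
  rw [Nat.add_sub_cancel] at h1
  refine h1.trans ?_
  have m1 := hk.mu o z hmu
  have m2 := hk'.mu o' z hmu
  calc ENNReal.ofReal (CS * (N:ℝ) ^ 4) * (Mu M N (a o) (shT (b1 o) (b2 o) z) * Mu M N (a' o') (shT (b1' o') (b2' o') z)) ≤
      ENNReal.ofReal (CS * (N:ℝ) ^ 4) * ((ENNReal.ofReal C * H.Wu N ν z) * (ENNReal.ofReal C * H.Wu N ν' z)) :=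
        mul_le_mul' le_rfl (mul_le_mul' m1 m2)
    _ = ENNReal.ofReal ((CS * C ^ 2) * (N:ℝ) ^ 4) * (H.Wu N ν z * H.Wu N ν' z) := by
        have e : (CS * C ^ 2) * (N:ℝ) ^ 4 = CS * (N:ℝ) ^ 4 * (C * C) := by ring
        rw [e, ENNReal.ofReal_mul (p := CS * (N:ℝ) ^ 4) (by positivity), ENNReal.ofReal_mul (p := C) (q := C) hC0.le]
        ring
    _ ≤ _ := by
        refine mul_le_mul' (ENNReal.ofReal_le_ofReal ?_) le_rfl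
        gcongr

theorem br_geo {CC q Kg D c ε1 : ℝ} {Cx : ℕ} {G G' : Set E3} (hCx : 1 ≤ Cx) (hKg : 0 ≤ Kg) (hD : 0 ≤ D) (hC : 1 ≤ C) (hCCC : C ≤ CC)
    (hCC3 : CC ≤ CC ^ 3) (hNr2 : (2:ℝ) ≤ N) (hε : 28 * ε ≤ ε1 / 2) (hR1 : 4 * (N:ℝ) ^ 2 ≤ R) (hRq : 3 * R ≤ q * (N:ℝ) ^ 2) (hH : H.ok2)
    (hcN : 16 / (N:ℝ) ≤ c)
    (hgeo : ∀ (N : ℕ) (H : Hyp), 1 ≤ N → H.ok → ∀ (ν1 ν2 : ℤ × ℤ → E3 → ℝ≥0∞),
      (∀ k, Measurable (ν1 k)) → (∀ k, Measurable (ν2 k)) →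
      (∀ k y y', ‖y - y'‖ ≤ N → ν1 k y ≤ ENNReal.ofReal (CC ^ 3) * ν1 k y') →
      (∀ k y y', ‖y - y'‖ ≤ N → ν2 k y ≤ ENNReal.ofReal (CC ^ 3) * ν2 k y') →
      (∀ y, ∑ k ∈ grd N, ν1 k y ≤ ENNReal.ofReal (CC ^ 3 * (N:ℝ) ^ ε)) → (∀ y, ∑ k ∈ grd N, ν2 k y ≤ ENNReal.ofReal (CC ^ 3 * (N:ℝ) ^ ε)) →
      Eng N ν1 < ⊤ → Eng N ν2 < ⊤ → Eng N ν1 ≠ 0 → Eng N ν2 ≠ 0 → Sepf N (c / 2) ν1 ν2 →
      ∀ (X : Set E4) (w1 w2 e1 e2 : ℝ), MeasurableSet X → (∀ z ∈ X, (N:ℝ) ^ 2 ≤ H.tm z ∧ H.tm z ≤ q * (N:ℝ) ^ 2) →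
      0 ≤ w1 → 0 ≤ w2 → 0 ≤ e1 → 0 ≤ e2 → e1 ≤ 1 → e2 ≤ 1 →
      (∀ z ∈ X, ENNReal.ofReal w1 ≤ H.Wu N ν1 z ∧ H.Wu N ν1 z ≤ ENNReal.ofReal (CC ^ 3 * w1)) →
      (∀ z ∈ X, ENNReal.ofReal w2 ≤ H.Wu N ν2 z ∧ H.Wu N ν2 z ≤ ENNReal.ofReal (CC ^ 3 * w2)) →
      ENNReal.ofReal (e1 * (N:ℝ) ^ 2) * Eng N ν1 ≤ ENNReal.ofReal w1 * volume X →
      ENNReal.ofReal (e2 * (N:ℝ) ^ 2) * Eng N ν2 ≤ ENNReal.ofReal w2 * volume X →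
      (w1 * w2) ^ 14 * (e1 * e2) ^ Cx ≤ Kg * (N:ℝ) ^ (26 + 28 * ε) * (1 + Real.log N) ^ Cx)
    (hlog : ∀ N : ℕ, 1 ≤ N → (1 + Real.log N) ^ Cx ≤ D * (N:ℝ) ^ (ε1 / 2))
    (hk : Kout c0 M ε C N R H φ1 φ2 h ν a b1 b2) (hk' : Kout c0 M ε C N R H φ1' φ2' h' ν' a' b1' b2')
    (hsep : ∀ v1 v2 v1' v2', φ1 v1 * φ2 v2 ≠ 0 → φ1' v1' * φ2' v2' ≠ 0 → c ≤ |v1 - v1'| ∨ c ≤ |v2 - v2'|)
    (mG : MeasurableSet G) (mG' : MeasurableSet G') (tG : volume G < ⊤) (tG' : volume G' < ⊤) (zG : volume G ≠ 0) (zG' : volume G' ≠ 0)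
    (hh : ∀ y, ‖h y‖ ≤ G.indicator (fun _ => (1:ℝ)) y) (hh' : ∀ y, ‖h' y‖ ≤ G'.indicator (fun _ => (1:ℝ)) y) :
    ∀ (X : Set E4) (μ e : Fin 2 → ℝ), MeasurableSet X → X ⊆ Qr' H N R → (∀ j, 0 < μ j) → (∀ j, 0 ≤ e j) → (∀ j, e j ≤ 1) →
    (∀ j, ∀ z ∈ X, ENNReal.ofReal (μ j) ≤ ![H.Wu N ν, H.Wu N ν'] j z ∧ ![H.Wu N ν, H.Wu N ν'] j z ≤ ENNReal.ofReal (CC ^ 3 * μ j)) →
    (∀ j, ENNReal.ofReal (e j * ![(N:ℝ) ^ 2 * C * (volume G).toReal, (N:ℝ) ^ 2 * C * (volume G').toReal] j) ≤ ENNReal.ofReal (μ j) * volume X) →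
    (μ 0 * μ 1) ^ 14 * (e 0 * e 1) ^ Cx ≤ (Kg * D) * (N:ℝ) ^ (26 + ε1) := by
  intro X μ e mX hXQ hμ he he1 hW hE
  have hNr1 : (1:ℝ) ≤ N := by linarith
  have hNr0 : (0:ℝ) < N := by linarith
  have hN1 : 1 ≤ N := by exact_mod_cast hNr1
  have hC0 : 0 < C := by linarith
  have hCC0 : 0 < CC := by linarith
  set g := (volume G).toReal with hg
  have hg0 : 0 < g := ENNReal.toReal_pos zG tG.ne
  have hrhs : 0 ≤ (Kg * D) * (N:ℝ) ^ (26 + ε1) := by positivity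
  have hNR : (N:ℝ) ≤ 10 * R / N := by
    rw [le_div_iff₀ hNr0]
    have : (N:ℝ) * N = (N:ℝ) ^ 2 := by ring
    rw [this]
    have : 0 ≤ (N:ℝ) ^ 2 := by positivity
    linarith
  by_cases hv : volume X = 0
  · have h0 := hE 0
    rw [hv, mul_zero] at h0
    have h3 : e 0 * ((N:ℝ) ^ 2 * C * g) ≤ 0 := by
      have := ENNReal.ofReal_eq_zero.1 (le_antisymm h0 zero_le)
      simpa using this
    have h4 : e 0 = 0 := by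
      have h5 : 0 < (N:ℝ) ^ 2 * C * g := by positivity
      rcases (he 0).eq_or_lt with h6 | h6
      · exact h6.symm
      · exact absurd h3 (not_le.2 (mul_pos h6 h5))
    rw [h4, zero_mul, zero_pow (by omega), mul_zero]
    exact hrhs
  have hX : ∀ z ∈ X, (N:ℝ) ^ 2 ≤ H.tm z ∧ H.tm z ≤ 3 * R := fun z hz => hXQ hz
  have W0 := hW 0
  have W1 := hW 1
  simp only [Matrix.cons_val_zero, Matrix.cons_val_one] at W0 W1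
  have E0 := hE 0
  have E1 := hE 1
  simp only [Matrix.cons_val_zero, Matrix.cons_val_one] at E0 E1
  have n1 := Eng_ne hk.meas (hμ 0) mX hX (fun z hz => (W0 z hz).1) hv
  have n2 := Eng_ne hk'.meas (hμ 1) mX hX (fun z hz => (W1 z hz).1) hv
  have hEb : ∀ {ν : ℤ × ℤ → E3 → ℝ≥0∞} {G : Set E3} {e : ℝ}, volume G < ⊤ → 0 ≤ e → Eng N ν ≤ ENNReal.ofReal C * volume G →
      ENNReal.ofReal (e * (N:ℝ) ^ 2) * Eng N ν ≤ ENNReal.ofReal (e * ((N:ℝ) ^ 2 * C * (volume G).toReal)) := by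
    intro ν G e tG he h
    calc _ ≤ ENNReal.ofReal (e * (N:ℝ) ^ 2) * (ENNReal.ofReal C * volume G) := mul_le_mul' le_rfl h
      _ = _ := by
        rw [← ENNReal.ofReal_toReal tG.ne, ← ENNReal.ofReal_mul hC0.le, ← ENNReal.ofReal_mul (by positivity),
          ENNReal.toReal_ofReal ENNReal.toReal_nonneg]
        congr 1
        ring
  have q1 := (hEb (e := e 0) tG (he 0) (hk.e2 hC0.le mG hh)).trans E0
  have q2 := (hEb (e := e 1) tG' (he 1) (hk'.e2 hC0.le mG' hh')).trans E1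
  have fE : ∀ {ν : ℤ × ℤ → E3 → ℝ≥0∞} {G : Set E3}, volume G < ⊤ → Eng N ν ≤ ENNReal.ofReal C * volume G → Eng N ν < ⊤ :=
    fun tG h => h.trans_lt (ENNReal.mul_lt_top ENNReal.ofReal_lt_top tG)
  have hslow : ∀ {ν : ℤ × ℤ → E3 → ℝ≥0∞}, (∀ k y y', ‖y - y'‖ ≤ 10 * R / N → ν k y ≤ ENNReal.ofReal C * ν k y') →
      ∀ k y y', ‖y - y'‖ ≤ N → ν k y ≤ ENNReal.ofReal (CC ^ 3) * ν k y' := by
    intro ν h k y y' hy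
    exact (h k y y' (hy.trans hNR)).trans (mul_le_mul' (ENNReal.ofReal_le_ofReal (hCCC.trans hCC3)) le_rfl)
  have hsum : ∀ {x : ℝ≥0∞}, x ≤ ENNReal.ofReal (C * (N:ℝ) ^ ε) → x ≤ ENNReal.ofReal (CC ^ 3 * (N:ℝ) ^ ε) := by
    intro x hx
    refine hx.trans (ENNReal.ofReal_le_ofReal ?_)
    have := hCCC.trans hCC3
    gcongr
  have main := hgeo N H hN1 hH.ok ν ν' hk.meas hk'.meas (hslow hk.slow) (hslow hk'.slow) (fun y => hsum (hk.sum y)) (fun y => hsum (hk'.sum y))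
    (fE tG (hk.e2 hC0.le mG hh)) (fE tG' (hk'.e2 hC0.le mG' hh')) n1 n2 (sepf_of hk hk' hN1 hcN hsep) X (μ 0) (μ 1) (e 0) (e 1) mX
    (fun z hz => ⟨(hX z hz).1, (hX z hz).2.trans hRq⟩)
    (hμ 0).le (hμ 1).le (he 0) (he 1) (he1 0) (he1 1) W0 W1 q1 q2
  refine main.trans ?_
  have hl := hlog N hN1
  calc Kg * (N:ℝ) ^ (26 + 28 * ε) * (1 + Real.log N) ^ Cx ≤ Kg * (N:ℝ) ^ (26 + ε1 / 2) * (D * (N:ℝ) ^ (ε1 / 2)) := by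
        gcongr
    _ = (Kg * D) * ((N:ℝ) ^ (26 + ε1 / 2) * (N:ℝ) ^ (ε1 / 2)) := by ring
    _ = _ := by
        rw [← Real.rpow_add hNr0]
        congr 2
        ring

end

theorem br_pair {Cx : ℕ} (hCx : 1 ≤ Cx) (hGEO : StGEO Cx) {p ε' : ℝ} (hp : 2 < p) (hp2 : p ≤ 2 + 28 / (70 + Cx)) (hε' : 0 < ε') :
    ∃ εK : ℝ, 0 < εK ∧ ∀ M0 : ℕ, ∃ (c0 : ℝ) (K0 M : ℕ), 0 < c0 ∧ c0 ≤ 1 ∧ 2 ≤ K0 ∧ M0 ≤ M ∧ ∀ (c C : ℝ), 0 < c → 1 ≤ C →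
    ∃ (N0 : ℕ) (C' : ℝ), 0 ≤ C' ∧ ∀ (n N : ℕ) (R : ℝ) (H : Hyp) (φ1 φ2 φ1' φ2' : ℝ → ℂ) (h h' : E3 → ℂ) (ν ν' : ℤ × ℤ → E3 → ℝ≥0∞)
      (a a' : Fin 2 × Fin 2 → E4 → ℂ) (b1 b2 b1' b2' : Fin 2 × Fin 2 → ℝ) (G G' : Set E3), N = K0 ^ n → N0 ≤ N →
      4 * (N:ℝ) ^ 2 ≤ R → R ≤ 4 * (K0:ℝ) ^ 2 * (N:ℝ) ^ 2 → H.ok2 →
      Kout c0 M εK C N R H φ1 φ2 h ν a b1 b2 → Kout c0 M εK C N R H φ1' φ2' h' ν' a' b1' b2' →
      (∀ v1 v2 v1' v2', φ1 v1 * φ2 v2 ≠ 0 → φ1' v1' * φ2' v2' ≠ 0 → c ≤ |v1 - v1'| ∨ c ≤ |v2 - v2'|) →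
      MeasurableSet G → MeasurableSet G' → volume G < ⊤ → volume G' < ⊤ → volume G ≠ 0 → volume G' ≠ 0 →
      (∀ y, ‖h y‖ ≤ G.indicator (fun _ => (1:ℝ)) y) → (∀ y, ‖h' y‖ ≤ G'.indicator (fun _ => (1:ℝ)) y) →
      ∀ o o', ∫⁻ z in Qr H R, (Fs a b1 b2 o z * Fs a' b1' b2' o' z) ^ (p / 2) ≤
        ENNReal.ofReal (C' * (N:ℝ) ^ ((13 / 28) * (p - 2) + ε') * ((N:ℝ) ^ 2 * Real.sqrt ((volume G).toReal * (volume G').toReal))) := by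
  obtain ⟨ε1, hε1, hch⟩ := stCHAIN Cx p ε' hp hp2 hε'
  set εK := min (ε1 / 56) 1 with hεK
  have hεK0 : 0 < εK := by rw [hεK]; positivity
  have hεK1 : εK ≤ 1 := min_le_right _ _
  have hεK2 : 28 * εK ≤ ε1 / 2 := by
    have : εK ≤ ε1 / 56 := min_le_left _ _
    linarith
  refine ⟨εK, hεK0, ?_⟩
  intro M0
  set M := max M0 2 with hM
  have hM2 : 2 ≤ M := le_max_right _ _
  obtain ⟨K0, c0', Λ, CR, hK0, hc0', hΛ, hCR, href⟩ := stREF ε1 (M + 2) hε1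
  refine ⟨min c0' 1, K0, M, lt_min hc0' one_pos, min_le_right _ _, hK0, le_max_left _ _, ?_⟩
  set c0 := min c0' 1 with hc0
  have hc0le : c0 ≤ c0' := min_le_left _ _
  have hc01 : c0 ≤ 1 := min_le_right _ _
  intro c C hc hC
  obtain ⟨CS, hCS, hslab⟩ := stSLABs Λ (c / 2) (M + 2) hΛ (by positivity) (by omega)
  obtain ⟨CL, hCL, hloc⟩ := stLOC2 M
  obtain ⟨CB, hCB, hber⟩ := stBER M
  have hK0r : (2:ℝ) ≤ K0 := by exact_mod_cast hK0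
  set P := CR + CS + CL + CB + 1 with hP
  set q := 12 * (K0:ℝ) ^ 2 with hq
  set CC := P * q * (2 * C ^ 2) with hCC
  have hC0 : 0 < C := by linarith
  have hP1 : 1 ≤ P := by rw [hP]; linarith
  have hq1 : 48 ≤ q := by rw [hq]; nlinarith
  have hC2 : C ≤ C ^ 2 := le_self_pow₀ hC (by norm_num)
  have hC21 : 1 ≤ C ^ 2 := one_le_pow₀ hC
  have key : ∀ {x y z : ℝ}, 0 ≤ x → x ≤ P → 0 ≤ y → y ≤ q → 0 ≤ z → z ≤ 2 * C ^ 2 → x * y * z ≤ CC := by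
    intro x y z hx hx' hy hy' hz hz'
    rw [hCC]; gcongr
  have hCC2 : 2 ≤ CC := by
    have := key (x := 1) (y := 1) (z := 2) (by norm_num) hP1 (by norm_num) (by linarith) (by norm_num) (by linarith)
    linarith
  have hCCC : C ≤ CC := by
    have := key (x := 1) (y := 1) (z := C) (by norm_num) hP1 (by norm_num) (by linarith) hC0.le (by linarith)
    linarith
  have hCC1 : 1 ≤ CC := by linarith
  have hCC3 : CC ≤ CC ^ 3 := le_self_pow₀ hCC1 (by norm_num)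
  obtain ⟨Kg, hKg, hgeo⟩ := geo_unit (c := c / 2) (C1 := CC ^ 3) (T0 := q) hGEO (by positivity) (by linarith) hεK0
  obtain ⟨D, hD, hlog⟩ := log_pow_le Cx hCx (η := ε1 / 2) (by positivity)
  obtain ⟨C', hC', hmain⟩ := hch CC (Kg * D) hCC2 (by positivity)
  refine ⟨max 2 ⌈16 / c⌉₊, C' * C, by positivity, ?_⟩
  intro n N R H φ1 φ2 φ1' φ2' h h' ν ν' a a' b1 b2 b1' b2' G G' hNn hN0 hR1 hR2 hH hk hk' hsep mG mG' tG tG' zG zG' hh hh' o o'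
  have hN2 : 2 ≤ N := (le_max_left _ _).trans hN0
  have hN1 : 1 ≤ N := by omega
  have hNr2 : (2:ℝ) ≤ N := by exact_mod_cast hN2
  have hNr1 : (1:ℝ) ≤ N := by linarith
  have hNr0 : (0:ℝ) < N := by linarith
  have hcN : 16 / (N:ℝ) ≤ c := by
    have h1 : (⌈16 / c⌉₊ : ℝ) ≤ N := by exact_mod_cast (le_max_right _ _).trans hN0
    have h2 := (Nat.le_ceil (16 / c)).trans h1
    rw [div_le_iff₀ hc] at h2
    rw [div_le_iff₀ hNr0]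
    linarith
  have hR0 : 0 < R := by nlinarith
  have hbd := hH.ok.bd
  have h1 := one_fn (Λ := Λ) hCR hCL hCB (by rw [hP]; linarith) (by rw [hP]; linarith) (by rw [hP]; linarith) hP1 hq hC hCC hK0r hεK1
    hc0le hc01 hNn hN2 hR1 hR2 hH href hloc hber hk mG tG hh o
  have h2 := one_fn (Λ := Λ) hCR hCL hCB (by rw [hP]; linarith) (by rw [hP]; linarith) (by rw [hP]; linarith) hP1 hq hC hCC hK0r hεK1
    hc0le hc01 hNn hN2 hR1 hR2 hH href hloc hber hk' mG' tG' hh' o'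
  obtain ⟨p1, p2, p3, p4, p5, p6, p7, p8⟩ := h1
  obtain ⟨r1, r2, r3, r4, r5, r6, r7, r8⟩ := h2
  set g := (volume G).toReal with hg
  set g' := (volume G').toReal with hg'
  have hg0 : 0 < g := ENNReal.toReal_pos zG tG.ne
  have hg0' : 0 < g' := ENNReal.toReal_pos zG' tG'.ne
  have mW := measurable_Wu H N hk.meas
  have mW' := measurable_Wu H N hk'.meas
  have hgeom1 := qr_sub (N := N) (R := R) hbd hNr2 hR1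
  have hgeom2 := br_slab (Λ := Λ) (CC := CC) hCS hC0 hN1 hcN (by
    have h2 := key (x := CS) (y := 1) (z := C ^ 2) hCS (by rw [hP]; linarith) (by norm_num) (by linarith) (by positivity) (by linarith)
    linarith) hR0.le hslab hk hk' hsep o o'
  have hgeom3 := br_geo (CC := CC) (q := q) hCx hKg hD hC hCCC hCC3 hNr2 hεK2 hR1 (by rw [hq]; linarith) hH hcN hgeo hlog hk hk' hsep mG mG' tG tG' zG zG' hh hh'
  have hfin := hmain N (Qr H R) (Qr' H N R) ![Fs a b1 b2 o, Fs a' b1' b2' o'] ![Ss Λ (M + 2) N a b1 b2 o, Ss Λ (M + 2) N a' b1' b2' o']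
    ![H.Wu N ν, H.Wu N ν'] ![(N:ℝ) ^ 2 * C * g, (N:ℝ) ^ 2 * C * g'] hN2 (mQr H R) (mQr' H N R) ?_
    (by intro j; fin_cases j; exacts [measurable_Fs hk o, measurable_Fs hk' o'])
    (by intro j; fin_cases j; exacts [measurable_Ss hk Λ (M + 2) o, measurable_Ss hk' Λ (M + 2) o'])
    (by intro j; fin_cases j; exacts [mW, mW'])
    (by intro j; fin_cases j; exacts [by simp; positivity, by simp; positivity])
    (by intro j; fin_cases j; exacts [p1, r1]) ?_ (by intro j; fin_cases j; exacts [p2, r2])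
    (by intro j; fin_cases j; exacts [p3, r3]) (by intro j; fin_cases j; exacts [p4, r4])
    (by intro j; fin_cases j; exacts [p5, r5]) (by intro j; fin_cases j; exacts [p6, r6])
    (by intro j; fin_cases j; exacts [p7, r7]) (by intro j; fin_cases j; exacts [p8, r8]) ?_
  · refine hfin.trans (ENNReal.ofReal_le_ofReal (le_of_eq ?_))
    simp only [Matrix.cons_val_zero, Matrix.cons_val_one]
    have e : (N:ℝ) ^ 2 * C * g * ((N:ℝ) ^ 2 * C * g') = ((N:ℝ) ^ 2 * C) ^ 2 * (g * g') := by ring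
    rw [e, Real.sqrt_mul (by positivity), Real.sqrt_sq (by positivity)]
    ring
  · exact hgeom1
  · exact hgeom2
  · exact hgeom3

end Vale.Agent.P106.G
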