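import Vale.Agent.P106.G.Mop

/-! # Cut-offs -/

open MeasureTheory Complex Set Filter
open scoped ENNReal NNReal ContDiff FourierTransform Topology SchwartzMap

set_option linter.all false

namespace Vale.Agent.P106.G

open Vale.Agent.P117 (Adm contDiff_st)

theorem contDiff_stR {f : ℝ → ℝ} (hf : ContDiff ℝ ∞ f) : ContDiff ℝ ∞ (fun t => (Real.smoothTransition (f t) : ℂ)) :=
  Complex.ofRealCLM.contDiff.comp (contDiff_st.comp hf)

theorem contDiff_stp : ContDiff ℝ ∞ stp := contDiff_stR (by fun_prop)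

theorem stp_zero {t : ℝ} (h : t ≤ -1/8) : stp t = 0 := by
  unfold stp; rw [Real.smoothTransition.zero_of_nonpos (by linarith)]; simp

theorem stp_one {t : ℝ} (h : 1/8 ≤ t) : stp t = 1 := by
  unfold stp; rw [Real.smoothTransition.one_of_one_le (by linarith)]; simp

theorem contDiff_psi : ContDiff ℝ ∞ psi := by
  have h := contDiff_stp
  have h2 : ContDiff ℝ ∞ (fun t : ℝ => stp (t - 1)) := h.comp (by fun_prop)
  exact h.sub h2

theorem psi_supp {t : ℝ} (h : psi t ≠ 0) : -1/8 ≤ t ∧ t ≤ 9/8 := by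
  constructor
  · by_contra hc
    push Not at hc
    apply h
    unfold psi
    rw [stp_zero hc.le, stp_zero (by linarith), sub_zero]
  · by_contra hc
    push Not at hc
    apply h
    unfold psi
    rw [stp_one (by linarith), stp_one (by linarith), sub_self]

theorem psi_one {t : ℝ} (h1 : 1/8 ≤ t) (h2 : t ≤ 7/8) : psi t = 1 := by
  unfold psi
  rw [stp_one h1, stp_zero (by linarith), sub_zero]

/-- telescoping -/
theorem psi_sum (t : ℝ) (a : ℤ) (n : ℕ) : ∑ j ∈ Finset.range n, psi (t - (a + j : ℤ)) = stp (t - a) - stp (t - (a + n : ℤ)) := by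
  induction n with
  | zero => simp
  | succ n ih =>
    rw [Finset.sum_range_succ, ih]
    unfold psi
    have e : t - ((a + n : ℤ) : ℝ) - 1 = t - ((a + (n + 1 : ℕ) : ℤ) : ℝ) := by push_cast; ring
    rw [e]
    ring

theorem psi_sum_Icc {t : ℝ} {a b : ℤ} (h1 : (a:ℝ) + 1/8 ≤ t) (h2 : t ≤ b + 7/8) : ∑ k ∈ Finset.Icc a b, psi (t - k) = 1 := by
  have hab : a ≤ b := by
    have : (a:ℝ) < b + 1 := by linarith
    have h3 : a < b + 1 := by exact_mod_cast this
    omega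
  obtain ⟨n, hn⟩ := Int.eq_ofNat_of_zero_le (show 0 ≤ b + 1 - a by omega)
  have h := psi_sum t a n
  have e : ∑ k ∈ Finset.Icc a b, psi (t - k) = ∑ j ∈ Finset.range n, psi (t - (a + j : ℤ)) := by
    symm
    apply Finset.sum_bij (fun (j:ℕ) _ => (a + j : ℤ))
    · intro j hj
      rw [Finset.mem_range] at hj
      rw [Finset.mem_Icc]
      constructor <;> omega
    · intro j1 _ j2 _ h; omega
    · intro k hk
      rw [Finset.mem_Icc] at hk
      refine ⟨(k - a).toNat, ?_, ?_⟩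
      · rw [Finset.mem_range]; omega
      · omega
    · intro j hj; rfl
  rw [e, h]
  have e2 : ((a + n : ℤ) : ℝ) = b + 1 := by
    have : a + (n:ℤ) = b + 1 := by omega
    rw [this]; push_cast; ring
  rw [e2, stp_one (by linarith), stp_zero (by linarith), sub_zero]

/-- fattened cut-off -/
noncomputable def psiP (t : ℝ) : ℂ := (Real.smoothTransition (8 * t + 2) : ℂ) * (Real.smoothTransition (10 - 8 * t) : ℂ)

theorem contDiff_psiP : ContDiff ℝ ∞ psiP :=
  (contDiff_stR (f := fun t => 8 * t + 2) (by fun_prop)).mul (contDiff_stR (f := fun t => 10 - 8 * t) (by fun_prop))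

theorem psiP_supp {t : ℝ} (h : psiP t ≠ 0) : -1/4 ≤ t ∧ t ≤ 5/4 := by
  unfold psiP at h
  constructor
  · by_contra hc
    push Not at hc
    apply h
    rw [Real.smoothTransition.zero_of_nonpos (by linarith : 8 * t + 2 ≤ 0)]; simp
  · by_contra hc
    push Not at hc
    apply h
    rw [Real.smoothTransition.zero_of_nonpos (by linarith : 10 - 8 * t ≤ 0)]; simp

theorem psiP_one {t : ℝ} (h1 : -1/8 ≤ t) (h2 : t ≤ 9/8) : psiP t = 1 := by
  unfold psiP
  rw [Real.smoothTransition.one_of_one_le (by linarith), Real.smoothTransition.one_of_one_le (by linarith)]; simp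

theorem norm_st_le (t : ℝ) : ‖(Real.smoothTransition t : ℂ)‖ ≤ 1 := by
  rw [Complex.norm_real, Real.norm_of_nonneg (Real.smoothTransition.nonneg _)]
  exact Real.smoothTransition.le_one _

theorem norm_psiP_le (t : ℝ) : ‖psiP t‖ ≤ 1 := by
  unfold psiP
  rw [norm_mul]
  calc _ ≤ (1:ℝ) * 1 := mul_le_mul (norm_st_le _) (norm_st_le _) (norm_nonneg _) (by norm_num)
    _ = 1 := by norm_num

theorem psi_mul_psiP (t : ℝ) : psi t * psiP t = psi t := by
  by_cases h : psi t = 0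
  · rw [h, zero_mul]
  · obtain ⟨h1, h2⟩ := psi_supp h
    rw [psiP_one h1 h2, mul_one]

theorem contDiff_chi0 (c : ℝ) : ContDiff ℝ ∞ (chi0 c) := by
  have h1 := contDiff_stR (f := fun t => 4 * ((t - 1) / c) - 1/2) (by fun_prop)
  have h2 := contDiff_stR (f := fun t => 7/2 - 4 * ((t - 1) / c)) (by fun_prop)
  have e : chi0 c = fun t => (Real.smoothTransition (4 * ((t - 1) / c) - 1/2) : ℂ) *
      (Real.smoothTransition (7/2 - 4 * ((t - 1) / c)) : ℂ) := by
    ext t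
    unfold chi0
    rw [Complex.ofReal_mul]
  rw [e]
  exact h1.mul h2

theorem chi0_supp {c : ℝ} (hc : 0 < c) {t : ℝ} (h : chi0 c t ≠ 0) : 1 + c / 8 ≤ t ∧ t ≤ 1 + 7 * c / 8 := by
  unfold chi0 at h
  have hh : Real.smoothTransition (4 * ((t - 1) / c) - 1/2) * Real.smoothTransition (7/2 - 4 * ((t - 1) / c)) ≠ 0 := by
    intro h0; rw [h0] at h; exact h (by simp)
  constructor
  · by_contra hcn
    push Not at hcn
    apply left_ne_zero_of_mul hh
    apply Real.smoothTransition.zero_of_nonpos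
    have : (t - 1) / c ≤ 1/8 := by rw [div_le_iff₀ hc]; linarith
    linarith
  · by_contra hcn
    push Not at hcn
    apply right_ne_zero_of_mul hh
    apply Real.smoothTransition.zero_of_nonpos
    have : 7/8 ≤ (t - 1) / c := by rw [le_div_iff₀ hc]; linarith
    linarith

theorem chi0_one {c : ℝ} (hc : 0 < c) {t : ℝ} (h1 : 1 + 3 * c / 8 ≤ t) (h2 : t ≤ 1 + 5 * c / 8) : chi0 c t = 1 := by
  unfold chi0
  have e1 : 3/8 ≤ (t - 1) / c := by rw [le_div_iff₀ hc]; linarith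
  have e2 : (t - 1) / c ≤ 5/8 := by rw [div_le_iff₀ hc]; linarith
  rw [Real.smoothTransition.one_of_one_le (by linarith), Real.smoothTransition.one_of_one_le (by linarith)]; simp

theorem r1_chi0 {c : ℝ} (hc : 0 < c) (hc1 : c ≤ 1) : R1 (chi0 c) where
  smooth := contDiff_chi0 c
  supp := fun t ht => by
    obtain ⟨h1, h2⟩ := chi0_supp hc ht
    constructor <;> linarith
  ge1 := fun t ht => by
    obtain ⟨h1, h2⟩ := chi0_supp hc ht
    linarith

/-- fattened radial cut-off -/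
noncomputable def chiP (c : ℝ) (t : ℝ) : ℂ :=
  (Real.smoothTransition (8 * ((t - 1) / c)) : ℂ) * (Real.smoothTransition (8 - 8 * ((t - 1) / c)) : ℂ)

theorem contDiff_chiP (c : ℝ) : ContDiff ℝ ∞ (chiP c) :=
  (contDiff_stR (f := fun t => 8 * ((t - 1) / c)) (by fun_prop)).mul
    (contDiff_stR (f := fun t => 8 - 8 * ((t - 1) / c)) (by fun_prop))

theorem chiP_supp {c : ℝ} (hc : 0 < c) {t : ℝ} (h : chiP c t ≠ 0) : 1 ≤ t ∧ t ≤ 1 + c := by
  unfold chiP at h
  constructor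
  · by_contra hcn
    push Not at hcn
    apply h
    have : (t - 1) / c ≤ 0 := by rw [div_le_iff₀ hc]; linarith
    rw [Real.smoothTransition.zero_of_nonpos (by linarith : 8 * ((t - 1) / c) ≤ 0)]; simp
  · by_contra hcn
    push Not at hcn
    apply h
    have : 1 ≤ (t - 1) / c := by rw [le_div_iff₀ hc]; linarith
    rw [Real.smoothTransition.zero_of_nonpos (by linarith : 8 - 8 * ((t - 1) / c) ≤ 0)]; simp

theorem chiP_one {c : ℝ} (hc : 0 < c) {t : ℝ} (h1 : 1 + c / 8 ≤ t) (h2 : t ≤ 1 + 7 * c / 8) : chiP c t = 1 := by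
  unfold chiP
  have e1 : 1/8 ≤ (t - 1) / c := by rw [le_div_iff₀ hc]; linarith
  have e2 : (t - 1) / c ≤ 7/8 := by rw [div_le_iff₀ hc]; linarith
  rw [Real.smoothTransition.one_of_one_le (by linarith), Real.smoothTransition.one_of_one_le (by linarith)]; simp

theorem norm_chiP_le (c t : ℝ) : ‖chiP c t‖ ≤ 1 := by
  unfold chiP
  rw [norm_mul]
  calc _ ≤ (1:ℝ) * 1 := mul_le_mul (norm_st_le _) (norm_st_le _) (norm_nonneg _) (by norm_num)
    _ = 1 := by norm_num

theorem chi0_mul_chiP {c : ℝ} (hc : 0 < c) (t : ℝ) : chi0 c t * chiP c t = chi0 c t := by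
  by_cases h : chi0 c t = 0
  · rw [h, zero_mul]
  · obtain ⟨h1, h2⟩ := chi0_supp hc h
    rw [chiP_one hc h1 h2, mul_one]

theorem r1_chiP {c : ℝ} (hc : 0 < c) (hc1 : c ≤ 1) : R1 (chiP c) where
  smooth := contDiff_chiP c
  supp := fun t ht => by
    obtain ⟨h1, h2⟩ := chiP_supp hc ht
    constructor <;> linarith
  ge1 := fun t ht => (chiP_supp hc ht).1

theorem contDiff_psv : ContDiff ℝ ∞ psv := contDiff_psi.comp (by fun_prop)

theorem psv_supp {t : ℝ} (h : psv t ≠ 0) : 3/16 ≤ t ∧ t ≤ 13/16 := by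
  obtain ⟨h1, h2⟩ := psi_supp h
  constructor <;> linarith

theorem vcut_psv : Vcut psv := ⟨contDiff_psv, fun t ht => by
  obtain ⟨h1, h2⟩ := psv_supp ht
  constructor <;> linarith⟩

noncomputable def psvP (t : ℝ) : ℂ := psiP (2 * t - 1/2)

theorem vcut_psvP : Vcut psvP := ⟨contDiff_psiP.comp (by fun_prop), fun t ht => by
  obtain ⟨h1, h2⟩ := psiP_supp ht
  constructor <;> linarith⟩

/-! ### caps of side `K⁻¹` -/

noncomputable def pk (K : ℝ) (k : ℤ) (v : ℝ) : ℂ := psi (K * (2 * v - 1/2) - k)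
noncomputable def pkP (K : ℝ) (k : ℤ) (v : ℝ) : ℂ := psiP (K * (2 * v - 1/2) - k)
noncomputable def bk (K : ℝ) (k : ℤ) : ℝ := 1/4 + (k - 1/2) / (2 * K)
noncomputable def ks (K : ℝ) : Finset ℤ := Finset.Icc ⌈-(K/8) - 9/8⌉ ⌊9 * K / 8 + 1/8⌋

theorem pk_bk {K : ℝ} (hK : 0 < K) (k : ℤ) (v : ℝ) : pk K k (bk K k + K⁻¹ * v) = psv v := by
  unfold pk bk psv
  congr 1
  field_simp
  ring

theorem pkP_bk {K : ℝ} (hK : 0 < K) (k : ℤ) (v : ℝ) : pkP K k (bk K k + K⁻¹ * v) = psvP v := by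
  unfold pkP bk psvP
  congr 1
  field_simp
  ring

theorem mem_ks {K : ℝ} {k : ℤ} (h : k ∈ ks K) : -(K/8) - 9/8 ≤ k ∧ (k:ℝ) ≤ 9 * K / 8 + 1/8 := by
  unfold ks at h
  rw [Finset.mem_Icc] at h
  exact ⟨Int.ceil_le.1 h.1, Int.le_floor.1 h.2⟩

theorem bk_bd {K : ℝ} (hK : 5 ≤ K) {k : ℤ} (h : k ∈ ks K) : 0 ≤ bk K k ∧ bk K k + K⁻¹ ≤ 1 := by
  obtain ⟨h1, h2⟩ := mem_ks h
  have hK0 : 0 < K := by linarith
  unfold bk
  constructor
  · have : -(1/4) ≤ ((k:ℝ) - 1/2) / (2 * K) := by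
      rw [le_div_iff₀ (by positivity)]; linarith
    linarith
  · have e : 1/4 + ((k:ℝ) - 1/2) / (2 * K) + K⁻¹ = 1/4 + (k + 3/2) / (2 * K) := by field_simp; ring
    rw [e]
    have : ((k:ℝ) + 3/2) / (2 * K) ≤ 3/4 := by
      rw [div_le_iff₀ (by positivity)]; linarith
    linarith

theorem vc_pkP {K : ℝ} (hK : 5 ≤ K) {k : ℤ} (h : k ∈ ks K) : Vc (pkP K k) := by
  obtain ⟨h1, h2⟩ := mem_ks h
  refine ⟨contDiff_psiP.comp (by fun_prop), fun v hv => ?_⟩
  obtain ⟨h3, h4⟩ := psiP_supp hv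
  rw [abs_le]
  have hK0 : 0 < K := by linarith
  constructor
  · by_contra hc
    push Not at hc
    have : K * (2 * v - 1/2) ≤ K * (-3) := by
      apply mul_le_mul_of_nonneg_left _ hK0.le; linarith
    linarith
  · by_contra hc
    push Not at hc
    have : K * 2 ≤ K * (2 * v - 1/2) := by
      apply mul_le_mul_of_nonneg_left _ hK0.le; linarith
    linarith

theorem vc_pk {K : ℝ} (hK : 5 ≤ K) {k : ℤ} (h : k ∈ ks K) : Vc (pk K k) := by
  refine ⟨contDiff_psi.comp (by fun_prop), fun v hv => (vc_pkP hK h).supp v ?_⟩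
  obtain ⟨h3, h4⟩ := psi_supp hv
  unfold pkP
  rw [psiP_one h3 h4]
  exact one_ne_zero

theorem sum_pk {K : ℝ} (hK : 0 < K) (v : ℝ) : ∑ k ∈ ks K, psv v * pk K k v = psv v := by
  by_cases hv : psv v = 0
  · simp [hv]
  · obtain ⟨h1, h2⟩ := psi_supp hv
    rw [← Finset.mul_sum]
    have h3 : ∑ k ∈ ks K, pk K k v = 1 := by
      unfold pk ks
      apply psi_sum_Icc
      · have := Int.ceil_lt_add_one (-(K/8) - 9/8)
        have h5 : -(K/8) ≤ K * (2 * v - 1/2) := by nlinarith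
        linarith
      · have := Int.lt_floor_add_one (9 * K / 8 + 1/8)
        have h5 : K * (2 * v - 1/2) ≤ 9 * K / 8 := by nlinarith
        linarith
    rw [h3, mul_one]

/-- bounded overlap -/
theorem sum_pkP_le (K : ℝ) (v : ℝ) (s : Finset ℤ) : ∑ k ∈ s, ‖pkP K k v‖ₑ ^ 2 ≤ 2 := by
  classical
  set t := K * (2 * v - 1/2) with ht
  have h1 : ∑ k ∈ s, ‖pkP K k v‖ₑ ^ 2 ≤ ∑ k ∈ s, if k ∈ Finset.Icc ⌈t - 5/4⌉ ⌊t + 1/4⌋ then (1:ℝ≥0∞) else 0 := by
    apply Finset.sum_le_sum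
    intro k _
    split_ifs with hk
    · have : ‖pkP K k v‖ₑ ≤ 1 := by
        rw [← ofReal_norm, ← ENNReal.ofReal_one]
        exact ENNReal.ofReal_le_ofReal (norm_psiP_le _)
      calc ‖pkP K k v‖ₑ ^ 2 ≤ 1 ^ 2 := by gcongr
        _ = 1 := by norm_num
    · have : pkP K k v = 0 := by
        by_contra hc
        obtain ⟨h3, h4⟩ := psiP_supp hc
        apply hk
        rw [Finset.mem_Icc]
        exact ⟨Int.ceil_le.2 (by linarith), Int.le_floor.2 (by linarith)⟩
      rw [this]; simp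
  refine h1.trans ?_
  rw [← Finset.sum_filter, Finset.sum_const, nsmul_eq_mul, mul_one]
  have h2 : (s.filter (fun k => k ∈ Finset.Icc ⌈t - 5/4⌉ ⌊t + 1/4⌋)).card ≤ 2 := by
    calc _ ≤ (Finset.Icc ⌈t - 5/4⌉ ⌊t + 1/4⌋).card := by
          apply Finset.card_le_card
          intro k hk
          exact (Finset.mem_filter.1 hk).2
      _ = (⌊t + 1/4⌋ + 1 - ⌈t - 5/4⌉).toNat := Int.card_Icc _ _
      _ ≤ 2 := by
          have h3 : ((⌊t + 1/4⌋ + 1 - ⌈t - 5/4⌉ : ℤ) : ℝ) ≤ 5/2 := by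
            push_cast
            have := Int.floor_le (t + 1/4)
            have := Int.le_ceil (t - 5/4)
            linarith
          have h4 : (⌊t + 1/4⌋ + 1 - ⌈t - 5/4⌉ : ℤ) < 3 := by
            have : ((⌊t + 1/4⌋ + 1 - ⌈t - 5/4⌉ : ℤ) : ℝ) < 3 := by linarith
            exact_mod_cast this
          omega
  exact_mod_cast h2

end Vale.Agent.P106.G
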