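import Vale.Agent.P106.G.Interp

/-! # Multiplier operators on `E3` -/

open MeasureTheory Complex Set Filter
open scoped ENNReal NNReal ContDiff FourierTransform Topology SchwartzMap

set_option linter.all false

namespace Vale.Agent.P106.G

open Vale.Agent.P117 (Adm cv cv_schwartz_eq continuous_cv integrable_cv fourier_cv nrm lintegral_sq_fourier_le)

/-- smooth compactly supported symbols -/
structure Sm (M : E3 → ℂ) : Prop where
  smooth : ContDiff ℝ ∞ M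
  supp : HasCompactSupport M

/-- multiplier operator -/
noncomputable def mop (M f : E3 → ℂ) : E3 → ℂ := 𝓕⁻ (fun ξ => M ξ * 𝓕 f ξ)

/-- `L¹` norm of the kernel -/
noncomputable def kn (M : E3 → ℂ) : ℝ≥0∞ := ∫⁻ w, ‖𝓕⁻ M w‖ₑ

theorem Sm.bdd {M : E3 → ℂ} (hM : Sm M) : ∃ C : ℝ, 0 ≤ C ∧ ∀ ξ, ‖M ξ‖ ≤ C := by
  obtain ⟨C, hC⟩ := hM.smooth.continuous.bounded_above_of_compact_support hM.supp
  exact ⟨max C 0, le_max_right _ _, fun ξ => (hC ξ).trans (le_max_left _ _)⟩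

theorem Sm.int {M : E3 → ℂ} (hM : Sm M) : Integrable M := hM.smooth.continuous.integrable_of_hasCompactSupport hM.supp

theorem Sm.mul {M N : E3 → ℂ} (hM : Sm M) (hN : Sm N) : Sm (fun ξ => M ξ * N ξ) :=
  ⟨hM.smooth.mul hN.smooth, hM.supp.mul_right⟩

theorem fourier_bd {f : E3 → ℂ} (hf : Integrable f) (ξ : E3) : ‖𝓕 f ξ‖ ≤ ∫ x, ‖f x‖ := by
  rw [Real.fourier_eq']
  refine (norm_integral_le_integral_norm _).trans (le_of_eq ?_)
  congr 1
  ext x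
  rw [norm_smul]
  have : ‖cexp (((-2 * Real.pi * inner ℝ x ξ : ℝ) : ℂ) * I)‖ = 1 := Complex.norm_exp_ofReal_mul_I _
  rw [this, one_mul]

theorem mint {M f : E3 → ℂ} (hMi : Integrable M) (hf : Integrable f) : Integrable (fun ξ => M ξ * 𝓕 f ξ) := by
  apply hMi.mul_bdd (c := ∫ x, ‖f x‖)
  · exact (Vale.Agent.P117.continuous_fourier hf).aestronglyMeasurable
  · exact Eventually.of_forall fun ξ => fourier_bd hf ξ

theorem plinv {f : E3 → ℂ} (hf : Integrable f) (hfm : Measurable f) :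
    ∫⁻ ξ, ‖𝓕⁻ f ξ‖ₑ ^ 2 ≤ ∫⁻ x, ‖f x‖ₑ ^ 2 := by
  have h1 := lintegral_sq_fourier_le (hf.comp_neg) (hfm.comp measurable_neg)
  rw [← Real.fourierInv_eq_fourier_comp_neg] at h1
  refine h1.trans (le_of_eq ?_)
  exact lintegral_neg_eq_self (fun x => ‖f x‖ₑ ^ 2)

section
variable {M : E3 → ℂ} (hM : Sm M)
include hM

theorem mop_adm {f : E3 → ℂ} (hf : Adm volume f) : Adm volume (mop M f) := (smop_props hM.smooth hM.supp hf).1
theorem mop_fourier {f : E3 → ℂ} (hf : Adm volume f) (ξ : E3) : 𝓕 (mop M f) ξ = M ξ * 𝓕 f ξ :=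
  (smop_props hM.smooth hM.supp hf).2.1 ξ
theorem mop_cont {f : E3 → ℂ} (hf : Adm volume f) : Continuous (mop M f) := (smop_props hM.smooth hM.supp hf).2.2.2

theorem mop_int (f : E3 → ℂ) (hf : Integrable f) : Integrable (fun ξ => M ξ * 𝓕 f ξ) := mint hM.int hf

theorem mop_Lp {f : E3 → ℂ} (hf : Adm volume f) {B p : ℝ} (hp : 1 ≤ p) (hB : 0 ≤ B) (hk : kn M ≤ ENNReal.ofReal B) :
    ∫⁻ x, ‖mop M f x‖ₑ ^ p ≤ ENNReal.ofReal (B ^ p) * ∫⁻ x, ‖f x‖ₑ ^ p := by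
  have hp1 : (1:ℝ≥0∞) ≤ ENNReal.ofReal p := by
    rw [← ENNReal.ofReal_one]; exact ENNReal.ofReal_le_ofReal hp
  have h1 := (smop_props hM.smooth hM.supp hf).2.2.1 B hB hk (ENNReal.ofReal p) hp1
  have hN : ∀ {g : E3 → ℂ}, Adm volume g → ∫⁻ x, ‖g x‖ₑ ^ p = ENNReal.ofReal (nrm (ENNReal.ofReal p) g volume ^ p) := by
    intro g hg
    have h1 := Vale.Agent.P117.nrm_rpow g hp1 ENNReal.ofReal_ne_top (μ := (volume : Measure E3))
    rw [ENNReal.toReal_ofReal (by linarith)] at h1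
    rw [h1, ENNReal.ofReal_toReal]
    have h2 := hg.eLpNorm_ne_top hp1
    rw [eLpNorm_eq_lintegral_rpow_enorm_toReal (by simp; linarith) ENNReal.ofReal_ne_top,
      ENNReal.toReal_ofReal (by linarith)] at h2
    intro h3
    rw [h3, ENNReal.top_rpow_of_pos (by positivity)] at h2
    exact h2 rfl
  rw [hN (mop_adm hM hf), hN hf, ← ENNReal.ofReal_mul (by positivity)]
  apply ENNReal.ofReal_le_ofReal
  have hn : 0 ≤ nrm (ENNReal.ofReal p) f volume := ENNReal.toReal_nonneg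
  have hn2 : 0 ≤ nrm (ENNReal.ofReal p) (mop M f) volume := ENNReal.toReal_nonneg
  rw [← Real.mul_rpow hB hn]
  exact Real.rpow_le_rpow hn2 h1 (by linarith)

theorem mop_sup {f : E3 → ℂ} (hf : Adm volume f) {B A : ℝ} (hk : kn M ≤ ENNReal.ofReal B) (hA : ∀ x, ‖f x‖ ≤ A) (x : E3) :
    ‖mop M f x‖ₑ ≤ ENNReal.ofReal (B * A) := by
  set MS : 𝓢(E3, ℂ) := hM.supp.toSchwartzMap hM.smooth with hMS
  have e1 : cv ((𝓕⁻ MS : 𝓢(E3, ℂ)) : E3 → ℂ) f = mop M f := cv_schwartz_eq MS hf.int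
  have hKe : ((𝓕⁻ MS : 𝓢(E3, ℂ)) : E3 → ℂ) = 𝓕⁻ M := by
    rw [SchwartzMap.fourierInv_coe]
    rfl
  have hA0 : 0 ≤ A := (norm_nonneg _).trans (hA 0)
  rw [← e1, hKe]
  unfold cv
  calc ‖∫ y, 𝓕⁻ M (x - y) * f y‖ₑ ≤ ∫⁻ y, ‖𝓕⁻ M (x - y) * f y‖ₑ := enorm_integral_le_lintegral_enorm _
    _ ≤ ∫⁻ y, ‖𝓕⁻ M (x - y)‖ₑ * ENNReal.ofReal A := by
        refine lintegral_mono fun y => ?_
        rw [enorm_mul]
        gcongr
        rw [← ofReal_norm]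
        exact ENNReal.ofReal_le_ofReal (hA y)
    _ = (∫⁻ y, ‖𝓕⁻ M (x - y)‖ₑ) * ENNReal.ofReal A := lintegral_mul_const' _ _ ENNReal.ofReal_ne_top
    _ = kn M * ENNReal.ofReal A := by
        congr 1
        exact lintegral_sub_left_eq_self (fun y => ‖𝓕⁻ M y‖ₑ) x
    _ ≤ ENNReal.ofReal B * ENNReal.ofReal A := by gcongr
    _ = _ := by rw [ENNReal.ofReal_mul' hA0]

theorem mop_L2 {f : E3 → ℂ} (hf : Adm volume f) :
    ∫⁻ x, ‖mop M f x‖ₑ ^ 2 ≤ ∫⁻ ξ, ‖M ξ‖ₑ ^ 2 * ‖𝓕 f ξ‖ₑ ^ 2 := by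
  have hi := mop_int hM f hf.int
  have hc : Continuous (fun ξ => M ξ * 𝓕 f ξ) := hM.smooth.continuous.mul (Vale.Agent.P117.continuous_fourier hf.int)
  refine (plinv hi hc.measurable).trans (le_of_eq ?_)
  simp_rw [enorm_mul, mul_pow]

end

theorem fourier_add3 {f g : E3 → ℂ} (hf : Integrable f) (hg : Integrable g) (ξ : E3) :
    𝓕 (fun x => f x + g x) ξ = 𝓕 f ξ + 𝓕 g ξ := by
  rw [Real.fourier_eq', Real.fourier_eq', Real.fourier_eq']
  have hi : ∀ {f : E3 → ℂ}, Integrable f → Integrable (fun v => cexp (((-2 * Real.pi * inner ℝ v ξ : ℝ) : ℂ) * I) • f v) := by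
    intro f hf
    refine (Integrable.bdd_mul (c := 1) hf ?_ ?_)
    · exact (Continuous.aestronglyMeasurable (by fun_prop))
    · exact Eventually.of_forall fun v => (Complex.norm_exp_ofReal_mul_I _).le
  rw [← integral_add (hi hf) (hi hg)]
  congr 1
  ext v
  rw [smul_add]

theorem inv_add3 {f g : E3 → ℂ} (hf : Integrable f) (hg : Integrable g) (x : E3) :
    𝓕⁻ (fun ξ => f ξ + g ξ) x = 𝓕⁻ f x + 𝓕⁻ g x := by
  rw [Real.fourierInv_eq_fourier_neg, Real.fourierInv_eq_fourier_neg, Real.fourierInv_eq_fourier_neg, fourier_add3 hf hg]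

theorem inv_sum3 {ι : Type*} (s : Finset ι) {F : ι → E3 → ℂ} (hF : ∀ i ∈ s, Integrable (F i)) (x : E3) :
    𝓕⁻ (fun ξ => ∑ i ∈ s, F i ξ) x = ∑ i ∈ s, 𝓕⁻ (F i) x := by
  classical
  induction s using Finset.induction_on with
  | empty =>
    simp only [Finset.sum_empty]
    rw [Real.fourierInv_eq']
    simp
  | insert i s hi ih =>
    have e : (fun ξ => ∑ j ∈ insert i s, F j ξ) = fun ξ => F i ξ + (fun ξ => ∑ j ∈ s, F j ξ) ξ := by
      ext ξ; rw [Finset.sum_insert hi]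
    rw [e, inv_add3 (hF i (Finset.mem_insert_self _ _)) (integrable_finset_sum _ fun j hj => hF j (Finset.mem_insert_of_mem hj)),
      ih (fun j hj => hF j (Finset.mem_insert_of_mem hj)), Finset.sum_insert hi]

theorem mop_add {M : E3 → ℂ} (hM : Sm M) {f g : E3 → ℂ} (hf : Adm volume f) (hg : Adm volume g) (x : E3) :
    mop M (fun x => f x + g x) x = mop M f x + mop M g x := by
  unfold mop
  have e : (fun ξ => M ξ * 𝓕 (fun x => f x + g x) ξ) = fun ξ => (fun ξ => M ξ * 𝓕 f ξ) ξ + (fun ξ => M ξ * 𝓕 g ξ) ξ := by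
    ext ξ
    rw [fourier_add3 hf.int hg.int, mul_add]
  rw [e, inv_add3 (mop_int hM f hf.int) (mop_int hM g hg.int)]

theorem mop_mop {M N : E3 → ℂ} (hN : Sm N) {f : E3 → ℂ} (hf : Adm volume f) :
    mop M (mop N f) = mop (fun ξ => M ξ * N ξ) f := by
  have e : (fun ξ => M ξ * 𝓕 (mop N f) ξ) = fun ξ => (M ξ * N ξ) * 𝓕 f ξ := by
    ext ξ
    rw [mop_fourier hN hf ξ]
    ring
  show 𝓕⁻ (fun ξ => M ξ * 𝓕 (mop N f) ξ) = _
  rw [e]
  rfl

theorem U_eq (H : Hyp) (M h : E3 → ℂ) (t : ℝ) : H.U M h t = mop (H.em t M) h := by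
  have e : (fun ξ : E3 => cexp (2 * Real.pi * I * (t * H.om ξ : ℝ)) * (M ξ * 𝓕 h ξ)) =
      fun ξ => H.em t M ξ * 𝓕 h ξ := by
    ext ξ
    unfold Hyp.em
    ring
  ext y
  unfold Hyp.U
  rw [e]
  rfl

theorem sm_mu {H : Hyp} (h : H.ok) {χ φ1 φ2 : ℝ → ℂ} (hχ : Rcut χ) (h1 : Vc φ1) (h2 : Vc φ2) : Sm (H.mu χ φ1 φ2) :=
  ⟨contDiff_muH h hχ h1 h2, compact_muH h hχ h1 h2⟩

theorem sm_em {H : Hyp} (h : H.ok) {χ φ1 φ2 : ℝ → ℂ} (hχ : Rcut χ) (h1 : Vc φ1) (h2 : Vc φ2) (t : ℝ) :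
    Sm (H.em t (H.mu χ φ1 φ2)) := by
  obtain ⟨C, hC, h3⟩ := em_DB hχ h1 h2 0
  exact ⟨(h3 H h t).1, compact_of_supp (fun ξ hξ => mu_bound h.bd hχ h1 h2 (right_ne_zero_of_mul hξ))⟩

end Vale.Agent.P106.G
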