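import Vale.Agent.P106.G.BrD
import Vale.Agent.P106.G.Mop
import Vale.Agent.P106.G.Caps

/-! # Translation and the crude bound -/

open MeasureTheory Complex Set Filter
open scoped ENNReal NNReal ContDiff FourierTransform Topology

set_option linter.all false

namespace Vale.Agent.P106.G

open Vale.Agent.P117 (Adm)

theorem fourier_shift {h : E3 → ℂ} (y0 ξ : E3) : 𝓕 (fun x => h (x + y0)) ξ = cexp (((2 * Real.pi * inner ℝ y0 ξ : ℝ) : ℂ) * I) * 𝓕 h ξ := by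
  rw [Real.fourier_eq', Real.fourier_eq']
  have h1 := integral_add_right_eq_self (μ := (volume : Measure E3))
    (fun x => cexp (((-2 * Real.pi * inner ℝ (x - y0) ξ : ℝ) : ℂ) * I) • h x) y0
  simp only [add_sub_cancel_right] at h1
  rw [h1, ← integral_const_mul]
  congr 1
  ext x
  rw [smul_eq_mul, smul_eq_mul, ← mul_assoc, ← Complex.exp_add]
  congr 2
  rw [inner_sub_left]
  push_cast
  ring

theorem U_shift (H : Hyp) (M h : E3 → ℂ) (t : ℝ) (y0 y : E3) : H.U M (fun x => h (x + y0)) t y = H.U M h t (y + y0) := by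
  unfold Hyp.U
  rw [Real.fourierInv_eq', Real.fourierInv_eq']
  congr 1
  ext ξ
  rw [fourier_shift, smul_eq_mul, smul_eq_mul, inner_add_right]
  have e : cexp (((2 * Real.pi * (inner ℝ ξ y + inner ℝ ξ y0) : ℝ) : ℂ) * I) =
      cexp (((2 * Real.pi * inner ℝ ξ y : ℝ) : ℂ) * I) * cexp (((2 * Real.pi * inner ℝ y0 ξ : ℝ) : ℂ) * I) := by
    rw [← Complex.exp_add, real_inner_comm y0 ξ]
    congr 1
    push_cast
    ring
  rw [e]
  ring

theorem adm_shift {h : E3 → ℂ} (hh : Adm volume h) (y0 : E3) : Adm volume (fun x => h (x + y0)) := by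
  obtain ⟨B, hB⟩ := hh.bdd
  exact ⟨hh.meas.comp (measurable_add_const y0), hh.int.comp_add_right y0, B, fun x => hB _⟩

/-- the crude bound -/
theorem br_crude {c0 p : ℝ} (hc0 : 0 < c0) (hc01 : c0 ≤ 1) (hp : 2 < p) {φ1 φ2 φ1' φ2' : ℝ → ℂ} (h1 : Vcut φ1) (h2 : Vcut φ2)
    (h1' : Vcut φ1') (h2' : Vcut φ2') (R0 : ℝ) (hR0 : 1 ≤ R0) : ∃ C : ℝ, 0 ≤ C ∧
    ∀ (R : ℝ) (H : Hyp) (h h' : E3 → ℂ) (G G' : Set E3), 1 ≤ R → R ≤ R0 → H.ok → Adm volume h → Adm volume h' →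
    MeasurableSet G → MeasurableSet G' → (∀ y, ‖h y‖ ≤ G.indicator (fun _ => (1:ℝ)) y) → (∀ y, ‖h' y‖ ≤ G'.indicator (fun _ => (1:ℝ)) y) →
    ∫⁻ t in Icc R (2 * R), ∫⁻ y, (‖H.U (H.mu (chi0 c0) φ1 φ2) h t y‖ₑ * ‖H.U (H.mu (chi0 c0) φ1' φ2') h' t y‖ₑ) ^ (p / 2) ≤
      ENNReal.ofReal C * (volume G * volume G') ^ (1/2 : ℝ) := by
  have hχ := (r1_chi0 hc0 hc01).toRcut
  obtain ⟨B, hB, hk⟩ := ker_L1 hχ h1.vc h2.vc
  obtain ⟨B', hB', hk'⟩ := ker_L1 hχ h1'.vc h2'.vc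
  set A := B * (1 + 2 * R0) ^ 4 with hA
  set A' := B' * (1 + 2 * R0) ^ 4 with hA'
  have hA0 : 0 ≤ A := by positivity
  have hA0' : 0 ≤ A' := by positivity
  refine ⟨(A * A') ^ (p / 2) * R0, by positivity, ?_⟩
  intro R H h h' G G' hR hRR hH hh hh' mG mG' gh gh'
  have hRp : 0 < R := by linarith
  -- bounds for one function
  have one : ∀ {φ1 φ2 : ℝ → ℂ} {B A : ℝ} {h : E3 → ℂ} {G : Set E3}, Vcut φ1 → Vcut φ2 → 0 ≤ B → A = B * (1 + 2 * R0) ^ 4 →
      (∀ (H : Hyp), H.ok → ∀ (τ : ℝ), ∫⁻ y, ‖𝓕⁻ (H.em τ (H.mu (chi0 c0) φ1 φ2)) y‖ₑ ≤ ENNReal.ofReal (B * (1 + |τ|) ^ 4)) →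
      Adm volume h → MeasurableSet G → (∀ y, ‖h y‖ ≤ G.indicator (fun _ => (1:ℝ)) y) → ∀ t ∈ Icc R (2 * R),
      (∀ y, ‖H.U (H.mu (chi0 c0) φ1 φ2) h t y‖ₑ ≤ ENNReal.ofReal A) ∧
      ∫⁻ y, ‖H.U (H.mu (chi0 c0) φ1 φ2) h t y‖ₑ ^ (2:ℝ) ≤ ENNReal.ofReal (A ^ 2) * volume G ∧
      Measurable (fun y => ‖H.U (H.mu (chi0 c0) φ1 φ2) h t y‖ₑ) := by
    intro φ1 φ2 B A h G v1 v2 hB hAe hk hh mG gh t ht
    have hsm := sm_em hH hχ v1.vc v2.vc t
    have hkn : kn (H.em t (H.mu (chi0 c0) φ1 φ2)) ≤ ENNReal.ofReal A := by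
      refine (hk H hH t).trans (ENNReal.ofReal_le_ofReal ?_)
      rw [hAe]
      have : |t| ≤ 2 * R0 := by rw [abs_of_nonneg (by linarith [ht.1])]; linarith [ht.2]
      gcongr
    have hA0 : 0 ≤ A := by rw [hAe]; positivity
    rw [U_eq]
    refine ⟨?_, ?_, ?_⟩
    · intro y
      have hA1 : ∀ x, ‖h x‖ ≤ 1 := fun x => (gh x).trans (by
        by_cases hx : x ∈ G
        · rw [indicator_of_mem hx]
        · rw [indicator_of_notMem hx]; norm_num)
      have := mop_sup hsm hh hkn hA1 y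
      rwa [mul_one] at this
    · refine (mop_Lp hsm hh (p := 2) (by norm_num) hA0 hkn).trans ?_
      rw [show A ^ (2:ℝ) = A ^ 2 by exact_mod_cast Real.rpow_natCast A 2]
      refine mul_le_mul' le_rfl ?_
      have e : ∫⁻ y, ‖h y‖ₑ ^ (2:ℝ) = ∫⁻ y, ‖h y‖ₑ ^ 2 := by
        refine lintegral_congr fun y => ?_
        exact_mod_cast ENNReal.rpow_natCast (‖h y‖ₑ) 2
      rw [e]
      exact lint_sq_le_vol mG gh
    · exact (mop_cont hsm hh).measurable.enorm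
  have hin : ∀ t ∈ Icc R (2 * R), ∫⁻ y, (‖H.U (H.mu (chi0 c0) φ1 φ2) h t y‖ₑ * ‖H.U (H.mu (chi0 c0) φ1' φ2') h' t y‖ₑ) ^ (p / 2) ≤
      ENNReal.ofReal ((A * A') ^ (p / 2)) * (volume G * volume G') ^ (1/2 : ℝ) := by
    intro t ht
    obtain ⟨a1, a2, a3⟩ := one h1 h2 hB hA hk hh mG gh t ht
    obtain ⟨b1, b2, b3⟩ := one h1' h2' hB' hA' hk' hh' mG' gh' t ht
    set F := fun y => ‖H.U (H.mu (chi0 c0) φ1 φ2) h t y‖ₑ with hF
    set F' := fun y => ‖H.U (H.mu (chi0 c0) φ1' φ2') h' t y‖ₑ with hF'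
    calc ∫⁻ y, (F y * F' y) ^ (p / 2) ≤ ∫⁻ y, ENNReal.ofReal ((A * A') ^ (p / 2 - 1)) * (F y * F' y) := by
          refine lintegral_mono fun y => ?_
          show (F y * F' y) ^ (p / 2) ≤ _
          have hf : F y * F' y ≤ ENNReal.ofReal (A * A') := by
            rw [ENNReal.ofReal_mul hA0]
            exact mul_le_mul' (a1 y) (b1 y)
          have hft : F y * F' y ≠ ⊤ := (hf.trans_lt ENNReal.ofReal_lt_top).ne
          by_cases h0 : F y * F' y = 0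
          · rw [h0, ENNReal.zero_rpow_of_pos (by linarith)]; exact zero_le
          · have e : (F y * F' y) ^ (p / 2) = (F y * F' y) ^ (p / 2 - 1) * (F y * F' y) := by
              conv_lhs => rw [show p / 2 = (p / 2 - 1) + 1 by ring]
              rw [ENNReal.rpow_add _ _ h0 hft, ENNReal.rpow_one]
            rw [e]
            refine mul_le_mul' ?_ le_rfl
            rw [← ENNReal.ofReal_rpow_of_nonneg (by positivity) (by linarith)]
            exact ENNReal.rpow_le_rpow hf (by linarith)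
      _ = ENNReal.ofReal ((A * A') ^ (p / 2 - 1)) * ∫⁻ y, F y * F' y := lintegral_const_mul' _ _ ENNReal.ofReal_ne_top
      _ ≤ ENNReal.ofReal ((A * A') ^ (p / 2 - 1)) * ((∫⁻ y, F y ^ (2:ℝ)) ^ (1 / (2:ℝ)) * (∫⁻ y, F' y ^ (2:ℝ)) ^ (1 / (2:ℝ))) :=
          mul_le_mul' le_rfl (ENNReal.lintegral_mul_le_Lp_mul_Lq _ Real.HolderConjugate.two_two a3.aemeasurable b3.aemeasurable)
      _ ≤ ENNReal.ofReal ((A * A') ^ (p / 2 - 1)) * ((ENNReal.ofReal (A ^ 2) * volume G) ^ (1 / (2:ℝ)) * (ENNReal.ofReal (A' ^ 2) * volume G') ^ (1 / (2:ℝ))) := by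
          gcongr
      _ = ENNReal.ofReal ((A * A') ^ (p / 2 - 1)) * (ENNReal.ofReal (A * A') * (volume G * volume G') ^ (1/2 : ℝ)) := by
          rw [ENNReal.mul_rpow_of_nonneg _ _ (by norm_num), ENNReal.mul_rpow_of_nonneg _ _ (by norm_num),
            ENNReal.mul_rpow_of_nonneg _ _ (by norm_num), ENNReal.ofReal_rpow_of_nonneg (by positivity) (by norm_num),
            ENNReal.ofReal_rpow_of_nonneg (by positivity) (by norm_num), ← Real.sqrt_eq_rpow, ← Real.sqrt_eq_rpow,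
            Real.sqrt_sq hA0, Real.sqrt_sq hA0', ENNReal.ofReal_mul hA0]
          ring
      _ = _ := by
          rw [← mul_assoc, ← ENNReal.ofReal_mul (by positivity)]
          congr 2
          rcases (mul_nonneg hA0 hA0').eq_or_lt with h0 | h0
          · rw [← h0, mul_zero, Real.zero_rpow (by linarith)]
          · rw [← Real.rpow_add_one h0.ne']
            congr 1
            ring
  calc _ ≤ ∫⁻ t in Icc R (2 * R), ENNReal.ofReal ((A * A') ^ (p / 2)) * (volume G * volume G') ^ (1/2 : ℝ) :=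
        setLIntegral_mono' measurableSet_Icc hin
    _ = ENNReal.ofReal ((A * A') ^ (p / 2)) * (volume G * volume G') ^ (1/2 : ℝ) * ENNReal.ofReal R := by
        rw [setLIntegral_const, Real.volume_Icc]
        congr 2
        ring
    _ ≤ ENNReal.ofReal ((A * A') ^ (p / 2)) * (volume G * volume G') ^ (1/2 : ℝ) * ENNReal.ofReal R0 := by gcongr
    _ = _ := by
        rw [ENNReal.ofReal_mul (by positivity)]
        ring

end Vale.Agent.P106.G
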