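import Vale.Agent.P106.G.LocE

/-! # Localization: from the local restricted to the global bilinear estimate -/

open MeasureTheory Complex Set Filter
open scoped ENNReal NNReal ContDiff FourierTransform Topology SchwartzMap

set_option linter.all false

namespace Vale.Agent.P106.G

open Vale.Agent.P117 (Adm)

/-- [BR] for a class of hyperplanes -/
def StBRg (ok : Hyp → Prop) (p α c0 : ℝ) : Prop := ∀ (c : ℝ) (φ1 φ2 φ1' φ2' : ℝ → ℂ), 0 < c → Vcut φ1 → Vcut φ2 → Vcut φ1' → Vcut φ2' →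
  (∀ v1 v2 v1' v2', φ1 v1 * φ2 v2 ≠ 0 → φ1' v1' * φ2' v2' ≠ 0 → c ≤ |v1 - v1'| ∨ c ≤ |v2 - v2'|) →
  ∃ C : ℝ, 0 ≤ C ∧ ∀ (R : ℝ) (H : Hyp) (h h' : E3 → ℂ) (G G' : Set E3) (y0 : E3), 1 ≤ R → ok H → Adm volume h → Adm volume h' →
    MeasurableSet G → MeasurableSet G' → volume G < ⊤ → volume G' < ⊤ →
    (∀ y, ‖h y‖ ≤ G.indicator (fun _ => (1:ℝ)) y) → (∀ y, ‖h' y‖ ≤ G'.indicator (fun _ => (1:ℝ)) y) →
    ∫⁻ t in Icc R (2 * R), ∫⁻ y in Metric.ball y0 R,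
      (‖H.U (H.mu (chi0 c0) φ1 φ2) h t y‖ₑ * ‖H.U (H.mu (chi0 c0) φ1' φ2') h' t y‖ₑ) ^ (p / 2) ≤
      ENNReal.ofReal (C * R ^ (α * p + 1)) * (volume G * volume G') ^ (1/2 : ℝ)

/-- [BL] for a class of hyperplanes -/
def StBLg (ok : Hyp → Prop) (p α c0 : ℝ) : Prop := ∀ (c : ℝ) (φ1 φ2 φ1' φ2' : ℝ → ℂ), 0 < c → Vcut φ1 → Vcut φ2 → Vcut φ1' → Vcut φ2' →
  (∀ v1 v2 v1' v2', φ1 v1 * φ2 v2 ≠ 0 → φ1' v1' * φ2' v2' ≠ 0 → c ≤ |v1 - v1'| ∨ c ≤ |v2 - v2'|) →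
  ∃ C : ℝ, 0 ≤ C ∧ ∀ (R : ℝ) (H : Hyp) (h : E3 → ℂ), 1 ≤ R → ok H → Adm volume h →
    ∫⁻ t in Icc R (2 * R), ∫⁻ y,
      (‖H.U (H.mu (chi0 c0) φ1 φ2) h t y‖ₑ * ‖H.U (H.mu (chi0 c0) φ1' φ2') h t y‖ₑ) ^ (p / 2) ≤
      ENNReal.ofReal (C * R ^ (α * p + 1)) * ∫⁻ y, ‖h y‖ₑ ^ p

theorem StBR_iff (p α c0 : ℝ) : StBR p α c0 ↔ StBRg Hyp.ok p α c0 := Iff.rfl

theorem StBL_iff (p α c0 : ℝ) : StBL p α c0 ↔ StBLg Hyp.ok p α c0 := Iff.rfl

/-- averaging over balls -/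
theorem cover (R : ℝ) {F : ℝ × E3 → ℝ≥0∞} (hF : Measurable F) :
    ∫⁻ y0 : E3, ∫⁻ z in bx R y0, F z = (∫⁻ t in Icc R (2 * R), ∫⁻ y, F (t, y)) * volume (Metric.ball (0:E3) R) := by
  set I : Set (ℝ × E3) := Icc R (2 * R) ×ˢ univ with hI
  have hIm : MeasurableSet I := measurableSet_Icc.prod MeasurableSet.univ
  have hGm : Measurable (I.indicator F) := hF.indicator hIm
  have e1 : ∀ y0 : E3, ∫⁻ z in bx R y0, F z =
      ∫⁻ z, I.indicator F z * (Metric.ball (0:E3) R).indicator (fun _ => (1:ℝ≥0∞)) (z.2 - y0) := by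
    intro y0
    rw [← lintegral_indicator (meas_bx R y0)]
    congr 1
    ext z
    by_cases h1 : z.1 ∈ Icc R (2 * R)
    · by_cases h2 : z.2 ∈ Metric.ball y0 R
      · have h3 : z.2 - y0 ∈ Metric.ball (0:E3) R := by
          rw [mem_ball_zero_iff, ← dist_eq_norm]
          exact h2
        rw [indicator_of_mem (show z ∈ bx R y0 from ⟨h1, h2⟩), indicator_of_mem (show z ∈ I from ⟨h1, trivial⟩),
          indicator_of_mem h3, mul_one]
      · have h3 : z.2 - y0 ∉ Metric.ball (0:E3) R := by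
          rw [mem_ball_zero_iff, ← dist_eq_norm]
          exact h2
        rw [indicator_of_notMem (show z ∉ bx R y0 from fun h => h2 h.2), indicator_of_notMem h3, mul_zero]
    · rw [indicator_of_notMem (show z ∉ bx R y0 from fun h => h1 h.1), indicator_of_notMem (show z ∉ I from fun h => h1 h.1),
        zero_mul]
  simp_rw [e1]
  have hbm : Measurable (fun w : E3 × (ℝ × E3) => I.indicator F w.2 *
      (Metric.ball (0:E3) R).indicator (fun _ => (1:ℝ≥0∞)) (w.2.2 - w.1)) := by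
    apply (hGm.comp measurable_snd).mul
    exact (measurable_const.indicator measurableSet_ball).comp
      ((measurable_snd.comp measurable_snd).sub measurable_fst)
  rw [lintegral_lintegral_swap hbm.aemeasurable]
  have e2 : ∀ z : ℝ × E3, ∫⁻ y0 : E3, I.indicator F z * (Metric.ball (0:E3) R).indicator (fun _ => (1:ℝ≥0∞)) (z.2 - y0) =
      I.indicator F z * volume (Metric.ball (0:E3) R) := by
    intro z
    have hmz : Measurable (fun y0 : E3 => (Metric.ball (0:E3) R).indicator (fun _ => (1:ℝ≥0∞)) (z.2 - y0)) :=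
      (measurable_const.indicator measurableSet_ball).comp (measurable_const.sub measurable_id)
    rw [lintegral_const_mul _ hmz]
    congr 1
    rw [lintegral_sub_left_eq_self (fun y => (Metric.ball (0:E3) R).indicator (fun _ => (1:ℝ≥0∞)) y) z.2,
      lintegral_indicator measurableSet_ball, setLIntegral_const, one_mul]
  simp_rw [e2]
  rw [lintegral_mul_const _ hGm, lintegral_indicator hIm]
  congr 1
  rw [hI, Measure.volume_eq_prod, ← Measure.prod_restrict, Measure.restrict_univ, lintegral_prod _ hF.aemeasurable]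

/-- the weights integrate to the norm -/
theorem cover_w {ρ : ℝ} (hρ : 0 < ρ) {g : E3 → ℝ≥0∞} (hg : Measurable g) {C4 : ℝ}
    (hI : ∫⁻ x : E3, ENNReal.ofReal (wl ρ x) ≤ ENNReal.ofReal (C4 * ρ ^ 3)) :
    ∫⁻ y0 : E3, ∫⁻ x, ENNReal.ofReal (wl ρ (x - y0)) * g x ≤ ENNReal.ofReal (C4 * ρ ^ 3) * ∫⁻ x, g x := by
  have hm : Measurable (fun w : E3 × E3 => ENNReal.ofReal (wl ρ (w.2 - w.1)) * g w.2) :=
    (ENNReal.measurable_ofReal.comp ((cont_wl hρ).measurable.comp (measurable_snd.sub measurable_fst))).mul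
      (hg.comp measurable_snd)
  rw [lintegral_lintegral_swap hm.aemeasurable]
  have e2 : ∀ x : E3, ∫⁻ y0 : E3, ENNReal.ofReal (wl ρ (x - y0)) * g x = (∫⁻ y : E3, ENNReal.ofReal (wl ρ y)) * g x := by
    intro x
    have hmz : Measurable (fun y0 : E3 => ENNReal.ofReal (wl ρ (x - y0))) :=
      ENNReal.measurable_ofReal.comp ((cont_wl hρ).measurable.comp (measurable_const.sub measurable_id))
    rw [lintegral_mul_const _ hmz]
    congr 1
    exact lintegral_sub_left_eq_self (fun y => ENNReal.ofReal (wl ρ y)) x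
  simp_rw [e2]
  rw [lintegral_const_mul _ hg]
  gcongr

/-- **[LOC]** -/
theorem loc_BL {ok : Hyp → Prop} (hok : ∀ H, ok H → H.ok) {p α α' c0 : ℝ} (hp : 2 < p) (hα' : 0 ≤ α') (hα : α' < α)
    (hc0 : 0 < c0) (hc1 : c0 ≤ 1) (hBR : StBRg ok p α' c0) : StBLg ok p α c0 := by
  intro c φ1 φ2 φ1' φ2' hc v1 v2 v1' v2' hsep
  obtain ⟨CB, hCB, hB⟩ := hBR c φ1 φ2 φ1' φ2' hc v1 v2 v1' v2' hsep
  have hp0 : 0 < p := by linarith
  set δ := min 1 ((α - α') * p / 4) with hδd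
  have hδ : 0 < δ := by
    rw [hδd]
    apply lt_min one_pos
    have : 0 < α - α' := by linarith
    positivity
  have hδ1 : δ ≤ 1 := min_le_left _ _
  have hδ2 : 4 * δ ≤ (α - α') * p := by
    have : δ ≤ (α - α') * p / 4 := min_le_right _ _
    linarith
  obtain ⟨C, hC, h1⟩ := one_ball hok hp hα' hc0 hc1 hδ hδ1 v1 v2 v1' v2' hCB hB
  obtain ⟨C4, hC4, hw⟩ := wl_int
  set v := (volume (Metric.ball (0:E3) 1)).toReal with hv
  have hv0 : 0 < v := ENNReal.toReal_pos (Metric.measure_ball_pos _ _ one_pos).ne' measure_ball_lt_top.ne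
  refine ⟨8 * C * C4 / v, by positivity, ?_⟩
  intro R H h hR hH hh
  have hR0 : 0 < R := by linarith
  have hHok := hok H hH
  have hχ : Rcut (chi0 c0) := (r1_chi0 hc0 hc1).toRcut
  have sM : Sm (H.mu (chi0 c0) φ1 φ2) := sm_mu hHok hχ v1.vc v2.vc
  have sM' : Sm (H.mu (chi0 c0) φ1' φ2') := sm_mu hHok hχ v1'.vc v2'.vc
  set F : ℝ × E3 → ℝ≥0∞ := fun z => (‖H.U (H.mu (chi0 c0) φ1 φ2) h z.1 z.2‖ₑ *
    ‖H.U (H.mu (chi0 c0) φ1' φ2') h z.1 z.2‖ₑ) ^ (p / 2) with hF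
  have hFm : Measurable F := ((cont_U H sM.int hh.int).measurable.enorm.mul
    (cont_U H sM'.int hh.int).measurable.enorm).pow_const _
  have h2 := cover R hFm
  set L := ∫⁻ t in Icc R (2 * R), ∫⁻ y, F (t, y) with hL
  have hρ0 : 0 < 2 * R ^ (1 + δ) := by positivity
  have h3 : L * volume (Metric.ball (0:E3) R) ≤ ENNReal.ofReal (C * R ^ (α' * p + 1 + δ)) *
      (ENNReal.ofReal (C4 * (2 * R ^ (1 + δ)) ^ 3) * ∫⁻ x, ‖h x‖ₑ ^ p) := by
    rw [← h2]
    calc ∫⁻ y0 : E3, ∫⁻ z in bx R y0, F z ≤ ∫⁻ y0 : E3, ENNReal.ofReal (C * R ^ (α' * p + 1 + δ)) *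
          ∫⁻ x, ENNReal.ofReal (wl (2 * R ^ (1 + δ)) (x - y0)) * ‖h x‖ₑ ^ p :=
          lintegral_mono fun y0 => h1 R H h y0 hR hH hh
      _ = ENNReal.ofReal (C * R ^ (α' * p + 1 + δ)) * ∫⁻ y0 : E3,
          ∫⁻ x, ENNReal.ofReal (wl (2 * R ^ (1 + δ)) (x - y0)) * ‖h x‖ₑ ^ p :=
          lintegral_const_mul' _ _ ENNReal.ofReal_ne_top
      _ ≤ _ := by
          gcongr
          exact cover_w hρ0 (hh.meas.enorm.pow_const p) (hw _ hρ0)
  have hball : volume (Metric.ball (0:E3) R) = ENNReal.ofReal (v * R ^ 3) := by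
    have h4 := Measure.addHaar_ball (volume : Measure E3) (0:E3) hR0.le
    simp only [finrank_euclideanSpace, Fintype.card_fin] at h4
    rw [h4, mul_comm v, ENNReal.ofReal_mul (by positivity), hv, ENNReal.ofReal_toReal measure_ball_lt_top.ne]
  rw [hball] at h3
  have h5 : L = L * ENNReal.ofReal (v * R ^ 3) * ENNReal.ofReal ((v * R ^ 3)⁻¹) := by
    rw [mul_assoc, ← ENNReal.ofReal_mul (by positivity), mul_inv_cancel₀ (by positivity), ENNReal.ofReal_one, mul_one]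
  calc ∫⁻ t in Icc R (2 * R), ∫⁻ y, (‖H.U (H.mu (chi0 c0) φ1 φ2) h t y‖ₑ *
        ‖H.U (H.mu (chi0 c0) φ1' φ2') h t y‖ₑ) ^ (p / 2) = L := rfl
    _ ≤ ENNReal.ofReal (C * R ^ (α' * p + 1 + δ)) * (ENNReal.ofReal (C4 * (2 * R ^ (1 + δ)) ^ 3) * ∫⁻ x, ‖h x‖ₑ ^ p) *
        ENNReal.ofReal ((v * R ^ 3)⁻¹) := by
        rw [h5]
        gcongr
    _ = ENNReal.ofReal (C * R ^ (α' * p + 1 + δ) * (C4 * (2 * R ^ (1 + δ)) ^ 3) * (v * R ^ 3)⁻¹) * ∫⁻ x, ‖h x‖ₑ ^ p := by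
        rw [ENNReal.ofReal_mul (p := C * R ^ (α' * p + 1 + δ) * (C4 * (2 * R ^ (1 + δ)) ^ 3)) (by positivity),
          ENNReal.ofReal_mul (p := C * R ^ (α' * p + 1 + δ)) (by positivity)]
        ring
    _ ≤ _ := by
        refine mul_le_mul' (ENNReal.ofReal_le_ofReal ?_) le_rfl
        have e1 : (2 * R ^ (1 + δ)) ^ 3 = 8 * (R ^ 3 * R ^ (3 * δ)) := by
          have : (R ^ (1 + δ)) ^ 3 = R ^ 3 * R ^ (3 * δ) := by
            rw [← Real.rpow_natCast, ← Real.rpow_mul hR0.le, ← Real.rpow_natCast R 3, ← Real.rpow_add hR0]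
            congr 1
            push_cast
            ring
          rw [mul_pow, this]
          ring
        have e2 : R ^ (α' * p + 1 + δ) * R ^ (3 * δ) ≤ R ^ (α * p + 1) := by
          rw [← Real.rpow_add hR0]
          apply Real.rpow_le_rpow_of_exponent_le hR
          nlinarith
        rw [e1]
        calc C * R ^ (α' * p + 1 + δ) * (C4 * (8 * (R ^ 3 * R ^ (3 * δ)))) * (v * R ^ 3)⁻¹ =
            8 * C * C4 / v * (R ^ (α' * p + 1 + δ) * R ^ (3 * δ)) := by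
              field_simp
          _ ≤ _ := by gcongr

end Vale.Agent.P106.G
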