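import Vale.Agent.P106.G.BrE
import Vale.Agent.P106.G.Loc

/-! # The bilinear estimate from the geometric estimate -/

open MeasureTheory Complex Set Filter
open scoped ENNReal NNReal ContDiff FourierTransform Topology

set_option linter.all false

namespace Vale.Agent.P106.G

open Vale.Agent.P117 (Adm)

theorem lint_ball_shift (y0 : E3) (R : ℝ) (f : E3 → ℝ≥0∞) :
    ∫⁻ y in Metric.ball y0 R, f y = ∫⁻ y in Metric.ball (0:E3) R, f (y + y0) := by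
  rw [← lintegral_indicator measurableSet_ball, ← lintegral_indicator measurableSet_ball,
    ← lintegral_add_right_eq_self ((Metric.ball y0 R).indicator f) y0]
  refine lintegral_congr fun y => ?_
  simp only [indicator, Metric.mem_ball, dist_eq_norm, add_sub_cancel_right, sub_zero]

/-- from the pieces to the whole -/
theorem sum_pieces {c0 : ℝ} {M : ℕ} {ε C : ℝ} {N : ℕ} {R : ℝ} {H : Hyp} {φ1 φ2 φ1' φ2' : ℝ → ℂ} {h h' : E3 → ℂ} {ν ν' : ℤ × ℤ → E3 → ℝ≥0∞}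
    {a a' : Fin 2 × Fin 2 → E4 → ℂ} {b1 b2 b1' b2' : Fin 2 × Fin 2 → ℝ} (hk : Kout c0 M ε C N R H φ1 φ2 h ν a b1 b2)
    (hk' : Kout c0 M ε C N R H φ1' φ2' h' ν' a' b1' b2') {p : ℝ} (hp : 2 < p) {T : ℝ≥0∞}
    (hT : ∀ o o', ∫⁻ z in Qr H R, (Fs a b1 b2 o z * Fs a' b1' b2' o' z) ^ (p / 2) ≤ T) :
    ∫⁻ t in Icc R (2 * R), ∫⁻ y in Metric.ball (0:E3) R,
      (‖H.U (H.mu (chi0 c0) φ1 φ2) h t y‖ₑ * ‖H.U (H.mu (chi0 c0) φ1' φ2') h' t y‖ₑ) ^ (p / 2) ≤ 16 ^ (p / 2) * (16 * T) := by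
  set s : Finset ((Fin 2 × Fin 2) × (Fin 2 × Fin 2)) := Finset.univ with hs
  have hcard : (s.card : ℝ≥0∞) = 16 := by rw [hs]; simp
  set Φ : E4 → ℝ≥0∞ := fun z => ∑ x ∈ s, (Fs a b1 b2 x.1 z * Fs a' b1' b2' x.2 z) ^ (p / 2) with hΦ
  have mx : ∀ x : (Fin 2 × Fin 2) × (Fin 2 × Fin 2), Measurable (fun z => (Fs a b1 b2 x.1 z * Fs a' b1' b2' x.2 z) ^ (p / 2)) :=
    fun x => ((measurable_Fs hk x.1).mul (measurable_Fs hk' x.2)).pow_const _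
  have mΦ : Measurable Φ := Finset.measurable_sum _ fun x _ => mx x
  have rep1 : ∀ t ∈ Icc R (2 * R), ∀ y ∈ Metric.ball (0:E3) R, ‖H.U (H.mu (chi0 c0) φ1 φ2) h t y‖ₑ ≤ ∑ o, Fs a b1 b2 o (H.zt t y) := by
    intro t ht y hy
    have := hk.rep t ht y hy
    unfold Fs
    rw [← ofReal_norm]
    refine (ENNReal.ofReal_le_ofReal this).trans ?_
    rw [ENNReal.ofReal_sum_of_nonneg (fun _ _ => norm_nonneg _)]
    exact le_of_eq (Finset.sum_congr rfl fun o _ => ofReal_norm _)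
  have rep2 : ∀ t ∈ Icc R (2 * R), ∀ y ∈ Metric.ball (0:E3) R, ‖H.U (H.mu (chi0 c0) φ1' φ2') h' t y‖ₑ ≤ ∑ o, Fs a' b1' b2' o (H.zt t y) := by
    intro t ht y hy
    have := hk'.rep t ht y hy
    unfold Fs
    rw [← ofReal_norm]
    refine (ENNReal.ofReal_le_ofReal this).trans ?_
    rw [ENNReal.ofReal_sum_of_nonneg (fun _ _ => norm_nonneg _)]
    exact le_of_eq (Finset.sum_congr rfl fun o _ => ofReal_norm _)
  have hpt : ∀ t ∈ Icc R (2 * R), ∀ y ∈ Metric.ball (0:E3) R,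
      (‖H.U (H.mu (chi0 c0) φ1 φ2) h t y‖ₑ * ‖H.U (H.mu (chi0 c0) φ1' φ2') h' t y‖ₑ) ^ (p / 2) ≤ 16 ^ (p / 2) * Φ (H.zt t y) := by
    intro t ht y hy
    have e : (∑ o, Fs a b1 b2 o (H.zt t y)) * (∑ o, Fs a' b1' b2' o (H.zt t y)) =
        ∑ x ∈ s, Fs a b1 b2 x.1 (H.zt t y) * Fs a' b1' b2' x.2 (H.zt t y) := by
      rw [Finset.sum_mul_sum, hs]
      exact (Fintype.sum_prod_type (fun x : (Fin 2 × Fin 2) × (Fin 2 × Fin 2) => Fs a b1 b2 x.1 (H.zt t y) * Fs a' b1' b2' x.2 (H.zt t y))).symm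
    calc _ ≤ ((∑ o, Fs a b1 b2 o (H.zt t y)) * (∑ o, Fs a' b1' b2' o (H.zt t y))) ^ (p / 2) :=
          ENNReal.rpow_le_rpow (mul_le_mul' (rep1 t ht y hy) (rep2 t ht y hy)) (by linarith)
      _ ≤ (s.card : ℝ≥0∞) ^ (p / 2) * Φ (H.zt t y) := by
          rw [e]
          exact ennsum_rpow_le s _ (by linarith)
      _ = _ := by rw [hcard]
  have mI : Measurable ((Qr H R).indicator (fun z => (16:ℝ≥0∞) ^ (p / 2) * Φ z)) := (mΦ.const_mul _).indicator (mQr H R)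
  calc _ ≤ ∫⁻ t : ℝ, ∫⁻ y : E3, (Qr H R).indicator (fun z => (16:ℝ≥0∞) ^ (p / 2) * Φ z) (H.zt t y) := by
        rw [← lintegral_indicator measurableSet_Icc]
        refine lintegral_mono fun t => ?_
        by_cases ht : t ∈ Icc R (2 * R)
        · rw [indicator_of_mem ht, ← lintegral_indicator measurableSet_ball]
          refine lintegral_mono fun y => ?_
          by_cases hy : y ∈ Metric.ball (0:E3) R
          · rw [indicator_of_mem hy, indicator_of_mem]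
            · exact hpt t ht y hy
            · exact ⟨by rw [tm_zt]; exact ht, by rw [sp3_zt]; exact hy⟩
          · rw [indicator_of_notMem hy]; exact zero_le
        · rw [indicator_of_notMem ht]; exact zero_le
    _ = ∫⁻ z in Qr H R, (16:ℝ≥0∞) ^ (p / 2) * Φ z := by rw [← lint_zt H mI, lintegral_indicator (mQr H R)]
    _ = 16 ^ (p / 2) * ∑ x ∈ s, ∫⁻ z in Qr H R, (Fs a b1 b2 x.1 z * Fs a' b1' b2' x.2 z) ^ (p / 2) := by
        rw [lintegral_const_mul _ mΦ, hΦ, lintegral_finset_sum _ (fun x _ => mx x)]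
    _ ≤ 16 ^ (p / 2) * ∑ x ∈ s, T := by
        gcongr with x hx
        exact hT x.1 x.2
    _ = _ := by rw [Finset.sum_const, nsmul_eq_mul, hcard]

/-- the final arithmetic -/
theorem br_num {p α C' Cc R ε' : ℝ} {N : ℕ} {vG vG' : ℝ≥0∞} (hp : 2 < p) (hε' : ε' = α * p - (13 / 56) * (p - 2)) (hε'0 : 0 < ε') (hC' : 0 ≤ C')
    (hCc : 0 ≤ Cc) (hR : 1 ≤ R) (hNr1 : (1:ℝ) ≤ N) (hNR : (N:ℝ) ^ 2 ≤ R) (tG : vG < ⊤) (tG' : vG' < ⊤) :
    (16:ℝ≥0∞) ^ (p / 2) * (16 * ENNReal.ofReal (C' * (N:ℝ) ^ ((13 / 28) * (p - 2) + ε') * ((N:ℝ) ^ 2 * Real.sqrt (vG.toReal * vG'.toReal)))) ≤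
      ENNReal.ofReal ((Cc + 16 ^ (p / 2) * (16 * C')) * R ^ (α * p + 1)) * (vG * vG') ^ (1/2 : ℝ) := by
  have hNr0 : (0:ℝ) < N := by linarith
  have hRp : 0 < R := by linarith
  have e16 : (16:ℝ≥0∞) = ENNReal.ofReal 16 := by norm_num
  have e2 : (vG * vG') ^ (1/2 : ℝ) = ENNReal.ofReal (Real.sqrt (vG.toReal * vG'.toReal)) := by
    rw [Real.sqrt_eq_rpow, ← ENNReal.ofReal_rpow_of_nonneg (by positivity) (by norm_num), ENNReal.ofReal_mul ENNReal.toReal_nonneg,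
      ENNReal.ofReal_toReal tG.ne, ENNReal.ofReal_toReal tG'.ne]
  rw [e2, e16, ENNReal.ofReal_rpow_of_nonneg (by norm_num) (by linarith), ← ENNReal.ofReal_mul (by norm_num), ← ENNReal.ofReal_mul (by positivity),
    ← ENNReal.ofReal_mul (by positivity)]
  apply ENNReal.ofReal_le_ofReal
  set S := Real.sqrt (vG.toReal * vG'.toReal) with hS
  have hS0 : 0 ≤ S := Real.sqrt_nonneg _
  have hpow : (N:ℝ) ^ ((13 / 28) * (p - 2) + ε') ≤ R ^ (α * p) := by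
    have h1 : (N:ℝ) ^ ((13 / 28) * (p - 2) + ε') = ((N:ℝ) ^ 2) ^ (((13 / 28) * (p - 2) + ε') / 2) := by
      rw [← Real.rpow_natCast (N:ℝ) 2, ← Real.rpow_mul hNr0.le]
      congr 1
      push_cast; ring
    have hexp : 0 ≤ ((13 / 28) * (p - 2) + ε') / 2 := by
      have : 0 < (13 / 28 : ℝ) * (p - 2) := by nlinarith
      linarith
    rw [h1]
    calc ((N:ℝ) ^ 2) ^ (((13 / 28) * (p - 2) + ε') / 2) ≤ R ^ (((13 / 28) * (p - 2) + ε') / 2) := Real.rpow_le_rpow (by positivity) hNR hexp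
      _ ≤ R ^ (α * p) := by
          apply Real.rpow_le_rpow_of_exponent_le hR
          rw [hε'] at hε'0 ⊢
          linarith
  calc 16 ^ (p / 2) * (16 * (C' * (N:ℝ) ^ ((13 / 28) * (p - 2) + ε') * ((N:ℝ) ^ 2 * S))) ≤
      16 ^ (p / 2) * (16 * (C' * R ^ (α * p) * (R * S))) := by gcongr
    _ = 16 ^ (p / 2) * (16 * C') * R ^ (α * p + 1) * S := by
        rw [Real.rpow_add_one hRp.ne']; ring
    _ ≤ (Cc + 16 ^ (p / 2) * (16 * C')) * R ^ (α * p + 1) * S := by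
        gcongr
        linarith

/-- choice of the scale -/
theorem scale_ex {K0 Nm : ℕ} {R : ℝ} (hK0r : (2:ℝ) ≤ K0) (hNm1 : (1:ℝ) ≤ Nm) (hRR : 4 * ((K0:ℝ) * Nm) ^ 2 < R) :
    ∃ n : ℕ, 4 * (((K0 ^ n : ℕ)):ℝ) ^ 2 ≤ R ∧ R ≤ 4 * (K0:ℝ) ^ 2 * (((K0 ^ n : ℕ)):ℝ) ^ 2 ∧ Nm < K0 ^ n := by
  have hKN : 1 ≤ (K0:ℝ) * Nm := by nlinarith
  obtain ⟨n, hn1, hn2⟩ := exists_nat_pow_near (x := R / 4) (y := (K0:ℝ) ^ 2) (by nlinarith) (by nlinarith)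
  refine ⟨n, ?_⟩
  have hNr : (((K0 ^ n : ℕ)):ℝ) = (K0:ℝ) ^ n := by push_cast; rfl
  have hN2 : (((K0 ^ n : ℕ)):ℝ) ^ 2 = ((K0:ℝ) ^ 2) ^ n := by rw [hNr, ← pow_mul, ← pow_mul, mul_comm]
  rw [← hN2] at hn1
  rw [pow_succ, ← hN2] at hn2
  have hR2 : R ≤ 4 * (K0:ℝ) ^ 2 * (((K0 ^ n : ℕ)):ℝ) ^ 2 := by nlinarith
  refine ⟨by linarith, hR2, ?_⟩
  have h1 : ((K0:ℝ) * Nm) ^ 2 < ((K0:ℝ) * (((K0 ^ n : ℕ)):ℝ)) ^ 2 := by nlinarith
  have h2 : (K0:ℝ) * Nm < (K0:ℝ) * (((K0 ^ n : ℕ)):ℝ) := lt_of_pow_lt_pow_left₀ 2 (by positivity) h1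
  have h3 : (Nm:ℝ) < (((K0 ^ n : ℕ)):ℝ) := lt_of_mul_lt_mul_left h2 (by linarith)
  exact_mod_cast h3

theorem stBR_of {Cx : ℕ} (hCx : 1 ≤ Cx) (hGEO : StGEO Cx) (hKIN : StKIN) {p α : ℝ} (hp : 2 < p) (hp2 : p ≤ 2 + 28 / (70 + Cx))
    (hα : (13 / 28) * (1 / 2 - 1 / p) < α) : ∃ c0 : ℝ, 0 < c0 ∧ c0 ≤ 1 ∧ StBRg Hyp.ok2 p α c0 := by
  have hp0 : 0 < p := by linarith
  set ε' := α * p - (13 / 56) * (p - 2) with hε'
  have hε'0 : 0 < ε' := by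
    have h1 : (13 / 28) * (1 / 2 - 1 / p) * p < α * p := mul_lt_mul_of_pos_right hα hp0
    have h2 : (13 / 28) * (1 / 2 - 1 / p) * p = (13 / 56) * (p - 2) := by field_simp; ring
    rw [hε']; linarith
  have hαp : 0 < α * p := by
    have : 0 < (13 / 56 : ℝ) * (p - 2) := by nlinarith
    linarith
  obtain ⟨εK, hεK, hpair⟩ := br_pair hCx hGEO hp hp2 hε'0
  obtain ⟨M0, hkin⟩ := kin_out hKIN hεK
  obtain ⟨c0, K0, M, hc0, hc01, hK0, hM, hpair⟩ := hpair M0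
  refine ⟨c0, hc0, hc01, ?_⟩
  intro c φ1 φ2 φ1' φ2' hc v1 v2 v1' v2' hsep
  have hK0r : (2:ℝ) ≤ K0 := by exact_mod_cast hK0
  have hB : 1 ≤ 4 * (K0:ℝ) ^ 2 := by nlinarith
  obtain ⟨C1, N1, hC1, hN1, k1⟩ := hkin c0 (4 * (K0:ℝ) ^ 2) M φ1 φ2 hc0 hc01 hB hM v1 v2
  obtain ⟨C2, N2, hC2, hN2, k2⟩ := hkin c0 (4 * (K0:ℝ) ^ 2) M φ1' φ2' hc0 hc01 hB hM v1' v2'
  set C := max C1 C2 with hC
  have hC1' : 1 ≤ C := hC1.trans (le_max_left _ _)
  obtain ⟨N0, C', hC', hpair⟩ := hpair c C hc hC1'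
  set Nm := max (max N0 1) (max N1 N2) with hNm
  have m0 : N0 ≤ Nm := (le_max_left _ _).trans (le_max_left _ _)
  have m1 : 1 ≤ Nm := (le_max_right _ _).trans (le_max_left _ _)
  have m2 : N1 ≤ Nm := (le_max_left _ _).trans (le_max_right _ _)
  have m3 : N2 ≤ Nm := (le_max_right _ _).trans (le_max_right _ _)
  have hNm1 : (1:ℝ) ≤ Nm := by exact_mod_cast m1
  set R0 := 4 * ((K0:ℝ) * Nm) ^ 2 with hR0
  have hKN : 1 ≤ (K0:ℝ) * Nm := by nlinarith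
  have hR01 : 4 ≤ R0 := by rw [hR0]; nlinarith
  obtain ⟨Cc, hCc, hcr⟩ := br_crude hc0 hc01 hp v1 v2 v1' v2' R0 (by linarith)
  refine ⟨Cc + 16 ^ (p / 2) * (16 * C'), by positivity, ?_⟩
  intro R H h h' G G' y0 hR hH hh hh' mG mG' tG tG' gh gh'
  have hRp : 0 < R := by linarith
  -- translation
  set hs : E3 → ℂ := fun x => h (x + y0) with hhs
  set hs' : E3 → ℂ := fun x => h' (x + y0) with hhs'
  set Gs : Set E3 := (fun x => x + y0) ⁻¹' G with hGs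
  set Gs' : Set E3 := (fun x => x + y0) ⁻¹' G' with hGs'
  have as := adm_shift hh y0
  have as' := adm_shift hh' y0
  have mGs : MeasurableSet Gs := (measurable_add_const y0) mG
  have mGs' : MeasurableSet Gs' := (measurable_add_const y0) mG'
  have vGs : volume Gs = volume G := measure_preimage_add_right volume y0 G
  have vGs' : volume Gs' = volume G' := measure_preimage_add_right volume y0 G'
  have ghs : ∀ y, ‖hs y‖ ≤ Gs.indicator (fun _ => (1:ℝ)) y := fun y => gh (y + y0)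
  have ghs' : ∀ y, ‖hs' y‖ ≤ Gs'.indicator (fun _ => (1:ℝ)) y := fun y => gh' (y + y0)
  have htr : ∫⁻ t in Icc R (2 * R), ∫⁻ y in Metric.ball y0 R,
      (‖H.U (H.mu (chi0 c0) φ1 φ2) h t y‖ₑ * ‖H.U (H.mu (chi0 c0) φ1' φ2') h' t y‖ₑ) ^ (p / 2) =
      ∫⁻ t in Icc R (2 * R), ∫⁻ y in Metric.ball (0:E3) R,
      (‖H.U (H.mu (chi0 c0) φ1 φ2) hs t y‖ₑ * ‖H.U (H.mu (chi0 c0) φ1' φ2') hs' t y‖ₑ) ^ (p / 2) := by
    refine lintegral_congr fun t => ?_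
    rw [lint_ball_shift]
    refine lintegral_congr fun y => ?_
    rw [hhs, hhs', U_shift, U_shift]
  rw [htr, ← vGs, ← vGs']
  rw [← vGs] at tG
  rw [← vGs'] at tG'
  have hRα : 1 ≤ R ^ (α * p + 1) := Real.one_le_rpow hR (by linarith)
  have hball : ∫⁻ t in Icc R (2 * R), ∫⁻ y in Metric.ball (0:E3) R,
      (‖H.U (H.mu (chi0 c0) φ1 φ2) hs t y‖ₑ * ‖H.U (H.mu (chi0 c0) φ1' φ2') hs' t y‖ₑ) ^ (p / 2) ≤
      ∫⁻ t in Icc R (2 * R), ∫⁻ y, (‖H.U (H.mu (chi0 c0) φ1 φ2) hs t y‖ₑ * ‖H.U (H.mu (chi0 c0) φ1' φ2') hs' t y‖ₑ) ^ (p / 2) :=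
    lintegral_mono fun t => setLIntegral_le_lintegral _ _
  by_cases hRR : R ≤ R0
  · refine hball.trans ((hcr R H hs hs' Gs Gs' hR hRR hH.ok as as' mGs mGs' ghs ghs').trans ?_)
    refine mul_le_mul' (ENNReal.ofReal_le_ofReal ?_) le_rfl
    have h1 : Cc ≤ Cc + 16 ^ (p / 2) * (16 * C') := by
      have : (0:ℝ) ≤ 16 ^ (p / 2) * (16 * C') := by positivity
      linarith
    calc Cc = Cc * 1 := (mul_one _).symm
      _ ≤ _ := by gcongr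
  push Not at hRR
  by_cases hz : volume Gs = 0 ∨ volume Gs' = 0
  · obtain ⟨Cr, hCr, hcr2⟩ := br_crude hc0 hc01 hp v1 v2 v1' v2' R hR
    have h1 := hball.trans (hcr2 R H hs hs' Gs Gs' hR le_rfl hH.ok as as' mGs mGs' ghs ghs')
    have h2 : (volume Gs * volume Gs') ^ (1/2 : ℝ) = 0 := by
      rcases hz with h | h
      · rw [h, zero_mul, ENNReal.zero_rpow_of_pos (by norm_num)]
      · rw [h, mul_zero, ENNReal.zero_rpow_of_pos (by norm_num)]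
    rw [h2, mul_zero] at h1 ⊢
    exact h1
  push Not at hz
  obtain ⟨zG, zG'⟩ := hz
  obtain ⟨n, hR1, hR2, hNN⟩ := scale_ex hK0r hNm1 hRR
  set N := K0 ^ n with hN
  have hNr1 : (1:ℝ) ≤ N := by
    have : (Nm:ℝ) < N := by exact_mod_cast hNN
    linarith
  have hNR : (N:ℝ) ^ 2 ≤ R := by
    have := sq_nonneg (N:ℝ)
    linarith
  have b1 : ∀ y, ‖hs y‖ ≤ 1 := fun y => (ghs y).trans (by
    by_cases hx : y ∈ Gs
    · rw [indicator_of_mem hx]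
    · rw [indicator_of_notMem hx]; norm_num)
  have b1' : ∀ y, ‖hs' y‖ ≤ 1 := fun y => (ghs' y).trans (by
    by_cases hx : y ∈ Gs'
    · rw [indicator_of_mem hx]
    · rw [indicator_of_notMem hx]; norm_num)
  obtain ⟨ν, a, d1, d2, hk⟩ := k1 N R H hs (by omega) hNR hR2 hH as b1
  obtain ⟨ν', a', d1', d2', hk'⟩ := k2 N R H hs' (by omega) hNR hR2 hH as' b1'
  have hk := hk.mono (le_max_left C1 C2) hRp.le
  have hk' := hk'.mono (le_max_right C1 C2) hRp.le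
  have hT := hpair n N R H φ1 φ2 φ1' φ2' hs hs' ν ν' a a' d1 d2 d1' d2' Gs Gs' hN (by omega) hR1 hR2 hH hk hk' hsep mGs mGs' tG tG' zG zG' ghs ghs'
  exact (sum_pieces hk hk' hp hT).trans (br_num hp hε' hε'0 hC' hCc hR hNr1 hNR tG tG')

end Vale.Agent.P106.G
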