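import Vale.Agent.P106.G.DefsK

/-! # The Nikodym (box) estimate for the transported densities: statements -/

open MeasureTheory Complex Set
open scoped ENNReal NNReal

set_option linter.all false

namespace Vale.Agent.P106.G

/-- velocity of the rays of direction `v` with respect to the time function -/
noncomputable def Hyp.vel (H : Hyp) (v1 v2 : ℝ) : E3 :=
  !₂[(v1 ^ 2 + v2 ^ 2) / H.m v1 v2, -2 * v1 / H.m v1 v2, -2 * v2 / H.m v1 v2]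

/-- velocity of the cap `k` of side `1/N` -/
noncomputable def Hyp.vk (H : Hyp) (N : ℕ) (k : ℤ × ℤ) : E3 := H.vel (k.1 / N) (k.2 / N)

/-- [N34] large sieve in time for the velocities of the caps of side `1/N` -/
def StN34 : Prop := ∃ C : ℝ, 0 ≤ C ∧ ∀ (H : Hyp) (N : ℕ) (T : ℝ) (ξ : E3) (a : ℤ × ℤ → ℂ), H.ok2 → 1 ≤ N → 0 < T →
  ENNReal.ofReal (T * ‖ξ‖) * ∫⁻ t in Icc (-T) T, ‖∑ k ∈ grd N, a k *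
      cexp (-(2 * Real.pi * I * ((t * inner ℝ ξ (H.vk N k) : ℝ) : ℂ)))‖ₑ ^ 2 ≤
    ENNReal.ofReal (C * T * ((N:ℝ) ^ 2 + N * (T * ‖ξ‖))) * ∑ k ∈ grd N, ‖a k‖ₑ ^ 2

/-- [NIK] box estimate -/
def StNIK : Prop := ∀ (B C0 : ℝ), 1 ≤ B → 1 ≤ C0 → ∃ C : ℝ, 0 ≤ C ∧ ∀ (N : ℕ) (R D : ℝ) (H : Hyp)
  (ν : ℤ × ℤ → E3 → ℝ≥0∞), 1 ≤ N → (N:ℝ) ^ 2 ≤ R → R ≤ B * (N:ℝ) ^ 2 → H.ok2 → 0 ≤ D →
  (∀ k, Measurable (ν k)) →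
  (∀ k y y', ‖y - y'‖ ≤ R / N → ν k y ≤ ENNReal.ofReal C0 * ν k y') →
  (∀ y, ∑ k ∈ grd N, ν k y ≤ ENNReal.ofReal D) → Eng N ν < ⊤ →
  ∫⁻ t in Icc (-(4 * R)) (4 * R), ∫⁻ y, H.Wu N ν (H.zt t y) ^ 2 ≤ ENNReal.ofReal (C * D * N * R) * Eng N ν

/-- [NIKt] box estimate without slow variation -/
def StNIKt : Prop := ∃ C : ℝ, 0 ≤ C ∧ ∀ (N : ℕ) (T D : ℝ) (H : Hyp)
  (ν : ℤ × ℤ → E3 → ℝ≥0∞), 1 ≤ N → 0 < T → H.ok2 → 0 ≤ D → (∀ k, Measurable (ν k)) →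
  (∀ y, ∑ k ∈ grd N, ν k y ≤ ENNReal.ofReal D) → Eng N ν < ⊤ →
  ∫⁻ t in Icc (-T) T, ∫⁻ y, (∑ k ∈ grd N, ν k (y - t • H.vk N k)) ^ 2 ≤ ENNReal.ofReal (C * D * N * T) * Eng N ν

end Vale.Agent.P106.G
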