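import Vale.Agent.P106.G.BrF
import Vale.Agent.P106.G.NikDefs

/-! # The bilinear estimate at the exponent `12/5` from the box estimate -/

open MeasureTheory Complex Set Filter
open scoped ENNReal NNReal ContDiff FourierTransform Topology

set_option linter.all false

namespace Vale.Agent.P106.G

open Vale.Agent.P117 (Adm)

theorem ptw125 {f f' S S' : ℝ≥0∞} (h1 : f ^ 3 / S ^ (1/2 : ℝ) ≠ ⊤) (h2 : f' ^ 3 / S' ^ (1/2 : ℝ) ≠ ⊤) (h3 : S * S' ≠ ⊤) :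
    (f * f') ^ (6/5 : ℝ) ≤ (f ^ 3 / S ^ (1/2 : ℝ)) ^ (2/5 : ℝ) * (f' ^ 3 / S' ^ (1/2 : ℝ)) ^ (2/5 : ℝ) * (S * S') ^ (1/5 : ℝ) := by
  by_cases f0 : f = 0
  · rw [f0, zero_mul, ENNReal.zero_rpow_of_pos (by norm_num)]; exact zero_le
  by_cases f0' : f' = 0
  · rw [f0', mul_zero, ENNReal.zero_rpow_of_pos (by norm_num)]; exact zero_le
  have S0 : S ≠ 0 := by
    intro h
    apply h1
    rw [h, ENNReal.zero_rpow_of_pos (by norm_num), ENNReal.div_zero (pow_ne_zero 3 f0)]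
  have S0' : S' ≠ 0 := by
    intro h
    apply h2
    rw [h, ENNReal.zero_rpow_of_pos (by norm_num), ENNReal.div_zero (pow_ne_zero 3 f0')]
  have St : S ≠ ⊤ := by
    intro h
    apply h3
    rw [h, ENNReal.top_mul S0']
  have St' : S' ≠ ⊤ := by
    intro h
    apply h3
    rw [h, ENNReal.mul_top S0]
  have e : ∀ {g T : ℝ≥0∞}, T ≠ 0 → T ≠ ⊤ → (g ^ 3 / T ^ (1/2 : ℝ)) ^ (2/5 : ℝ) * T ^ (1/5 : ℝ) = g ^ (6/5 : ℝ) := by
    intro g T hT hT'
    have p1 : T ^ (1/5 : ℝ) ≠ 0 := by simp [ENNReal.rpow_eq_zero_iff, hT, hT']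
    have q1 : T ^ (1/5 : ℝ) ≠ ⊤ := ENNReal.rpow_ne_top_of_nonneg (by norm_num) hT'
    rw [div_eq_mul_inv, ENNReal.mul_rpow_of_nonneg _ _ (by norm_num), ENNReal.inv_rpow, ← ENNReal.rpow_mul,
      show (1/2 : ℝ) * (2/5) = 1/5 by norm_num, mul_assoc, ENNReal.inv_mul_cancel p1 q1, mul_one, ← ENNReal.rpow_natCast,
      ← ENNReal.rpow_mul]
    norm_num
  rw [ENNReal.mul_rpow_of_nonneg _ _ (by norm_num : (0:ℝ) ≤ 6/5), ENNReal.mul_rpow_of_nonneg _ _ (by norm_num : (0:ℝ) ≤ 1/5),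
    ← e (g := f) S0 St, ← e (g := f') S0' St']
  exact le_of_eq (by ring)

theorem holder125 {f f' S S' : E4 → ℝ≥0∞} (mf : Measurable f) (mf' : Measurable f') (mS : Measurable S) (mS' : Measurable S') {X : Set E4}
    (h1 : ∫⁻ z in X, f z ^ 3 / S z ^ (1/2 : ℝ) ≠ ⊤) (h2 : ∫⁻ z in X, f' z ^ 3 / S' z ^ (1/2 : ℝ) ≠ ⊤) (h3 : ∫⁻ z in X, S z * S' z ≠ ⊤) :
    ∫⁻ z in X, (f z * f' z) ^ (6/5 : ℝ) ≤ (∫⁻ z in X, f z ^ 3 / S z ^ (1/2 : ℝ)) ^ (2/5 : ℝ) *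
      (∫⁻ z in X, f' z ^ 3 / S' z ^ (1/2 : ℝ)) ^ (2/5 : ℝ) * (∫⁻ z in X, S z * S' z) ^ (1/5 : ℝ) := by
  have m1 : Measurable fun z => f z ^ 3 / S z ^ (1/2 : ℝ) := (mf.pow_const 3).div (mS.pow_const _)
  have m2 : Measurable fun z => f' z ^ 3 / S' z ^ (1/2 : ℝ) := (mf'.pow_const 3).div (mS'.pow_const _)
  have m3 : Measurable fun z => S z * S' z := mS.mul mS'
  have hm : ∀ i ∈ (Finset.univ : Finset (Fin 3)), AEMeasurable (![fun z => f z ^ 3 / S z ^ (1/2 : ℝ), fun z => f' z ^ 3 / S' z ^ (1/2 : ℝ),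
      fun z => S z * S' z] i) (volume.restrict X) := by
    intro i _
    fin_cases i
    · exact m1.aemeasurable
    · exact m2.aemeasurable
    · exact m3.aemeasurable
  have h := ENNReal.lintegral_prod_norm_pow_le (μ := volume.restrict X) (Finset.univ : Finset (Fin 3))
    (f := ![fun z => f z ^ 3 / S z ^ (1/2 : ℝ), fun z => f' z ^ 3 / S' z ^ (1/2 : ℝ), fun z => S z * S' z]) hm
    (p := ![2/5, 2/5, 1/5]) (by simp [Fin.sum_univ_three]; norm_num) (by intro i _; fin_cases i <;> norm_num)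
  simp only [Fin.prod_univ_three] at h
  refine le_trans ?_ h
  apply lintegral_mono_ae
  filter_upwards [ae_lt_top m1 h1, ae_lt_top m2 h2, ae_lt_top m3 h3] with z c1 c2 c3
  exact ptw125 c1.ne c2.ne c3.ne

/-- product of the square functions -/
theorem SS_le {S S' W W' : E4 → ℝ≥0∞} (mS : Measurable S) (mS' : Measurable S') (mW : Measurable W) (mW' : Measurable W') {X Y : Set E4}
    (hX : MeasurableSet X) {N B : ℝ} (hN : 0 < N) (hB : 0 ≤ B) (hXY : Metric.thickening N X ⊆ Y) {A A' : ℝ≥0∞}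
    (hs : ∀ y ∈ Y, ∫⁻ z in Metric.closedBall y N, S z * S' z ≤ ENNReal.ofReal (B * N ^ 4) * (W y * W' y))
    (hW : ∫⁻ z in Y, W z ^ 2 ≤ A) (hW' : ∫⁻ z in Y, W' z ^ 2 ≤ A') :
    ∫⁻ z in X, S z * S' z ≤ ENNReal.ofReal (B / vb.toReal) * (A * A') ^ (1/2 : ℝ) := by
  have h1 := ball_avg hN (mS.mul mS') hX
  have hv : 0 < vb.toReal := vbr_pos
  have hve : vb = ENNReal.ofReal vb.toReal := (ENNReal.ofReal_toReal vb_lt.ne).symm
  have mT : MeasurableSet (Metric.thickening N X) := Metric.isOpen_thickening.measurableSet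
  have h2 : ∫⁻ y in Metric.thickening N X, ∫⁻ z in Metric.closedBall y N, S z * S' z ≤ ENNReal.ofReal (B * N ^ 4) * (A * A') ^ (1/2 : ℝ) := by
    calc _ ≤ ∫⁻ y in Metric.thickening N X, ENNReal.ofReal (B * N ^ 4) * (W y * W' y) := setLIntegral_mono' mT fun y hy => hs y (hXY hy)
      _ ≤ ∫⁻ y in Y, ENNReal.ofReal (B * N ^ 4) * (W y * W' y) := lintegral_mono_set hXY
      _ = ENNReal.ofReal (B * N ^ 4) * ∫⁻ y in Y, W y * W' y := lintegral_const_mul _ (mW.mul mW')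
      _ ≤ ENNReal.ofReal (B * N ^ 4) * ((∫⁻ y in Y, W y ^ (2:ℝ)) ^ (1 / (2:ℝ)) * (∫⁻ y in Y, W' y ^ (2:ℝ)) ^ (1 / (2:ℝ))) :=
          mul_le_mul' le_rfl (ENNReal.lintegral_mul_le_Lp_mul_Lq _ Real.HolderConjugate.two_two mW.aemeasurable mW'.aemeasurable)
      _ ≤ ENNReal.ofReal (B * N ^ 4) * (A ^ (1 / (2:ℝ)) * A' ^ (1 / (2:ℝ))) := by
          have e : ∀ V : E4 → ℝ≥0∞, ∫⁻ y in Y, V y ^ (2:ℝ) = ∫⁻ y in Y, V y ^ 2 := fun V =>
            lintegral_congr fun y => by exact_mod_cast ENNReal.rpow_natCast (V y) 2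
          rw [e, e]
          gcongr
      _ = _ := by rw [ENNReal.mul_rpow_of_nonneg _ _ (by norm_num)]
  have h3 := h1.trans h2
  have e4 : ENNReal.ofReal (N ^ 4) * vb = ENNReal.ofReal (N ^ 4 * vb.toReal) := by
    rw [ENNReal.ofReal_mul (by positivity), ← hve]
  rw [e4] at h3
  have hp : 0 < N ^ 4 * vb.toReal := by positivity
  have e5 : ENNReal.ofReal (B * N ^ 4) = ENNReal.ofReal (N ^ 4 * vb.toReal) * ENNReal.ofReal (B / vb.toReal) := by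
    rw [← ENNReal.ofReal_mul hp.le]
    congr 1
    field_simp
  rw [e5, mul_assoc] at h3
  exact (ENNReal.mul_le_mul_iff_right (by rw [ne_eq, ENNReal.ofReal_eq_zero, not_le]; exact hp) ENNReal.ofReal_ne_top).1 h3

end Vale.Agent.P106.G
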