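import Vale.Agent.P106.G.BrN

/-! # The bilinear estimate at the exponent `12/5` from the box estimate: one pair -/

open MeasureTheory Complex Set Filter
open scoped ENNReal NNReal ContDiff FourierTransform Topology

set_option linter.all false

namespace Vale.Agent.P106.G

open Vale.Agent.P117 (Adm)

theorem W2_time (H : Hyp) {N : ℕ} {ν : ℤ × ℤ → E3 → ℝ≥0∞} (hm : ∀ k, Measurable (ν k)) {R : ℝ} (hR : 0 ≤ R) {A : ℝ≥0∞}
    (h : ∫⁻ t in Icc (-(4 * R)) (4 * R), ∫⁻ y, H.Wu N ν (H.zt t y) ^ 2 ≤ A) :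
    ∫⁻ z in {z | |H.tm z| ≤ 3 * R}, H.Wu N ν z ^ 2 ≤ A := by
  have mW := measurable_Wu H N hm
  have mS : MeasurableSet {z : E4 | |H.tm z| ≤ 3 * R} :=
    measurableSet_le ((continuous_tm H).abs.measurable) measurable_const
  rw [← lintegral_indicator mS, lint_zt H ((mW.pow_const 2).indicator mS)]
  refine le_trans ?_ h
  rw [← lintegral_indicator measurableSet_Icc]
  refine lintegral_mono fun t => ?_
  by_cases ht : |t| ≤ 3 * R
  · rw [indicator_of_mem (by rw [abs_le] at ht; exact ⟨by linarith [ht.1], by linarith [ht.2]⟩)]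
    refine lintegral_mono fun y => ?_
    exact indicator_le_self _ _ _
  · have e : ∀ y : E3, {z : E4 | |H.tm z| ≤ 3 * R}.indicator (fun z => H.Wu N ν z ^ 2) (H.zt t y) = 0 := by
      intro y
      rw [indicator_of_notMem]
      simp only [mem_setOf_eq, tm_zt]
      exact ht
    simp_rw [e]
    simp

/-- the final arithmetic at `12/5` -/
theorem num125 {P1 P3 N R g g' C εr ε1 εK CN q : ℝ} (hC : 1 ≤ C) (hN : 1 ≤ N) (hg : 0 < g) (hg' : 0 < g')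
    (hP1 : 0 ≤ P1) (hP3 : 0 ≤ P3) (hCN : 0 ≤ CN) (hq : 0 ≤ q) (hR0 : 0 ≤ R) (hR : R ≤ q * N ^ 2) (he : 4 / 5 * ε1 + 1 / 5 * εK ≤ εr) :
    ENNReal.ofReal (P1 * N ^ ε1 * (N ^ 2 * C * g)) ^ (2/5 : ℝ) * ENNReal.ofReal (P1 * N ^ ε1 * (N ^ 2 * C * g')) ^ (2/5 : ℝ) *
      (ENNReal.ofReal P3 * (ENNReal.ofReal (CN * (C * N ^ εK) * N * R * (C * g)) * ENNReal.ofReal (CN * (C * N ^ εK) * N * R * (C * g'))) ^ (1/2 : ℝ)) ^ (1/5 : ℝ) ≤
      ENNReal.ofReal ((P1 * C) ^ (4/5 : ℝ) * (P3 * CN * C ^ 2 * q) ^ (1/5 : ℝ) * N ^ (1/5 + εr) * (N ^ 2 * Real.sqrt (g * g'))) := by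
  have hN0 : 0 < N := by linarith
  have hC0 : 0 < C := by linarith
  have n1 : 0 ≤ N ^ ε1 := by positivity
  have nK : 0 ≤ N ^ εK := by positivity
  rw [ENNReal.ofReal_rpow_of_nonneg (by positivity) (by norm_num), ENNReal.ofReal_rpow_of_nonneg (by positivity) (by norm_num),
    ← ENNReal.ofReal_mul (by positivity), ← ENNReal.ofReal_mul (by positivity), ENNReal.ofReal_rpow_of_nonneg (by positivity) (by norm_num),
    ← ENNReal.ofReal_mul (by positivity), ENNReal.ofReal_rpow_of_nonneg (by positivity) (by norm_num), ← ENNReal.ofReal_mul (by positivity)]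
  apply ENNReal.ofReal_le_ofReal
  have e1 : P1 * N ^ ε1 * (N ^ 2 * C * g) = (P1 * C) * (N ^ ε1 * N ^ 2) * g := by ring
  have e2 : P1 * N ^ ε1 * (N ^ 2 * C * g') = (P1 * C) * (N ^ ε1 * N ^ 2) * g' := by ring
  have e3 : CN * (C * N ^ εK) * N * R * (C * g) * (CN * (C * N ^ εK) * N * R * (C * g')) =
      (CN * C ^ 2 * N ^ εK * N * R) ^ 2 * (g * g') := by ring
  rw [e1, e2, e3, Real.mul_rpow (x := (P1 * C) * (N ^ ε1 * N ^ 2)) (by positivity) hg.le, Real.mul_rpow (x := (P1 * C) * (N ^ ε1 * N ^ 2)) (by positivity) hg'.le,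
    ← Real.sqrt_eq_rpow ((CN * C ^ 2 * N ^ εK * N * R) ^ 2 * (g * g')), Real.sqrt_mul (by positivity), Real.sqrt_sq (by positivity)]
  set U := (P1 * C) * (N ^ ε1 * N ^ 2) with hU
  have hU0 : 0 ≤ U := by positivity
  have s0 : 0 < g * g' := by positivity
  have e4 : P3 * (CN * C ^ 2 * N ^ εK * N * R * Real.sqrt (g * g')) ≤ (P3 * CN * C ^ 2 * q) * (N ^ εK * N ^ 3) * Real.sqrt (g * g') := by
    calc P3 * (CN * C ^ 2 * N ^ εK * N * R * Real.sqrt (g * g')) ≤ P3 * (CN * C ^ 2 * N ^ εK * N * (q * N ^ 2) * Real.sqrt (g * g')) := by gcongr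
      _ = _ := by ring
  calc U ^ (2/5 : ℝ) * g ^ (2/5 : ℝ) * (U ^ (2/5 : ℝ) * g' ^ (2/5 : ℝ)) * (P3 * (CN * C ^ 2 * N ^ εK * N * R * Real.sqrt (g * g'))) ^ (1/5 : ℝ) ≤
      U ^ (2/5 : ℝ) * g ^ (2/5 : ℝ) * (U ^ (2/5 : ℝ) * g' ^ (2/5 : ℝ)) * ((P3 * CN * C ^ 2 * q) * (N ^ εK * N ^ 3) * Real.sqrt (g * g')) ^ (1/5 : ℝ) := by
        gcongr
    _ = U ^ (4/5 : ℝ) * (g * g') ^ (2/5 : ℝ) * ((P3 * CN * C ^ 2 * q) ^ (1/5 : ℝ) * (N ^ εK * N ^ 3) ^ (1/5 : ℝ) * (g * g') ^ (1/10 : ℝ)) := by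
        have a1 : U ^ (2/5 : ℝ) * U ^ (2/5 : ℝ) = U ^ (4/5 : ℝ) := by
          rw [← Real.rpow_add_of_nonneg hU0 (by norm_num) (by norm_num)]; norm_num
        have a2 : g ^ (2/5 : ℝ) * g' ^ (2/5 : ℝ) = (g * g') ^ (2/5 : ℝ) := (Real.mul_rpow hg.le hg'.le).symm
        have a3 : Real.sqrt (g * g') ^ (1/5 : ℝ) = (g * g') ^ (1/10 : ℝ) := by
          rw [Real.sqrt_eq_rpow, ← Real.rpow_mul s0.le]; norm_num
        rw [Real.mul_rpow (x := P3 * CN * C ^ 2 * q * (N ^ εK * N ^ 3)) (y := Real.sqrt (g * g')) (by positivity) (by positivity),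
          Real.mul_rpow (x := P3 * CN * C ^ 2 * q) (y := N ^ εK * N ^ 3) (by positivity) (by positivity), a3, ← a1, ← a2]
        ring
    _ = (P1 * C) ^ (4/5 : ℝ) * (P3 * CN * C ^ 2 * q) ^ (1/5 : ℝ) * N ^ (1/5 + (4 / 5 * ε1 + 1 / 5 * εK)) * (N ^ 2 * Real.sqrt (g * g')) := by
        have b1 : (g * g') ^ (2/5 : ℝ) * (g * g') ^ (1/10 : ℝ) = Real.sqrt (g * g') := by
          rw [← Real.rpow_add s0, Real.sqrt_eq_rpow]; norm_num
        have b2 : U ^ (4/5 : ℝ) = (P1 * C) ^ (4/5 : ℝ) * (N ^ (4/5 * ε1) * N ^ (8/5 : ℝ)) := by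
          rw [hU, Real.mul_rpow (x := P1 * C) (y := N ^ ε1 * N ^ 2) (by positivity) (by positivity),
            Real.mul_rpow (x := N ^ ε1) (y := N ^ 2) (by positivity) (by positivity), ← Real.rpow_natCast N 2,
            ← Real.rpow_mul hN0.le, ← Real.rpow_mul hN0.le]
          congr 3
          · ring
          · norm_num
        have b3 : (N ^ εK * N ^ 3) ^ (1/5 : ℝ) = N ^ (1/5 * εK) * N ^ (3/5 : ℝ) := by
          rw [Real.mul_rpow (by positivity) (by positivity), ← Real.rpow_natCast N 3, ← Real.rpow_mul hN0.le, ← Real.rpow_mul hN0.le]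
          congr 2
          · ring
          · norm_num
        have b4 : N ^ (1/5 + (4 / 5 * ε1 + 1 / 5 * εK)) * N ^ 2 = N ^ (4/5 * ε1) * N ^ (8/5 : ℝ) * (N ^ (1/5 * εK) * N ^ (3/5 : ℝ)) := by
          rw [← Real.rpow_natCast N 2, ← Real.rpow_add hN0, ← Real.rpow_add hN0, ← Real.rpow_add hN0, ← Real.rpow_add hN0]
          congr 1
          push_cast
          ring
        rw [b2, b3, ← b1]
        calc _ = (P1 * C) ^ (4/5 : ℝ) * (P3 * CN * C ^ 2 * q) ^ (1/5 : ℝ) * (N ^ (4/5 * ε1) * N ^ (8/5 : ℝ) * (N ^ (1/5 * εK) * N ^ (3/5 : ℝ))) *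
            ((g * g') ^ (2/5 : ℝ) * (g * g') ^ (1/10 : ℝ)) := by ring
          _ = _ := by rw [← b4]; ring
    _ ≤ _ := by
        have : N ^ (1/5 + (4 / 5 * ε1 + 1 / 5 * εK)) ≤ N ^ (1/5 + εr) := Real.rpow_le_rpow_of_exponent_le hN (by linarith)
        gcongr

end Vale.Agent.P106.G
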