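import Vale.Agent.P106.G.BrN2

/-! # The bilinear estimate at the exponent `12/5` from the box estimate: conclusion -/

open MeasureTheory Complex Set Filter
open scoped ENNReal NNReal ContDiff FourierTransform Topology

set_option linter.all false

namespace Vale.Agent.P106.G

open Vale.Agent.P117 (Adm)

/-- the estimate for one pair of pieces, with exponent `γ` -/
def PairB (p γ εK : ℝ) : Prop := ∀ M0 : ℕ, ∃ (c0 : ℝ) (K0 M : ℕ), 0 < c0 ∧ c0 ≤ 1 ∧ 2 ≤ K0 ∧ M0 ≤ M ∧ ∀ (c C : ℝ), 0 < c → 1 ≤ C →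
    ∃ (N0 : ℕ) (C' : ℝ), 0 ≤ C' ∧ ∀ (n N : ℕ) (R : ℝ) (H : Hyp) (φ1 φ2 φ1' φ2' : ℝ → ℂ) (h h' : E3 → ℂ) (ν ν' : ℤ × ℤ → E3 → ℝ≥0∞)
      (a a' : Fin 2 × Fin 2 → E4 → ℂ) (b1 b2 b1' b2' : Fin 2 × Fin 2 → ℝ) (G G' : Set E3), N = K0 ^ n → N0 ≤ N →
      4 * (N:ℝ) ^ 2 ≤ R → R ≤ 4 * (K0:ℝ) ^ 2 * (N:ℝ) ^ 2 → H.ok2 →
      Kout c0 M εK C N R H φ1 φ2 h ν a b1 b2 → Kout c0 M εK C N R H φ1' φ2' h' ν' a' b1' b2' →
      (∀ v1 v2 v1' v2', φ1 v1 * φ2 v2 ≠ 0 → φ1' v1' * φ2' v2' ≠ 0 → c ≤ |v1 - v1'| ∨ c ≤ |v2 - v2'|) →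
      MeasurableSet G → MeasurableSet G' → volume G < ⊤ → volume G' < ⊤ → volume G ≠ 0 → volume G' ≠ 0 →
      (∀ y, ‖h y‖ ≤ G.indicator (fun _ => (1:ℝ)) y) → (∀ y, ‖h' y‖ ≤ G'.indicator (fun _ => (1:ℝ)) y) →
      ∀ o o', ∫⁻ z in Qr H R, (Fs a b1 b2 o z * Fs a' b1' b2' o' z) ^ (p / 2) ≤
        ENNReal.ofReal (C' * (N:ℝ) ^ γ * ((N:ℝ) ^ 2 * Real.sqrt ((volume G).toReal * (volume G').toReal)))

theorem br_num2 {p α γ C' Cc R : ℝ} {N : ℕ} {vG vG' : ℝ≥0∞} (hp : 2 < p) (hγ0 : 0 ≤ γ) (hγ : γ / 2 ≤ α * p) (hC' : 0 ≤ C')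
    (hCc : 0 ≤ Cc) (hR : 1 ≤ R) (hNr1 : (1:ℝ) ≤ N) (hNR : (N:ℝ) ^ 2 ≤ R) (tG : vG < ⊤) (tG' : vG' < ⊤) :
    (16:ℝ≥0∞) ^ (p / 2) * (16 * ENNReal.ofReal (C' * (N:ℝ) ^ γ * ((N:ℝ) ^ 2 * Real.sqrt (vG.toReal * vG'.toReal)))) ≤
      ENNReal.ofReal ((Cc + 16 ^ (p / 2) * (16 * C')) * R ^ (α * p + 1)) * (vG * vG') ^ (1/2 : ℝ) := by
  have hNr0 : (0:ℝ) < N := by linarith
  have hRp : 0 < R := by linarith
  have e16 : (16:ℝ≥0∞) = ENNReal.ofReal 16 := by norm_num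
  have e2 : (vG * vG') ^ (1/2 : ℝ) = ENNReal.ofReal (Real.sqrt (vG.toReal * vG'.toReal)) := by
    rw [Real.sqrt_eq_rpow, ← ENNReal.ofReal_rpow_of_nonneg (by positivity) (by norm_num), ENNReal.ofReal_mul ENNReal.toReal_nonneg,
      ENNReal.ofReal_toReal tG.ne, ENNReal.ofReal_toReal tG'.ne]
  rw [e2, e16, ENNReal.ofReal_rpow_of_nonneg (by norm_num) (by linarith), ← ENNReal.ofReal_mul (by norm_num), ← ENNReal.ofReal_mul (by positivity),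
    ← ENNReal.ofReal_mul (by positivity)]
  apply ENNReal.ofReal_le_ofReal
  set S := Real.sqrt (vG.toReal * vG'.toReal) with hS
  have hS0 : 0 ≤ S := Real.sqrt_nonneg _
  have hpow : (N:ℝ) ^ γ ≤ R ^ (α * p) := by
    have h1 : (N:ℝ) ^ γ = ((N:ℝ) ^ 2) ^ (γ / 2) := by
      rw [← Real.rpow_natCast (N:ℝ) 2, ← Real.rpow_mul hNr0.le]
      congr 1
      push_cast; ring
    rw [h1]
    calc ((N:ℝ) ^ 2) ^ (γ / 2) ≤ R ^ (γ / 2) := Real.rpow_le_rpow (by positivity) hNR (by linarith)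
      _ ≤ R ^ (α * p) := Real.rpow_le_rpow_of_exponent_le hR hγ
  calc 16 ^ (p / 2) * (16 * (C' * (N:ℝ) ^ γ * ((N:ℝ) ^ 2 * S))) ≤
      16 ^ (p / 2) * (16 * (C' * R ^ (α * p) * (R * S))) := by gcongr
    _ = 16 ^ (p / 2) * (16 * C') * R ^ (α * p + 1) * S := by
        rw [Real.rpow_add_one hRp.ne']; ring
    _ ≤ (Cc + 16 ^ (p / 2) * (16 * C')) * R ^ (α * p + 1) * S := by
        gcongr
        linarith

/-- from the estimate for pairs of pieces to the bilinear estimate -/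
theorem stBR_core (hKIN : StKIN) {p α γ εK : ℝ} (hp : 2 < p) (hα : 0 < α) (hγ0 : 0 ≤ γ) (hγ : γ / 2 ≤ α * p) (hεK : 0 < εK)
    (hpair : PairB p γ εK) : ∃ c0 : ℝ, 0 < c0 ∧ c0 ≤ 1 ∧ StBRg Hyp.ok2 p α c0 := by
  have hp0 : 0 < p := by linarith
  have hαp : 0 < α * p := by positivity
  obtain ⟨M0, hkin⟩ := kin_out hKIN hεK
  obtain ⟨c0, K0, M, hc0, hc01, hK0, hM, hpair⟩ := hpair M0
  refine ⟨c0, hc0, hc01, ?_⟩
  intro c φ1 φ2 φ1' φ2' hc v1 v2 v1' v2' hsep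
  have hK0r : (2:ℝ) ≤ K0 := by exact_mod_cast hK0
  have hB : 1 ≤ 4 * (K0:ℝ) ^ 2 := by nlinarith
  obtain ⟨C1, N1, hC1, hN1, k1⟩ := hkin c0 (4 * (K0:ℝ) ^ 2) M φ1 φ2 hc0 hc01 hB hM v1 v2
  obtain ⟨C2, N2, hC2, hN2, k2⟩ := hkin c0 (4 * (K0:ℝ) ^ 2) M φ1' φ2' hc0 hc01 hB hM v1' v2'
  set C := max C1 C2 with hC
  have hC1' : 1 ≤ C := hC1.trans (le_max_left _ _)
  obtain ⟨N0, C', hC', hpair⟩ := hpair c C hc hC1'
  set Nm := max (max N0 1) (max N1 N2) with hNm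
  have m0 : N0 ≤ Nm := (le_max_left _ _).trans (le_max_left _ _)
  have m1 : 1 ≤ Nm := (le_max_right _ _).trans (le_max_left _ _)
  have m2 : N1 ≤ Nm := (le_max_left _ _).trans (le_max_right _ _)
  have m3 : N2 ≤ Nm := (le_max_right _ _).trans (le_max_right _ _)
  have hNm1 : (1:ℝ) ≤ Nm := by exact_mod_cast m1
  set R0 := 4 * ((K0:ℝ) * Nm) ^ 2 with hR0
  have hKN : 1 ≤ (K0:ℝ) * Nm := by nlinarith
  have hR01 : 4 ≤ R0 := by rw [hR0]; nlinarith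
  obtain ⟨Cc, hCc, hcr⟩ := br_crude hc0 hc01 hp v1 v2 v1' v2' R0 (by linarith)
  refine ⟨Cc + 16 ^ (p / 2) * (16 * C'), by positivity, ?_⟩
  intro R H h h' G G' y0 hR hH hh hh' mG mG' tG tG' gh gh'
  have hRp : 0 < R := by linarith
  set hs : E3 → ℂ := fun x => h (x + y0) with hhs
  set hs' : E3 → ℂ := fun x => h' (x + y0) with hhs'
  set Gs : Set E3 := (fun x => x + y0) ⁻¹' G with hGs
  set Gs' : Set E3 := (fun x => x + y0) ⁻¹' G' with hGs'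
  have as := adm_shift hh y0
  have as' := adm_shift hh' y0
  have mGs : MeasurableSet Gs := (measurable_add_const y0) mG
  have mGs' : MeasurableSet Gs' := (measurable_add_const y0) mG'
  have vGs : volume Gs = volume G := measure_preimage_add_right volume y0 G
  have vGs' : volume Gs' = volume G' := measure_preimage_add_right volume y0 G'
  have ghs : ∀ y, ‖hs y‖ ≤ Gs.indicator (fun _ => (1:ℝ)) y := fun y => gh (y + y0)
  have ghs' : ∀ y, ‖hs' y‖ ≤ Gs'.indicator (fun _ => (1:ℝ)) y := fun y => gh' (y + y0)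
  have htr : ∫⁻ t in Icc R (2 * R), ∫⁻ y in Metric.ball y0 R,
      (‖H.U (H.mu (chi0 c0) φ1 φ2) h t y‖ₑ * ‖H.U (H.mu (chi0 c0) φ1' φ2') h' t y‖ₑ) ^ (p / 2) =
      ∫⁻ t in Icc R (2 * R), ∫⁻ y in Metric.ball (0:E3) R,
      (‖H.U (H.mu (chi0 c0) φ1 φ2) hs t y‖ₑ * ‖H.U (H.mu (chi0 c0) φ1' φ2') hs' t y‖ₑ) ^ (p / 2) := by
    refine lintegral_congr fun t => ?_
    rw [lint_ball_shift]
    refine lintegral_congr fun y => ?_
    rw [hhs, hhs', U_shift, U_shift]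
  rw [htr, ← vGs, ← vGs']
  rw [← vGs] at tG
  rw [← vGs'] at tG'
  have hRα : 1 ≤ R ^ (α * p + 1) := Real.one_le_rpow hR (by linarith)
  have hball : ∫⁻ t in Icc R (2 * R), ∫⁻ y in Metric.ball (0:E3) R,
      (‖H.U (H.mu (chi0 c0) φ1 φ2) hs t y‖ₑ * ‖H.U (H.mu (chi0 c0) φ1' φ2') hs' t y‖ₑ) ^ (p / 2) ≤
      ∫⁻ t in Icc R (2 * R), ∫⁻ y, (‖H.U (H.mu (chi0 c0) φ1 φ2) hs t y‖ₑ * ‖H.U (H.mu (chi0 c0) φ1' φ2') hs' t y‖ₑ) ^ (p / 2) :=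
    lintegral_mono fun t => setLIntegral_le_lintegral _ _
  by_cases hRR : R ≤ R0
  · refine hball.trans ((hcr R H hs hs' Gs Gs' hR hRR hH.ok as as' mGs mGs' ghs ghs').trans ?_)
    refine mul_le_mul' (ENNReal.ofReal_le_ofReal ?_) le_rfl
    have h1 : Cc ≤ Cc + 16 ^ (p / 2) * (16 * C') := by
      have : (0:ℝ) ≤ 16 ^ (p / 2) * (16 * C') := by positivity
      linarith
    calc Cc = Cc * 1 := (mul_one _).symm
      _ ≤ _ := by gcongr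
  push Not at hRR
  by_cases hz : volume Gs = 0 ∨ volume Gs' = 0
  · obtain ⟨Cr, hCr, hcr2⟩ := br_crude hc0 hc01 hp v1 v2 v1' v2' R hR
    have h1 := hball.trans (hcr2 R H hs hs' Gs Gs' hR le_rfl hH.ok as as' mGs mGs' ghs ghs')
    have h2 : (volume Gs * volume Gs') ^ (1/2 : ℝ) = 0 := by
      rcases hz with h | h
      · rw [h, zero_mul, ENNReal.zero_rpow_of_pos (by norm_num)]
      · rw [h, mul_zero, ENNReal.zero_rpow_of_pos (by norm_num)]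
    rw [h2, mul_zero] at h1 ⊢
    exact h1
  push Not at hz
  obtain ⟨zG, zG'⟩ := hz
  obtain ⟨n, hR1, hR2, hNN⟩ := scale_ex hK0r hNm1 hRR
  set N := K0 ^ n with hN
  have hNr1 : (1:ℝ) ≤ N := by
    have : (Nm:ℝ) < N := by exact_mod_cast hNN
    linarith
  have hNR : (N:ℝ) ^ 2 ≤ R := by
    have := sq_nonneg (N:ℝ)
    linarith
  have b1 : ∀ y, ‖hs y‖ ≤ 1 := fun y => (ghs y).trans (by
    by_cases hx : y ∈ Gs
    · rw [indicator_of_mem hx]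
    · rw [indicator_of_notMem hx]; norm_num)
  have b1' : ∀ y, ‖hs' y‖ ≤ 1 := fun y => (ghs' y).trans (by
    by_cases hx : y ∈ Gs'
    · rw [indicator_of_mem hx]
    · rw [indicator_of_notMem hx]; norm_num)
  obtain ⟨ν, a, d1, d2, hk⟩ := k1 N R H hs (by omega) hNR hR2 hH as b1
  obtain ⟨ν', a', d1', d2', hk'⟩ := k2 N R H hs' (by omega) hNR hR2 hH as' b1'
  have hk := hk.mono (le_max_left C1 C2) hRp.le
  have hk' := hk'.mono (le_max_right C1 C2) hRp.le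
  have hT := hpair n N R H φ1 φ2 φ1' φ2' hs hs' ν ν' a a' d1 d2 d1' d2' Gs Gs' hN (by omega) hR1 hR2 hH hk hk' hsep mGs mGs' tG tG' zG zG' ghs ghs'
  exact (sum_pieces hk hk' hp hT).trans (br_num2 hp hγ0 hγ hC' hCc hR hNr1 hNR tG tG')

end Vale.Agent.P106.G
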