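import Vale.Agent.P106.G.BrN3

/-! # The bilinear estimate at the exponent `12/5` from the box estimate: the pairs -/

open MeasureTheory Complex Set Filter
open scoped ENNReal NNReal ContDiff FourierTransform Topology

set_option linter.all false

namespace Vale.Agent.P106.G

open Vale.Agent.P117 (Adm)

section
variable {c0 : ℝ} {M : ℕ} {ε C : ℝ} {N : ℕ} {R : ℝ} {H : Hyp} {φ1 φ2 φ1' φ2' : ℝ → ℂ} {h h' : E3 → ℂ} {ν ν' : ℤ × ℤ → E3 → ℝ≥0∞}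
    {a a' : Fin 2 × Fin 2 → E4 → ℂ} {b1 b2 b1' b2' : Fin 2 × Fin 2 → ℝ}

theorem br_slab2 {Λ CC CS c : ℝ} (hCS : 0 ≤ CS) (hC0 : 0 < C) (hN1 : 1 ≤ N) (hcN : 16 / (N:ℝ) ≤ c) (hCC : CS * C ^ 2 ≤ CC) (hR : 0 ≤ R)
    (hslab : ∀ (N : ℕ), 1 ≤ N → ∀ (a a' : E4 → ℂ) (c0 R b1 b2 b1' b2' : ℝ), Amp c0 R a → Amp c0 R a' →
      |b1| ≤ 1 / N → |b2| ≤ 1 / N → |b1'| ≤ 1 / N → |b2'| ≤ 1 / N →
      (∀ ζ ζ', a ζ ≠ 0 → a' ζ' ≠ 0 → c / 2 ≤ |ζ 1 / ζ 0 - ζ' 1 / ζ' 0| ∨ c / 2 ≤ |ζ 2 / ζ 0 - ζ' 2 / ζ' 0|) →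
      8 / N ≤ c / 2 → ∀ y : E4,
      ∫⁻ z in Metric.closedBall y N, Sq Λ (M + 2) N a (shT b1 b2 z) * Sq Λ (M + 2) N a' (shT b1' b2' z) ≤
      ENNReal.ofReal (CS * (N:ℝ) ^ 4) * (Mu (M + 2 - 2) N a (shT b1 b2 y) * Mu (M + 2 - 2) N a' (shT b1' b2' y)))
    (hk : Kout c0 M ε C N R H φ1 φ2 h ν a b1 b2) (hk' : Kout c0 M ε C N R H φ1' φ2' h' ν' a' b1' b2')
    (hsep : ∀ v1 v2 v1' v2', φ1 v1 * φ2 v2 ≠ 0 → φ1' v1' * φ2' v2' ≠ 0 → c ≤ |v1 - v1'| ∨ c ≤ |v2 - v2'|) (o o' : Fin 2 × Fin 2) :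
    ∀ z ∈ {z : E4 | |H.tm z| ≤ 3 * R}, ∫⁻ u in Metric.closedBall z (N:ℝ), Ss Λ (M + 2) N a b1 b2 o u * Ss Λ (M + 2) N a' b1' b2' o' u ≤
      ENNReal.ofReal (CC * (N:ℝ) ^ 4) * (H.Wu N ν z * H.Wu N ν' z) := by
  intro z hz
  have hmu : |H.tm z| ≤ 3 * R := hz
  have h1 := hslab N hN1 (a o) (a' o') c0 ((N:ℝ) ^ 2) (b1 o) (b2 o) (b1' o') (b2' o') (hk.amp o) (hk'.amp o') (hk.sh o).1 (hk.sh o).2
    (hk'.sh o').1 (hk'.sh o').2 (sepa_of hk hk' hN1 hcN hsep o o') (by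
      have e : 8 / (N:ℝ) = (16 / N) / 2 := by ring
      rw [e]; linarith) z
  rw [Nat.add_sub_cancel] at h1
  refine h1.trans ?_
  have m1 := hk.mu o z hmu
  have m2 := hk'.mu o' z hmu
  calc ENNReal.ofReal (CS * (N:ℝ) ^ 4) * (Mu M N (a o) (shT (b1 o) (b2 o) z) * Mu M N (a' o') (shT (b1' o') (b2' o') z)) ≤
      ENNReal.ofReal (CS * (N:ℝ) ^ 4) * ((ENNReal.ofReal C * H.Wu N ν z) * (ENNReal.ofReal C * H.Wu N ν' z)) :=
        mul_le_mul' le_rfl (mul_le_mul' m1 m2)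
    _ = ENNReal.ofReal ((CS * C ^ 2) * (N:ℝ) ^ 4) * (H.Wu N ν z * H.Wu N ν' z) := by
        have e : (CS * C ^ 2) * (N:ℝ) ^ 4 = CS * (N:ℝ) ^ 4 * (C * C) := by ring
        rw [e, ENNReal.ofReal_mul (p := CS * (N:ℝ) ^ 4) (by positivity), ENNReal.ofReal_mul (p := C) (q := C) hC0.le]
        ring
    _ ≤ _ := by
        refine mul_le_mul' (ENNReal.ofReal_le_ofReal ?_) le_rfl
        gcongr

/-- the box estimate for the densities -/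
theorem box_W {CN : ℝ} (hCN : 0 ≤ CN) (hC : 1 ≤ C) (hN1 : 1 ≤ N) (hNR : (N:ℝ) ^ 2 ≤ R) (hH : H.ok2) {B : ℝ} (hRB : R ≤ B * (N:ℝ) ^ 2)
    (hnik : ∀ (N : ℕ) (R D : ℝ) (H : Hyp) (ν : ℤ × ℤ → E3 → ℝ≥0∞), 1 ≤ N → (N:ℝ) ^ 2 ≤ R → R ≤ B * (N:ℝ) ^ 2 → H.ok2 → 0 ≤ D →
      (∀ k, Measurable (ν k)) → (∀ k y y', ‖y - y'‖ ≤ R / N → ν k y ≤ ENNReal.ofReal C * ν k y') →
      (∀ y, ∑ k ∈ grd N, ν k y ≤ ENNReal.ofReal D) → Eng N ν < ⊤ →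
      ∫⁻ t in Icc (-(4 * R)) (4 * R), ∫⁻ y, H.Wu N ν (H.zt t y) ^ 2 ≤ ENNReal.ofReal (CN * D * N * R) * Eng N ν)
    (hk : Kout c0 M ε C N R H φ1 φ2 h ν a b1 b2) {G : Set E3} (mG : MeasurableSet G) (tG : volume G < ⊤)
    (hh : ∀ y, ‖h y‖ ≤ G.indicator (fun _ => (1:ℝ)) y) :
    ∫⁻ z in {z | |H.tm z| ≤ 3 * R}, H.Wu N ν z ^ 2 ≤ ENNReal.ofReal (CN * (C * (N:ℝ) ^ ε) * N * R * (C * (volume G).toReal)) := by
  have hC0 : 0 ≤ C := by linarith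
  have hN0 : (0:ℝ) < N := by exact_mod_cast hN1
  have hR0 : 0 < R := lt_of_lt_of_le (by positivity) hNR
  have hE := hk.e2 hC0 mG hh
  have hEt : Eng N ν < ⊤ := hE.trans_lt (ENNReal.mul_lt_top ENNReal.ofReal_lt_top tG)
  have h1 := hnik N R (C * (N:ℝ) ^ ε) H ν hN1 hNR hRB hH (by positivity) hk.meas (fun k y y' hy => hk.slow k y y' (hy.trans (by
    gcongr
    linarith))) hk.sum hEt
  refine (W2_time H hk.meas hR0.le h1).trans ?_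
  calc _ ≤ ENNReal.ofReal (CN * (C * (N:ℝ) ^ ε) * N * R) * (ENNReal.ofReal C * volume G) := mul_le_mul' le_rfl hE
    _ = _ := by
      rw [← ENNReal.ofReal_toReal tG.ne, ← ENNReal.ofReal_mul hC0, ← ENNReal.ofReal_mul (by positivity), ENNReal.toReal_ofReal ENNReal.toReal_nonneg]

end

theorem br_pair125 (hNIK : StNIK) {ε' : ℝ} (hε' : 0 < ε') : ∃ εK : ℝ, 0 < εK ∧ PairB (12/5) (1/5 + ε') εK := by
  set ε1 := ε' / 2 with hε1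
  set εK := min (ε' / 2) 1 with hεK
  have hε10 : 0 < ε1 := by positivity
  have hεK0 : 0 < εK := by rw [hεK]; positivity
  have hεK1 : εK ≤ 1 := min_le_right _ _
  have hεK2 : εK ≤ ε' / 2 := min_le_left _ _
  have hexp : 4 / 5 * ε1 + 1 / 5 * εK ≤ ε' := by rw [hε1]; linarith
  refine ⟨εK, hεK0, ?_⟩
  intro M0
  set M := max M0 2 with hM
  have hM2 : 2 ≤ M := le_max_right _ _
  obtain ⟨K0, c0', Λ, CR, hK0, hc0', hΛ, hCR, href⟩ := stREF ε1 (M + 2) hε10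
  refine ⟨min c0' 1, K0, M, lt_min hc0' one_pos, min_le_right _ _, hK0, le_max_left _ _, ?_⟩
  set c0 := min c0' 1 with hc0
  have hc0le : c0 ≤ c0' := min_le_left _ _
  have hc01 : c0 ≤ 1 := min_le_right _ _
  intro c C hc hC
  obtain ⟨CS, hCS, hslab⟩ := stSLABs Λ (c / 2) (M + 2) hΛ (by positivity) (by omega)
  obtain ⟨CL, hCL, hloc⟩ := stLOC2 M
  obtain ⟨CB, hCB, hber⟩ := stBER M
  have hK0r : (2:ℝ) ≤ K0 := by exact_mod_cast hK0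
  set q := 4 * (K0:ℝ) ^ 2 with hq
  have hq1 : 1 ≤ q := by rw [hq]; nlinarith
  obtain ⟨CN, hCN, hnik⟩ := hNIK q C hq1 hC
  set P := CR + CS + CL + CB + 1 with hP
  set CC := P * (12 * (K0:ℝ) ^ 2) * (2 * C ^ 2) with hCC
  have hC0 : 0 < C := by linarith
  have hP1 : 1 ≤ P := by rw [hP]; linarith
  have hCCn : 0 ≤ CC := by positivity
  have hvb := vbr_pos
  refine ⟨max 2 ⌈16 / c⌉₊, (CC * C) ^ (4/5 : ℝ) * ((CS * C ^ 2 / vb.toReal) * CN * C ^ 2 * q) ^ (1/5 : ℝ), by positivity, ?_⟩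
  intro n N R H φ1 φ2 φ1' φ2' h h' ν ν' a a' b1 b2 b1' b2' G G' hNn hN0 hR1 hR2 hH hk hk' hsep mG mG' tG tG' zG zG' hh hh' o o'
  have hN2 : 2 ≤ N := (le_max_left _ _).trans hN0
  have hN1 : 1 ≤ N := by omega
  have hNr2 : (2:ℝ) ≤ N := by exact_mod_cast hN2
  have hNr1 : (1:ℝ) ≤ N := by linarith
  have hNr0 : (0:ℝ) < N := by linarith
  have hcN : 16 / (N:ℝ) ≤ c := by
    have h1 : (⌈16 / c⌉₊ : ℝ) ≤ N := by exact_mod_cast (le_max_right _ _).trans hN0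
    have h2 := (Nat.le_ceil (16 / c)).trans h1
    rw [div_le_iff₀ hc] at h2
    rw [div_le_iff₀ hNr0]
    linarith
  have hR0 : 0 < R := by nlinarith
  have hNR : (N:ℝ) ^ 2 ≤ R := by nlinarith
  have hbd := hH.ok.bd
  have h1 := one_fn (Λ := Λ) hCR hCL hCB (by rw [hP]; linarith) (by rw [hP]; linarith) (by rw [hP]; linarith) hP1 rfl hC hCC hK0r hεK1
    hc0le hc01 hNn hN2 hR1 hR2 hH href hloc hber hk mG tG hh o
  have h2 := one_fn (Λ := Λ) hCR hCL hCB (by rw [hP]; linarith) (by rw [hP]; linarith) (by rw [hP]; linarith) hP1 rfl hC hCC hK0r hεK1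
    hc0le hc01 hNn hN2 hR1 hR2 hH href hloc hber hk' mG' tG' hh' o'
  have p1 := h1.1
  have r1 := h2.1
  have hg0 : 0 < (volume G).toReal := ENNReal.toReal_pos zG tG.ne
  have hg0' : 0 < (volume G').toReal := ENNReal.toReal_pos zG' tG'.ne
  have mW := measurable_Wu H N hk.meas
  have mW' := measurable_Wu H N hk'.meas
  have mF := measurable_Fs hk o
  have mF' := measurable_Fs hk' o'
  have mS := measurable_Ss hk Λ (M + 2) o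
  have mS' := measurable_Ss hk' Λ (M + 2) o'
  have hsl := br_slab2 (Λ := Λ) (CC := CS * C ^ 2) hCS hC0 hN1 hcN le_rfl hR0.le hslab hk hk' hsep o o'
  have hW := box_W hCN hC hN1 hNR hH hR2 hnik hk mG tG hh
  have hW' := box_W hCN hC hN1 hNR hH hR2 hnik hk' mG' tG' hh'
  have hthick : Metric.thickening (N:ℝ) (Qr H R) ⊆ {z : E4 | |H.tm z| ≤ 3 * R} := by
    intro y hy
    obtain ⟨z, hz, hd⟩ := Metric.mem_thickening_iff.1 hy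
    have := qr_sub hbd hNr2 hR1 z hz (Metric.mem_closedBall.2 hd.le)
    have h5 : 0 ≤ (N:ℝ) ^ 2 := by positivity
    show |H.tm y| ≤ 3 * R
    rw [abs_of_nonneg (by linarith [this.1])]
    exact this.2
  have hSS := SS_le mS mS' mW mW' (mQr H R) hNr0 (by positivity) hthick hsl hW hW'
  have f1 : ∫⁻ z in Qr H R, Fs a b1 b2 o z ^ 3 / Ss Λ (M + 2) N a b1 b2 o z ^ (1/2 : ℝ) ≤
      ENNReal.ofReal (CC * (N:ℝ) ^ ε1 * ((N:ℝ) ^ 2 * C * (volume G).toReal)) := (setLIntegral_le_lintegral _ _).trans p1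
  have f2 : ∫⁻ z in Qr H R, Fs a' b1' b2' o' z ^ 3 / Ss Λ (M + 2) N a' b1' b2' o' z ^ (1/2 : ℝ) ≤
      ENNReal.ofReal (CC * (N:ℝ) ^ ε1 * ((N:ℝ) ^ 2 * C * (volume G').toReal)) := (setLIntegral_le_lintegral _ _).trans r1
  have tSS : ENNReal.ofReal (CS * C ^ 2 / vb.toReal) * (ENNReal.ofReal (CN * (C * (N:ℝ) ^ εK) * N * R * (C * (volume G).toReal)) *
      ENNReal.ofReal (CN * (C * (N:ℝ) ^ εK) * N * R * (C * (volume G').toReal))) ^ (1/2 : ℝ) < ⊤ :=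
    ENNReal.mul_lt_top ENNReal.ofReal_lt_top (ENNReal.rpow_lt_top_of_nonneg (by norm_num) (ENNReal.mul_lt_top ENNReal.ofReal_lt_top ENNReal.ofReal_lt_top).ne)
  have hh5 := holder125 mF mF' mS mS' (X := Qr H R) (f1.trans_lt ENNReal.ofReal_lt_top).ne (f2.trans_lt ENNReal.ofReal_lt_top).ne (hSS.trans_lt tSS).ne
  have e65 : ((12/5 : ℝ) / 2) = 6/5 := by norm_num
  rw [e65]
  refine hh5.trans (le_trans ?_ (num125 (P1 := CC) (P3 := CS * C ^ 2 / vb.toReal) (q := q) (R := R) (CN := CN) hC hNr1 hg0 hg0' hCCn (by positivity) hCN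
    (by positivity) hR0.le hR2 hexp))
  gcongr

/-- **the bilinear estimate at the exponent `12/5`** -/
theorem stBR125 (hNIK : StNIK) (hKIN : StKIN) {α : ℝ} (hα : 1 / 24 < α) :
    ∃ c0 : ℝ, 0 < c0 ∧ c0 ≤ 1 ∧ StBRg Hyp.ok2 (12/5) α c0 := by
  obtain ⟨εK, hεK, hpair⟩ := br_pair125 hNIK (ε' := 2 * (α * (12/5) - 1/10)) (by linarith)
  exact stBR_core hKIN (by norm_num) (by linarith) (by linarith) (by linarith) hεK hpair

end Vale.Agent.P106.G
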