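import Vale.Agent.P106.G.SlabA

/-! # The combination of the refined estimate, the slab estimate and the geometric estimate -/

open MeasureTheory Complex Set
open scoped ENNReal NNReal

set_option linter.all false

namespace Vale.Agent.P106.G

/-- the arithmetic of the chain -/
theorem chain_real {x xN A1 A2 w1 w2 E1 E2 B K Γ p : ℝ} {Cx : ℕ} (hp : 2 < p) (hpC : (p - 2) * (70 + Cx) ≤ 28)
    (hx : 0 ≤ x) (hxN : 0 ≤ xN) (hA1 : 0 < A1) (hA2 : 0 < A2) (hw1 : 0 < w1) (hw2 : 0 < w2) (hE1 : 0 < E1) (hE2 : 0 < E2)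
    (hB : 1 ≤ B) (hK : 1 ≤ K) (hΓ : 0 ≤ Γ)
    (h1 : x ^ 5 * A1 ^ 6 * A2 ^ 6 ≤ K * B ^ 5 * (w1 * w2 * xN) * E1 ^ 2 * E2 ^ 2)
    (h2 : A1 ^ 2 * x ≤ K * B * (w1 * xN)) (h2' : A2 ^ 2 * x ≤ K * B * (w2 * xN))
    (h3 : w1 * xN ≤ K * E1) (h3' : w2 * xN ≤ K * E2)
    (h4 : A1 ^ 2 * x ≤ K * E1) (h4' : A2 ^ 2 * x ≤ K * E2)
    (hG : ∀ e1 e2 : ℝ, 0 ≤ e1 → e1 ≤ 1 → 0 ≤ e2 → e2 ≤ 1 → e1 * E1 ≤ w1 * xN → e2 * E2 ≤ w2 * xN →
      (w1 * w2) ^ 14 * (e1 * e2) ^ Cx ≤ Γ) :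
    x * (A1 * A2) ^ (p / 2) ≤ K * B * Γ ^ ((p - 2) / 56) * (E1 * E2) ^ (1/2 : ℝ) := by
  have hK0 : 0 < K := by linarith
  have hB0 : 0 < B := by linarith
  set e1 := A1 ^ 2 * x / (K * B * E1) with he1
  set e2 := A2 ^ 2 * x / (K * B * E2) with he2
  have d1 : 0 < K * B * E1 := by positivity
  have d2 : 0 < K * B * E2 := by positivity
  have f1 : e1 * (K * B * E1) = A1 ^ 2 * x := by rw [he1]; field_simp
  have f2 : e2 * (K * B * E2) = A2 ^ 2 * x := by rw [he2]; field_simp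
  have e1n : 0 ≤ e1 := by positivity
  have e2n : 0 ≤ e2 := by positivity
  have kb1 : K * E1 ≤ K * B * E1 := by
    have : K * E1 * 1 ≤ K * E1 * B := by gcongr
    linarith
  have kb2 : K * E2 ≤ K * B * E2 := by
    have : K * E2 * 1 ≤ K * E2 * B := by gcongr
    linarith
  have e1l : e1 ≤ 1 := by rw [he1, div_le_one d1]; linarith
  have e2l : e2 ≤ 1 := by rw [he2, div_le_one d2]; linarith
  have g1 : e1 * E1 ≤ w1 * xN := by
    have : (K * B) * (e1 * E1) ≤ (K * B) * (w1 * xN) := by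
      calc (K * B) * (e1 * E1) = e1 * (K * B * E1) := by ring
        _ = A1 ^ 2 * x := f1
        _ ≤ _ := h2
    exact le_of_mul_le_mul_left this (by positivity)
  have g2 : e2 * E2 ≤ w2 * xN := by
    have : (K * B) * (e2 * E2) ≤ (K * B) * (w2 * xN) := by
      calc (K * B) * (e2 * E2) = e2 * (K * B * E2) := by ring
        _ = A2 ^ 2 * x := f2
        _ ≤ _ := h2'
    exact le_of_mul_le_mul_left this (by positivity)
  have hGG := hG e1 e2 e1n e1l e2n e2l g1 g2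
  -- lower bounds for `w`
  have L2 : A2 ^ 2 * e1 ^ 3 * e2 ^ 2 ≤ w2 := by
    have a : x ^ 5 * A1 ^ 6 * A2 ^ 6 ≤ K ^ 2 * B ^ 5 * w2 * E1 ^ 3 * E2 ^ 2 := by
      refine h1.trans ?_
      calc K * B ^ 5 * (w1 * w2 * xN) * E1 ^ 2 * E2 ^ 2 = (K * B ^ 5 * w2 * E1 ^ 2 * E2 ^ 2) * (w1 * xN) := by ring
        _ ≤ (K * B ^ 5 * w2 * E1 ^ 2 * E2 ^ 2) * (K * E1) := by gcongr
        _ = _ := by ring
    have b : x ^ 5 * A1 ^ 6 * A2 ^ 6 = (A2 ^ 2 * e1 ^ 3 * e2 ^ 2) * (K ^ 5 * B ^ 5 * E1 ^ 3 * E2 ^ 2) := by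
      calc x ^ 5 * A1 ^ 6 * A2 ^ 6 = A2 ^ 2 * (A1 ^ 2 * x) ^ 3 * (A2 ^ 2 * x) ^ 2 := by ring
        _ = _ := by rw [← f1, ← f2]; ring
    rw [b] at a
    have c : (A2 ^ 2 * e1 ^ 3 * e2 ^ 2) * (K ^ 2 * B ^ 5 * E1 ^ 3 * E2 ^ 2) ≤ w2 * (K ^ 2 * B ^ 5 * E1 ^ 3 * E2 ^ 2) := by
      calc _ ≤ (A2 ^ 2 * e1 ^ 3 * e2 ^ 2) * (K ^ 5 * B ^ 5 * E1 ^ 3 * E2 ^ 2) := by
            have : K ^ 2 ≤ K ^ 5 := pow_le_pow_right₀ hK (by norm_num)
            gcongr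
        _ ≤ _ := a
        _ = _ := by ring
    exact le_of_mul_le_mul_right c (by positivity)
  have L1 : A1 ^ 2 * e1 ^ 2 * e2 ^ 3 ≤ w1 := by
    have a : x ^ 5 * A1 ^ 6 * A2 ^ 6 ≤ K ^ 2 * B ^ 5 * w1 * E1 ^ 2 * E2 ^ 3 := by
      refine h1.trans ?_
      calc K * B ^ 5 * (w1 * w2 * xN) * E1 ^ 2 * E2 ^ 2 = (K * B ^ 5 * w1 * E1 ^ 2 * E2 ^ 2) * (w2 * xN) := by ring
        _ ≤ (K * B ^ 5 * w1 * E1 ^ 2 * E2 ^ 2) * (K * E2) := by gcongr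
        _ = _ := by ring
    have b : x ^ 5 * A1 ^ 6 * A2 ^ 6 = (A1 ^ 2 * e1 ^ 2 * e2 ^ 3) * (K ^ 5 * B ^ 5 * E1 ^ 2 * E2 ^ 3) := by
      calc x ^ 5 * A1 ^ 6 * A2 ^ 6 = A1 ^ 2 * (A1 ^ 2 * x) ^ 2 * (A2 ^ 2 * x) ^ 3 := by ring
        _ = _ := by rw [← f1, ← f2]; ring
    rw [b] at a
    have c : (A1 ^ 2 * e1 ^ 2 * e2 ^ 3) * (K ^ 2 * B ^ 5 * E1 ^ 2 * E2 ^ 3) ≤ w1 * (K ^ 2 * B ^ 5 * E1 ^ 2 * E2 ^ 3) := by
      calc _ ≤ (A1 ^ 2 * e1 ^ 2 * e2 ^ 3) * (K ^ 5 * B ^ 5 * E1 ^ 2 * E2 ^ 3) := by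
            have : K ^ 2 ≤ K ^ 5 := pow_le_pow_right₀ hK (by norm_num)
            gcongr
        _ ≤ _ := a
        _ = _ := by ring
    exact le_of_mul_le_mul_right c (by positivity)
  have hAA : 0 < A1 * A2 := by positivity
  have hee : 0 ≤ e1 * e2 := by positivity
  have hee1 : e1 * e2 ≤ 1 := by
    calc e1 * e2 ≤ 1 * 1 := by gcongr
      _ = 1 := by norm_num
  have M : (A1 * A2) ^ 28 * (e1 * e2) ^ (70 + Cx) ≤ Γ := by
    refine le_trans ?_ hGG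
    have a : (A1 ^ 2 * e1 ^ 2 * e2 ^ 3) * (A2 ^ 2 * e1 ^ 3 * e2 ^ 2) ≤ w1 * w2 := by gcongr
    have b : ((A1 ^ 2 * e1 ^ 2 * e2 ^ 3) * (A2 ^ 2 * e1 ^ 3 * e2 ^ 2)) ^ 14 ≤ (w1 * w2) ^ 14 :=
      pow_le_pow_left₀ (by positivity) a 14
    calc (A1 * A2) ^ 28 * (e1 * e2) ^ (70 + Cx) =
        ((A1 ^ 2 * e1 ^ 2 * e2 ^ 3) * (A2 ^ 2 * e1 ^ 3 * e2 ^ 2)) ^ 14 * (e1 * e2) ^ Cx := by
          rw [pow_add]; ring
      _ ≤ _ := by gcongr
  set s := (p - 2) / 56 with hs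
  have hs0 : 0 < s := by rw [hs]; linarith
  have M2 := Real.rpow_le_rpow (by positivity) M hs0.le
  rw [Real.mul_rpow (by positivity) (by positivity), ← Real.rpow_natCast (A1 * A2), ← Real.rpow_natCast (e1 * e2),
    ← Real.rpow_mul hAA.le, ← Real.rpow_mul hee] at M2
  have q1 : ((28:ℕ):ℝ) * s = p / 2 - 1 := by rw [hs]; push_cast; ring
  rw [q1] at M2
  have q2 : (((70 + Cx : ℕ)):ℝ) * s ≤ 1/2 := by
    rw [hs]; push_cast
    have : (70 + (Cx:ℝ)) * ((p - 2) / 56) = ((p - 2) * (70 + Cx)) / 56 := by ring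
    rw [this]; linarith
  have q3 : (e1 * e2) ^ (1/2 : ℝ) ≤ (e1 * e2) ^ ((((70 + Cx : ℕ)):ℝ) * s) := by
    rcases hee.eq_or_lt with h0 | h0
    · rw [← h0, Real.zero_rpow (by norm_num)]
      positivity
    · exact Real.rpow_le_rpow_of_exponent_ge h0 hee1 q2
  have q4 : x * (A1 * A2) = K * B * ((e1 * e2) ^ (1/2 : ℝ) * (E1 * E2) ^ (1/2 : ℝ)) := by
    rw [← Real.mul_rpow hee (by positivity), ← Real.sqrt_eq_rpow]
    have : x * (A1 * A2) = Real.sqrt ((x * (A1 * A2)) ^ 2) := (Real.sqrt_sq (by positivity)).symm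
    rw [this]
    have h5 : (x * (A1 * A2)) ^ 2 = (K * B) ^ 2 * (e1 * e2 * (E1 * E2)) := by
      calc (x * (A1 * A2)) ^ 2 = (A1 ^ 2 * x) * (A2 ^ 2 * x) := by ring
        _ = _ := by rw [← f1, ← f2]; ring
    rw [h5, Real.sqrt_mul (by positivity), Real.sqrt_sq (by positivity)]
  calc x * (A1 * A2) ^ (p / 2) = x * (A1 * A2) * (A1 * A2) ^ (p / 2 - 1) := by
        rw [Real.rpow_sub_one hAA.ne']
        field_simp
    _ = K * B * ((A1 * A2) ^ (p / 2 - 1) * (e1 * e2) ^ (1/2 : ℝ)) * (E1 * E2) ^ (1/2 : ℝ) := by rw [q4]; ring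
    _ ≤ K * B * ((A1 * A2) ^ (p / 2 - 1) * (e1 * e2) ^ ((((70 + Cx : ℕ)):ℝ) * s)) * (E1 * E2) ^ (1/2 : ℝ) := by gcongr
    _ ≤ K * B * Γ ^ s * (E1 * E2) ^ (1/2 : ℝ) := by gcongr


theorem ball_avg {N : ℝ} (hN : 0 < N) {f : E4 → ℝ≥0∞} (hf : Measurable f) {X : Set E4} (hX : MeasurableSet X) :
    (ENNReal.ofReal (N ^ 4) * vb) * ∫⁻ z in X, f z ≤ ∫⁻ y in Metric.thickening N X, ∫⁻ z in Metric.closedBall y N, f z := by
  have mS : MeasurableSet {p : E4 × E4 | dist p.1 p.2 < N ∧ p.1 ∈ X} := by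
    have h1 : MeasurableSet {p : E4 × E4 | dist p.1 p.2 < N} := (isOpen_lt (by fun_prop) continuous_const).measurableSet
    exact h1.inter (measurable_fst hX)
  have mI : Measurable (fun p : E4 × E4 => {p : E4 × E4 | dist p.1 p.2 < N ∧ p.1 ∈ X}.indicator (fun p => f p.1) p) :=
    (hf.comp measurable_fst).indicator mS
  have hv : ∀ z : E4, volume (Metric.ball z N) = ENNReal.ofReal (N ^ 4) * vb := by
    intro z
    rw [← Measure.addHaar_closedBall_eq_addHaar_ball, vol_ball z hN.le]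
    rfl
  calc (ENNReal.ofReal (N ^ 4) * vb) * ∫⁻ z in X, f z = ∫⁻ z in X, (ENNReal.ofReal (N ^ 4) * vb) * f z := by
        rw [lintegral_const_mul _ hf]
    _ = ∫⁻ z, X.indicator (fun z => (ENNReal.ofReal (N ^ 4) * vb) * f z) z := (lintegral_indicator hX _).symm
    _ = ∫⁻ z, ∫⁻ y, {p : E4 × E4 | dist p.1 p.2 < N ∧ p.1 ∈ X}.indicator (fun p => f p.1) (z, y) := by
        refine lintegral_congr fun z => ?_
        by_cases hz : z ∈ X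
        · rw [indicator_of_mem hz]
          have e : ∀ y, {p : E4 × E4 | dist p.1 p.2 < N ∧ p.1 ∈ X}.indicator (fun p => f p.1) (z, y) =
              (Metric.ball z N).indicator (fun _ => f z) y := by
            intro y
            simp only [indicator, mem_setOf_eq, Metric.mem_ball, hz, and_true]
            rw [dist_comm]
          simp_rw [e]
          rw [lintegral_indicator measurableSet_ball, setLIntegral_const, hv, mul_comm]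
        · rw [indicator_of_notMem hz]
          have e : ∀ y, {p : E4 × E4 | dist p.1 p.2 < N ∧ p.1 ∈ X}.indicator (fun p => f p.1) (z, y) = 0 := by
            intro y
            simp [indicator, hz]
          simp_rw [e]
          simp
    _ = ∫⁻ y, ∫⁻ z, {p : E4 × E4 | dist p.1 p.2 < N ∧ p.1 ∈ X}.indicator (fun p => f p.1) (z, y) :=
        lintegral_lintegral_swap mI.aemeasurable
    _ ≤ ∫⁻ y, (Metric.thickening N X).indicator (fun y => ∫⁻ z in Metric.closedBall y N, f z) y := by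
        refine lintegral_mono fun y => ?_
        by_cases hy : y ∈ Metric.thickening N X
        · rw [indicator_of_mem hy, ← lintegral_indicator measurableSet_closedBall]
          refine lintegral_mono fun z => ?_
          simp only [indicator, mem_setOf_eq, Metric.mem_closedBall]
          split_ifs with h1 h2 h3
          · exact le_rfl
          · exact absurd h1.1.le h2
          · exact zero_le
          · exact le_rfl
        · rw [indicator_of_notMem hy]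
          have e : ∀ z, {p : E4 × E4 | dist p.1 p.2 < N ∧ p.1 ∈ X}.indicator (fun p => f p.1) (z, y) = 0 := by
            intro z
            simp only [indicator, mem_setOf_eq]
            rw [if_neg]
            rintro ⟨h1, h2⟩
            exact hy (Metric.mem_thickening_iff.2 ⟨z, h2, by rwa [dist_comm]⟩)
          simp_rw [e]
          simp
    _ = _ := lintegral_indicator Metric.isOpen_thickening.measurableSet _

/-- Hölder on a level set -/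
theorem holder_level {S1 S2 : E4 → ℝ≥0∞} (h1 : Measurable S1) (h2 : Measurable S2) {X : Set E4} (hX : MeasurableSet X)
    (a1 : ∀ᵐ z ∂volume.restrict X, S1 z ≠ 0) (a2 : ∀ᵐ z ∂volume.restrict X, S2 z ≠ 0)
    (b1 : ∀ᵐ z ∂volume.restrict X, S1 z ≠ ⊤) (b2 : ∀ᵐ z ∂volume.restrict X, S2 z ≠ ⊤) :
    volume X ^ 5 ≤ (∫⁻ z in X, S1 z * S2 z) * (∫⁻ z in X, (S1 z ^ (1/2 : ℝ))⁻¹) ^ 2 * (∫⁻ z in X, (S2 z ^ (1/2 : ℝ))⁻¹) ^ 2 := by
  have hm : ∀ i ∈ (Finset.univ : Finset (Fin 3)), AEMeasurable (![fun z => S1 z * S2 z, fun z => (S1 z ^ (1/2 : ℝ))⁻¹,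
      fun z => (S2 z ^ (1/2 : ℝ))⁻¹] i) (volume.restrict X) := by
    intro i _
    fin_cases i
    · exact (h1.mul h2).aemeasurable
    · exact (h1.pow_const _).inv.aemeasurable
    · exact (h2.pow_const _).inv.aemeasurable
  have h := ENNReal.lintegral_prod_norm_pow_le (μ := volume.restrict X) (Finset.univ : Finset (Fin 3))
    (f := ![fun z => S1 z * S2 z, fun z => (S1 z ^ (1/2 : ℝ))⁻¹, fun z => (S2 z ^ (1/2 : ℝ))⁻¹]) hm
    (p := ![1/5, 2/5, 2/5]) (by simp [Fin.sum_univ_three]; norm_num) (by intro i _; fin_cases i <;> norm_num)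
  simp only [Fin.prod_univ_three] at h
  have h3 : volume X ≤ ∫⁻ z in X, (S1 z * S2 z) ^ (1/5 : ℝ) * ((S1 z ^ (1/2 : ℝ))⁻¹) ^ (2/5 : ℝ) * ((S2 z ^ (1/2 : ℝ))⁻¹) ^ (2/5 : ℝ) := by
    calc volume X = ∫⁻ z in X, 1 := by simp
      _ ≤ _ := by
        apply lintegral_mono_ae
        filter_upwards [a1, a2, b1, b2] with z c1 c2 c3 c4
        have p1 : S1 z ^ (1/5 : ℝ) ≠ 0 := by simp [ENNReal.rpow_eq_zero_iff, c1, c3]
        have p2 : S2 z ^ (1/5 : ℝ) ≠ 0 := by simp [ENNReal.rpow_eq_zero_iff, c2, c4]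
        have q1 : S1 z ^ (1/5 : ℝ) ≠ ⊤ := ENNReal.rpow_ne_top_of_nonneg (by norm_num) c3
        have q2 : S2 z ^ (1/5 : ℝ) ≠ ⊤ := ENNReal.rpow_ne_top_of_nonneg (by norm_num) c4
        rw [ENNReal.mul_rpow_of_nonneg _ _ (by norm_num), ENNReal.inv_rpow, ENNReal.inv_rpow, ← ENNReal.rpow_mul,
          ← ENNReal.rpow_mul, show (1/2 : ℝ) * (2/5) = 1/5 by norm_num]
        calc (1:ℝ≥0∞) = (S1 z ^ (1/5 : ℝ) * (S1 z ^ (1/5 : ℝ))⁻¹) * (S2 z ^ (1/5 : ℝ) * (S2 z ^ (1/5 : ℝ))⁻¹) := by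
              rw [ENNReal.mul_inv_cancel p1 q1, ENNReal.mul_inv_cancel p2 q2, one_mul]
          _ ≤ _ := le_of_eq (by ring)
  have h4 : volume X ≤ (∫⁻ z in X, S1 z * S2 z) ^ (1/5 : ℝ) * (∫⁻ z in X, (S1 z ^ (1/2 : ℝ))⁻¹) ^ (2/5 : ℝ) *
      (∫⁻ z in X, (S2 z ^ (1/2 : ℝ))⁻¹) ^ (2/5 : ℝ) := h3.trans h
  calc volume X ^ 5 ≤ ((∫⁻ z in X, S1 z * S2 z) ^ (1/5 : ℝ) * (∫⁻ z in X, (S1 z ^ (1/2 : ℝ))⁻¹) ^ (2/5 : ℝ) *
      (∫⁻ z in X, (S2 z ^ (1/2 : ℝ))⁻¹) ^ (2/5 : ℝ)) ^ 5 := by gcongr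
    _ = _ := by
      rw [mul_pow, mul_pow, ← ENNReal.rpow_natCast, ← ENNReal.rpow_natCast, ← ENNReal.rpow_natCast, ← ENNReal.rpow_mul,
        ← ENNReal.rpow_mul, ← ENNReal.rpow_mul]
      norm_num



/-- the data of one function -/
structure Cdat (N C B U E : ℝ) (Ω Ω' : Set E4) (F S W : E4 → ℝ≥0∞) : Prop where
  mF : Measurable F
  mS : Measurable S
  mW : Measurable W
  hR : ∫⁻ z, F z ^ 3 / S z ^ (1/2 : ℝ) ≤ ENNReal.ofReal (B * E)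
  hL : ∀ y ∈ Ω', ∫⁻ z in Metric.closedBall y N, F z ^ 2 ≤ ENNReal.ofReal (B * N ^ 4) * W y
  hV : ∀ y z, ‖z - y‖ ≤ N → W z ≤ ENNReal.ofReal C * W y
  hT : ∫⁻ z in Ω', W z ≤ ENNReal.ofReal (C * E)
  h2 : ∫⁻ z in Ω, F z ^ 2 ≤ ENNReal.ofReal (C * E)
  hP : ∀ z ∈ Ω, F z ^ 2 ≤ ENNReal.ofReal U * W z
  hF : ∀ z ∈ Ω, F z ≤ ENNReal.ofReal U
  hW : ∀ z ∈ Ω, W z ≤ ENNReal.ofReal U

section
variable {N C B U E : ℝ} {Ω Ω' : Set E4} {F S W : E4 → ℝ≥0∞}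

theorem vbr_pos : 0 < vb.toReal := ENNReal.toReal_pos vb_pos.ne' vb_lt.ne

/-- values on the thickening -/
theorem Cdat.thick (h : Cdat N C B U E Ω Ω' F S W) (hN : 0 < N) (hC : 1 ≤ C) {X : Set E4} {w : ℝ} (hw : 0 < w)
    (hW : ∀ z ∈ X, ENNReal.ofReal w ≤ W z ∧ W z ≤ ENNReal.ofReal (2 * w)) :
    ∀ y ∈ Metric.thickening N X, ENNReal.ofReal (w / C) ≤ W y ∧ W y ≤ ENNReal.ofReal (2 * C ^ 2 * (w / C)) := by
  intro y hy
  obtain ⟨z, hz, hd⟩ := Metric.mem_thickening_iff.1 hy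
  rw [dist_eq_norm] at hd
  obtain ⟨a, b⟩ := hW z hz
  have hC0 : 0 < C := by linarith
  have c1 := h.hV z y hd.le
  have c2 := h.hV y z (by rw [norm_sub_rev]; exact hd.le)
  constructor
  · have h3 : ENNReal.ofReal C * ENNReal.ofReal (w / C) ≤ ENNReal.ofReal C * W y := by
      rw [← ENNReal.ofReal_mul hC0.le, mul_div_cancel₀ _ hC0.ne']
      exact a.trans c2
    exact (ENNReal.mul_le_mul_iff_right (by rw [ne_eq, ENNReal.ofReal_eq_zero, not_le]; exact hC0) ENNReal.ofReal_ne_top).1 h3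
  · calc W y ≤ ENNReal.ofReal C * ENNReal.ofReal (2 * w) := c1.trans (by gcongr)
      _ = _ := by
        rw [← ENNReal.ofReal_mul hC0.le]
        congr 1
        field_simp

theorem Cdat.S_ne (h : Cdat N C B U E Ω Ω' F S W) {X : Set E4} (hX : MeasurableSet X) {A : ℝ} (hA : 0 < A)
    (hF : ∀ z ∈ X, ENNReal.ofReal A ≤ F z) : ∀ᵐ z ∂volume.restrict X, S z ≠ 0 := by
  have h1 : ∫⁻ z in X, F z ^ 3 / S z ^ (1/2 : ℝ) ≠ ⊤ :=
    ((setLIntegral_le_lintegral _ _).trans_lt (h.hR.trans_lt ENNReal.ofReal_lt_top)).ne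
  have h2 : ∀ᵐ z ∂volume.restrict X, F z ^ 3 / S z ^ (1/2 : ℝ) < ⊤ :=
    ae_lt_top ((h.mF.pow_const 3).div (h.mS.pow_const _)) h1
  filter_upwards [h2, ae_restrict_mem hX] with z hz hzX h0
  rw [h0, ENNReal.zero_rpow_of_pos (by norm_num), ENNReal.div_zero] at hz
  · exact absurd hz (lt_irrefl _)
  · have := hF z hzX
    have h3 : 0 < F z := lt_of_lt_of_le (ENNReal.ofReal_pos.2 hA) this
    exact pow_ne_zero 3 h3.ne'

theorem Cdat.J (h : Cdat N C B U E Ω Ω' F S W) {X : Set E4} (hX : MeasurableSet X) {A : ℝ} (hA : 0 < A)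
    (hF : ∀ z ∈ X, ENNReal.ofReal A ≤ F z) :
    ENNReal.ofReal (A ^ 3) * ∫⁻ z in X, (S z ^ (1/2 : ℝ))⁻¹ ≤ ENNReal.ofReal (B * E) := by
  have m : Measurable (fun z => (S z ^ (1/2 : ℝ))⁻¹) := (h.mS.pow_const _).inv
  rw [← lintegral_const_mul _ m]
  refine le_trans ?_ h.hR
  refine le_trans ?_ (setLIntegral_le_lintegral X _)
  refine setLIntegral_mono' hX fun z hz => ?_
  rw [ENNReal.div_eq_inv_mul, mul_comm]
  gcongr
  rw [ENNReal.ofReal_pow hA.le]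
  gcongr
  exact hF z hz

theorem Cdat.lev (h : Cdat N C B U E Ω Ω' F S W) (hN : 0 < N) (hC : 1 ≤ C) (hB : 1 ≤ B)
    (hΩ : ∀ z ∈ Ω, Metric.closedBall z N ⊆ Ω') {X : Set E4} (hX : MeasurableSet X) (hXΩ : X ⊆ Ω) {A w : ℝ} (hA : 0 < A)
    (hw : 0 < w) (hF : ∀ z ∈ X, ENNReal.ofReal A ≤ F z)
    (hW : ∀ z ∈ X, ENNReal.ofReal w ≤ W z ∧ W z ≤ ENNReal.ofReal (2 * w)) :
    ENNReal.ofReal (w / C) * volume (Metric.thickening N X) ≤ ENNReal.ofReal (C * E) ∧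
    ENNReal.ofReal (A ^ 2) * volume X ≤ ENNReal.ofReal (C * E) ∧
    ENNReal.ofReal (vb.toReal * A ^ 2) * volume X ≤ ENNReal.ofReal (2 * C ^ 2 * B * (w / C)) * volume (Metric.thickening N X) := by
  have hC0 : 0 < C := by linarith
  have hY : Metric.thickening N X ⊆ Ω' := by
    intro y hy
    obtain ⟨z, hz, hd⟩ := Metric.mem_thickening_iff.1 hy
    exact hΩ z (hXΩ hz) (Metric.mem_closedBall.2 hd.le)
  have mY : MeasurableSet (Metric.thickening N X) := Metric.isOpen_thickening.measurableSet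
  have hth := h.thick hN hC hw hW
  have hAF : ENNReal.ofReal (A ^ 2) * volume X ≤ ∫⁻ z in X, F z ^ 2 := by
    calc ENNReal.ofReal (A ^ 2) * volume X = ∫⁻ z in X, ENNReal.ofReal (A ^ 2) := by rw [setLIntegral_const]
      _ ≤ _ := by
        refine setLIntegral_mono' hX fun z hz => ?_
        rw [ENNReal.ofReal_pow hA.le]
        gcongr
        exact hF z hz
  refine ⟨?_, ?_, ?_⟩
  · calc ENNReal.ofReal (w / C) * volume (Metric.thickening N X) = ∫⁻ z in Metric.thickening N X, ENNReal.ofReal (w / C) := by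
          rw [setLIntegral_const]
      _ ≤ ∫⁻ z in Metric.thickening N X, W z := setLIntegral_mono' mY fun z hz => (hth z hz).1
      _ ≤ ∫⁻ z in Ω', W z := lintegral_mono_set hY
      _ ≤ _ := h.hT
  · exact hAF.trans ((lintegral_mono_set hXΩ).trans h.h2)
  · have h1 := ball_avg hN (h.mF.pow_const 2) hX
    have h2 : ∫⁻ y in Metric.thickening N X, ∫⁻ z in Metric.closedBall y N, F z ^ 2 ≤
        ENNReal.ofReal (B * N ^ 4) * ENNReal.ofReal (2 * C ^ 2 * (w / C)) * volume (Metric.thickening N X) := by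
      rw [← setLIntegral_const]
      refine setLIntegral_mono' mY fun y hy => ?_
      refine (h.hL y (hY hy)).trans ?_
      gcongr
      exact (hth y hy).2
    have hN4 : ENNReal.ofReal (N ^ 4) ≠ 0 := by rw [ne_eq, ENNReal.ofReal_eq_zero, not_le]; positivity
    refine (ENNReal.mul_le_mul_iff_right hN4 ENNReal.ofReal_ne_top).1 ?_
    calc ENNReal.ofReal (N ^ 4) * (ENNReal.ofReal (vb.toReal * A ^ 2) * volume X) =
        (ENNReal.ofReal (N ^ 4) * vb) * (ENNReal.ofReal (A ^ 2) * volume X) := by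
          rw [ENNReal.ofReal_mul vbr_pos.le, ENNReal.ofReal_toReal vb_lt.ne]; ring
      _ ≤ (ENNReal.ofReal (N ^ 4) * vb) * ∫⁻ z in X, F z ^ 2 := by gcongr
      _ ≤ _ := h1.trans h2
      _ = _ := by
        rw [mul_comm B, ENNReal.ofReal_mul (by positivity : (0:ℝ) ≤ N ^ 4)]
        rw [show 2 * C ^ 2 * B * (w / C) = B * (2 * C ^ 2 * (w / C)) by ring, ENNReal.ofReal_mul (by linarith : 0 ≤ B)]
        ring

end

/-- **the estimate on one level set** -/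
theorem level {p : ℝ} {Cx : ℕ} (hp : 2 < p) (hpC : (p - 2) * (70 + Cx) ≤ 28) {C : ℝ} (hC : 1 ≤ C)
    {N B U E1 E2 Γ : ℝ} (hN : 0 < N) (hB : 1 ≤ B) (hE1 : 0 < E1) (hE2 : 0 < E2) (hΓ : 0 ≤ Γ) {Ω Ω' : Set E4}
    {F1 S1 W1 F2 S2 W2 : E4 → ℝ≥0∞} (h1 : Cdat N C B U E1 Ω Ω' F1 S1 W1) (h2 : Cdat N C B U E2 Ω Ω' F2 S2 W2)
    (hΩ : ∀ z ∈ Ω, Metric.closedBall z N ⊆ Ω')
    (hS : ∀ y ∈ Ω', ∫⁻ z in Metric.closedBall y N, S1 z * S2 z ≤ ENNReal.ofReal (B * N ^ 4) * (W1 y * W2 y))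
    (hG : ∀ (Y : Set E4) (w1 w2 e1 e2 : ℝ), MeasurableSet Y → Y ⊆ Ω' → 0 < w1 → 0 < w2 → 0 ≤ e1 → e1 ≤ 1 → 0 ≤ e2 → e2 ≤ 1 →
      (∀ z ∈ Y, ENNReal.ofReal w1 ≤ W1 z ∧ W1 z ≤ ENNReal.ofReal (2 * C ^ 2 * w1)) →
      (∀ z ∈ Y, ENNReal.ofReal w2 ≤ W2 z ∧ W2 z ≤ ENNReal.ofReal (2 * C ^ 2 * w2)) →
      ENNReal.ofReal (e1 * E1) ≤ ENNReal.ofReal w1 * volume Y → ENNReal.ofReal (e2 * E2) ≤ ENNReal.ofReal w2 * volume Y →
      volume Y ≠ 0 → (w1 * w2) ^ 14 * (e1 * e2) ^ Cx ≤ Γ)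
    {X : Set E4} (hX : MeasurableSet X) (hXΩ : X ⊆ Ω) {A1 A2 w1 w2 : ℝ} (hA1 : 0 < A1) (hA2 : 0 < A2)
    (hw1 : 0 < w1) (hw2 : 0 < w2) (hF1 : ∀ z ∈ X, ENNReal.ofReal A1 ≤ F1 z) (hF2 : ∀ z ∈ X, ENNReal.ofReal A2 ≤ F2 z)
    (hW1 : ∀ z ∈ X, ENNReal.ofReal w1 ≤ W1 z ∧ W1 z ≤ ENNReal.ofReal (2 * w1))
    (hW2 : ∀ z ∈ X, ENNReal.ofReal w2 ≤ W2 z ∧ W2 z ≤ ENNReal.ofReal (2 * w2)) :
    volume X * ENNReal.ofReal ((A1 * A2) ^ (p / 2)) ≤
      ENNReal.ofReal (4 * C ^ 4 * (1 + vb.toReal⁻¹) * B * Γ ^ ((p - 2) / 56) * (E1 * E2) ^ (1/2 : ℝ)) := by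
  by_cases hv0 : volume X = 0
  · rw [hv0, zero_mul]; exact zero_le
  have hC0 : 0 < C := by linarith
  have hB0 : 0 < B := by linarith
  have hvb := vbr_pos
  obtain ⟨a1, a2, a3⟩ := h1.lev hN hC hB hΩ hX hXΩ hA1 hw1 hF1 hW1
  obtain ⟨b1, b2, b3⟩ := h2.lev hN hC hB hΩ hX hXΩ hA2 hw2 hF2 hW2
  set Y := Metric.thickening N X with hYd
  have hXY : X ⊆ Y := Metric.self_subset_thickening hN X
  have hYv0 : volume Y ≠ 0 := fun h => hv0 (measure_mono_null hXY h)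
  have hYΩ : Y ⊆ Ω' := by
    intro y hy
    obtain ⟨z, hz, hd⟩ := Metric.mem_thickening_iff.1 hy
    exact hΩ z (hXΩ hz) (Metric.mem_closedBall.2 hd.le)
  have mY : MeasurableSet Y := Metric.isOpen_thickening.measurableSet
  have hth1 := h1.thick hN hC hw1 hW1
  have hth2 := h2.thick hN hC hw2 hW2
  set u1 := w1 / C with hu1
  set u2 := w2 / C with hu2
  have hu1p : 0 < u1 := by positivity
  have hu2p : 0 < u2 := by positivity
  have hYt : volume Y ≠ ⊤ := by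
    intro h
    rw [h, ENNReal.mul_top (by rw [ne_eq, ENNReal.ofReal_eq_zero, not_le]; exact hu1p)] at a1
    exact absurd a1 (not_le.2 ENNReal.ofReal_lt_top)
  have hXt : volume X ≠ ⊤ := fun h => hYt (by
    have := measure_mono (μ := volume) hXY
    rw [h] at this
    exact top_le_iff.1 this)
  obtain ⟨x, hx0, ex⟩ : ∃ x : ℝ, 0 ≤ x ∧ volume X = ENNReal.ofReal x := ⟨_, ENNReal.toReal_nonneg, (ENNReal.ofReal_toReal hXt).symm⟩
  obtain ⟨xN, hxN0, exN⟩ : ∃ x : ℝ, 0 ≤ x ∧ volume Y = ENNReal.ofReal x := ⟨_, ENNReal.toReal_nonneg, (ENNReal.ofReal_toReal hYt).symm⟩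
  have conv : ∀ {a b : ℝ}, 0 ≤ b → ENNReal.ofReal a ≤ ENNReal.ofReal b → a ≤ b := fun hb h => (ENNReal.ofReal_le_ofReal_iff hb).1 h
  -- the slab estimate
  have s1 : (ENNReal.ofReal (N ^ 4) * vb) * ∫⁻ z in X, S1 z * S2 z ≤
      ENNReal.ofReal (B * N ^ 4 * (2 * C ^ 2 * u1) * (2 * C ^ 2 * u2) * xN) := by
    refine (ball_avg hN (h1.mS.mul h2.mS) hX).trans ?_
    calc _ ≤ ∫⁻ y in Y, ENNReal.ofReal (B * N ^ 4) * (ENNReal.ofReal (2 * C ^ 2 * u1) * ENNReal.ofReal (2 * C ^ 2 * u2)) := by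
          refine setLIntegral_mono' mY fun y hy => ?_
          refine (hS y (hYΩ hy)).trans ?_
          gcongr
          · exact (hth1 y hy).2
          · exact (hth2 y hy).2
      _ = _ := by
          rw [setLIntegral_const, exN, ← ENNReal.ofReal_mul (by positivity), ← ENNReal.ofReal_mul (by positivity),
            ← ENNReal.ofReal_mul (by positivity)]
          congr 1
          ring
  have hN4 : ENNReal.ofReal (N ^ 4) ≠ 0 := by rw [ne_eq, ENNReal.ofReal_eq_zero, not_le]; positivity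
  set I := ∫⁻ z in X, S1 z * S2 z with hI
  have s2 : ENNReal.ofReal vb.toReal * I ≤ ENNReal.ofReal (B * (2 * C ^ 2 * u1) * (2 * C ^ 2 * u2) * xN) := by
    refine (ENNReal.mul_le_mul_iff_right hN4 ENNReal.ofReal_ne_top).1 ?_
    calc ENNReal.ofReal (N ^ 4) * (ENNReal.ofReal vb.toReal * I) = (ENNReal.ofReal (N ^ 4) * vb) * I := by
          rw [ENNReal.ofReal_toReal vb_lt.ne]; ring
      _ ≤ _ := s1
      _ = _ := by
          rw [← ENNReal.ofReal_mul (by positivity)]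
          congr 1
          ring
  set J1 := ∫⁻ z in X, (S1 z ^ (1/2 : ℝ))⁻¹ with hJ1
  set J2 := ∫⁻ z in X, (S2 z ^ (1/2 : ℝ))⁻¹ with hJ2
  have j1 : ENNReal.ofReal (A1 ^ 3) * J1 ≤ ENNReal.ofReal (B * E1) := h1.J hX hA1 hF1
  have j2 : ENNReal.ofReal (A2 ^ 3) * J2 ≤ ENNReal.ofReal (B * E2) := h2.J hX hA2 hF2
  have z1 := h1.S_ne hX hA1 hF1
  have z2 := h2.S_ne hX hA2 hF2
  have hIt : I ≠ ⊤ := by
    intro h
    rw [h, ENNReal.mul_top (by rw [ne_eq, ENNReal.ofReal_eq_zero, not_le]; exact hvb)] at s2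
    exact absurd s2 (not_le.2 ENNReal.ofReal_lt_top)
  have fin12 : ∀ᵐ z ∂volume.restrict X, S1 z * S2 z < ⊤ := ae_lt_top (h1.mS.mul h2.mS) hIt
  have t1 : ∀ᵐ z ∂volume.restrict X, S1 z ≠ ⊤ := by
    filter_upwards [fin12, z2] with z hz hz2 h
    rw [h, ENNReal.top_mul hz2] at hz
    exact absurd hz (lt_irrefl _)
  have t2 : ∀ᵐ z ∂volume.restrict X, S2 z ≠ ⊤ := by
    filter_upwards [fin12, z1] with z hz hz1 h
    rw [h, ENNReal.mul_top hz1] at hz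
    exact absurd hz (lt_irrefl _)
  have hH := holder_level h1.mS h2.mS hX z1 z2 t1 t2
  clear t1 t2
  rw [← hI, ← hJ1, ← hJ2] at hH
  have main : ENNReal.ofReal (vb.toReal * (x ^ 5 * A1 ^ 6 * A2 ^ 6)) ≤
      ENNReal.ofReal ((B * (2 * C ^ 2 * u1) * (2 * C ^ 2 * u2) * xN) * (B * E1) ^ 2 * (B * E2) ^ 2) := by
    calc ENNReal.ofReal (vb.toReal * (x ^ 5 * A1 ^ 6 * A2 ^ 6)) =
        ENNReal.ofReal vb.toReal * ENNReal.ofReal (A1 ^ 3) ^ 2 * ENNReal.ofReal (A2 ^ 3) ^ 2 * volume X ^ 5 := by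
          rw [ex, ← ENNReal.ofReal_pow (by positivity), ← ENNReal.ofReal_pow (by positivity), ← ENNReal.ofReal_pow hx0,
            ← ENNReal.ofReal_mul (by positivity), ← ENNReal.ofReal_mul (by positivity), ← ENNReal.ofReal_mul (by positivity)]
          congr 1
          ring
      _ ≤ ENNReal.ofReal vb.toReal * ENNReal.ofReal (A1 ^ 3) ^ 2 * ENNReal.ofReal (A2 ^ 3) ^ 2 * (I * J1 ^ 2 * J2 ^ 2) :=
          mul_le_mul' le_rfl hH
      _ = (ENNReal.ofReal vb.toReal * I) * (ENNReal.ofReal (A1 ^ 3) * J1) ^ 2 * (ENNReal.ofReal (A2 ^ 3) * J2) ^ 2 := by ring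
      _ ≤ ENNReal.ofReal (B * (2 * C ^ 2 * u1) * (2 * C ^ 2 * u2) * xN) * ENNReal.ofReal (B * E1) ^ 2 * ENNReal.ofReal (B * E2) ^ 2 := by
          gcongr
      _ = _ := by
          rw [← ENNReal.ofReal_pow (by positivity), ← ENNReal.ofReal_pow (by positivity), ← ENNReal.ofReal_mul (by positivity),
            ← ENNReal.ofReal_mul (by positivity)]
  have R1 := conv (by positivity) main
  rw [ex, ← ENNReal.ofReal_mul (by positivity)] at a2 b2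
  rw [exN, ← ENNReal.ofReal_mul hu1p.le] at a1
  rw [exN, ← ENNReal.ofReal_mul hu2p.le] at b1
  rw [ex, exN, ← ENNReal.ofReal_mul (by positivity), ← ENNReal.ofReal_mul (by positivity)] at a3 b3
  replace a1 := conv (by positivity) a1
  replace b1 := conv (by positivity) b1
  replace a2 := conv (by positivity) a2
  replace b2 := conv (by positivity) b2
  replace a3 := conv (by positivity) a3
  replace b3 := conv (by positivity) b3
  set K := 4 * C ^ 4 * (1 + vb.toReal⁻¹) with hK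
  set V := vb.toReal with hV
  have hVi : 0 < V⁻¹ := by positivity
  have hC4 : 1 ≤ C ^ 4 := one_le_pow₀ hC
  have hC14 : C ≤ C ^ 4 := le_self_pow₀ hC (by norm_num)
  have hC24 : C ^ 2 ≤ C ^ 4 := pow_le_pow_right₀ hC (by norm_num)
  have hKC : C ≤ K := by
    rw [hK]
    nlinarith [mul_pos (show 0 < C ^ 4 by positivity) hVi]
  have hK1 : 1 ≤ K := hC.trans hKC
  have hKV : 4 * C ^ 4 * V⁻¹ ≤ K := by
    rw [hK, mul_add, mul_one]
    have : 0 ≤ 4 * C ^ 4 := by positivity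
    linarith
  have hKV2 : 2 * C ^ 2 * V⁻¹ ≤ K := by
    refine le_trans ?_ hKV
    have : 2 * C ^ 2 ≤ 4 * C ^ 4 := by nlinarith
    gcongr
  have t1 : x ^ 5 * A1 ^ 6 * A2 ^ 6 ≤ K * B ^ 5 * (u1 * u2 * xN) * E1 ^ 2 * E2 ^ 2 := by
    have : x ^ 5 * A1 ^ 6 * A2 ^ 6 ≤ (4 * C ^ 4 * V⁻¹) * B ^ 5 * (u1 * u2 * xN) * E1 ^ 2 * E2 ^ 2 := by
      have h5 : V * (x ^ 5 * A1 ^ 6 * A2 ^ 6) ≤ V * ((4 * C ^ 4 * V⁻¹) * B ^ 5 * (u1 * u2 * xN) * E1 ^ 2 * E2 ^ 2) := by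
        refine R1.trans (le_of_eq ?_)
        field_simp
        ring
      exact le_of_mul_le_mul_left h5 hvb
    refine this.trans ?_
    gcongr
  have t2 : ∀ {A u : ℝ}, 0 < u → V * A ^ 2 * x ≤ 2 * C ^ 2 * B * u * xN → A ^ 2 * x ≤ K * B * (u * xN) := by
    intro A u hu h
    have h6 : A ^ 2 * x ≤ (2 * C ^ 2 * V⁻¹) * B * (u * xN) := by
      have h5 : V * (A ^ 2 * x) ≤ V * ((2 * C ^ 2 * V⁻¹) * B * (u * xN)) := by
        calc V * (A ^ 2 * x) = V * A ^ 2 * x := by ring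
          _ ≤ _ := h
          _ = _ := by field_simp
      exact le_of_mul_le_mul_left h5 hvb
    refine h6.trans ?_
    gcongr
  have fin := chain_real (K := K) hp hpC hx0 hxN0 hA1 hA2 hu1p hu2p hE1 hE2 hB hK1 hΓ t1 (t2 hu1p a3) (t2 hu2p b3)
    (a1.trans (by gcongr)) (b1.trans (by gcongr)) (a2.trans (by gcongr)) (b2.trans (by gcongr)) (by
      intro e1 e2 e1n e1l e2n e2l g1 g2
      refine hG Y u1 u2 e1 e2 mY hYΩ hu1p hu2p e1n e1l e2n e2l hth1 hth2 ?_ ?_ hYv0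
      · rw [exN, ← ENNReal.ofReal_mul hu1p.le]
        exact ENNReal.ofReal_le_ofReal g1
      · rw [exN, ← ENNReal.ofReal_mul hu2p.le]
        exact ENNReal.ofReal_le_ofReal g2)
  rw [ex, ← ENNReal.ofReal_mul hx0]
  exact ENNReal.ofReal_le_ofReal fin



theorem dyad {x : ℝ≥0∞} {L : ℕ} (h1 : ENNReal.ofReal (((2:ℝ) ^ L) ^ 3)⁻¹ ≤ x) (h2 : x ≤ ENNReal.ofReal ((2:ℝ) ^ L)) :
    ∃ a ∈ Finset.Icc (-(3 * L : ℤ)) L, ENNReal.ofReal ((2:ℝ) ^ a) ≤ x ∧ x < ENNReal.ofReal (2 * (2:ℝ) ^ a) := by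
  have hx : x ≠ ⊤ := (h2.trans_lt ENNReal.ofReal_lt_top).ne
  obtain ⟨y, hy0, rfl⟩ : ∃ y : ℝ, 0 ≤ y ∧ x = ENNReal.ofReal y := ⟨_, ENNReal.toReal_nonneg, (ENNReal.ofReal_toReal hx).symm⟩
  rw [ENNReal.ofReal_le_ofReal_iff hy0] at h1
  rw [ENNReal.ofReal_le_ofReal_iff (by positivity)] at h2
  have hy : 0 < y := lt_of_lt_of_le (by positivity) h1
  obtain ⟨a, ha1, ha2⟩ := exists_mem_Ico_zpow hy (one_lt_two : (1:ℝ) < 2)
  rw [zpow_add₀ (by norm_num), zpow_one, mul_comm] at ha2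
  refine ⟨a, ?_, ENNReal.ofReal_le_ofReal ha1, (ENNReal.ofReal_lt_ofReal_iff (by positivity)).2 ha2⟩
  rw [Finset.mem_Icc]
  constructor
  · have h3 : (((2:ℝ) ^ L) ^ 3)⁻¹ = (2:ℝ) ^ (-(3 * L : ℤ)) := by
      rw [zpow_neg, ← pow_mul, mul_comm]
      norm_cast
    rw [h3] at h1
    have h4 : (2:ℝ) ^ (-(3 * L : ℤ)) < (2:ℝ) ^ (a + 1) := by
      rw [zpow_add₀ (by norm_num), zpow_one, mul_comm ((2:ℝ) ^ a)]
      exact h1.trans_lt ha2
    have := (zpow_lt_zpow_iff_right₀ (one_lt_two : (1:ℝ) < 2)).1 h4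
    omega
  · have h4 : (2:ℝ) ^ a ≤ (2:ℝ) ^ (L:ℤ) := ha1.trans (by simpa using h2)
    exact (zpow_le_zpow_iff_right₀ (one_lt_two : (1:ℝ) < 2)).1 h4

/-- **the chain** -/
theorem chain {p : ℝ} {Cx : ℕ} (hp : 2 < p) (hpC : (p - 2) * (70 + Cx) ≤ 28) {C : ℝ} (hC : 1 ≤ C)
    {N B E1 E2 Γ : ℝ} {L : ℕ} (hN : 0 < N) (hB : 1 ≤ B) (hE1 : 0 < E1) (hE2 : 0 < E2) (hΓ : 0 ≤ Γ) {Ω Ω' : Set E4}
    (mΩ : MeasurableSet Ω)
    {F1 S1 W1 F2 S2 W2 : E4 → ℝ≥0∞} (h1 : Cdat N C B (2 ^ L) E1 Ω Ω' F1 S1 W1) (h2 : Cdat N C B (2 ^ L) E2 Ω Ω' F2 S2 W2)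
    (hΩ : ∀ z ∈ Ω, Metric.closedBall z N ⊆ Ω')
    (hS : ∀ y ∈ Ω', ∫⁻ z in Metric.closedBall y N, S1 z * S2 z ≤ ENNReal.ofReal (B * N ^ 4) * (W1 y * W2 y))
    (hG : ∀ (Y : Set E4) (w1 w2 e1 e2 : ℝ), MeasurableSet Y → Y ⊆ Ω' → 0 < w1 → 0 < w2 → 0 ≤ e1 → e1 ≤ 1 → 0 ≤ e2 → e2 ≤ 1 →
      (∀ z ∈ Y, ENNReal.ofReal w1 ≤ W1 z ∧ W1 z ≤ ENNReal.ofReal (2 * C ^ 2 * w1)) →
      (∀ z ∈ Y, ENNReal.ofReal w2 ≤ W2 z ∧ W2 z ≤ ENNReal.ofReal (2 * C ^ 2 * w2)) →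
      ENNReal.ofReal (e1 * E1) ≤ ENNReal.ofReal w1 * volume Y → ENNReal.ofReal (e2 * E2) ≤ ENNReal.ofReal w2 * volume Y →
      volume Y ≠ 0 → (w1 * w2) ^ 14 * (e1 * e2) ^ Cx ≤ Γ) :
    ∫⁻ z in Ω, (F1 z * F2 z) ^ (p / 2) ≤
      ENNReal.ofReal ((C + (4 * L + 1) ^ 4 * 4 ^ (p / 2) * (4 * C ^ 4 * (1 + vb.toReal⁻¹)) * B * Γ ^ ((p - 2) / 56)) * (E1 * E2) ^ (1/2 : ℝ)) := by
  classical
  have hC0 : 0 < C := by linarith
  have hB0 : 0 < B := by linarith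
  have hvb := vbr_pos
  have mFF : Measurable (fun z => F1 z * F2 z) := h1.mF.mul h2.mF
  set Z : Set E4 := {z | F1 z * F2 z ≤ 1} with hZ
  have mZ : MeasurableSet Z := measurableSet_le mFF measurable_const
  set D : (E4 → ℝ≥0∞) → ℤ → Set E4 := fun f a => {z | ENNReal.ofReal ((2:ℝ) ^ a) ≤ f z ∧ f z < ENNReal.ofReal (2 * (2:ℝ) ^ a)} with hD
  have mD : ∀ {f : E4 → ℝ≥0∞}, Measurable f → ∀ a, MeasurableSet (D f a) := fun hf a =>
    (measurableSet_le measurable_const hf).inter (measurableSet_lt hf measurable_const)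
  set I := Finset.Icc (-(3 * L : ℤ)) L with hI
  set T : Finset ((ℤ × ℤ) × (ℤ × ℤ)) := (I ×ˢ I) ×ˢ (I ×ˢ I) with hT
  set X : (ℤ × ℤ) × (ℤ × ℤ) → Set E4 := fun i => Ω ∩ (D F1 i.1.1 ∩ (D F2 i.1.2 ∩ (D W1 i.2.1 ∩ D W2 i.2.2))) with hX
  have mX : ∀ i, MeasurableSet (X i) := fun i => mΩ.inter ((mD h1.mF _).inter ((mD h2.mF _).inter ((mD h1.mW _).inter (mD h2.mW _))))
  set f : E4 → ℝ≥0∞ := fun z => (F1 z * F2 z) ^ (p / 2) with hf
  have mf : Measurable f := mFF.pow_const _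
  -- trivial part
  have P1 : ∫⁻ z in Ω ∩ Z, f z ≤ ENNReal.ofReal (C * (E1 * E2) ^ (1/2 : ℝ)) := by
    calc ∫⁻ z in Ω ∩ Z, f z ≤ ∫⁻ z in Ω ∩ Z, F1 z * F2 z := by
          refine setLIntegral_mono' (mΩ.inter mZ) fun z hz => ?_
          have h3 : F1 z * F2 z ≤ 1 := hz.2
          calc (F1 z * F2 z) ^ (p / 2) ≤ (F1 z * F2 z) ^ (1:ℝ) := ENNReal.rpow_le_rpow_of_exponent_ge h3 (by linarith)
            _ = _ := ENNReal.rpow_one _
      _ ≤ ∫⁻ z in Ω, F1 z * F2 z := lintegral_mono_set inter_subset_left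
      _ ≤ (∫⁻ z in Ω, F1 z ^ (2:ℝ)) ^ (1 / (2:ℝ)) * (∫⁻ z in Ω, F2 z ^ (2:ℝ)) ^ (1 / (2:ℝ)) :=
          ENNReal.lintegral_mul_le_Lp_mul_Lq _ Real.HolderConjugate.two_two h1.mF.aemeasurable h2.mF.aemeasurable
      _ ≤ (ENNReal.ofReal (C * E1)) ^ (1 / (2:ℝ)) * (ENNReal.ofReal (C * E2)) ^ (1 / (2:ℝ)) := by
          have e1 : ∫⁻ z in Ω, F1 z ^ (2:ℝ) = ∫⁻ z in Ω, F1 z ^ 2 := by
            refine lintegral_congr fun z => ?_
            exact_mod_cast ENNReal.rpow_natCast (F1 z) 2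
          have e2 : ∫⁻ z in Ω, F2 z ^ (2:ℝ) = ∫⁻ z in Ω, F2 z ^ 2 := by
            refine lintegral_congr fun z => ?_
            exact_mod_cast ENNReal.rpow_natCast (F2 z) 2
          rw [e1, e2]
          gcongr
          · exact h1.h2
          · exact h2.h2
      _ = _ := by
          rw [ENNReal.ofReal_rpow_of_nonneg (by positivity) (by norm_num), ENNReal.ofReal_rpow_of_nonneg (by positivity) (by norm_num),
            ← ENNReal.ofReal_mul (by positivity), ← Real.mul_rpow (by positivity) (by positivity)]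
          congr 1
          rw [show C * E1 * (C * E2) = C ^ 2 * (E1 * E2) by ring, Real.mul_rpow (by positivity) (by positivity),
            ← Real.sqrt_eq_rpow, Real.sqrt_sq hC0.le]
  -- main part
  set Q := 4 * C ^ 4 * (1 + vb.toReal⁻¹) * B * Γ ^ ((p - 2) / 56) * (E1 * E2) ^ (1/2 : ℝ) with hQ
  have hQ0 : 0 ≤ Q := by positivity
  have P2 : ∀ i ∈ T, ∫⁻ z in X i, f z ≤ ENNReal.ofReal (4 ^ (p / 2) * Q) := by
    intro i hi
    have ha : ∀ a : ℤ, 0 < (2:ℝ) ^ a := fun a => by positivity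
    have hl := level hp hpC hC hN hB hE1 hE2 hΓ h1 h2 hΩ hS hG (mX i) inter_subset_left (ha i.1.1) (ha i.1.2) (ha i.2.1) (ha i.2.2)
      (fun z hz => hz.2.1.1) (fun z hz => hz.2.2.1.1) (fun z hz => ⟨hz.2.2.2.1.1, hz.2.2.2.1.2.le⟩)
      (fun z hz => ⟨hz.2.2.2.2.1, hz.2.2.2.2.2.le⟩)
    calc ∫⁻ z in X i, f z ≤ ∫⁻ z in X i, ENNReal.ofReal (4 ^ (p / 2) * ((2:ℝ) ^ i.1.1 * (2:ℝ) ^ i.1.2) ^ (p / 2)) := by
          refine setLIntegral_mono' (mX i) fun z hz => ?_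
          have c1 := hz.2.1.2.le
          have c2 := hz.2.2.1.2.le
          rw [← Real.mul_rpow (by norm_num) (by positivity), ← ENNReal.ofReal_rpow_of_nonneg (by positivity) (by linarith)]
          apply ENNReal.rpow_le_rpow _ (by linarith)
          calc F1 z * F2 z ≤ ENNReal.ofReal (2 * (2:ℝ) ^ i.1.1) * ENNReal.ofReal (2 * (2:ℝ) ^ i.1.2) := mul_le_mul' c1 c2
            _ = _ := by
              rw [← ENNReal.ofReal_mul (by positivity)]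
              congr 1
              ring
      _ = ENNReal.ofReal (4 ^ (p / 2)) * (volume (X i) * ENNReal.ofReal (((2:ℝ) ^ i.1.1 * (2:ℝ) ^ i.1.2) ^ (p / 2))) := by
          rw [setLIntegral_const, ENNReal.ofReal_mul (by positivity)]
          ring
      _ ≤ ENNReal.ofReal (4 ^ (p / 2)) * ENNReal.ofReal Q := mul_le_mul' le_rfl hl
      _ = _ := by rw [← ENNReal.ofReal_mul (by positivity)]
  have hcov : ∀ z ∈ Ω, z ∉ Z → ∃ i ∈ T, z ∈ X i := by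
    intro z hz hzZ
    have hgt : 1 < F1 z * F2 z := not_le.1 hzZ
    have u1 := h1.hF z hz
    have u2 := h2.hF z hz
    have k0 : (0:ℝ) < 2 ^ L := by positivity
    have k1 : (1:ℝ) ≤ 2 ^ L := one_le_pow₀ (by norm_num)
    have kk : ENNReal.ofReal ((2:ℝ) ^ L)⁻¹ * ENNReal.ofReal ((2:ℝ) ^ L) = 1 := by
      rw [← ENNReal.ofReal_mul (by positivity), inv_mul_cancel₀ k0.ne', ENNReal.ofReal_one]
    have lowF : ∀ {a b : ℝ≥0∞}, 1 < a * b → b ≤ ENNReal.ofReal ((2:ℝ) ^ L) → ENNReal.ofReal ((2:ℝ) ^ L)⁻¹ ≤ a := by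
      intro a b hab hb
      calc ENNReal.ofReal ((2:ℝ) ^ L)⁻¹ = ENNReal.ofReal ((2:ℝ) ^ L)⁻¹ * 1 := (mul_one _).symm
        _ ≤ ENNReal.ofReal ((2:ℝ) ^ L)⁻¹ * (a * b) := by gcongr
        _ ≤ ENNReal.ofReal ((2:ℝ) ^ L)⁻¹ * (a * ENNReal.ofReal ((2:ℝ) ^ L)) := by gcongr
        _ = (ENNReal.ofReal ((2:ℝ) ^ L)⁻¹ * ENNReal.ofReal ((2:ℝ) ^ L)) * a := by ring
        _ = a := by rw [kk, one_mul]
    have l1 : ENNReal.ofReal ((2:ℝ) ^ L)⁻¹ ≤ F1 z := lowF hgt u2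
    have l2 : ENNReal.ofReal ((2:ℝ) ^ L)⁻¹ ≤ F2 z := lowF (by rwa [mul_comm]) u1
    have l3 : ENNReal.ofReal (((2:ℝ) ^ L) ^ 3)⁻¹ ≤ ENNReal.ofReal ((2:ℝ) ^ L)⁻¹ := by
      apply ENNReal.ofReal_le_ofReal
      apply inv_anti₀ k0
      exact le_self_pow₀ k1 (by norm_num)
    have lowW : ∀ {a w : ℝ≥0∞}, ENNReal.ofReal ((2:ℝ) ^ L)⁻¹ ≤ a → a ^ 2 ≤ ENNReal.ofReal ((2:ℝ) ^ L) * w →
        ENNReal.ofReal (((2:ℝ) ^ L) ^ 3)⁻¹ ≤ w := by
      intro a w ha hw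
      calc ENNReal.ofReal (((2:ℝ) ^ L) ^ 3)⁻¹ = ENNReal.ofReal ((2:ℝ) ^ L)⁻¹ * ENNReal.ofReal ((2:ℝ) ^ L)⁻¹ ^ 2 := by
            rw [← ENNReal.ofReal_pow (by positivity), ← ENNReal.ofReal_mul (by positivity)]
            congr 1
            field_simp
        _ ≤ ENNReal.ofReal ((2:ℝ) ^ L)⁻¹ * a ^ 2 := by gcongr
        _ ≤ ENNReal.ofReal ((2:ℝ) ^ L)⁻¹ * (ENNReal.ofReal ((2:ℝ) ^ L) * w) := by gcongr
        _ = w := by rw [← mul_assoc, kk, one_mul]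
    obtain ⟨a, ha, ha'⟩ := dyad (l3.trans l1) u1
    obtain ⟨b, hb, hb'⟩ := dyad (l3.trans l2) u2
    obtain ⟨c, hc, hc'⟩ := dyad (lowW l1 (h1.hP z hz)) (h1.hW z hz)
    obtain ⟨d, hd, hd'⟩ := dyad (lowW l2 (h2.hP z hz)) (h2.hW z hz)
    refine ⟨((a, b), (c, d)), ?_, hz, ha', hb', hc', hd'⟩
    rw [hT]
    simp only [Finset.mem_product]
    exact ⟨⟨ha, hb⟩, hc, hd⟩
  have hcard : T.card = (4 * L + 1) ^ 4 := by
    rw [hT]
    simp only [Finset.card_product]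
    have : I.card = 4 * L + 1 := by
      rw [hI, Int.card_Icc]
      omega
    rw [this]
    ring
  have P3 : ∫⁻ z in Ω ∩ Zᶜ, f z ≤ ENNReal.ofReal ((4 * L + 1) ^ 4 * (4 ^ (p / 2) * Q)) := by
    calc ∫⁻ z in Ω ∩ Zᶜ, f z = ∫⁻ z, (Ω ∩ Zᶜ).indicator f z := (lintegral_indicator (mΩ.inter mZ.compl) _).symm
      _ ≤ ∫⁻ z, ∑ i ∈ T, (X i).indicator f z := by
          refine lintegral_mono fun z => ?_
          by_cases hz : z ∈ Ω ∩ Zᶜ
          · rw [indicator_of_mem hz]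
            obtain ⟨i, hi, hiX⟩ := hcov z hz.1 hz.2
            calc f z = (X i).indicator f z := (indicator_of_mem hiX _).symm
              _ ≤ _ := Finset.single_le_sum_of_canonicallyOrdered (f := fun i => (X i).indicator f z) hi
          · rw [indicator_of_notMem hz]; exact zero_le
      _ = ∑ i ∈ T, ∫⁻ z in X i, f z := by
          rw [lintegral_finset_sum _ (fun i _ => mf.indicator (mX i))]
          refine Finset.sum_congr rfl fun i _ => ?_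
          rw [lintegral_indicator (mX i)]
      _ ≤ ∑ i ∈ T, ENNReal.ofReal (4 ^ (p / 2) * Q) := Finset.sum_le_sum P2
      _ = _ := by
          rw [Finset.sum_const, hcard, nsmul_eq_mul, ENNReal.ofReal_mul (p := (4 * (L:ℝ) + 1) ^ 4) (by positivity)]
          congr 1
          rw [← ENNReal.ofReal_natCast]
          congr 1
          push_cast
          ring
  calc ∫⁻ z in Ω, f z = (∫⁻ z in Ω ∩ Z, f z) + (∫⁻ z in Ω ∩ Zᶜ, f z) := by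
        rw [← lintegral_inter_add_diff f Ω mZ, diff_eq]
    _ ≤ ENNReal.ofReal (C * (E1 * E2) ^ (1/2 : ℝ)) + ENNReal.ofReal ((4 * L + 1) ^ 4 * (4 ^ (p / 2) * Q)) := add_le_add P1 P3
    _ = _ := by
        rw [← ENNReal.ofReal_add (by positivity) (by positivity)]
        congr 1
        rw [hQ]
        ring


end Vale.Agent.P106.G
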