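import Vale.Agent.P106.G.DefsF

/-! # Algebra of the dispersion relation -/

open MeasureTheory Complex Set
open scoped ENNReal NNReal ContDiff FourierTransform

set_option linter.all false

namespace Vale.Agent.P106.G

/-- hyperplane with parameters -/
noncomputable def hyp (σ b1 b2 : ℝ) : Hyp :=
  ⟨σ ^ 2 / (1 + b1 ^ 2 + b2 ^ 2), - σ * b1 / (1 + b1 ^ 2 + b2 ^ 2), - σ * b2 / (1 + b1 ^ 2 + b2 ^ 2)⟩

theorem Hyp.ok_iff (H : Hyp) : H.ok ↔ ∃ σ b1 b2 : ℝ, 0 < σ ∧ σ ≤ 1/8 ∧ 0 ≤ b1 ∧ b1 ≤ 1/2 ∧ 0 ≤ b2 ∧ b2 ≤ 1/2 ∧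
    H = hyp σ b1 b2 := by
  unfold Hyp.ok hyp
  constructor
  · rintro ⟨σ, b1, b2, h1, h2, h3, h4, h5, h6, h7, h8, h9⟩
    refine ⟨σ, b1, b2, h1, h2, h3, h4, h5, h6, ?_⟩
    cases H
    simp only at h7 h8 h9
    rw [h7, h8, h9]
  · rintro ⟨σ, b1, b2, h1, h2, h3, h4, h5, h6, h7⟩
    refine ⟨σ, b1, b2, h1, h2, h3, h4, h5, h6, ?_, ?_, ?_⟩ <;> rw [h7]

theorem hyp_D (σ b1 b2 : ℝ) : (hyp σ b1 b2).D = (σ / (1 + b1 ^ 2 + b2 ^ 2)) ^ 2 := by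
  unfold Hyp.D hyp
  have h : 1 + b1 ^ 2 + b2 ^ 2 ≠ 0 := by positivity
  simp only
  field_simp
  ring

theorem hyp_D_nonneg (σ b1 b2 : ℝ) : 0 ≤ (hyp σ b1 b2).D := by
  rw [hyp_D]; positivity

structure Hyp.Bd (H : Hyp) : Prop where
  s0 : 0 < H.s
  s1 : H.s ≤ 1/64
  q1a : |H.q1| ≤ 1/16
  q2a : |H.q2| ≤ 1/16
  D0 : 0 ≤ H.D
  D1 : H.D ≤ 1/64

theorem Hyp.ok.bd {H : Hyp} (h : H.ok) : H.Bd := by
  obtain ⟨σ, b1, b2, h1, h2, h3, h4, h5, h6, rfl⟩ := (H.ok_iff).1 h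
  have hd : 1 ≤ 1 + b1 ^ 2 + b2 ^ 2 := by nlinarith [sq_nonneg b1, sq_nonneg b2]
  have hd0 : 0 < 1 + b1 ^ 2 + b2 ^ 2 := by linarith
  refine ⟨?_, ?_, ?_, ?_, hyp_D_nonneg _ _ _, ?_⟩
  · unfold hyp; positivity
  · unfold hyp
    simp only
    rw [div_le_iff₀ hd0]
    nlinarith
  · unfold hyp
    simp only
    rw [abs_div, abs_of_pos hd0, div_le_iff₀ hd0, abs_mul, abs_neg, abs_of_pos h1, abs_of_nonneg h3]
    nlinarith [mul_le_mul h2 h4 h3 (by norm_num : (0:ℝ) ≤ 1/8)]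
  · unfold hyp
    simp only
    rw [abs_div, abs_of_pos hd0, div_le_iff₀ hd0, abs_mul, abs_neg, abs_of_pos h1, abs_of_nonneg h5]
    nlinarith [mul_le_mul h2 h6 h5 (by norm_num : (0:ℝ) ≤ 1/8)]
  · rw [hyp_D]
    have h7 : σ / (1 + b1 ^ 2 + b2 ^ 2) ≤ 1/8 := by
      rw [div_le_iff₀ hd0]; nlinarith
    have h8 : 0 ≤ σ / (1 + b1 ^ 2 + b2 ^ 2) := by positivity
    nlinarith

section
variable {H : Hyp}

theorem Hyp.om_nonneg (hD : 0 ≤ H.D) {ξ : E3} (hB : 0 < H.B ξ) : 0 ≤ H.om ξ := by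
  unfold Hyp.om
  have : 0 ≤ Real.sqrt (H.B ξ ^ 2 + 4 * H.D * (ξ 1 ^ 2 + ξ 2 ^ 2)) := Real.sqrt_nonneg _
  positivity

theorem Hyp.om_quad (hD : 0 ≤ H.D) {ξ : E3} (hB : 0 < H.B ξ) :
    H.D * H.om ξ ^ 2 + H.B ξ * H.om ξ = ξ 1 ^ 2 + ξ 2 ^ 2 := by
  set a := ξ 1 ^ 2 + ξ 2 ^ 2 with ha
  have ha0 : 0 ≤ a := by positivity
  set S := Real.sqrt (H.B ξ ^ 2 + 4 * H.D * a) with hS
  have hS2 : S ^ 2 = H.B ξ ^ 2 + 4 * H.D * a := Real.sq_sqrt (by positivity)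
  have hS0 : 0 ≤ S := Real.sqrt_nonneg _
  have hne : H.B ξ + S ≠ 0 := by positivity
  have e : H.om ξ = 2 * a / (H.B ξ + S) := rfl
  rw [e]
  field_simp
  nlinarith [hS2]

/-- uniqueness of the nonnegative root -/
theorem Hyp.om_unique (hD : 0 ≤ H.D) {ξ : E3} (hB : 0 < H.B ξ) {x : ℝ} (hx : 0 ≤ x)
    (h : H.D * x ^ 2 + H.B ξ * x = ξ 1 ^ 2 + ξ 2 ^ 2) : H.om ξ = x := by
  have h1 := H.om_quad hD hB
  have h0 := H.om_nonneg hD hB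
  have h2 : (H.om ξ - x) * (H.D * (H.om ξ + x) + H.B ξ) = 0 := by ring_nf; ring_nf at h h1; linarith
  rcases mul_eq_zero.1 h2 with h3 | h3
  · linarith
  · have : 0 < H.D * (H.om ξ + x) + H.B ξ := by positivity
    linarith

theorem Hyp.hc_Om (hD : 0 ≤ H.D) {ξ : E3} (hB : 0 < H.B ξ) (hw : H.Om ξ 0 ≠ 0) : hc (H.Om ξ) = H.om ξ := by
  have h1 := H.om_quad hD hB
  unfold hc
  rw [div_eq_iff hw]
  have e0 : H.Om ξ 0 = ξ 0 + H.s * H.om ξ := rfl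
  have e1 : H.Om ξ 1 = ξ 1 + H.q1 * H.om ξ := rfl
  have e2 : H.Om ξ 2 = ξ 2 + H.q2 * H.om ξ := rfl
  rw [e0, e1, e2]
  unfold Hyp.D Hyp.B at h1
  linear_combination -h1

theorem Hyp.Ph_Om (hD : 0 ≤ H.D) {ξ : E3} (hB : 0 < H.B ξ) (hw : H.Om ξ 0 ≠ 0) : H.Ph (H.Om ξ) = ξ := by
  have h := H.hc_Om hD hB hw
  ext i
  unfold Hyp.Ph
  rw [h]
  fin_cases i <;> simp [Hyp.Om]

theorem Hyp.B_Ph (w : E3) : H.B (H.Ph w) = w 0 - H.s * hc w - 2 * (H.q1 * w 1 + H.q2 * w 2) +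
    2 * (H.q1 ^ 2 + H.q2 ^ 2) * hc w := by
  unfold Hyp.B Hyp.Ph
  simp
  ring

theorem Hyp.om_Ph (hD : 0 ≤ H.D) {w : E3} (hw : 0 < w 0) (hB : 0 < H.B (H.Ph w)) : H.om (H.Ph w) = hc w := by
  apply H.om_unique hD hB
  · unfold hc; positivity
  · have e : hc w * w 0 = w 1 ^ 2 + w 2 ^ 2 := by unfold hc; field_simp
    rw [H.B_Ph w]
    unfold Hyp.D Hyp.Ph
    simp
    linear_combination e

theorem Hyp.Om_Ph (hD : 0 ≤ H.D) {w : E3} (hw : 0 < w 0) (hB : 0 < H.B (H.Ph w)) : H.Om (H.Ph w) = w := by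
  have h := H.om_Ph hD hw hB
  ext i
  unfold Hyp.Om
  rw [h]
  fin_cases i <;> simp [Hyp.Ph]

/-- lower bound for `B` -/
theorem Hyp.B_lower (hb : H.Bd) {w : E3} (hw : 0 < w 0) (h1 : |w 1 / w 0| ≤ 5/4) (h2 : |w 2 / w 0| ≤ 5/4) :
    w 0 / 2 ≤ H.B (H.Ph w) := by
  obtain ⟨s0, s1, q1, q2, D0, D1⟩ := hb
  rw [H.B_Ph w]
  set v1 := w 1 / w 0 with hv1
  set v2 := w 2 / w 0 with hv2
  have e1 : w 1 = v1 * w 0 := by rw [hv1]; field_simp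
  have e2 : w 2 = v2 * w 0 := by rw [hv2]; field_simp
  have e3 : hc w = (v1 ^ 2 + v2 ^ 2) * w 0 := by
    unfold hc; rw [e1, e2]; field_simp
  rw [e3, e1, e2]
  have a1 : v1 ^ 2 ≤ 25/16 := by
    rw [← sq_abs]; nlinarith [abs_nonneg v1]
  have a2 : v2 ^ 2 ≤ 25/16 := by
    rw [← sq_abs]; nlinarith [abs_nonneg v2]
  have b1 : H.q1 * v1 ≤ 5/64 := by
    calc H.q1 * v1 ≤ |H.q1 * v1| := le_abs_self _
      _ = |H.q1| * |v1| := abs_mul _ _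
      _ ≤ 1/16 * (5/4) := by gcongr
      _ = 5/64 := by norm_num
  have b2 : H.q2 * v2 ≤ 5/64 := by
    calc H.q2 * v2 ≤ |H.q2 * v2| := le_abs_self _
      _ = |H.q2| * |v2| := abs_mul _ _
      _ ≤ 1/16 * (5/4) := by gcongr
      _ = 5/64 := by norm_num
  have c1 : H.s * (v1 ^ 2 + v2 ^ 2) ≤ 25/512 := by
    calc H.s * (v1 ^ 2 + v2 ^ 2) ≤ 1/64 * (25/16 + 25/16) := by gcongr
      _ = 25/512 := by norm_num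
  have c2 : 0 ≤ 2 * (H.q1 ^ 2 + H.q2 ^ 2) * (v1 ^ 2 + v2 ^ 2) := by positivity
  have key : 1/2 ≤ 1 - H.s * (v1 ^ 2 + v2 ^ 2) - 2 * (H.q1 * v1 + H.q2 * v2) + 2 * (H.q1 ^ 2 + H.q2 ^ 2) * (v1 ^ 2 + v2 ^ 2) := by
    linarith
  have := mul_le_mul_of_nonneg_right key hw.le
  nlinarith

end

end Vale.Agent.P106.G
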