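import Vale.Agent.P106.G.Split

/-! # The crude bound -/

open MeasureTheory Complex Set
open scoped ENNReal NNReal ContDiff FourierTransform SchwartzMap ComplexConjugate

set_option linter.all false

namespace Vale.Agent.P106.G

open Vale.Agent.P106.Tri

theorem norm_supp_unit {c0 : ℝ} (hc : c0 ≤ 1) {b : E4 → ℂ} (hb : Amp c0 1 b) (ζ : E4) (h : b ζ ≠ 0) :
    ‖ζ - 0‖ ≤ 18 / 1 := by
  obtain ⟨⟨s0, s0'⟩, ⟨s1, s1'⟩, ⟨s2, s2'⟩, s3⟩ := hb.supp ζ h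
  have hp : 0 < ζ 0 := by linarith
  have e1 : (ζ 1 ^ 2 + ζ 2 ^ 2) / ζ 0 ≤ 8 := by
    rw [div_le_iff₀ hp]
    nlinarith
  have e2 : 0 ≤ (ζ 1 ^ 2 + ζ 2 ^ 2) / ζ 0 := by positivity
  rw [inv_one, abs_le] at s3
  rw [sub_zero]
  have := norm4_le ζ (r := 9) (by norm_num) (by
    intro i
    fin_cases i
    · show |ζ 0| ≤ 9
      rw [abs_le]; constructor <;> linarith
    · show |ζ 1| ≤ 9
      rw [abs_le]; constructor <;> linarith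
    · show |ζ 2| ≤ 9
      rw [abs_le]; constructor <;> linarith
    · show |ζ 3| ≤ 9
      rw [abs_le]; constructor <;> linarith)
  linarith

theorem Sk_lower {Λ : ℝ} (hΛ : 1 ≤ Λ) (M : ℕ) {N : ℕ} (hN : 1 ≤ N) (a : E4 → ℂ) (k : ℤ × ℤ) (z : E4) :
    ENNReal.ofReal (((N:ℝ) ^ 8)⁻¹) * Gsq M 1 (resc N k a) (LT N k z) ≤ Sk Λ M N a k z := by
  have hN0 : (0:ℝ) < N := by exact_mod_cast hN
  unfold Sk Gsq
  have e2 : ∀ y, ENNReal.ofReal (((N:ℝ) ^ 8)⁻¹ * ((N:ℝ) ^ 4)⁻¹) *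
        (fun w => ‖𝓕⁻ (resc N k a) w‖ₑ ^ 2 * wK M 1 (LT N k z - w)) (LT N k y) ≤
        ‖𝓕⁻ (ampk N k a) y‖ₑ ^ 2 * phk Λ M N k (z - y) := by
    intro y
    rw [inv_resc hN k y, enorm_mul, mul_pow]
    have e3 : ‖((((N:ℝ) ^ 4)⁻¹ : ℝ) : ℂ)‖ₑ ^ 2 = ENNReal.ofReal (((N:ℝ) ^ 8)⁻¹) := by
      rw [← ofReal_norm, Complex.norm_real, Real.norm_of_nonneg (by positivity), ← ENNReal.ofReal_pow (by positivity)]
      congr 1
      rw [inv_pow, ← pow_mul]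
    have e4 : ENNReal.ofReal (((N:ℝ) ^ 4)⁻¹) * wK M 1 (LT N k z - LT N k y) ≤ phk Λ M N k (z - y) := by
      unfold phk wK
      rw [LT_sub, ← ENNReal.ofReal_mul (by positivity)]
      apply ENNReal.ofReal_le_ofReal
      rw [one_pow, inv_one, one_mul, div_one]
      have h1 : ‖LT N k z - LT N k y‖ / Λ ≤ ‖LT N k z - LT N k y‖ := div_le_self (norm_nonneg _) hΛ
      have h2 : 0 ≤ ‖LT N k z - LT N k y‖ / Λ := by positivity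
      gcongr
    rw [e3, ENNReal.ofReal_mul (by positivity)]
    calc _ = ENNReal.ofReal (((N:ℝ) ^ 8)⁻¹) * ‖𝓕⁻ (resc N k a) (LT N k y)‖ₑ ^ 2 *
          (ENNReal.ofReal (((N:ℝ) ^ 4)⁻¹) * wK M 1 (LT N k z - LT N k y)) := by ring
      _ ≤ _ := by gcongr
  refine le_trans (le_of_eq ?_) (lintegral_mono e2)
  rw [lintegral_const_mul' _ _ ENNReal.ofReal_ne_top, lint_LT hN k (fun w => ‖𝓕⁻ (resc N k a) w‖ₑ ^ 2 * wK M 1 (LT N k z - w)),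
    ← mul_assoc, ← ENNReal.ofReal_mul (by positivity)]
  congr 2
  field_simp

/-- the function of a finest cap is controlled by its square average -/
theorem sq_le_Sk {Λ c0 : ℝ} (hΛ : 1 ≤ Λ) (hc : c0 ≤ 1) (M : ℕ) : ∃ C : ℝ≥0∞, C ≠ ⊤ ∧ ∀ (N : ℕ), 1 ≤ N →
    ∀ (a : E4 → ℂ), Amp c0 ((N:ℝ) ^ 2) a → ∀ k z, ‖𝓕⁻ (ampk N k a) z‖ₑ ^ 2 ≤ C * Sk Λ M N a k z := by
  obtain ⟨C, hC, h⟩ := inv_le_Gav (max M 5) 18 (by norm_num)
  have hcw : cw (max M 5) < ⊤ := cw_lt_top (le_max_right _ _)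
  refine ⟨ENNReal.ofReal C ^ 2 * cw (max M 5), ENNReal.mul_ne_top (ENNReal.pow_ne_top ENNReal.ofReal_ne_top) hcw.ne, ?_⟩
  intro N hN a ha k z
  have hN0 : (0:ℝ) < N := by exact_mod_cast hN
  set b := resc N k a with hb
  have hb' : Amp c0 1 b := by
    have := Amp.resc hN k (by positivity) ha
    rwa [div_self (by positivity)] at this
  have h1 := h 1 one_pos 0 b hb'.int (norm_supp_unit hc hb') (LT N k z)
  have h2 := Gav_sq_le (max M 5) one_pos hb'.int (LT N k z)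
  have h3 : Gsq (max M 5) 1 b (LT N k z) ≤ Gsq M 1 b (LT N k z) := by
    unfold Gsq
    refine lintegral_mono fun y => ?_
    gcongr
    exact wK_anti (le_max_left _ _) one_pos _
  have h4 := Sk_lower hΛ M hN a k z
  rw [inv_resc hN k z, enorm_mul, mul_pow]
  have e3 : ‖((((N:ℝ) ^ 4)⁻¹ : ℝ) : ℂ)‖ₑ ^ 2 = ENNReal.ofReal (((N:ℝ) ^ 8)⁻¹) := by
    rw [← ofReal_norm, Complex.norm_real, Real.norm_of_nonneg (by positivity), ← ENNReal.ofReal_pow (by positivity)]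
    congr 1
    rw [inv_pow, ← pow_mul]
  rw [e3, ← hb]
  calc ENNReal.ofReal (((N:ℝ) ^ 8)⁻¹) * ‖𝓕⁻ b (LT N k z)‖ₑ ^ 2 ≤
      ENNReal.ofReal (((N:ℝ) ^ 8)⁻¹) * (ENNReal.ofReal C * Gav (max M 5) 1 b (LT N k z)) ^ 2 := by gcongr
    _ = ENNReal.ofReal (((N:ℝ) ^ 8)⁻¹) * ENNReal.ofReal C ^ 2 * Gav (max M 5) 1 b (LT N k z) ^ 2 := by ring
    _ ≤ ENNReal.ofReal (((N:ℝ) ^ 8)⁻¹) * ENNReal.ofReal C ^ 2 * (cw (max M 5) * Gsq M 1 b (LT N k z)) := by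
        gcongr
        exact h2.trans (by gcongr)
    _ = ENNReal.ofReal C ^ 2 * cw (max M 5) * (ENNReal.ofReal (((N:ℝ) ^ 8)⁻¹) * Gsq M 1 b (LT N k z)) := by ring
    _ ≤ _ := by gcongr

theorem enorm_sum_sq_le {ι : Type*} (s : Finset ι) (f : ι → ℂ) :
    ‖∑ i ∈ s, f i‖ₑ ^ 2 ≤ s.card * ∑ i ∈ s, ‖f i‖ₑ ^ 2 := by
  have h1 : ‖∑ i ∈ s, f i‖ ^ 2 ≤ s.card * ∑ i ∈ s, ‖f i‖ ^ 2 := by
    calc ‖∑ i ∈ s, f i‖ ^ 2 ≤ (∑ i ∈ s, ‖f i‖) ^ 2 := by gcongr; exact norm_sum_le _ _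
      _ ≤ _ := sq_sum_le_card_mul_sum_sq
  have h2 := ENNReal.ofReal_le_ofReal h1
  rw [ENNReal.ofReal_pow (norm_nonneg _), ofReal_norm, ENNReal.ofReal_mul (by positivity), ENNReal.ofReal_natCast,
    ENNReal.ofReal_sum_of_nonneg (fun i _ => by positivity)] at h2
  refine h2.trans (le_of_eq ?_)
  congr 1
  refine Finset.sum_congr rfl fun i _ => ?_
  rw [ENNReal.ofReal_pow (norm_nonneg _), ofReal_norm]

theorem card_grd (N : ℕ) : (grd N).card = N ^ 2 := by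
  unfold grd
  rw [Finset.card_product, Int.card_Ico, sub_zero, Int.toNat_natCast]
  ring

theorem crude {Λ c0 : ℝ} (hΛ : 1 ≤ Λ) (hc : c0 ≤ 1) (M N : ℕ) (hN : 1 ≤ N) :
    ∃ C : ℝ≥0∞, C ≠ ⊤ ∧ RefB Λ c0 M N C := by
  obtain ⟨C, hC, h⟩ := sq_le_Sk hΛ hc M
  refine ⟨(((N ^ 2 : ℕ) : ℝ≥0∞) * C) ^ (1/2 : ℝ), ENNReal.rpow_ne_top_of_nonneg (by norm_num)
    (ENNReal.mul_ne_top (ENNReal.natCast_ne_top _) hC), ?_⟩
  intro a ha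
  have hN0 : (0:ℝ) < N := by exact_mod_cast hN
  have key : ∀ z, ‖𝓕⁻ a z‖ₑ ^ 2 ≤ (((N ^ 2 : ℕ) : ℝ≥0∞) * C) * Sq Λ M N a z := by
    intro z
    rw [inv_split_all ha hN z]
    refine (enorm_sum_sq_le _ _).trans ?_
    rw [card_grd, Sq_eq, mul_assoc]
    gcongr
    rw [Finset.mul_sum]
    exact Finset.sum_le_sum fun k _ => h N hN a ha k z
  calc ∫⁻ z, ‖𝓕⁻ a z‖ₑ ^ 3 * (Sq Λ M N a z ^ (1/2 : ℝ))⁻¹ ≤
      ∫⁻ z, (((N ^ 2 : ℕ) : ℝ≥0∞) * C) ^ (1/2 : ℝ) * ‖𝓕⁻ a z‖ₑ ^ 2 := by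
        refine lintegral_mono fun z => ?_
        set S := Sq Λ M N a z with hS
        set B := ((N ^ 2 : ℕ) : ℝ≥0∞) * C with hB
        have hBt : B ≠ ⊤ := ENNReal.mul_ne_top (ENNReal.natCast_ne_top _) hC
        by_cases hS0 : S = 0
        · have : ‖𝓕⁻ a z‖ₑ = 0 := by
            have h1 := key z
            rw [← hS, hS0, mul_zero] at h1
            have h2 : ‖𝓕⁻ a z‖ₑ ^ 2 = 0 := le_antisymm h1 (zero_le)
            exact pow_eq_zero_iff (two_ne_zero) |>.1 h2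
          rw [this]; simp
        by_cases hSt : S = ⊤
        · rw [hSt]
          simp
        have h1 : ‖𝓕⁻ a z‖ₑ ≤ B ^ (1/2 : ℝ) * S ^ (1/2 : ℝ) := by
          rw [← ENNReal.mul_rpow_of_nonneg _ _ (by norm_num)]
          calc ‖𝓕⁻ a z‖ₑ = (‖𝓕⁻ a z‖ₑ ^ 2) ^ (1/2 : ℝ) := by
                rw [← ENNReal.rpow_natCast, ← ENNReal.rpow_mul]; norm_num
            _ ≤ _ := by gcongr; exact key z
        have hs0 : S ^ (1/2 : ℝ) ≠ 0 := by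
          rw [ne_eq, ENNReal.rpow_eq_zero_iff]
          push Not
          exact ⟨fun h => absurd h hS0, fun h => absurd h hSt⟩
        have hst : S ^ (1/2 : ℝ) ≠ ⊤ := ENNReal.rpow_ne_top_of_nonneg (by norm_num) hSt
        calc ‖𝓕⁻ a z‖ₑ ^ 3 * (S ^ (1/2 : ℝ))⁻¹ = ‖𝓕⁻ a z‖ₑ ^ 2 * ‖𝓕⁻ a z‖ₑ * (S ^ (1/2 : ℝ))⁻¹ := by ring
          _ ≤ ‖𝓕⁻ a z‖ₑ ^ 2 * (B ^ (1/2 : ℝ) * S ^ (1/2 : ℝ)) * (S ^ (1/2 : ℝ))⁻¹ := by gcongr
          _ = B ^ (1/2 : ℝ) * ‖𝓕⁻ a z‖ₑ ^ 2 * (S ^ (1/2 : ℝ) * (S ^ (1/2 : ℝ))⁻¹) := by ring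
          _ = _ := by rw [ENNReal.mul_inv_cancel hs0 hst, mul_one]
    _ ≤ _ := by
        rw [lintegral_const_mul' _ _ (ENNReal.rpow_ne_top_of_nonneg (by norm_num)
          (ENNReal.mul_ne_top (ENNReal.natCast_ne_top _) hC))]
        exact mul_le_mul' le_rfl (lintegral_sq_inv_le ha.int ha.meas)

end Vale.Agent.P106.G
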