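import Vale.Agent.P106.Tri.Main

/-! # General data: the model cone in `ℝ⁴` and the refined square function -/

open MeasureTheory Complex Set
open scoped ENNReal NNReal ContDiff FourierTransform SchwartzMap

set_option linter.all false

namespace Vale.Agent.P106.G

/-- space-time, also frequency space; coordinates `z 0, (z 1, z 2), z 3` -/
abbrev E4 := EuclideanSpace ℝ (Fin 4)

/-- amplitudes supported in the neighbourhood of size `R⁻¹` of the cone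
`{ρ (1, v, |v|²) : ρ ∈ [1, 1 + c0], v ∈ [0,1)²}` -/
structure Amp (c0 R : ℝ) (a : E4 → ℂ) : Prop where
  meas : Measurable a
  int : Integrable a
  sq : ∫⁻ ζ, ‖a ζ‖ₑ ^ 2 < ⊤
  supp : ∀ ζ, a ζ ≠ 0 → (1 ≤ ζ 0 ∧ ζ 0 ≤ 1 + c0) ∧ (0 ≤ ζ 1 ∧ ζ 1 < ζ 0) ∧ (0 ≤ ζ 2 ∧ ζ 2 < ζ 0) ∧
    |ζ 3 - (ζ 1 ^ 2 + ζ 2 ^ 2) / ζ 0| ≤ R⁻¹

/-- index of the cap of side `1/N` containing the direction of `ζ` -/
noncomputable def cpi (N : ℕ) (ζ : E4) : ℤ × ℤ := (⌊(N:ℝ) * (ζ 1 / ζ 0)⌋, ⌊(N:ℝ) * (ζ 2 / ζ 0)⌋)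

/-- restriction of an amplitude to a cap -/
noncomputable def ampk (N : ℕ) (k : ℤ × ℤ) (a : E4 → ℂ) (ζ : E4) : ℂ := by
  classical exact if cpi N ζ = k then a ζ else 0

/-- the caps of `[0,1)²` -/
noncomputable def grd (N : ℕ) : Finset (ℤ × ℤ) := Finset.Ico (0:ℤ) N ×ˢ Finset.Ico (0:ℤ) N

/-- (transposed) rescaling map of the cap `k` of side `1/N`: the plank of the cap is `‖LT N k z‖ ≤ Λ` -/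
noncomputable def LT (N : ℕ) (k : ℤ × ℤ) (z : E4) : E4 :=
  !₂[z 0 + (k.1 / N) * z 1 + (k.2 / N) * z 2 + ((k.1 / N) ^ 2 + (k.2 / N) ^ 2) * z 3,
    (z 1 + 2 * (k.1 / N) * z 3) / N, (z 2 + 2 * (k.2 / N) * z 3) / N, z 3 / N ^ 2]

/-- the same with the thin direction rescaled to the size `N` (tubes `N × N × N × N²`) -/
noncomputable def TT (N : ℕ) (k : ℤ × ℤ) (z : E4) : E4 :=
  !₂[(z 0 + (k.1 / N) * z 1 + (k.2 / N) * z 2 + ((k.1 / N) ^ 2 + (k.2 / N) ^ 2) * z 3) / N,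
    (z 1 + 2 * (k.1 / N) * z 3) / N, (z 2 + 2 * (k.2 / N) * z 3) / N, z 3 / N ^ 2]

/-- normalised plank weight -/
noncomputable def phk (Λ : ℝ) (M N : ℕ) (k : ℤ × ℤ) (z : E4) : ℝ≥0∞ :=
  ENNReal.ofReal (((N:ℝ) ^ 4)⁻¹ * ((1 + ‖LT N k z‖ / Λ) ^ M)⁻¹)

/-- normalised tube weight -/
noncomputable def Phk (M N : ℕ) (k : ℤ × ℤ) (z : E4) : ℝ≥0∞ :=
  ENNReal.ofReal (((N:ℝ) ^ 5)⁻¹ * ((1 + ‖TT N k z‖) ^ M)⁻¹)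

/-- refined square function -/
noncomputable def Sq (Λ : ℝ) (M N : ℕ) (a : E4 → ℂ) (z : E4) : ℝ≥0∞ :=
  ∑ k ∈ grd N, ∫⁻ y, ‖𝓕⁻ (ampk N k a) y‖ₑ ^ 2 * phk Λ M N k (z - y)

/-- energy averaged over the tubes through `z` -/
noncomputable def Mu (M N : ℕ) (a : E4 → ℂ) (z : E4) : ℝ≥0∞ :=
  ∑ k ∈ grd N, ∫⁻ y, ‖𝓕⁻ (ampk N k a) y‖ₑ ^ 2 * Phk M N k (z - y)

/-- [REF] refined square function estimate at exponent three -/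
def StREF : Prop := ∀ (ε : ℝ) (M : ℕ), 0 < ε → ∃ (K0 : ℕ) (c0 Λ C : ℝ), 2 ≤ K0 ∧ 0 < c0 ∧ 1 ≤ Λ ∧ 0 ≤ C ∧
  ∀ (n : ℕ) (a : E4 → ℂ), Amp c0 (((K0:ℝ) ^ n) ^ 2) a →
    ∫⁻ z, ‖𝓕⁻ a z‖ₑ ^ 3 / Sq Λ M (K0 ^ n) a z ^ (1/2 : ℝ) ≤
      ENNReal.ofReal (C * ((K0:ℝ) ^ n) ^ ε) * ∫⁻ ζ, ‖a ζ‖ₑ ^ 2

/-- [SLAB] two transversal square functions on a ball of radius `N` -/
def StSLAB : Prop := ∀ (Λ c : ℝ) (M : ℕ), 1 ≤ Λ → 0 < c → 4 ≤ M → ∃ C : ℝ, 0 ≤ C ∧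
  ∀ (N : ℕ), 1 ≤ N → ∀ (a b : E4 → ℂ) (c0 R : ℝ), Amp c0 R a → Amp c0 R b →
  (∀ ζ ζ', a ζ ≠ 0 → b ζ' ≠ 0 → c ≤ |ζ 1 / ζ 0 - ζ' 1 / ζ' 0| ∨ c ≤ |ζ 2 / ζ 0 - ζ' 2 / ζ' 0|) →
  4 / N ≤ c → ∀ y : E4,
    ∫⁻ z in Metric.closedBall y N, Sq Λ M N a z * Sq Λ M N b z ≤
      ENNReal.ofReal (C * (N:ℝ) ^ 4) * (Mu (M - 2) N a y * Mu (M - 2) N b y)

end Vale.Agent.P106.G
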