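import Vale.Agent.P106.G.DefsG
import Vale.Agent.P117.Bdl.B1

/-! # The evolution over a data hyperplane and the statements of the final blocks

Coordinates: `z = (y, t)` stands for the point `(y₀, y₁, y₂, t - (s y₀ + q₁ y₁ + q₂ y₂))` of `ℝ⁴`, so that `t` is the
time function `H.tm` and `y` are the first three coordinates. -/

open MeasureTheory Complex Set
open scoped ENNReal NNReal ContDiff FourierTransform

set_option linter.all false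

namespace Vale.Agent.P106.G

open Vale.Agent.P117 (Adm)

/-- the point of `ℝ⁴` with coordinates `(y, t)` -/
noncomputable def Hyp.zt (H : Hyp) (t : ℝ) (y : E3) : E4 :=
  !₂[y 0, y 1, y 2, t - (H.s * y 0 + H.q1 * y 1 + H.q2 * y 2)]

/-- the linear form of the dispersion relation -/
noncomputable def Hyp.B (H : Hyp) (ξ : E3) : ℝ := ξ 0 - 2 * (H.q1 * ξ 1 + H.q2 * ξ 2)

/-- discriminant -/
noncomputable def Hyp.D (H : Hyp) : ℝ := H.s - H.q1 ^ 2 - H.q2 ^ 2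

/-- dispersion relation of the cone `ζ₃ = (ζ₁² + ζ₂²)/ζ₀` over the data hyperplane -/
noncomputable def Hyp.om (H : Hyp) (ξ : E3) : ℝ :=
  2 * (ξ 1 ^ 2 + ξ 2 ^ 2) / (H.B ξ + Real.sqrt (H.B ξ ^ 2 + 4 * H.D * (ξ 1 ^ 2 + ξ 2 ^ 2)))

/-- first three components of the cone point over the frequency `ξ` -/
noncomputable def Hyp.Om (H : Hyp) (ξ : E3) : E3 :=
  !₂[ξ 0 + H.s * H.om ξ, ξ 1 + H.q1 * H.om ξ, ξ 2 + H.q2 * H.om ξ]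

/-- cone height -/
noncomputable def hc (w : E3) : ℝ := (w 1 ^ 2 + w 2 ^ 2) / w 0

/-- data frequency of the cone point over `w` -/
noncomputable def Hyp.Ph (H : Hyp) (w : E3) : E3 :=
  !₂[w 0 - H.s * hc w, w 1 - H.q1 * hc w, w 2 - H.q2 * hc w]

/-- product multiplier -/
noncomputable def Hyp.mu (H : Hyp) (χ φ1 φ2 : ℝ → ℂ) (ξ : E3) : ℂ :=
  (Real.smoothTransition (4 * H.B ξ - 1) : ℂ) *
    (χ (H.Om ξ 0) * (φ1 (H.Om ξ 1 / H.Om ξ 0) * φ2 (H.Om ξ 2 / H.Om ξ 0)))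

/-- the evolution with multiplier `M` -/
noncomputable def Hyp.U (H : Hyp) (M : E3 → ℂ) (h : E3 → ℂ) (t : ℝ) (y : E3) : ℂ :=
  𝓕⁻ (fun ξ : E3 => cexp (2 * Real.pi * I * (t * H.om ξ : ℝ)) * (M ξ * 𝓕 h ξ)) y

/-- smooth step from `-1/8` to `1/8` -/
noncomputable def stp (t : ℝ) : ℂ := (Real.smoothTransition (4 * t + 1/2) : ℂ)

/-- partition function: `∑ ψ(t - j) = 1`, support `[-1/8, 9/8]`, equal to one on `[1/8, 7/8]` -/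
noncomputable def psi (t : ℝ) : ℂ := stp t - stp (t - 1)

/-- the cut-off in the velocity variables, support `[3/16, 13/16]`, equal to one on `[5/16, 11/16]` -/
noncomputable def psv (t : ℝ) : ℂ := psi (2 * t - 1/2)

/-- cut-off in the radial variable: support `[1 + c/8, 1 + 7c/8]`, equal to one on `[1 + 3c/8, 1 + 5c/8]` -/
noncomputable def chi0 (c : ℝ) (t : ℝ) : ℂ :=
  (Real.smoothTransition (4 * ((t - 1) / c) - 1/2) * Real.smoothTransition (7/2 - 4 * ((t - 1) / c)) : ℝ)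

/-- admissible velocity cut-offs -/
structure Vcut (φ : ℝ → ℂ) : Prop where
  smooth : ContDiff ℝ ∞ φ
  supp : ∀ t, φ t ≠ 0 → 1/8 ≤ t ∧ t ≤ 7/8

/-- [BR] local bilinear restricted estimate -/
def StBR (p α c0 : ℝ) : Prop := ∀ (c : ℝ) (φ1 φ2 φ1' φ2' : ℝ → ℂ), 0 < c → Vcut φ1 → Vcut φ2 → Vcut φ1' → Vcut φ2' →
  (∀ v1 v2 v1' v2', φ1 v1 * φ2 v2 ≠ 0 → φ1' v1' * φ2' v2' ≠ 0 → c ≤ |v1 - v1'| ∨ c ≤ |v2 - v2'|) →
  ∃ C : ℝ, 0 ≤ C ∧ ∀ (R : ℝ) (H : Hyp) (h h' : E3 → ℂ) (G G' : Set E3) (y0 : E3), 1 ≤ R → H.ok → Adm volume h → Adm volume h' →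
    MeasurableSet G → MeasurableSet G' → volume G < ⊤ → volume G' < ⊤ →
    (∀ y, ‖h y‖ ≤ G.indicator (fun _ => (1:ℝ)) y) → (∀ y, ‖h' y‖ ≤ G'.indicator (fun _ => (1:ℝ)) y) →
    ∫⁻ t in Icc R (2 * R), ∫⁻ y in Metric.ball y0 R,
      (‖H.U (H.mu (chi0 c0) φ1 φ2) h t y‖ₑ * ‖H.U (H.mu (chi0 c0) φ1' φ2') h' t y‖ₑ) ^ (p / 2) ≤
      ENNReal.ofReal (C * R ^ (α * p + 1)) * (volume G * volume G') ^ (1/2 : ℝ)

/-- [BL] global bilinear estimate -/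
def StBL (p α c0 : ℝ) : Prop := ∀ (c : ℝ) (φ1 φ2 φ1' φ2' : ℝ → ℂ), 0 < c → Vcut φ1 → Vcut φ2 → Vcut φ1' → Vcut φ2' →
  (∀ v1 v2 v1' v2', φ1 v1 * φ2 v2 ≠ 0 → φ1' v1' * φ2' v2' ≠ 0 → c ≤ |v1 - v1'| ∨ c ≤ |v2 - v2'|) →
  ∃ C : ℝ, 0 ≤ C ∧ ∀ (R : ℝ) (H : Hyp) (h : E3 → ℂ), 1 ≤ R → H.ok → Adm volume h →
    ∫⁻ t in Icc R (2 * R), ∫⁻ y,
      (‖H.U (H.mu (chi0 c0) φ1 φ2) h t y‖ₑ * ‖H.U (H.mu (chi0 c0) φ1' φ2') h t y‖ₑ) ^ (p / 2) ≤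
      ENNReal.ofReal (C * R ^ (α * p + 1)) * ∫⁻ y, ‖h y‖ₑ ^ p

/-- [LSR] the local smoothing estimate for the model family -/
def StLSR (p α c0 : ℝ) : Prop := ∃ C : ℝ, 0 ≤ C ∧ ∀ (R : ℝ) (H : Hyp) (h : E3 → ℂ), 1 ≤ R → H.ok → Adm volume h →
    ∫⁻ t in Icc R (2 * R), ∫⁻ y, ‖H.U (H.mu (chi0 c0) psv psv) h t y‖ₑ ^ p ≤
      ENNReal.ofReal (C * R ^ (α * p + 1)) * ∫⁻ y, ‖h y‖ₑ ^ p

/-- [GL] the frequency localized local smoothing estimate for the wave equation with general data -/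
def StGL (p α : ℝ) (X : E3 → ℂ) : Prop := ∃ C : ℝ, 0 ≤ C ∧ ∀ (R : ℝ) (f : E3 → ℂ), 1 ≤ R → Adm volume f →
    ∫⁻ t in Icc R (2 * R), ∫⁻ x : E3, ‖𝓕⁻ (fun ξ : E3 => cexp (2 * Real.pi * I * (t * ‖ξ‖ : ℝ)) * (X ξ * 𝓕 f ξ)) x‖ₑ ^ p ≤
      ENNReal.ofReal (C * R ^ (α * p + 1)) * ∫⁻ x, ‖f x‖ₑ ^ p

end Vale.Agent.P106.G
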