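import Vale.Agent.P106.G.Defs

/-! # Kinetic data and the geometric statement -/

open MeasureTheory Complex Set
open scoped ENNReal NNReal

set_option linter.all false

namespace Vale.Agent.P106.G

abbrev E3 := EuclideanSpace ℝ (Fin 3)

/-- data hyperplane `z₃ + s z₀ + q₁ z₁ + q₂ z₂ = 0` -/
structure Hyp where
  s : ℝ
  q1 : ℝ
  q2 : ℝ

/-- the hyperplanes that occur: images of the hyperplane `s = 1, q = 0` under the rescaling of the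
cap with centre `b ∈ [0,1/2]²` and side `σ ≤ 1/8` -/
def Hyp.ok (H : Hyp) : Prop := ∃ σ b1 b2 : ℝ, 0 < σ ∧ σ ≤ 1/8 ∧ 0 ≤ b1 ∧ b1 ≤ 1/2 ∧ 0 ≤ b2 ∧ b2 ≤ 1/2 ∧
  H.s = σ ^ 2 / (1 + b1 ^ 2 + b2 ^ 2) ∧ H.q1 = - σ * b1 / (1 + b1 ^ 2 + b2 ^ 2) ∧
  H.q2 = - σ * b2 / (1 + b1 ^ 2 + b2 ^ 2)

/-- time function -/
noncomputable def Hyp.tm (H : Hyp) (z : E4) : ℝ := H.s * z 0 + H.q1 * z 1 + H.q2 * z 2 + z 3

/-- speed of the time function along the ray of direction `v` -/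
noncomputable def Hyp.m (H : Hyp) (v1 v2 : ℝ) : ℝ := H.s * (v1 ^ 2 + v2 ^ 2) - 2 * (H.q1 * v1 + H.q2 * v2) + 1

/-- ray direction -/
noncomputable def kap (v1 v2 : ℝ) : E4 := !₂[v1 ^ 2 + v2 ^ 2, -2 * v1, -2 * v2, 1]

/-- the point of the hyperplane with the coordinates `y` -/
noncomputable def Hyp.pt (H : Hyp) (y : E3) : E4 := !₂[y 0, y 1, y 2, -(H.s * y 0 + H.q1 * y 1 + H.q2 * y 2)]

/-- the ray with base point `y`, direction `v` and parameter `r` -/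
noncomputable def Hyp.ray (H : Hyp) (y : E3) (v1 v2 r : ℝ) : E4 := H.pt y + r • kap v1 v2

/-- base point (first three coordinates) of the ray of direction `v` through `z` -/
noncomputable def Hyp.bp (H : Hyp) (v1 v2 : ℝ) (z : E4) : E3 :=
  !₂[z 0 - H.tm z / H.m v1 v2 * (v1 ^ 2 + v2 ^ 2), z 1 + 2 * (H.tm z / H.m v1 v2) * v1,
    z 2 + 2 * (H.tm z / H.m v1 v2) * v2]

/-- transported density at `z` -/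
noncomputable def Hyp.W (H : Hyp) (N : ℕ) (ν : ℤ × ℤ → E3 → ℝ≥0∞) (z : E4) : ℝ≥0∞ :=
  ∑ k ∈ grd N, ν k (H.bp (k.1 / N) (k.2 / N) z)

/-- energy -/
noncomputable def Eng (N : ℕ) (ν : ℤ × ℤ → E3 → ℝ≥0∞) : ℝ≥0∞ := ∑ k ∈ grd N, ∫⁻ y, ν k y

/-- densities of the caps of side `1/N` on the data hyperplane, slowly varying at the scale `d` -/
structure Dens (N : ℕ) (C1 d : ℝ) (ν : ℤ × ℤ → E3 → ℝ≥0∞) : Prop where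
  meas : ∀ k, Measurable (ν k)
  slow : ∀ k y y', ‖y - y'‖ ≤ d → ν k y ≤ ENNReal.ofReal C1 * ν k y'
  sum : ∀ y, ∑ k ∈ grd N, ν k y ≤ ENNReal.ofReal C1
  fin : Eng N ν < ⊤

/-- separation of two families of caps -/
def Sepf (N : ℕ) (c : ℝ) (ν1 ν2 : ℤ × ℤ → E3 → ℝ≥0∞) : Prop := ∀ k ∈ grd N, ∀ k' ∈ grd N, (∃ y, ν1 k y ≠ 0) →
  (∃ y, ν2 k' y ≠ 0) → c ≤ |((k.1 : ℝ) - k'.1) / N| ∨ c ≤ |((k.2 : ℝ) - k'.2) / N|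

/-- [GEO] the geometric estimate (unit time normalization, `d = 1/N`) -/
def StGEO (Cx : ℕ) : Prop := ∀ c C1 T0 : ℝ, 0 < c → 1 ≤ T0 → ∃ K : ℝ, 0 ≤ K ∧ ∀ (N : ℕ) (H : Hyp), 1 ≤ N → H.ok →
  ∀ (ν1 ν2 : ℤ × ℤ → E3 → ℝ≥0∞), Dens N C1 ((N:ℝ)⁻¹) ν1 → Dens N C1 ((N:ℝ)⁻¹) ν2 → Sepf N c ν1 ν2 →
  ∀ (X : Set E4) (μ1 μ2 e1 e2 : ℝ), MeasurableSet X → (∀ z ∈ X, 1 ≤ H.tm z ∧ H.tm z ≤ T0) →
    0 ≤ μ1 → 0 ≤ μ2 → 0 ≤ e1 → 0 ≤ e2 → e1 ≤ 1 → e2 ≤ 1 →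
    (∀ z ∈ X, ENNReal.ofReal μ1 ≤ H.W N ν1 z ∧ H.W N ν1 z ≤ ENNReal.ofReal (C1 * μ1)) →
    (∀ z ∈ X, ENNReal.ofReal μ2 ≤ H.W N ν2 z ∧ H.W N ν2 z ≤ ENNReal.ofReal (C1 * μ2)) →
    ENNReal.ofReal e1 * Eng N ν1 ≤ ENNReal.ofReal μ1 * volume X →
    ENNReal.ofReal e2 * Eng N ν2 ≤ ENNReal.ofReal μ2 * volume X →
    Eng N ν1 ≠ 0 → Eng N ν2 ≠ 0 →
    (μ1 * μ2) ^ 14 * (e1 * e2) ^ Cx ≤ K * (N:ℝ) ^ 26 * (1 + Real.log N) ^ Cx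

end Vale.Agent.P106.G
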