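import Vale.Agent.P106.G.GeM

/-! # The geometric estimate -/

open MeasureTheory Set
open scoped ENNReal

set_option linter.all false

namespace Vale.Agent.P106.G

theorem Dens.mono {N : ℕ} {C C' d : ℝ} {ν : ℤ × ℤ → E3 → ℝ≥0∞} (h : Dens N C d ν) (hC : C ≤ C') : Dens N C' d ν := by
  refine ⟨h.meas, fun k y y' hy => (h.slow k y y' hy).trans (mul_le_mul' (ENNReal.ofReal_le_ofReal hC) le_rfl),
    fun y => (h.sum y).trans (ENNReal.ofReal_le_ofReal hC), h.fin⟩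

theorem card_grdG (N : ℕ) : (grd N).card = N * N := by
  unfold grd
  rw [Finset.card_product, Int.card_Ico]
  simp

theorem W_le {H : Hyp} {N : ℕ} {C d : ℝ} (hC : 0 ≤ C) {ν : ℤ × ℤ → E3 → ℝ≥0∞} (h : Dens N C d ν) (z : E4) :
    H.W N ν z ≤ ENNReal.ofReal (C * (N:ℝ) ^ 2) := by
  unfold Hyp.W
  calc ∑ k ∈ grd N, ν k (H.bp ((k.1:ℝ) / N) ((k.2:ℝ) / N) z) ≤ ∑ k ∈ grd N, ENNReal.ofReal C :=
        Finset.sum_le_sum fun k hk => nu_le h hk _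
    _ = ENNReal.ofReal (C * (N:ℝ) ^ 2) := by
        rw [Finset.sum_const, card_grdG, nsmul_eq_mul, ← ENNReal.ofReal_natCast, ← ENNReal.ofReal_mul (by positivity)]
        congr 1; push_cast; ring

theorem ge_of_pow {e A N : ℝ} (he : 0 < e) (he1 : e ≤ 1) (hA : 1 ≤ A) (hN : 0 < N) (h : N⁻¹ * (A / e) ^ 6 ≤ 1) : N⁻¹ ≤ e := by
  have h1 : (A / e) ^ 6 ≤ N := by
    rw [inv_mul_le_iff₀ hN, mul_one] at h; exact h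
  have h2 : (1 / e) ^ 6 ≤ N := le_trans (by gcongr) h1
  have h3 : 1 / e ≤ (1 / e) ^ 6 := le_self_pow₀ (by rw [le_div_iff₀ he]; linarith) (by norm_num)
  have h4 : 1 / e ≤ N := h3.trans h2
  rw [div_le_iff₀ he] at h4
  rw [inv_eq_one_div, div_le_iff₀ hN]
  linarith [mul_comm N e]

theorem num_n1 {A N KR d : ℝ} {ns : ℕ} (hA1 : 1 ≤ A) (hA6 : A ^ 6 ≤ N) (hN1 : 1 ≤ N) (hKR : 1024 ≤ KR) (h : KR * N ^ 6 ≤ 2 ^ ns)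
    (hd : d = N⁻¹) : 2 * A ^ 13 ≤ 2 ^ ns * d := by
  have hN0 : 0 < N := by linarith
  have hA0 : 0 < A := by linarith
  have hd0 : 0 < d := by rw [hd]; positivity
  calc 2 * A ^ 13 ≤ 2 * A ^ 18 := by
        have := pow_le_pow_right₀ hA1 (by norm_num : 13 ≤ 18)
        linarith
    _ = 2 * (A ^ 6) ^ 3 := by ring
    _ ≤ KR * N ^ 3 := by gcongr; linarith
    _ ≤ KR * N ^ 5 := by
        have := pow_le_pow_right₀ hN1 (by norm_num : 3 ≤ 5)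
        gcongr
    _ = KR * N ^ 6 * d := by rw [hd]; field_simp
    _ ≤ 2 ^ ns * d := by gcongr

theorem num_lam {c C e1 e2 μ1 μ2 d : ℝ} (hc : 0 < c) (hC : 1 ≤ C) (hd0 : 0 < d) (he1 : d ≤ e1) (he2 : d ≤ e2) (hμ : 1 ≤ μ1 * μ2) :
    c * d ^ 4 / (256 * C) ≤ c * (e1 * e2) * (μ1 * μ2) * d ^ 2 / (256 * C) := by
  have h1 : d * d ≤ e1 * e2 := mul_le_mul he1 he2 hd0.le (by linarith)
  have h0 : 0 ≤ e1 * e2 := le_trans (by positivity) h1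
  have h2 : c * d ^ 4 ≤ c * (e1 * e2) * (μ1 * μ2) * d ^ 2 := by
    calc c * d ^ 4 = c * (d * d) * 1 * d ^ 2 := by ring
      _ ≤ c * (e1 * e2) * (μ1 * μ2) * d ^ 2 := by gcongr
  have hC0 : 0 < C := by linarith
  gcongr

theorem num_n2 {A N KR d c C lam : ℝ} {ns : ℕ} (hA1 : 1 ≤ A) (hA6 : A ^ 6 ≤ N) (hN1 : 1 ≤ N) (hKR : 1024 ≤ KR)
    (hc : 0 < c) (hC : 1 ≤ C) (hKRc : 1024 * C ≤ KR * c) (h : KR * N ^ 6 ≤ 2 ^ ns)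
    (hd : d = N⁻¹) (hlam : c * d ^ 4 / (256 * C) ≤ lam) : 2 * A ^ 26 < lam * 4 ^ ns := by
  have hN0 : 0 < N := by linarith
  have hA0 : 0 < A := by linarith
  have hC0 : 0 < C := by linarith
  have e4 : (4:ℝ) ^ ns = 2 ^ ns * 2 ^ ns := by rw [← mul_pow]; norm_num
  have hd0 : 0 < d := by rw [hd]; positivity
  have hl0 : 0 ≤ lam := le_trans (by positivity) hlam
  have h8 : 0 < N ^ 8 := by positivity
  have s1 : 2 * A ^ 26 ≤ 2 * N ^ 8 := by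
    calc 2 * A ^ 26 ≤ 2 * A ^ 30 := by
          have := pow_le_pow_right₀ hA1 (by norm_num : 26 ≤ 30)
          linarith
      _ = 2 * (A ^ 6) ^ 5 := by ring
      _ ≤ 2 * N ^ 5 := by gcongr
      _ ≤ 2 * N ^ 8 := by
          have := pow_le_pow_right₀ hN1 (by norm_num : 5 ≤ 8)
          linarith
  have s2 : 4 * N ^ 8 ≤ c * d ^ 4 / (256 * C) * ((KR * N ^ 6) * (KR * N ^ 6)) := by
    have e : c * d ^ 4 / (256 * C) * ((KR * N ^ 6) * (KR * N ^ 6)) = (KR * (KR * c)) / (256 * C) * N ^ 8 := by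
      rw [hd]; field_simp
    rw [e]
    have : 4 ≤ (KR * (KR * c)) / (256 * C) := by
      rw [le_div_iff₀ (by positivity)]
      have h1 : 1 * (1024 * C) ≤ KR * (KR * c) := by gcongr; linarith
      linarith
    gcongr
  calc 2 * A ^ 26 ≤ 2 * N ^ 8 := s1
    _ < 4 * N ^ 8 := by linarith
    _ ≤ _ := s2
    _ ≤ lam * (2 ^ ns * 2 ^ ns) := by gcongr
    _ = lam * 4 ^ ns := by rw [e4]

theorem par_ex {c C T0 Ac A e1 d : ℝ} (hc : 0 < c) (hC : 1 ≤ C) (hT : 1 ≤ T0)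
    (hAc : Ac = 5000 + C + 100 * T0 + 100 / c + 800 / c ^ 2) (he1 : 0 < e1) (he1' : e1 ≤ 1) (hA : A = Ac / e1) (hd0 : 0 < d)
    (hd6 : d * A ^ 6 ≤ 1) : Par c C T0 (e1 / 8) A d ∧ Ac ≤ A := by
  have hc1 : 0 < 100 / c := by positivity
  have hc2 : 0 < 800 / c ^ 2 := by positivity
  have hAc1 : 5000 ≤ Ac := by rw [hAc]; linarith
  have hAA : Ac ≤ A := by
    rw [hA, le_div_iff₀ he1]; nlinarith
  refine ⟨⟨hc, by positivity, by linarith, hT, by linarith, ?_, ?_, ?_, ?_, hd0, hd6⟩, hAA⟩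
  · have : C ≤ Ac := by rw [hAc]; linarith
    linarith
  · have : 100 * T0 ≤ Ac := by rw [hAc]; linarith
    linarith
  · have h3 : 100 / c ≤ A := by
      have : 100 / c ≤ Ac := by rw [hAc]; linarith
      linarith
    rwa [div_le_iff₀ hc] at h3
  · have h3 : 800 / c ^ 2 ≤ Ac := by rw [hAc]; linarith
    rw [div_le_iff₀ (by positivity)] at h3
    have e : A * (e1 / 8 * c ^ 2) = Ac * c ^ 2 / 8 := by rw [hA]; field_simp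
    rw [e]; linarith

theorem side {c C T0 : ℝ} (hc : 0 < c) (hC : 1 ≤ C) (hT : 1 ≤ T0) : ∃ Ac K : ℝ, 1 ≤ Ac ∧ 1 ≤ K ∧
    ∀ (N : ℕ) (H : Hyp), 1 ≤ N → H.ok → ∀ (ν1 ν2 : ℤ × ℤ → E3 → ℝ≥0∞), Dens N C ((N:ℝ)⁻¹) ν1 → Dens N C ((N:ℝ)⁻¹) ν2 →
    Sepf N c ν1 ν2 → ∀ (X : Set E4) (μ1 μ2 e1 e2 : ℝ), MeasurableSet X → (∀ z ∈ X, 1 ≤ H.tm z ∧ H.tm z ≤ T0) →
    0 < μ1 → 0 < μ2 → 0 < e1 → 0 < e2 → e1 ≤ 1 → e2 ≤ 1 → 1 ≤ μ1 * μ2 →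
    (∀ z ∈ X, ENNReal.ofReal μ1 ≤ H.W N ν1 z ∧ H.W N ν1 z ≤ ENNReal.ofReal (C * μ1)) →
    (∀ z ∈ X, ENNReal.ofReal μ2 ≤ H.W N ν2 z) →
    ENNReal.ofReal e1 * Eng N ν1 ≤ ENNReal.ofReal μ1 * volume X →
    ENNReal.ofReal e2 * Eng N ν2 ≤ ENNReal.ofReal μ2 * volume X → Eng N ν2 ≠ 0 →
    (N:ℝ)⁻¹ * (Ac / e1) ^ 6 ≤ 1 → (N:ℝ)⁻¹ * (Ac / e2) ^ 6 ≤ 1 →
    μ1 * ((N:ℝ)⁻¹) ^ 2 ≤ C → μ2 * ((N:ℝ)⁻¹) ^ 2 ≤ C →
    ((e1 * e2) ^ 9 * μ1 ^ 5 * μ2 ^ 9 * ((N:ℝ)⁻¹) ^ 13) ^ 2 ≤ K * (Ac / e1) ^ 962 * (1 + Real.log N) ^ 27 := by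
  have hC0 : 0 < C := by linarith
  have hT0 : 0 < T0 := by linarith
  obtain ⟨KR, hKR⟩ : ∃ KR, KR = 1024 * C * (1 + 1 / c) := ⟨_, rfl⟩
  have hc' : 0 < 1 / c := by positivity
  have hKR1 : 1024 ≤ KR := by
    rw [hKR]
    nlinarith
  have hKRc : 1024 * C ≤ KR * c := by
    rw [hKR]
    have : (1 + 1 / c) * c = c + 1 := by field_simp
    calc 1024 * C = 1024 * C * 1 := by ring
      _ ≤ 1024 * C * (c + 1) := by gcongr; linarith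
      _ = _ := by rw [← this]; ring
  obtain ⟨L, hL1, hL⟩ := ns_ex (by linarith : 1 ≤ KR)
  obtain ⟨Ac, hAc⟩ : ∃ Ac, Ac = 5000 + C + 100 * T0 + 100 / c + 800 / c ^ 2 := ⟨_, rfl⟩
  obtain ⟨S, hS⟩ : ∃ S, S = 512 * C / c := ⟨_, rfl⟩
  have hS0 : 0 < S := by rw [hS]; positivity
  obtain ⟨K0, hK0⟩ : ∃ K0, K0 = ((18432 * (2 * T0 * C ^ 19) * S ^ 2) ^ 9 * C + (589824 * (2 * T0 * C ^ 19) * S ^ 3) ^ 5 * C ^ 3 +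
        (5898240 * 82944 * 2097152 * (2 * T0 * C ^ 19) ^ 4 * S ^ 9) ^ 2) := ⟨_, rfl⟩
  have hK0p : 0 < K0 := by rw [hK0]; positivity
  have hc1 : 0 < 100 / c := by positivity
  have hc2 : 0 < 800 / c ^ 2 := by positivity
  have hAc1 : 5000 ≤ Ac := by rw [hAc]; linarith
  refine ⟨Ac, K0 * L ^ 27 + 1, by linarith, by have : 0 < K0 * L ^ 27 := by positivity
                                               linarith, ?_⟩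
  intro N H hN hH ν1 ν2 h1 h2 hsep X μ1 μ2 e1 e2 mX hX hμ1 hμ2 he1 he2 he1' he2' hμ hW1 hW2 hE1 hE2 hE0 hd6 hd6' hm1 hm2
  have hN0 : (0:ℝ) < N := by exact_mod_cast hN
  have hN1 : (1:ℝ) ≤ N := by exact_mod_cast hN
  obtain ⟨ns, hns, hns1, hns2⟩ := hL N hN
  generalize hd : (N:ℝ)⁻¹ = d at *
  have hd := hd.symm
  have hd0 : 0 < d := by rw [hd]; positivity
  have hdle : d ≤ 1 := by rw [hd]; exact inv_le_one_of_one_le₀ hN1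
  have e1d : d ≤ e1 := by
    rw [hd]; exact ge_of_pow (A := Ac) he1 he1' (by linarith) hN0 (by rw [← hd]; exact hd6)
  have e2d : d ≤ e2 := by
    rw [hd]; exact ge_of_pow (A := Ac) he2 he2' (by linarith) hN0 (by rw [← hd]; exact hd6')
  generalize hA : Ac / e1 = A at *
  have hA := hA.symm
  obtain ⟨P, hAA⟩ := par_ex hc hC hT hAc he1 he1' hA hd0 hd6
  have hA0 : 0 < A := by linarith
  have hA1 : 1 ≤ A := by linarith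
  have hA6 : A ^ 6 ≤ N := by
    have := hd6
    rw [hd, inv_mul_le_iff₀ hN0, mul_one] at this; exact this
  obtain ⟨lam, hlam⟩ : ∃ lam, lam = c * (e1 * e2) * (μ1 * μ2) * d ^ 2 / (256 * C) := ⟨_, rfl⟩
  have hlam0 : 0 < lam := by rw [hlam]; positivity
  have hn1 : 2 * A ^ 13 ≤ 2 ^ ns * d := num_n1 hA1 hA6 hN1 hKR1 hns1 hd
  have hn2 : 2 * A ^ 26 < lam * 4 ^ ns :=
    num_n2 hA1 hA6 hN1 hKR1 hc hC hKRc hns1 hd (by rw [hlam]; exact num_lam hc hC hd0 e1d e2d hμ)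
  have hmain := one hH hN hd P hC h1 h2 hsep mX hX hμ1 hμ2 he1 he2 hW1 hW2 hE1 hE2 hE0 hlam rfl hns hn1 hn2
  have hns0 : (0:ℝ) < ns := by exact_mod_cast hns
  have hx : (e1 * e2) * μ1 * μ2 * d ^ 2 = lam / (2 * ns) * (S * ns) := by
    rw [hlam, hS]; field_simp; ring
  have he0 : 0 < e1 * e2 := by positivity
  have he01 : e1 * e2 ≤ 1 := mul_le_one₀ he1' he2.le he2'
  have hf := fin123 hA1 hT0 hC hS0 hμ1 hμ2 he0 he01 hd0 hdle hns0.le (by positivity) hx hm1 hm2 hmain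
  rw [← hK0] at hf
  have hlog : 0 ≤ Real.log N := Real.log_nonneg hN1
  calc ((e1 * e2) ^ 9 * μ1 ^ 5 * μ2 ^ 9 * d ^ 13) ^ 2 ≤ K0 * A ^ 962 * (ns + 1) ^ 27 := hf
    _ ≤ K0 * A ^ 962 * (L * (1 + Real.log N)) ^ 27 := by gcongr
    _ = (K0 * L ^ 27) * A ^ 962 * (1 + Real.log N) ^ 27 := by ring
    _ ≤ (K0 * L ^ 27 + 1) * A ^ 962 * (1 + Real.log N) ^ 27 := by gcongr; linarith

theorem Sepf.symm {N : ℕ} {c : ℝ} {ν1 ν2 : ℤ × ℤ → E3 → ℝ≥0∞} (h : Sepf N c ν1 ν2) : Sepf N c ν2 ν1 := by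
  intro k hk k' hk' h1 h2
  have := h k' hk' k hk h2 h1
  have e1 : ((k.1:ℝ) - k'.1) / N = -(((k'.1:ℝ) - k.1) / N) := by ring
  have e2 : ((k.2:ℝ) - k'.2) / N = -(((k'.2:ℝ) - k.2) / N) := by ring
  rw [e1, e2, abs_neg, abs_neg]
  exact this

/-- combination of the two one-sided estimates -/
theorem comb {Ac K e1 e2 μ1 μ2 N l : ℝ} (hAc : 1 ≤ Ac) (hK : 1 ≤ K) (he1 : 0 < e1) (he2 : 0 < e2) (he1' : e1 ≤ 1) (he2' : e2 ≤ 1)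
    (hμ1 : 0 < μ1) (hμ2 : 0 < μ2) (hN : 1 ≤ N) (hl : 1 ≤ l)
    (h1 : ((e1 * e2) ^ 9 * μ1 ^ 5 * μ2 ^ 9 * (N⁻¹) ^ 13) ^ 2 ≤ K * (Ac / e1) ^ 962 * l ^ 27)
    (h2 : ((e2 * e1) ^ 9 * μ2 ^ 5 * μ1 ^ 9 * (N⁻¹) ^ 13) ^ 2 ≤ K * (Ac / e2) ^ 962 * l ^ 27) :
    (μ1 * μ2) ^ 14 * (e1 * e2) ^ 500 ≤ (K * Ac ^ 962) * N ^ 26 * l ^ 500 := by
  have hN0 : 0 < N := by linarith
  have hAc0 : 0 < Ac := by linarith
  have hK0 : 0 < K := by linarith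
  have hl0 : 0 < l := by linarith
  obtain ⟨d, hd⟩ : ∃ d, d = N⁻¹ := ⟨_, rfl⟩
  have hd0 : 0 < d := by rw [hd]; positivity
  have hdN : d * N = 1 := by rw [hd]; exact inv_mul_cancel₀ hN0.ne'
  rw [← hd] at h1 h2
  have he : 0 < e1 * e2 := by positivity
  have he' : e1 * e2 ≤ 1 := mul_le_one₀ he1' he2.le he2'
  have g1 : e1 ^ 962 * ((e1 * e2) ^ 9 * μ1 ^ 5 * μ2 ^ 9 * d ^ 13) ^ 2 ≤ K * Ac ^ 962 * l ^ 27 := by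
    calc e1 ^ 962 * ((e1 * e2) ^ 9 * μ1 ^ 5 * μ2 ^ 9 * d ^ 13) ^ 2 ≤ e1 ^ 962 * (K * (Ac / e1) ^ 962 * l ^ 27) := by gcongr
      _ = K * (e1 ^ 962 * (Ac / e1) ^ 962) * l ^ 27 := by ring
      _ = K * Ac ^ 962 * l ^ 27 := by rw [← mul_pow, mul_div_cancel₀ _ he1.ne']
  have g2 : e2 ^ 962 * ((e2 * e1) ^ 9 * μ2 ^ 5 * μ1 ^ 9 * d ^ 13) ^ 2 ≤ K * Ac ^ 962 * l ^ 27 := by
    calc e2 ^ 962 * ((e2 * e1) ^ 9 * μ2 ^ 5 * μ1 ^ 9 * d ^ 13) ^ 2 ≤ e2 ^ 962 * (K * (Ac / e2) ^ 962 * l ^ 27) := by gcongr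
      _ = K * (e2 ^ 962 * (Ac / e2) ^ 962) * l ^ 27 := by ring
      _ = K * Ac ^ 962 * l ^ 27 := by rw [← mul_pow, mul_div_cancel₀ _ he2.ne']
  have g3 : ((μ1 * μ2) ^ 14 * (e1 * e2) ^ 499 * d ^ 26) ^ 2 ≤ (K * Ac ^ 962 * l ^ 27) ^ 2 := by
    calc ((μ1 * μ2) ^ 14 * (e1 * e2) ^ 499 * d ^ 26) ^ 2 =
        (e1 ^ 962 * ((e1 * e2) ^ 9 * μ1 ^ 5 * μ2 ^ 9 * d ^ 13) ^ 2) * (e2 ^ 962 * ((e2 * e1) ^ 9 * μ2 ^ 5 * μ1 ^ 9 * d ^ 13) ^ 2) := by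
          ring
      _ ≤ (K * Ac ^ 962 * l ^ 27) * (K * Ac ^ 962 * l ^ 27) := by gcongr
      _ = _ := by ring
  have g4 : (μ1 * μ2) ^ 14 * (e1 * e2) ^ 499 * d ^ 26 ≤ K * Ac ^ 962 * l ^ 27 :=
    le_of_sq_le_sq g3 (by positivity)
  have hdN26 : d ^ 26 * N ^ 26 = 1 := by rw [← mul_pow, hdN, one_pow]
  calc (μ1 * μ2) ^ 14 * (e1 * e2) ^ 500 ≤ (μ1 * μ2) ^ 14 * (e1 * e2) ^ 499 := by
        have := pow_le_pow_of_le_one he.le he' (by norm_num : 499 ≤ 500)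
        gcongr
    _ = ((μ1 * μ2) ^ 14 * (e1 * e2) ^ 499 * d ^ 26) * N ^ 26 := by
        rw [mul_assoc _ (d ^ 26), hdN26, mul_one]
    _ ≤ (K * Ac ^ 962 * l ^ 27) * N ^ 26 := by gcongr
    _ = (K * Ac ^ 962) * N ^ 26 * l ^ 27 := by ring
    _ ≤ (K * Ac ^ 962) * N ^ 26 * l ^ 500 := by
        have := pow_le_pow_right₀ hl (by norm_num : 27 ≤ 500)
        gcongr

theorem triv_big {Ac C e1 e2 μ1 μ2 N : ℝ} (hAc : 1 ≤ Ac) (hC : 1 ≤ C) (he1 : 0 < e1) (he2 : 0 < e2) (he1' : e1 ≤ 1)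
    (he2' : e2 ≤ 1) (hμ1 : 0 < μ1) (hμ2 : 0 < μ2) (hN : 1 ≤ N) (hm1 : μ1 ≤ C * N ^ 2) (hm2 : μ2 ≤ C * N ^ 2)
    (h : 1 < N⁻¹ * (Ac / e1) ^ 6) :
    (μ1 * μ2) ^ 14 * (e1 * e2) ^ 500 ≤ (C ^ 28 * Ac ^ 180) * N ^ 26 := by
  have hN0 : 0 < N := by linarith
  have hAc0 : 0 < Ac := by linarith
  have hC0 : 0 < C := by linarith
  have he : 0 < e1 * e2 := by positivity
  have h1 : e1 ^ 6 * N ≤ Ac ^ 6 := by
    rw [div_pow, ← mul_div_assoc, lt_div_iff₀ (by positivity), one_mul, inv_mul_eq_div, lt_div_iff₀ hN0] at h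
    exact h.le
  have h2 : (e1 * e2) ^ 500 ≤ e1 ^ 180 := by
    calc (e1 * e2) ^ 500 = e1 ^ 500 * e2 ^ 500 := mul_pow _ _ _
      _ ≤ e1 ^ 180 * 1 := by
          have a := pow_le_pow_of_le_one he1.le he1' (by norm_num : 180 ≤ 500)
          have b : e2 ^ 500 ≤ 1 := pow_le_one₀ he2.le he2'
          gcongr
      _ = _ := mul_one _
  have h3 : e1 ^ 180 * N ^ 30 ≤ Ac ^ 180 := by
    calc e1 ^ 180 * N ^ 30 = (e1 ^ 6 * N) ^ 30 := by ring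
      _ ≤ (Ac ^ 6) ^ 30 := by gcongr
      _ = Ac ^ 180 := by ring
  calc (μ1 * μ2) ^ 14 * (e1 * e2) ^ 500 ≤ ((C * N ^ 2) * (C * N ^ 2)) ^ 14 * e1 ^ 180 := by gcongr
    _ = C ^ 28 * (e1 ^ 180 * N ^ 30) * N ^ 26 := by ring
    _ ≤ C ^ 28 * Ac ^ 180 * N ^ 26 := by gcongr

theorem triv_small {a b Q R l : ℝ} (ha : 0 ≤ a) (ha1 : a ≤ 1) (hb : 0 ≤ b) (hb1 : b ≤ 1) (hQ : 1 ≤ Q) (hR : 1 ≤ R) (hl : 1 ≤ l)
    (n m : ℕ) : a ^ n * b ^ m ≤ Q * R * l := by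
  have h1 : a ^ n ≤ 1 := pow_le_one₀ ha ha1
  have h2 : b ^ m ≤ 1 := pow_le_one₀ hb hb1
  have h3 : a ^ n * b ^ m ≤ 1 * 1 := by gcongr
  have h4 : 1 ≤ Q * R := one_le_mul_of_one_le_of_one_le hQ hR
  have h5 : 1 ≤ Q * R * l := one_le_mul_of_one_le_of_one_le h4 hl
  linarith

theorem absorb1 {x P Q R l : ℝ} (hP : 0 ≤ P) (hQ : 0 ≤ Q) (hR : 0 ≤ R) (hl : 1 ≤ l) (h : x ≤ Q * R) :
    x ≤ (P + Q + 1) * R * l := by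
  refine h.trans ?_
  calc Q * R = Q * R * 1 := (mul_one _).symm
    _ ≤ (P + Q + 1) * R * l := by gcongr; linarith

theorem absorb2 {x P Q R l : ℝ} (hP : 0 ≤ P) (hQ : 0 ≤ Q) (hR : 0 ≤ R) (hl : 1 ≤ l) (h : x ≤ P * R * l) :
    x ≤ (P + Q + 1) * R * l := by
  refine h.trans ?_
  have : 0 ≤ l := by linarith
  gcongr
  linarith

/-- the nontrivial part -/
theorem geo_pos {c C1 C T0 Ac K : ℝ} (hC : 1 ≤ C) (hCC : C1 ≤ C) (hAc : 1 ≤ Ac) (hK : 1 ≤ K)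
    (hside : ∀ (N : ℕ) (H : Hyp), 1 ≤ N → H.ok → ∀ (ν1 ν2 : ℤ × ℤ → E3 → ℝ≥0∞), Dens N C ((N:ℝ)⁻¹) ν1 → Dens N C ((N:ℝ)⁻¹) ν2 →
    Sepf N c ν1 ν2 → ∀ (X : Set E4) (μ1 μ2 e1 e2 : ℝ), MeasurableSet X → (∀ z ∈ X, 1 ≤ H.tm z ∧ H.tm z ≤ T0) →
    0 < μ1 → 0 < μ2 → 0 < e1 → 0 < e2 → e1 ≤ 1 → e2 ≤ 1 → 1 ≤ μ1 * μ2 →
    (∀ z ∈ X, ENNReal.ofReal μ1 ≤ H.W N ν1 z ∧ H.W N ν1 z ≤ ENNReal.ofReal (C * μ1)) →
    (∀ z ∈ X, ENNReal.ofReal μ2 ≤ H.W N ν2 z) →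
    ENNReal.ofReal e1 * Eng N ν1 ≤ ENNReal.ofReal μ1 * volume X →
    ENNReal.ofReal e2 * Eng N ν2 ≤ ENNReal.ofReal μ2 * volume X → Eng N ν2 ≠ 0 →
    (N:ℝ)⁻¹ * (Ac / e1) ^ 6 ≤ 1 → (N:ℝ)⁻¹ * (Ac / e2) ^ 6 ≤ 1 →
    μ1 * ((N:ℝ)⁻¹) ^ 2 ≤ C → μ2 * ((N:ℝ)⁻¹) ^ 2 ≤ C →
    ((e1 * e2) ^ 9 * μ1 ^ 5 * μ2 ^ 9 * ((N:ℝ)⁻¹) ^ 13) ^ 2 ≤ K * (Ac / e1) ^ 962 * (1 + Real.log N) ^ 27)
    {N : ℕ} {H : Hyp} (hN : 1 ≤ N) (hH : H.ok) {ν1 ν2 : ℤ × ℤ → E3 → ℝ≥0∞} (h1' : Dens N C ((N:ℝ)⁻¹) ν1)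
    (h2' : Dens N C ((N:ℝ)⁻¹) ν2) (hsep : Sepf N c ν1 ν2) {X : Set E4} {μ1 μ2 e1 e2 : ℝ} (mX : MeasurableSet X)
    (hX : ∀ z ∈ X, 1 ≤ H.tm z ∧ H.tm z ≤ T0) (hμ1' : 0 < μ1) (hμ2' : 0 < μ2) (he1p : 0 < e1) (he2p : 0 < e2)
    (he1' : e1 ≤ 1) (he2' : e2 ≤ 1) (hμ : 1 ≤ μ1 * μ2)
    (hW1 : ∀ z ∈ X, ENNReal.ofReal μ1 ≤ H.W N ν1 z ∧ H.W N ν1 z ≤ ENNReal.ofReal (C1 * μ1))
    (hW2 : ∀ z ∈ X, ENNReal.ofReal μ2 ≤ H.W N ν2 z ∧ H.W N ν2 z ≤ ENNReal.ofReal (C1 * μ2))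
    (hE1 : ENNReal.ofReal e1 * Eng N ν1 ≤ ENNReal.ofReal μ1 * volume X)
    (hE2 : ENNReal.ofReal e2 * Eng N ν2 ≤ ENNReal.ofReal μ2 * volume X)
    (hE01 : Eng N ν1 ≠ 0) (hE02 : Eng N ν2 ≠ 0)
    (hb : (N:ℝ)⁻¹ * (Ac / e1) ^ 6 ≤ 1) (hb' : (N:ℝ)⁻¹ * (Ac / e2) ^ 6 ≤ 1)
    (hm1 : μ1 ≤ C * (N:ℝ) ^ 2) (hm2 : μ2 ≤ C * (N:ℝ) ^ 2) :
    (μ1 * μ2) ^ 14 * (e1 * e2) ^ 500 ≤ (K * Ac ^ 962) * (N:ℝ) ^ 26 * (1 + Real.log N) ^ 500 := by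
  have hN0 : (0:ℝ) < N := by exact_mod_cast hN
  have hN1 : (1:ℝ) ≤ N := by exact_mod_cast hN
  have hl : 1 ≤ 1 + Real.log N := by linarith [Real.log_nonneg hN1]
  have hup : ∀ (μ : ℝ) (w : ℝ≥0∞), 0 ≤ μ → w ≤ ENNReal.ofReal (C1 * μ) → w ≤ ENNReal.ofReal (C * μ) := fun μ w h0 h =>
    h.trans (ENNReal.ofReal_le_ofReal (by gcongr))
  have hd1 : μ1 * ((N:ℝ)⁻¹) ^ 2 ≤ C := by
    rw [inv_pow, ← div_eq_mul_inv, div_le_iff₀ (by positivity)]; exact hm1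
  have hd2 : μ2 * ((N:ℝ)⁻¹) ^ 2 ≤ C := by
    rw [inv_pow, ← div_eq_mul_inv, div_le_iff₀ (by positivity)]; exact hm2
  have g1 := hside N H hN hH ν1 ν2 h1' h2' hsep X μ1 μ2 e1 e2 mX hX hμ1' hμ2' he1p he2p he1' he2' hμ
    (fun z hz => ⟨(hW1 z hz).1, hup _ _ hμ1'.le (hW1 z hz).2⟩) (fun z hz => (hW2 z hz).1) hE1 hE2 hE02 hb hb' hd1 hd2
  have g2 := hside N H hN hH ν2 ν1 h2' h1' hsep.symm X μ2 μ1 e2 e1 mX hX hμ2' hμ1' he2p he1p he2' he1' (by rw [mul_comm]; exact hμ)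
    (fun z hz => ⟨(hW2 z hz).1, hup _ _ hμ2'.le (hW2 z hz).2⟩) (fun z hz => (hW1 z hz).1) hE2 hE1 hE01 hb' hb hd2 hd1
  exact comb hAc hK he1p he2p he1' he2' hμ1' hμ2' hN1 hl g1 g2

/-- **the geometric estimate** -/
theorem stGEO : StGEO 500 := by
  intro c C1 T0 hc hT
  obtain ⟨C, hC, hCC⟩ : ∃ C : ℝ, 1 ≤ C ∧ C1 ≤ C := ⟨max C1 1, le_max_right _ _, le_max_left _ _⟩
  obtain ⟨Ac, K, hAc, hK, hside⟩ := side hc hC hT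
  have hC0 : 0 < C := by linarith
  obtain ⟨KA, hKA⟩ : ∃ KA, KA = K * Ac ^ 962 := ⟨_, rfl⟩
  obtain ⟨KC, hKC⟩ : ∃ KC, KC = C ^ 28 * Ac ^ 180 := ⟨_, rfl⟩
  have hKA0 : 0 ≤ KA := by rw [hKA]; positivity
  have hKC0 : 0 ≤ KC := by rw [hKC]; positivity
  refine ⟨KA + KC + 1, by positivity, ?_⟩
  intro N H hN hH ν1 ν2 h1 h2 hsep X μ1 μ2 e1 e2 mX hX hμ1 hμ2 he1 he2 he1' he2' hW1 hW2 hE1 hE2 hE01 hE02
  have hN0 : (0:ℝ) < N := by exact_mod_cast hN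
  have hN1 : (1:ℝ) ≤ N := by exact_mod_cast hN
  have hl : 1 ≤ 1 + Real.log N := by linarith [Real.log_nonneg hN1]
  obtain ⟨LL, hLL⟩ : ∃ LL, LL = (1 + Real.log N) ^ 500 := ⟨_, rfl⟩
  have hl500 : 1 ≤ LL := by rw [hLL]; exact one_le_pow₀ hl
  have hN26 : 1 ≤ (N:ℝ) ^ 26 := one_le_pow₀ hN1
  have hR : 0 ≤ (KA + KC + 1) * (N:ℝ) ^ 26 * LL := by positivity
  rw [← hLL]
  rcases hμ1.eq_or_lt with hz | hμ1'
  · rw [← hz, zero_mul, zero_pow (by norm_num), zero_mul]; exact hR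
  rcases hμ2.eq_or_lt with hz | hμ2'
  · rw [← hz, mul_zero, zero_pow (by norm_num), zero_mul]; exact hR
  rcases he1.eq_or_lt with hz | he1p
  · rw [← hz, zero_mul, zero_pow (n := 500) (by norm_num), mul_zero]; exact hR
  rcases he2.eq_or_lt with hz | he2p
  · rw [← hz, mul_zero, zero_pow (n := 500) (by norm_num), mul_zero]; exact hR
  have h1' := h1.mono hCC
  have h2' := h2.mono hCC
  -- a point of `X`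
  obtain ⟨z, hz⟩ : X.Nonempty := by
    by_contra hne
    rw [Set.not_nonempty_iff_eq_empty] at hne
    rw [hne, measure_empty, mul_zero, nonpos_iff_eq_zero, mul_eq_zero] at hE1
    rcases hE1 with h | h
    · rw [ENNReal.ofReal_eq_zero] at h; linarith
    · exact hE01 h
  have hm1 : μ1 ≤ C * (N:ℝ) ^ 2 :=
    (ENNReal.ofReal_le_ofReal_iff (by positivity)).1 ((hW1 z hz).1.trans (W_le hC0.le h1' z))
  have hm2 : μ2 ≤ C * (N:ℝ) ^ 2 :=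
    (ENNReal.ofReal_le_ofReal_iff (by positivity)).1 ((hW2 z hz).1.trans (W_le hC0.le h2' z))
  have hee : e1 * e2 ≤ 1 := mul_le_one₀ he1' he2 he2'
  have hee0 : 0 < e1 * e2 := mul_pos he1p he2p
  have hQ : 1 ≤ KA + KC + 1 := by linarith
  rcases lt_or_ge (μ1 * μ2) 1 with hμ | hμ
  · exact triv_small (by positivity) hμ.le hee0.le hee hQ hN26 hl500 14 500
  rcases lt_or_ge 1 ((N:ℝ)⁻¹ * (Ac / e1) ^ 6) with hb | hb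
  · refine absorb1 hKA0 hKC0 (by positivity) hl500 ?_
    rw [hKC]
    exact triv_big hAc hC he1p he2p he1' he2' hμ1' hμ2' hN1 hm1 hm2 hb
  rcases lt_or_ge 1 ((N:ℝ)⁻¹ * (Ac / e2) ^ 6) with hb' | hb'
  · refine absorb1 hKA0 hKC0 (by positivity) hl500 ?_
    rw [hKC, mul_comm μ1, mul_comm e1]
    exact triv_big hAc hC he2p he1p he2' he1' hμ2' hμ1' hN1 hm2 hm1 hb'
  refine absorb2 hKA0 hKC0 (by positivity) hl500 ?_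
  rw [hKA, hLL]
  exact geo_pos hC hCC hAc hK hside hN hH h1' h2' hsep mX hX hμ1' hμ2' he1p he2p he1' he2' hμ hW1 hW2 hE1 hE2 hE01 hE02 hb hb'
    hm1 hm2

end Vale.Agent.P106.G
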