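import Vale.Agent.P106.G.KinL

/-! # Kinetic densities: the statement [KIN] -/

open MeasureTheory Complex Set Filter
open scoped ENNReal NNReal ContDiff FourierTransform Topology SchwartzMap

set_option linter.all false

namespace Vale.Agent.P106.G

open Vale.Agent.P117 (Adm contDiff_st cv cv_schwartz_eq)

theorem four_of {a : ℝ} : (4:ℝ≥0∞) * ENNReal.ofReal a = ENNReal.ofReal (4 * a) := by
  rw [ENNReal.ofReal_mul (by norm_num)]; norm_num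

theorem stKIN : StKIN := by
  intro ε hε
  obtain ⟨n0, hn0⟩ := exists_nat_ge (6 / ε)
  refine ⟨n0 + 6, ?_⟩
  intro c0 B M φ1 φ2 hc hc1 hB hM h1 h2
  obtain ⟨M', rfl⟩ : ∃ M', M = M' + 2 := ⟨M - 2, by omega⟩
  have hM4 : 4 ≤ M' := by omega
  have hM' : 6 / ε + 4 ≤ M' := by
    have : ((n0 + 4 : ℕ) : ℝ) ≤ M' := by exact_mod_cast (by omega : n0 + 4 ≤ M')
    push_cast at this
    linarith
  obtain ⟨r, hr, hr', hPsi⟩ := Psi_low
  obtain ⟨BK, hBK, hBk⟩ := ker_L1 (r1_chiP hc hc1).toRcut h1.vc h2.vc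
  obtain ⟨C1, hC1, hS⟩ := sum_nu hc hc1 hε hM'
  set r1 := min (r / 12) (min (c0 / 8) (1/64)) with hr1d
  have hr1 : 0 < r1 := by positivity
  have hr1a : 12 * r1 ≤ r := by
    have : r1 ≤ r / 12 := min_le_left _ _
    linarith
  have hr1b : r1 ≤ c0 / 8 := (min_le_right _ _).trans (min_le_left _ _)
  have hr1c : r1 ≤ 1/64 := (min_le_right _ _).trans (min_le_right _ _)
  obtain ⟨C2, hC2, hK⟩ := mu_am hc hc1 M' hB hr1
  obtain ⟨C3, hC3, hA⟩ := aP_L2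
  set w := (cW M').toReal with hw
  have hw0 : 0 < w := ENNReal.toReal_pos (cW_pos M').ne' (cW_lt hM4).ne
  have hwe : cW M' = ENNReal.ofReal w := (ENNReal.ofReal_toReal (cW_lt hM4).ne).symm
  set A0 := BK + 1 with hA0
  have hA00 : 0 ≤ A0 := by positivity
  have t1 : 0 ≤ 4 * (C1 * A0 ^ 2) := by positivity
  have t2 : 0 ≤ (1 + 10 * B) ^ M' := by positivity
  have t3 : 0 ≤ 4 * w * A0 ^ 2 := by positivity
  have t4 : 0 ≤ C3 / r1 * w⁻¹ := by positivity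
  refine ⟨1 + 4 * (C1 * A0 ^ 2) + C2 + (1 + 10 * B) ^ M' + 4 * w * A0 ^ 2 + C3 / r1 * w⁻¹, 32, by linarith, by norm_num, ?_⟩
  intro N R H h hN hNR hRN hH hh hh1
  set C := 1 + 4 * (C1 * A0 ^ 2) + C2 + (1 + 10 * B) ^ M' + 4 * w * A0 ^ 2 + C3 / r1 * w⁻¹ with hCd
  have hN1 : 1 ≤ N := by omega
  have hN0 : (0:ℝ) < N := by exact_mod_cast hN1
  have hN1' : (1:ℝ) ≤ N := by exact_mod_cast hN1
  have hR1 : 1 ≤ R := by nlinarith
  have hR : 0 < R := by linarith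
  have hκ : 0 < r1 / R := by positivity
  have hκc : r1 / R ≤ c0 / 8 := (div_le_self hr1.le hR1).trans hr1b
  have hκN : r1 / R ≤ 1/64 / (N:ℝ) ^ 2 := div_le_div₀ (by norm_num) hr1c (by positivity) hNR
  have hsmP : Sm (H.mu (chiP c0) φ1 φ2) := sm_mu hH.ok (r1_chiP hc hc1).toRcut h1.vc h2.vc
  have hkn : kn (H.mu (chiP c0) φ1 φ2) ≤ ENNReal.ofReal A0 := by
    have := hBk _ hH.ok 0
    rw [em_zero] at this
    refine this.trans (ENNReal.ofReal_le_ofReal ?_)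
    simp [hA0]
  set h0 := mop (H.mu (chiP c0) φ1 φ2) h with hh0d
  have hh0 : Adm volume h0 := mop_adm hsmP hh
  have hh0b : ∀ x, ‖h0 x‖ ≤ A0 := by
    intro x
    have := mop_sup hsmP hh hkn hh1 x
    rw [mul_one, ← ofReal_norm, ENNReal.ofReal_le_ofReal_iff hA00] at this
    exact this
  have hh0L : ∫⁻ x, ‖h0 x‖ₑ ^ 2 ≤ ENNReal.ofReal (A0 ^ 2) * ∫⁻ x, ‖h x‖ₑ ^ 2 := by
    have := mop_Lp hsmP hh (p := 2) (by norm_num) hA00 hkn
    simp only [Real.rpow_ofNat, ENNReal.rpow_ofNat] at this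
    exact this
  have hb := sf_le hN1
  have hb1 : ∀ j, |sf N j| ≤ 1 / N := fun j => (hb j).trans (by apply div_le_div_of_nonneg_right _ hN0.le; norm_num)
  have h8 : 1/4 / (N:ℝ) ≤ 1/8 := by
    have : (32:ℝ) ≤ N := by exact_mod_cast hN
    rw [div_le_iff₀ hN0]; linarith
  refine ⟨nud H c0 N M' (sK φ1 φ2 N) h0, am H c0 N (sK φ1 φ2 N) (r1 / R) h0, fun o => sf N o.1, fun o => sf N o.2,
    fun o => ⟨hb1 _, hb1 _⟩, fun o => am_Amp hH hc hc1 hN h1 h2 hκ hκc hκN hh0 o,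
    fun o ζ hζ => am_vel hH hc hc1 hN h1 h2 hκ hκc hκN hh0 o hζ, ?_, ?_, nud_meas hH hc hc1 hN h1 h2 hh0 M', ?_, ?_, ?_, ?_, ?_⟩
  · intro t ht y hy
    exact pw_am hH hc hc1 hN h1 h2 hr1 hR hr1a hPsi hκc hκN hh ht (mem_ball_zero_iff.1 hy).le
  · intro o z hz
    refine (hK H N (M' + 2) φ1 φ2 o R h0 z hH hN le_rfl h1 h2 hR hRN hκc hκN hh0 hz).trans ?_
    exact mul_le_mul' (ENNReal.ofReal_le_ofReal (by linarith)) le_rfl
  · intro k ⟨y, hy⟩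
    have hk : k ∈ sK φ1 φ2 N := by
      by_contra hcon
      exact hy (nud_neg hcon y)
    obtain ⟨_, ⟨v1, g1, g2⟩, v2, g3, g4⟩ := mem_sK.1 hk
    have e3 : 2 / (N:ℝ) ≤ 3 / N := by apply div_le_div_of_nonneg_right _ hN0.le; norm_num
    exact ⟨v1, v2, g1, g3, g2.trans e3, g4.trans e3⟩
  · intro k y y' hyy
    by_cases hk : k ∈ sK φ1 φ2 N
    · rw [nud_pos hk, nud_pos hk, Finset.mul_sum]
      refine Finset.sum_le_sum fun o _ => ?_
      have hL : ‖y - y'‖ / N ≤ 10 * B := by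
        rw [div_le_iff₀ hN0]
        refine hyy.trans ?_
        rw [div_le_iff₀ hN0]
        nlinarith
      refine (nu_slow M' hN1 (gp H c0 N h0 o k) y y' hL).trans ?_
      exact mul_le_mul' (ENNReal.ofReal_le_ofReal (by linarith)) le_rfl
    · rw [nud_neg hk]; exact zero_le
  · intro y
    have hs := nud_sum hH hc hc1 hN h1 h2 hh0 (ε := ε) (M' := M') (C := C1) (A0 := A0)
      (fun b1 b2 s y hs hC => hS H N b1 b2 s h0 A0 y hH hN1 hs hC hh0 hh0b) y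
    refine hs.trans ?_
    rw [four_of]
    apply ENNReal.ofReal_le_ofReal
    have hNe : 0 ≤ (N:ℝ) ^ ε := by positivity
    have : 4 * (C1 * A0 ^ 2 * (N:ℝ) ^ ε) = 4 * (C1 * A0 ^ 2) * (N:ℝ) ^ ε := by ring
    rw [this]
    exact mul_le_mul_of_nonneg_right (by linarith) hNe
  · refine (nud_eng_le hH hc hc1 hN h1 h2 hh0 M').trans ?_
    rw [hwe, four_of]
    calc ENNReal.ofReal (4 * w) * ∫⁻ u, ‖h0 u‖ₑ ^ 2 ≤ ENNReal.ofReal (4 * w) * (ENNReal.ofReal (A0 ^ 2) * ∫⁻ x, ‖h x‖ₑ ^ 2) :=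
          mul_le_mul' le_rfl hh0L
      _ = ENNReal.ofReal (4 * w * A0 ^ 2) * ∫⁻ x, ‖h x‖ₑ ^ 2 := by
          rw [← mul_assoc, ← ENNReal.ofReal_mul (by positivity)]
      _ ≤ _ := mul_le_mul' (ENNReal.ofReal_le_ofReal (by linarith)) le_rfl
  · intro o
    refine (am_L2 hH hc hc1 hN h1 h2 hκ hκc hκN hh0 o (C := C3) (fun f hf => hA H _ _ _ f hH.ok.bd
      ((hb _).trans h8) ((hb _).trans h8) hκ hf)).trans ?_
    calc ENNReal.ofReal (C3 * (r1 / R)⁻¹) * ∑ k ∈ sK φ1 φ2 N, ∫⁻ u, ‖gp H c0 N h0 o k u‖ₑ ^ 2 ≤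
        ENNReal.ofReal (C3 * (r1 / R)⁻¹) * (ENNReal.ofReal w⁻¹ * Eng N (nud H c0 N M' (sK φ1 φ2 N) h0)) :=
          mul_le_mul' le_rfl (gp_eng hH hc hc1 hN h1 h2 hh0 hM4 o)
      _ = ENNReal.ofReal (C3 / r1 * w⁻¹ * R) * Eng N (nud H c0 N M' (sK φ1 φ2 N) h0) := by
          rw [← mul_assoc, ← ENNReal.ofReal_mul (by positivity)]
          congr 2
          field_simp
      _ ≤ _ := mul_le_mul' (ENNReal.ofReal_le_ofReal (mul_le_mul_of_nonneg_right (by linarith) hR.le)) le_rfl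

end Vale.Agent.P106.G
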