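import Vale.Agent.P106.G.FinA
import Vale.Agent.P106.G.Kin
import Vale.Agent.P106.G.BrF
import Vale.Agent.P106.G.Geo

/-! # The final theorem: local smoothing below the interpolation line in three space dimensions -/

open MeasureTheory Complex Set Filter
open scoped ENNReal NNReal ContDiff FourierTransform SchwartzMap Topology

set_option linter.all false

namespace Vale.Agent.P106.G

open Vale.Agent.P117 Vale.Agent.P106 LpgFin

/-- the local smoothing estimate with slope `13/28` for `2 < p ≤ 2 + 14/285`, and its consequence at `p = 3` -/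
theorem ls_final : (∀ p : ℝ, 2 < p → p ≤ 2 + 14 / 285 → ∀ α, 13 / 28 * (1 / 2 - 1 / p) < α → LS p α) ∧
    ((∀ α, 1 / 10 < α → LS (10 / 3) α) → ∀ α : ℝ, 1 / 12 - 1 / 13176 < α → LS 3 α) := by
  have h := LpgFin.final_Cx 500 (fun p h2 hp α hα => stBR_of (by norm_num) stGEO stKIN h2 hp hα)
  refine ⟨fun p h2 hp α hα => h.1 p h2 (hp.trans (by norm_num)) α hα, fun h0 α hα => h.2 h0 α (lt_of_le_of_lt (le_of_eq (by norm_num)) hα)⟩

end Vale.Agent.P106.G
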