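import Vale.Agent.P106.G.NikC4
import Vale.Agent.P106.G.NikDefs

/-! # [NIK]: (N3) + (N4) in the form of `NikDefs` -/

open MeasureTheory Complex Set
open scoped ENNReal NNReal

set_option linter.all false

namespace Vale.Agent.P106.G

theorem Hyp.cv_eq_vel (H : Hyp) (v1 v2 : ℝ) : H.cv v1 v2 = H.vel v1 v2 := rfl

theorem n34 : StN34 := by
  obtain ⟨C, hC, h⟩ := nik_ls
  refine ⟨C, hC, ?_⟩
  intro H N T ξ a hH hN hT
  have hn0 : (0:ℝ) < N := by exact_mod_cast hN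
  rcases eq_or_ne ξ 0 with rfl | hξ
  · simp
  have hx : 0 < ‖ξ‖ := norm_pos_iff.2 hξ
  have h1 := h N H T ξ a hN hH hT hξ
  have h2 : ∀ k : ℤ × ℤ, inner ℝ ξ (H.vk N k) = inner ℝ (H.cv (k.1 / N) (k.2 / N)) ξ := fun k => real_inner_comm _ _
  simp only [h2]
  refine (mul_le_mul_right h1 _).trans ?_
  rw [← mul_assoc, ← ENNReal.ofReal_mul (by positivity)]
  refine mul_le_mul_left (ENNReal.ofReal_le_ofReal (le_of_eq ?_)) _
  field_simp

end Vale.Agent.P106.G
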