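import Vale.Agent.P106.G.NikD
import Vale.Agent.P106.G.NikC5

/-! # The box estimate -/

namespace Vale.Agent.P106.G

theorem nikt : StNIKt := nikt_of n34

theorem nik : StNIK := nik_of nikt

end Vale.Agent.P106.G
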