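import Vale.Agent.P106.G.Fin
import Vale.Agent.P106.G.BrN4
import Vale.Agent.P106.G.Nik

/-! # The estimate at the exponent 12/5 -/

namespace Vale.Agent.P106.G

open LpgFin

/-- the local smoothing estimate at the exponent `12/5` -/
theorem ls_125 : ∀ α : ℝ, 1 / 24 < α → LS (12 / 5) α :=
  (LpgFin.LS_of_BR (p := 12 / 5) (s := 1 / 24) (by norm_num) (by norm_num) (fun α hα => stBR125 nik stKIN hα)).2

end Vale.Agent.P106.G
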