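import Vale.Agent.P106.G.Lpg
import Vale.Agent.P106.A.Fin

/-! # The local smoothing estimate for Schwartz functions -/

open MeasureTheory Complex Set
open scoped ENNReal NNReal FourierTransform SchwartzMap

set_option linter.all false

namespace Vale.Agent.P106.G.LpgFin

/-- three-dimensional euclidean space -/
abbrev R3 := EuclideanSpace ℝ (Fin 3)

/-- the function belongs to the Schwartz space of three variables -/
def IsSchwartz (f : R3 → ℂ) : Prop := ∃ g : 𝓢(R3, ℂ), (g : R3 → ℂ) = f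

/-- the Fourier transform without the factor 2π in the exponent -/
noncomputable def ft (f : R3 → ℂ) (ξ : R3) : ℂ :=
  ∫ x : R3, cexp (-(I * ((inner ℝ x ξ : ℝ) : ℂ))) * f x

/-- the half-wave evolution -/
noncomputable def halfWave (f : R3 → ℂ) (x : R3) (t : ℝ) : ℂ :=
  ((1 / (2 * Real.pi) ^ 3 : ℝ) : ℂ) *
    ∫ ξ : R3, cexp (I * ((inner ℝ x ξ + t * ‖ξ‖ : ℝ) : ℂ)) * ft f ξ

/-- the Fourier multiplier with symbol (1 + |ξ|^2)^(α/2) -/
noncomputable def bessel (α : ℝ) (f : R3 → ℂ) (x : R3) : ℂ :=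
  ((1 / (2 * Real.pi) ^ 3 : ℝ) : ℂ) *
    ∫ ξ : R3, cexp (I * ((inner ℝ x ξ : ℝ) : ℂ)) * ((((1 + ‖ξ‖ ^ 2) ^ (α / 2) : ℝ) : ℂ) * ft f ξ)

/-- the norm of the Lebesgue space of exponent p on the whole space -/
noncomputable def lpNorm (p : ℝ) (f : R3 → ℂ) : ℝ≥0∞ := eLpNorm f (ENNReal.ofReal p) volume

/-- the norm of the Lebesgue space of exponent p on the product of the space and the time interval [1,2] -/
noncomputable def slabNorm (p : ℝ) (u : R3 → ℝ → ℂ) : ℝ≥0∞ :=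
  eLpNorm (fun z : R3 × ℝ => u z.1 z.2) (ENNReal.ofReal p) (volume.restrict (univ ×ˢ Icc (1:ℝ) 2))

theorem bessel_eq (α : ℝ) (f : 𝓢(R3, ℂ)) : bessel α f = (Vale.Agent.P106.jS α f : R3 → ℂ) := by
  rw [Vale.Agent.P106.jS_eq]
  ext x
  unfold bessel ft
  rw [Vale.Agent.P106.norml (f : R3 → ℂ) (fun ξ => (((1 + ‖ξ‖ ^ 2) ^ (α / 2) : ℝ) : ℂ)) x]
  have e : (fun η : R3 => (((1 + ‖(2 * Real.pi) • η‖ ^ 2) ^ (α / 2) : ℝ) : ℂ) * 𝓕 (f : R3 → ℂ) η) =
      fun η => Vale.Agent.P106.jw α η * 𝓕 (f : R3 → ℂ) η := by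
    ext η
    unfold Vale.Agent.P106.jw
    have hpi := Real.pi_pos
    rw [norm_smul, Real.norm_of_nonneg (by positivity)]
    have : 1 + (2 * Real.pi * ‖η‖) ^ 2 = 1 + 4 * Real.pi ^ 2 * ‖η‖ ^ 2 := by ring
    rw [this]
  rw [e]

theorem halfWave_eq (α : ℝ) (f : 𝓢(R3, ℂ)) (x : R3) (t : ℝ) :
    halfWave f x t = Vale.Agent.P106.uu α (Vale.Agent.P106.jS α f) t x := by
  rw [Vale.Agent.P106.uu_jS]
  unfold halfWave ft
  have h := Vale.Agent.P106.norml (f : R3 → ℂ) (fun ξ => cexp (I * ((t * ‖ξ‖ : ℝ) : ℂ))) x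
  have e1 : (fun η : R3 => cexp (I * ((t * ‖(2 * Real.pi) • η‖ : ℝ) : ℂ)) * 𝓕 (f : R3 → ℂ) η) =
      fun η => cexp (2 * Real.pi * I * (t * ‖η‖ : ℝ)) * 𝓕 (f : R3 → ℂ) η := by
    ext η
    have hpi := Real.pi_pos
    rw [norm_smul, Real.norm_of_nonneg (by positivity)]
    congr 2
    push_cast
    ring
  rw [e1] at h
  rw [← h]
  congr 1
  congr 1
  ext ξ
  rw [← mul_assoc, ← Complex.exp_add]
  congr 2
  push_cast
  ring

theorem slab_eq (p : ℝ) (α : ℝ) (f : 𝓢(R3, ℂ)) : slabNorm p (halfWave f) =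
    eLpNorm (fun z : ℝ × R3 => Vale.Agent.P106.uu α (Vale.Agent.P106.jS α f) z.1 z.2) (ENNReal.ofReal p)
      Vale.Agent.P106.muS := by
  unfold slabNorm Vale.Agent.P106.muS
  have h1 : (volume.restrict (univ ×ˢ Icc (1:ℝ) 2) : Measure (R3 × ℝ)) =
      (volume : Measure R3).prod (volume.restrict (Icc (1:ℝ) 2)) := by
    rw [Measure.volume_eq_prod, ← Measure.prod_restrict, Measure.restrict_univ]
  rw [h1]
  have h2 : MeasurePreserving (Prod.swap : R3 × ℝ → ℝ × R3)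
      ((volume : Measure R3).prod (volume.restrict (Icc (1:ℝ) 2)))
      ((volume.restrict (Icc (1:ℝ) 2)).prod (volume : Measure R3)) := Measure.measurePreserving_swap
  have h3 := (MeasurableEquiv.prodComm (α := R3) (β := ℝ)).measurableEmbedding.eLpNorm_map_measure
    (p := ENNReal.ofReal p) (μ := (volume : Measure R3).prod (volume.restrict (Icc (1:ℝ) 2)))
    (g := fun z : ℝ × R3 => Vale.Agent.P106.uu α (Vale.Agent.P106.jS α f) z.1 z.2)
  have h4 : Measure.map (MeasurableEquiv.prodComm (α := R3) (β := ℝ))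
      ((volume : Measure R3).prod (volume.restrict (Icc (1:ℝ) 2))) =
      (volume.restrict (Icc (1:ℝ) 2)).prod (volume : Measure R3) := h2.map_eq
  rw [h4] at h3
  rw [h3]
  congr 1
  ext z
  exact halfWave_eq α f z.1 z.2

/-- local smoothing for general Schwartz functions from the frequency localized estimate -/
theorem gen_final {p α e : ℝ} (hp : 2 < p) (he : 0 < e) (heα : e < α) (hGL : StGL p e Vale.Agent.P106.X0) :
    ∃ C : ℝ≥0, ∀ f : R3 → ℂ, IsSchwartz f → slabNorm p (halfWave f) ≤ C * lpNorm p (bessel α f) := by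
  obtain ⟨C, hC, h⟩ := gen_LS hp he heα hGL
  refine ⟨Real.toNNReal C, ?_⟩
  rintro _ ⟨f, rfl⟩
  have h1 := h _ (Vale.Agent.P117.adm_sch (Vale.Agent.P106.jS α f))
    (Vale.Agent.P117.fint_sch (Vale.Agent.P106.jS α f))
  rw [slab_eq p α, bessel_eq]
  unfold lpNorm
  exact h1

end Vale.Agent.P106.G.LpgFin
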