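import Vale.Agent.P106.G.IntC
import Vale.Agent.P106.G.LpgFin

/-! # Interpolation of local smoothing estimates -/

open MeasureTheory Complex Set Filter
open scoped ENNReal NNReal ContDiff FourierTransform SchwartzMap Topology

set_option linter.all false

namespace Vale.Agent.P106.G

open Vale.Agent.P117 Vale.Agent.P106

theorem StGL_of_LSs {P α : ℝ} (hP : 1 ≤ P) (h : LSs P α) : StGL P α X0 :=
  of_GLn contDiff_X0.continuous compact_X0 hP (GLn_of_LS hP h)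

namespace LpgFin

/-- the estimate `(LS_{p,α})` -/
def LS (p α : ℝ) : Prop :=
  ∃ C : ℝ≥0, ∀ f : R3 → ℂ, IsSchwartz f → slabNorm p (halfWave f) ≤ C * lpNorm p (bessel α f)

theorem LSs_of_LS {p α : ℝ} (h : LS p α) : LSs p α := by
  obtain ⟨C, h⟩ := h
  refine ⟨C, C.2, ?_⟩
  intro f
  have h1 := h f ⟨f, rfl⟩
  rw [slab_eq p α, bessel_eq] at h1
  unfold lpNorm at h1
  simpa using h1

/-- `(LS_{p,α})` implies the frequency localized estimate with the same exponent -/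
theorem StGL_of_LS {p α : ℝ} (hp : 1 ≤ p) (h : LS p α) : StGL p α X0 := StGL_of_LSs hp (LSs_of_LS h)

/-- the frequency localized estimates imply `(LS_{p,α})` for larger exponents -/
theorem LS_of_StGL {p α e : ℝ} (hp : 2 < p) (he : 0 < e) (heα : e < α) (h : StGL p e X0) : LS p α :=
  gen_final hp he heα h

theorem exists_exps {θ a0 a1 α : ℝ} (hθ0 : 0 < θ) (hθ1 : θ < 1) (ha : 0 ≤ (1 - θ) * a0 + θ * a1)
    (hα : (1 - θ) * a0 + θ * a1 < α) :
    ∃ α0 α1 : ℝ, a0 < α0 ∧ a1 < α1 ∧ 0 < (1 - θ) * α0 + θ * α1 ∧ (1 - θ) * α0 + θ * α1 < α := by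
  set δ := (α - ((1 - θ) * a0 + θ * a1)) / 2 with hδ
  have hδ0 : 0 < δ := by rw [hδ]; linarith
  refine ⟨a0 + δ, a1 + δ, by linarith, by linarith, ?_, ?_⟩
  · have : (1 - θ) * (a0 + δ) + θ * (a1 + δ) = (1 - θ) * a0 + θ * a1 + δ := by ring
    rw [this]; linarith
  · have : (1 - θ) * (a0 + δ) + θ * (a1 + δ) = (1 - θ) * a0 + θ * a1 + δ := by ring
    rw [this, hδ]; linarith

/-- **interpolation** between a localized estimate and `(LS)` -/
theorem interp_mixed {p0 p1 p a0 a1 θ : ℝ} (hp0 : 1 < p0) (hp1 : 1 < p1) (hp2 : 2 < p) (hθ0 : 0 < θ) (hθ1 : θ < 1)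
    (hp : 1 / p = (1 - θ) / p0 + θ / p1) (ha : 0 ≤ (1 - θ) * a0 + θ * a1)
    (h0 : ∀ α, a0 < α → StGL p0 α X0) (h1 : ∀ α, a1 < α → LS p1 α) :
    ∀ α, (1 - θ) * a0 + θ * a1 < α → LS p α := by
  intro α hα
  obtain ⟨α0, α1, e0, e1, e2, e3⟩ := exists_exps hθ0 hθ1 ha hα
  exact LS_of_StGL hp2 e2 e3 (interp_GL contDiff_X0.continuous compact_X0 hp0 hp1 hθ0 hθ1 hp (h0 α0 e0)
    (StGL_of_LS hp1.le (h1 α1 e1)))

/-- **interpolation** of the local smoothing estimates -/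
theorem interp_LS {p0 p1 p a0 a1 θ : ℝ} (hp0 : 1 < p0) (hp1 : 1 < p1) (hp2 : 2 < p) (hθ0 : 0 < θ) (hθ1 : θ < 1)
    (hp : 1 / p = (1 - θ) / p0 + θ / p1) (ha : 0 ≤ (1 - θ) * a0 + θ * a1)
    (h0 : ∀ α, a0 < α → LS p0 α) (h1 : ∀ α, a1 < α → LS p1 α) :
    ∀ α, (1 - θ) * a0 + θ * a1 < α → LS p α :=
  interp_mixed hp0 hp1 hp2 hθ0 hθ1 hp ha (fun α hα => StGL_of_LS hp0.le (h0 α hα)) h1

/-- interpolation with the exponent `10/3`: a localized estimate with slope `s < 1/2` at `p0` close to `2` improves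
the bound `1/12` at `p = 3` -/
theorem cor3 {p0 s : ℝ} (h2 : 2 < p0) (h3 : p0 < 3) (hs : 0 ≤ s)
    (h0 : ∀ α, s * (1 / 2 - 1 / p0) < α → StGL p0 α X0) (h1 : ∀ α, 1 / 10 < α → LS (10 / 3) α) :
    ∀ α, 1 / 12 - (1 / 2 - s) * (1 / 2 - 1 / p0) * ((1 / 30) / (1 / p0 - 3 / 10)) < α → LS 3 α := by
  have hp00 : 0 < p0 := by linarith
  have e1 : 1 / 3 < 1 / p0 := one_div_lt_one_div_of_lt hp00 h3
  have e2 : 1 / p0 < 1 / 2 := one_div_lt_one_div_of_lt (by norm_num) h2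
  set u := 1 / p0 with hu
  have hd : 0 < u - 3 / 10 := by linarith
  set θ : ℝ := 1 - (1 / 30) / (u - 3 / 10) with hθ
  have hq : (1 / 30) / (u - 3 / 10) < 1 := by rw [div_lt_one hd]; linarith
  have hq0 : 0 < (1 / 30) / (u - 3 / 10) := by positivity
  have hθ0 : 0 < θ := by rw [hθ]; linarith
  have hθ1 : θ < 1 := by rw [hθ]; linarith
  have e3 : (1 - θ) * (u - 3 / 10) = 1 / 30 := by
    have : 1 - θ = (1 / 30) / (u - 3 / 10) := by rw [hθ]; ring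
    rw [this, div_mul_cancel₀ _ hd.ne']
  have hp : (1:ℝ) / 3 = (1 - θ) / p0 + θ / (10 / 3) := by
    have : (1 - θ) / p0 = (1 - θ) * u := by rw [hu]; ring
    rw [this]
    linarith
  have ha : 1 / 12 - (1 / 2 - s) * (1 / 2 - u) * ((1 / 30) / (u - 3 / 10)) =
      (1 - θ) * (s * (1 / 2 - u)) + θ * (1 / 10) := by
    have e4 : (1 / 30) / (u - 3 / 10) = 1 - θ := by rw [hθ]; ring
    rw [e4]
    linear_combination (1 / 2 : ℝ) * e3
  intro α hα
  rw [ha] at hα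
  refine interp_mixed (p0 := p0) (p1 := 10 / 3) (p := 3) (by linarith) (by norm_num) (by norm_num) hθ0 hθ1 hp ?_
    h0 h1 α hα
  have : 0 ≤ 1 / 2 - u := by linarith
  have : 0 ≤ 1 - θ := by linarith
  positivity

end LpgFin

end Vale.Agent.P106.G
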