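import Vale.Agent.P106.G.Rec

/-! # From the model family to the half wave operator -/

open MeasureTheory Complex Set Filter
open scoped ENNReal NNReal ContDiff FourierTransform Topology SchwartzMap

set_option linter.all false

namespace Vale.Agent.P106.G

open Vale.Agent.P117 (Adm contDiff_st)

/-- the estimate for all annular multipliers -/
def StGLall (p α : ℝ) : Prop := ∀ X : E3 → ℂ, ContDiff ℝ ∞ X →
  (∃ a b : ℝ, 0 < a ∧ ∀ ξ, X ξ ≠ 0 → a ≤ ‖ξ‖ ∧ ‖ξ‖ ≤ b) → StGL p α X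

/-- the half wave with a multiplier -/
noncomputable def hw (X f : E3 → ℂ) (t : ℝ) (x : E3) : ℂ :=
  𝓕⁻ (fun ξ : E3 => cexp (2 * Real.pi * I * (t * ‖ξ‖ : ℝ)) * (X ξ * 𝓕 f ξ)) x

/-! ### linear change of variables -/

theorem wave_tr {P : Matrix (Fin 3) (Fin 3) ℝ} (hP : P.det ≠ 0) {l : ℝ} {H : Hyp} {X : E3 → ℂ}
    (hX : ∀ η, X (mat3 P η) ≠ 0 → ‖mat3 P η‖ = l * (32 * η 0 + H.om η)) (f : E3 → ℂ) (t : ℝ) (x : E3) :
    hw X f t x = H.U (fun η => X (mat3 P η)) (fun y => f (mat3 (P.transpose)⁻¹ y)) (l * t)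
        (mat3 P.transpose x + t • !₂[32 * l, 0, 0]) := by
  unfold hw Hyp.U
  rw [Real.fourierInv_eq', Real.fourierInv_eq']
  have hI := integral_mat3 hP (fun v : E3 => cexp (((2 * Real.pi * inner ℝ v x : ℝ) : ℂ) * I) •
    (cexp (2 * Real.pi * I * (t * ‖v‖ : ℝ)) * (X v * 𝓕 f v)))
  have hI2 : ∫ v : E3, cexp (((2 * Real.pi * inner ℝ v x : ℝ) : ℂ) * I) •
    (cexp (2 * Real.pi * I * (t * ‖v‖ : ℝ)) * (X v * 𝓕 f v)) =
      ((|P.det| : ℝ) : ℂ) * ∫ y : E3, cexp (((2 * Real.pi * inner ℝ (mat3 P y) x : ℝ) : ℂ) * I) •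
      (cexp (2 * Real.pi * I * (t * ‖mat3 P y‖ : ℝ)) * (X (mat3 P y) * 𝓕 f (mat3 P y))) := by
    rw [hI, Complex.real_smul, ← mul_assoc, ← Complex.ofReal_mul, abs_inv, mul_inv_cancel₀ (abs_ne_zero.2 hP),
      Complex.ofReal_one, one_mul]
  rw [hI2, ← integral_const_mul]
  congr 1
  ext η
  rw [fourier_mat3 hP f η, Complex.real_smul, smul_eq_mul, smul_eq_mul]
  beta_reduce
  by_cases hz : X (mat3 P η) = 0
  · rw [hz]; ring
  · rw [hX η hz]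
    have ei : inner ℝ (mat3 P η) x = inner ℝ η (mat3 P.transpose x) := by
      rw [real_inner_comm, ← inner_mat3, real_inner_comm]
    have ec : inner ℝ η (t • !₂[32 * l, 0, 0] : E3) = t * (32 * l * η 0) := by
      rw [inner_smul_right, inner3]
      simp only [PiLp.toLp_apply, Matrix.cons_val_zero, Matrix.cons_val_one, Matrix.cons_val]
      ring
    rw [inner_add_right, ei, ec]
    have e3 : cexp (((2 * Real.pi * inner ℝ η (mat3 P.transpose x) : ℝ) : ℂ) * I) *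
        cexp (2 * Real.pi * I * (t * (l * (32 * η 0 + H.om η)) : ℝ)) =
        cexp (((2 * Real.pi * (inner ℝ η (mat3 P.transpose x) + t * (32 * l * η 0)) : ℝ) : ℂ) * I) *
        cexp (2 * Real.pi * I * (l * t * H.om η : ℝ)) := by
      rw [← Complex.exp_add, ← Complex.exp_add]
      congr 1
      push_cast
      ring
    linear_combination ((|P.det| : ℝ) : ℂ) * (X (mat3 P η) * 𝓕 f (mat3 P η)) * e3

theorem wave_norm {P : Matrix (Fin 3) (Fin 3) ℝ} (hP : P.det ≠ 0) {l : ℝ} (hl : 0 < l) {H : Hyp} {X : E3 → ℂ}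
    (hX : ∀ η, X (mat3 P η) ≠ 0 → ‖mat3 P η‖ = l * (32 * η 0 + H.om η)) (f : E3 → ℂ) (p R : ℝ) :
    DI R (fun t x => ‖hw X f t x‖ₑ ^ p) =
      ENNReal.ofReal l⁻¹ * (ENNReal.ofReal |P.det⁻¹| *
      DI (l * R) (fun t y => ‖H.U (fun η => X (mat3 P η)) (fun y => f (mat3 (P.transpose)⁻¹ y)) t y‖ₑ ^ p)) := by
  have hdt : P.transpose.det ≠ 0 := by rwa [Matrix.det_transpose]
  unfold DI
  simp_rw [wave_tr hP hX f]
  set V := H.U (fun η => X (mat3 P η)) (fun y => f (mat3 (P.transpose)⁻¹ y)) with hV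
  have hin : ∀ t : ℝ, ∫⁻ y, ‖V (l * t) (mat3 P.transpose y + t • !₂[32 * l, 0, 0])‖ₑ ^ p =
      ENNReal.ofReal |P.det⁻¹| * ∫⁻ y, ‖V (l * t) y‖ₑ ^ p := by
    intro t
    rw [lintegral_mat3 hdt (fun x : E3 => ‖V (l * t) (x + t • !₂[32 * l, 0, 0])‖ₑ ^ p), Matrix.det_transpose]
    congr 1
    exact lintegral_add_right_eq_self (fun x : E3 => ‖V (l * t) x‖ₑ ^ p) _
  simp_rw [hin]
  rw [lintegral_Icc_scale hl R (fun t => ENNReal.ofReal |P.det⁻¹| * ∫⁻ y, ‖V t y‖ₑ ^ p)]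
  congr 1
  rw [lintegral_const_mul' _ _ ENNReal.ofReal_ne_top]

/-! ### multipliers -/

theorem U_mopT {H : Hyp} {M m : E3 → ℂ} (hM : Sm M) (hm : ∀ η, M η ≠ 0 → m η = 1) {g : E3 → ℂ} (hg : Adm volume g)
    (t : ℝ) (y : E3) : H.U M g t y = H.U m (mop M g) t y := by
  have e : (fun ξ : E3 => cexp (2 * Real.pi * I * (t * H.om ξ : ℝ)) * (M ξ * 𝓕 g ξ)) =
      fun ξ => cexp (2 * Real.pi * I * (t * H.om ξ : ℝ)) * (m ξ * 𝓕 (mop M g) ξ) := by
    ext ξ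
    rw [mop_fourier hM hg ξ]
    by_cases hz : M ξ = 0
    · rw [hz]; ring
    · rw [hm ξ hz]; ring
  unfold Hyp.U
  rw [e]

theorem kn_fin {M : E3 → ℂ} (hM : Sm M) : ∃ B : ℝ, 0 ≤ B ∧ kn M ≤ ENNReal.ofReal B := by
  set MS : 𝓢(E3, ℂ) := hM.supp.toSchwartzMap hM.smooth with hMS
  set K : 𝓢(E3, ℂ) := 𝓕⁻ MS with hK
  have hKe : (K : E3 → ℂ) = 𝓕⁻ M := by
    rw [hK, SchwartzMap.fourierInv_coe]
    rfl
  have h1 : kn M < ⊤ := by
    unfold kn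
    rw [← hKe]
    exact K.integrable.2
  exact ⟨(kn M).toReal, ENNReal.toReal_nonneg, by rw [ENNReal.ofReal_toReal h1.ne]⟩

theorem LS2_all {p α c0 : ℝ} (hp : 1 ≤ p) (hc0 : 0 < c0) (hc1 : c0 ≤ 1) (h : StLS2 p α c0) {H : Hyp} (hH : H.ok2) :
    ∃ C : ℝ, 0 ≤ C ∧ ∀ (R : ℝ) (h : E3 → ℂ), 0 < R → Adm volume h →
      DI R (fun t y => ‖H.U (H.mu (chi0 c0) psv psv) h t y‖ₑ ^ p) ≤
        ENNReal.ofReal (C * (R ^ (α * p + 1) + R)) * ∫⁻ y, ‖h y‖ₑ ^ p := by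
  obtain ⟨C, hC, hC2⟩ := h
  obtain ⟨B, hB, hBk⟩ := ker_L1 (r1_chi0 hc0 hc1).toRcut vcut_psv.vc vcut_psv.vc
  refine ⟨C + (B * 81) ^ p, by positivity, ?_⟩
  intro R h hR hh
  rcases le_or_gt 1 R with h1 | h1
  · refine (hC2 R H h h1 hH hh).trans ?_
    apply mul_le_mul_left
    apply ENNReal.ofReal_le_ofReal
    have e1 : 0 ≤ (B * 81) ^ p := by positivity
    have e2 : 0 ≤ R ^ (α * p + 1) := by positivity
    nlinarith [mul_nonneg hC hR.le, mul_nonneg e1 e2, mul_nonneg e1 hR.le]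
  · unfold DI
    calc ∫⁻ t in Icc R (2 * R), ∫⁻ y, ‖H.U (H.mu (chi0 c0) psv psv) h t y‖ₑ ^ p ≤
          ∫⁻ t in Icc R (2 * R), ENNReal.ofReal ((B * 81) ^ p) * ∫⁻ y, ‖h y‖ₑ ^ p := by
            apply setLIntegral_mono' measurableSet_Icc
            intro t ht
            rw [U_eq]
            apply mop_Lp (sm_em hH.ok (r1_chi0 hc0 hc1).toRcut vcut_psv.vc vcut_psv.vc t) hh hp (by positivity)
            refine (hBk H hH.ok t).trans (ENNReal.ofReal_le_ofReal ?_)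
            have h0 : 0 ≤ t := by linarith [ht.1]
            rw [abs_of_nonneg h0]
            calc B * (1 + t) ^ 4 ≤ B * (3 : ℝ) ^ 4 := by
                  gcongr
                  linarith [ht.2]
              _ = _ := by ring
      _ = ENNReal.ofReal R * (ENNReal.ofReal ((B * 81) ^ p) * ∫⁻ y, ‖h y‖ₑ ^ p) := by
          rw [lintegral_const, Measure.restrict_apply MeasurableSet.univ, univ_inter, Real.volume_Icc, mul_comm]
          congr 2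
          ring
      _ ≤ _ := by
          rw [← mul_assoc, ← ENNReal.ofReal_mul hR.le]
          apply mul_le_mul_left
          apply ENNReal.ofReal_le_ofReal
          have e1 : 0 ≤ (B * 81) ^ p := by positivity
          have e2 : 0 ≤ R ^ (α * p + 1) := by positivity
          nlinarith [mul_nonneg hC hR.le, mul_nonneg e1 e2, mul_nonneg e1 hR.le, mul_nonneg hC e2]

/-! ### the base hyperplane -/

/-- the hyperplane `s = 1/64`, `q = 0` -/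
noncomputable def H0 : Hyp := hyp (1/8) 0 0

theorem H0_ok2 : H0.ok2 := ⟨1/8, 0, 0, by norm_num, le_rfl, le_rfl, by norm_num, le_rfl, by norm_num, rfl⟩

theorem H0_s : H0.s = 1/64 := by unfold H0 hyp; norm_num
theorem H0_q1 : H0.q1 = 0 := by unfold H0 hyp; norm_num
theorem H0_q2 : H0.q2 = 0 := by unfold H0 hyp; norm_num
theorem H0_B (η : E3) : H0.B η = η 0 := by unfold Hyp.B; rw [H0_q1, H0_q2]; ring
theorem H0_D : H0.D = 1/64 := by unfold Hyp.D; rw [H0_q1, H0_q2, H0_s]; norm_num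

/-- the matrix `S` -/
def Sm0 : Matrix (Fin 3) (Fin 3) ℝ := !![0, 0, 2; 8, 0, 0; 0, 8, 0]

theorem Sm0_det : Sm0.det = 128 := by
  unfold Sm0
  rw [Matrix.det_fin_three]
  simp
  norm_num

theorem Sm0_apply (ξ : E3) : mat3 Sm0 ξ 0 = 2 * ξ 2 ∧ mat3 Sm0 ξ 1 = 8 * ξ 0 ∧ mat3 Sm0 ξ 2 = 8 * ξ 1 := by
  refine ⟨?_, ?_, ?_⟩ <;> rw [mat3_apply] <;> simp [Sm0]

theorem norm_sq3 (ξ : E3) : ‖ξ‖ ^ 2 = ξ 0 ^ 2 + ξ 1 ^ 2 + ξ 2 ^ 2 := by
  rw [← real_inner_self_eq_norm_sq, inner3]; ring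

/-- the half wave phase in the cone coordinates -/
theorem norm_om (ξ : E3) (h : 0 < ξ 2) : ‖ξ‖ = ξ 2 + H0.om (mat3 Sm0 ξ) / 64 := by
  obtain ⟨e0, e1, e2⟩ := Sm0_apply ξ
  have hn := norm_sq3 ξ
  have hn0 := norm_nonneg ξ
  have hle : ξ 2 ≤ ‖ξ‖ := by
    apply le_of_sq_le_sq _ hn0
    rw [hn]; nlinarith [sq_nonneg (ξ 0), sq_nonneg (ξ 1)]
  have : H0.om (mat3 Sm0 ξ) = 64 * (‖ξ‖ - ξ 2) := by
    apply H0.om_unique (by rw [H0_D]; norm_num)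
    · rw [H0_B, e0]; linarith
    · linarith
    · rw [H0_D, H0_B, e0, e1, e2]
      nlinarith [hn]
  rw [this]; ring

theorem cont_om0 {η : E3} (h : 0 < η 0) : ContinuousAt H0.om η := by
  have h1 := contDiffAt_om (z := (η, ((1/8 : ℝ), (0:ℝ), (0:ℝ)))) (by
    show 0 < H0.B η
    rw [H0_B]; exact h)
  have h2 : ContinuousAt (fun ξ : E3 => (ξ, ((1/8 : ℝ), (0:ℝ), (0:ℝ)))) η := by fun_prop
  exact ContinuousAt.comp (f := fun ξ : E3 => (ξ, ((1/8 : ℝ), (0:ℝ), (0:ℝ)))) (g := fun z : E3 × Pm => (hypP z.2).om z.1)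
    h1.continuousAt h2

/-- centre of the region where the multiplier is one -/
noncomputable def ws (c0 : ℝ) : E3 := !₂[1 + c0 / 2, (1 + c0 / 2) / 2, (1 + c0 / 2) / 2]

theorem ws_facts {c0 : ℝ} (hc0 : 0 < c0) : 0 < ws c0 0 ∧ ws c0 1 / ws c0 0 = 1/2 ∧ ws c0 2 / ws c0 0 = 1/2 ∧
    1/2 < H0.B (H0.Ph (ws c0)) ∧ 0 < H0.Ph (ws c0) 0 := by
  have e0 : ws c0 0 = 1 + c0 / 2 := rfl
  have e1 : ws c0 1 = (1 + c0 / 2) / 2 := rfl
  have e2 : ws c0 2 = (1 + c0 / 2) / 2 := rfl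
  have h0 : 0 < ws c0 0 := by rw [e0]; linarith
  have h1 : ws c0 1 / ws c0 0 = 1/2 := by rw [e0, e1]; field_simp
  have h2 : ws c0 2 / ws c0 0 = 1/2 := by rw [e0, e2]; field_simp
  have hB := Hyp.B_lower H0_ok2.ok.bd h0 (by rw [h1]; norm_num [abs_of_pos]) (by rw [h2]; norm_num [abs_of_pos])
  have hB2 : 1/2 < H0.B (H0.Ph (ws c0)) := by rw [e0] at hB; linarith
  refine ⟨h0, h1, h2, hB2, ?_⟩
  rw [H0_B] at hB2
  linarith

theorem mu_one_near {c0 : ℝ} (hc0 : 0 < c0) :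
    ∀ᶠ η in 𝓝 (H0.Ph (ws c0)), H0.mu (chi0 c0) psv psv η = 1 := by
  obtain ⟨h0, h1, h2, hB, hP0⟩ := ws_facts hc0
  have hOm : H0.Om (H0.Ph (ws c0)) = ws c0 := Hyp.Om_Ph H0_ok2.ok.bd.D0 h0 (by linarith)
  set ηs := H0.Ph (ws c0) with hηs
  have co := cont_om0 hP0
  have cc : ∀ i : Fin 3, ContinuousAt (fun η : E3 => η i) ηs := fun i => (by fun_prop : Continuous (fun η : E3 => η i)).continuousAt
  have c0' : ContinuousAt (fun η : E3 => H0.Om η 0) ηs := (cc 0).add (continuousAt_const.mul co)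
  have c1' : ContinuousAt (fun η : E3 => H0.Om η 1) ηs := (cc 1).add (continuousAt_const.mul co)
  have c2' : ContinuousAt (fun η : E3 => H0.Om η 2) ηs := (cc 2).add (continuousAt_const.mul co)
  have hne : H0.Om ηs 0 ≠ 0 := by rw [hOm]; exact h0.ne'
  have d1 : ContinuousAt (fun η : E3 => H0.Om η 1 / H0.Om η 0) ηs := c1'.div c0' hne
  have d2 : ContinuousAt (fun η : E3 => H0.Om η 2 / H0.Om η 0) ηs := c2'.div c0' hne
  have v0 : H0.Om ηs 0 = 1 + c0 / 2 := by rw [hOm]; rfl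
  have v1 : H0.Om ηs 1 / H0.Om ηs 0 = 1/2 := by rw [hOm]; exact h1
  have v2 : H0.Om ηs 2 / H0.Om ηs 0 = 1/2 := by rw [hOm]; exact h2
  have b0 : ContinuousAt (fun η : E3 => H0.B η) ηs := by
    have : (fun η : E3 => H0.B η) = fun η => η 0 := by ext η; exact H0_B η
    rw [this]; exact cc 0
  have E0 := c0'.eventually (isOpen_Ioo.mem_nhds (show H0.Om ηs 0 ∈ Ioo (1 + 3 * c0 / 8) (1 + 5 * c0 / 8) by
    rw [v0]; constructor <;> linarith))
  have E1 := d1.eventually (isOpen_Ioo.mem_nhds (show H0.Om ηs 1 / H0.Om ηs 0 ∈ Ioo (5/16 : ℝ) (11/16) by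
    rw [v1]; constructor <;> norm_num))
  have E2 := d2.eventually (isOpen_Ioo.mem_nhds (show H0.Om ηs 2 / H0.Om ηs 0 ∈ Ioo (5/16 : ℝ) (11/16) by
    rw [v2]; constructor <;> norm_num))
  have EB := b0.eventually (isOpen_Ioi.mem_nhds (show H0.B ηs ∈ Ioi (1/2 : ℝ) from hB))
  filter_upwards [E0, E1, E2, EB] with η a0 a1 a2 aB
  have hpsv : ∀ t : ℝ, t ∈ Ioo (5/16 : ℝ) (11/16) → psv t = 1 := by
    intro t ht
    unfold psv
    apply psi_one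
    · linarith [ht.1]
    · linarith [ht.2]
  rw [mu_eq, stB_one (le_of_lt aB)]
  unfold cutw
  rw [chi0_one hc0 a0.1.le a0.2.le, hpsv _ a1, hpsv _ a2]
  norm_num

/-! ### the similarity -/

theorem mat_exists (T : E3 →ₗ[ℝ] E3) : ∃ A : Matrix (Fin 3) (Fin 3) ℝ, mat3 A = T :=
  ⟨LinearMap.toMatrix (EuclideanSpace.basisFun (Fin 3) ℝ).toBasis (EuclideanSpace.basisFun (Fin 3) ℝ).toBasis T,
    Matrix.toLin_toMatrix _ _ _⟩

theorem sim_exists {x0 xs : E3} (h0 : x0 ≠ 0) (hs : xs ≠ 0) : ∃ (lam : ℝ) (L : Matrix (Fin 3) (Fin 3) ℝ), 0 < lam ∧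
    L.det ≠ 0 ∧ mat3 L x0 = xs ∧ ∀ y, ‖mat3 L y‖ = lam * ‖y‖ := by
  have n0 : 0 < ‖x0‖ := norm_pos_iff.2 h0
  have ns : 0 < ‖xs‖ := norm_pos_iff.2 hs
  set lam := ‖xs‖ / ‖x0‖ with hlam
  have hl : 0 < lam := by positivity
  set u := lam⁻¹ • xs with hu
  have hnu : ‖x0‖ = ‖u‖ := by
    rw [hu, norm_smul, norm_inv, Real.norm_of_nonneg hl.le, hlam]
    field_simp
  set O := (ℝ ∙ (x0 - u))ᗮ.reflection with hO
  have hOx : O x0 = u := Submodule.reflection_sub hnu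
  obtain ⟨L, hL⟩ := mat_exists (lam • (O.toLinearEquiv : E3 →ₗ[ℝ] E3))
  have hLy : ∀ y, mat3 L y = lam • O y := by
    intro y; rw [hL]; rfl
  refine ⟨lam, L, hl, ?_, ?_, ?_⟩
  · rw [← mat3_det, hL, LinearMap.det_smul]
    apply mul_ne_zero (by positivity)
    exact (LinearEquiv.isUnit_det' O.toLinearEquiv).ne_zero
  · rw [hLy, hOx, hu, smul_smul, mul_inv_cancel₀ hl.ne', one_smul]
  · intro y
    rw [hLy, norm_smul, Real.norm_of_nonneg hl.le, LinearIsometryEquiv.norm_map]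

/-- the linear coordinates near a given frequency -/
theorem coord_exists {c0 : ℝ} (hc0 : 0 < c0) {x0 : E3} (h0 : x0 ≠ 0) : ∃ (l : ℝ) (P : Matrix (Fin 3) (Fin 3) ℝ) (r : ℝ),
    0 < l ∧ P.det ≠ 0 ∧ 0 < r ∧ ∀ η, ‖mat3 P η - x0‖ < r → ‖mat3 P η‖ = l * (32 * η 0 + H0.om η) ∧
      H0.mu (chi0 c0) psv psv η = 1 := by
  obtain ⟨w0, w1, w2, wB, wP⟩ := ws_facts hc0
  set ηs := H0.Ph (ws c0) with hηs
  have hS : Sm0.det ≠ 0 := by rw [Sm0_det]; norm_num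
  set xs := mat3 Sm0⁻¹ ηs with hxs
  have hSx : mat3 Sm0 xs = ηs := mat3_inv_right hS ηs
  have hxs0 : xs ≠ 0 := by
    intro h
    rw [h, map_zero] at hSx
    rw [← hSx] at wP
    exact lt_irrefl _ wP
  obtain ⟨lam, L, hl, hLd, hL0, hLn⟩ := sim_exists h0 hxs0
  set A := Sm0 * L with hA
  have hAd : A.det ≠ 0 := by rw [hA, Matrix.det_mul]; exact mul_ne_zero hS hLd
  have hAy : ∀ y, mat3 A y = mat3 Sm0 (mat3 L y) := fun y => mat3_mul _ _ _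
  have hA0 : mat3 A x0 = ηs := by rw [hAy, hL0, hSx]
  have hPd : A⁻¹.det ≠ 0 := by
    rw [Matrix.det_nonsing_inv, Ring.inverse_eq_inv']
    exact inv_ne_zero hAd
  have hcont : ContinuousAt (mat3 A) x0 := (mat3_cont A).continuousAt
  have ev1 : ∀ᶠ ξ in 𝓝 x0, H0.mu (chi0 c0) psv psv (mat3 A ξ) = 1 := by
    have := mu_one_near hc0
    rw [← hηs, ← hA0] at this
    exact hcont.eventually this
  have ev2 : ∀ᶠ ξ in 𝓝 x0, 0 < mat3 A ξ 0 := by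
    have c1 : Continuous (fun ξ => mat3 A ξ 0) := (by fun_prop : Continuous (fun η : E3 => η 0)).comp (mat3_cont A)
    apply c1.continuousAt.eventually (isOpen_Ioi.mem_nhds (show mat3 A x0 0 ∈ Ioi (0:ℝ) by rw [hA0]; exact wP))
  obtain ⟨r, hr, hr2⟩ := Metric.eventually_nhds_iff.1 (ev1.and ev2)
  refine ⟨lam⁻¹ / 64, A⁻¹, r, by positivity, hPd, hr, ?_⟩
  intro η hη
  have hd := hr2 (y := mat3 A⁻¹ η) (by rw [dist_eq_norm]; exact hη)
  rw [mat3_inv_right hAd] at hd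
  refine ⟨?_, hd.1⟩
  set ξ := mat3 A⁻¹ η with hξ
  have hAξ : mat3 Sm0 (mat3 L ξ) = η := by rw [← hAy, hξ, mat3_inv_right hAd]
  have e0 := (Sm0_apply (mat3 L ξ)).1
  rw [hAξ] at e0
  have h3 : 0 < mat3 L ξ 2 := by linarith [hd.2]
  have h4 := norm_om _ h3
  rw [hAξ, hLn] at h4
  have h5 : mat3 L ξ 2 = η 0 / 2 := by linarith
  rw [h5] at h4
  field_simp
  linarith

theorem of5 {a b c d e : ℝ} (ha : 0 ≤ a) (hb : 0 ≤ b) (hc : 0 ≤ c) (hd : 0 ≤ d) (he : 0 ≤ e) (I : ℝ≥0∞) :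
    ENNReal.ofReal a * (ENNReal.ofReal b * (ENNReal.ofReal c * (ENNReal.ofReal d * (ENNReal.ofReal e * I)))) =
      ENNReal.ofReal (a * (b * (c * (d * e)))) * I := by
  rw [ENNReal.ofReal_mul ha, ENNReal.ofReal_mul hb, ENNReal.ofReal_mul hc, ENNReal.ofReal_mul hd]
  ring

theorem local_GL {p α c0 : ℝ} (hp : 2 < p) (hα : 0 < α) (hc0 : 0 < c0) (hc1 : c0 ≤ 1) (h : StLS2 p α c0) {x0 : E3}
    (h0 : x0 ≠ 0) : ∃ r : ℝ, 0 < r ∧ ∀ X : E3 → ℂ, ContDiff ℝ ∞ X → (∀ ξ, X ξ ≠ 0 → ‖ξ - x0‖ < r) → StGL p α X := by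
  obtain ⟨l, P, r, hl, hPd, hr, hP⟩ := coord_exists hc0 h0
  refine ⟨r, hr, ?_⟩
  intro X hX hXs
  have hPi : P⁻¹.det ≠ 0 := by
    rw [Matrix.det_nonsing_inv, Ring.inverse_eq_inv']
    exact inv_ne_zero hPd
  have hPt : P.transpose.det ≠ 0 := by rwa [Matrix.det_transpose]
  have hPti : (P.transpose)⁻¹.det ≠ 0 := by
    rw [Matrix.det_nonsing_inv, Ring.inverse_eq_inv']
    exact inv_ne_zero hPt
  set M : E3 → ℂ := fun η => X (mat3 P η) with hM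
  have hMs : ∀ η, M η ≠ 0 → ‖mat3 P η‖ = l * (32 * η 0 + H0.om η) ∧ H0.mu (chi0 c0) psv psv η = 1 :=
    fun η hη => hP η (hXs _ hη)
  have hMSm : Sm M := by
    refine ⟨hX.comp (LinearMap.toContinuousLinearMap (mat3 P)).contDiff, ?_⟩
    apply compact_of_supp (R := ‖LinearMap.toContinuousLinearMap (mat3 P⁻¹)‖ * (r + ‖x0‖))
    intro η hη
    have h1 : ‖mat3 P η‖ ≤ r + ‖x0‖ := by
      calc ‖mat3 P η‖ = ‖(mat3 P η - x0) + x0‖ := by rw [sub_add_cancel]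
        _ ≤ ‖mat3 P η - x0‖ + ‖x0‖ := norm_add_le _ _
        _ ≤ r + ‖x0‖ := by linarith [hXs _ hη]
    calc ‖η‖ = ‖LinearMap.toContinuousLinearMap (mat3 P⁻¹) (mat3 P η)‖ := by
          rw [LinearMap.coe_toContinuousLinearMap', mat3_inv_left hPd]
      _ ≤ ‖LinearMap.toContinuousLinearMap (mat3 P⁻¹)‖ * ‖mat3 P η‖ := ContinuousLinearMap.le_opNorm _ _
      _ ≤ _ := by gcongr
  obtain ⟨C1, hC1, hD⟩ := LS2_all (by linarith : 1 ≤ p) hc0 hc1 h H0_ok2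
  obtain ⟨B, hB, hBk⟩ := kn_fin hMSm
  have hp0 : 0 < p := by linarith
  have hex : 1 ≤ α * p + 1 := by nlinarith
  refine ⟨l⁻¹ * (|P.det⁻¹| * ((C1 * (l ^ (α * p + 1) + l)) * (B ^ p * |((P.transpose)⁻¹.det)⁻¹|))), by positivity, ?_⟩
  intro R f hR hf
  have hR0 : 0 < R := by linarith
  have hg : Adm volume (fun y => f (mat3 (P.transpose)⁻¹ y)) := adm_mat3 hPti hf
  set g := (fun y => f (mat3 (P.transpose)⁻¹ y)) with hgdef
  have hgn : ∫⁻ y, ‖g y‖ₑ ^ p = ENNReal.ofReal |((P.transpose)⁻¹.det)⁻¹| * ∫⁻ x, ‖f x‖ₑ ^ p :=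
    lintegral_mat3 hPti (fun x => ‖f x‖ₑ ^ p)
  have hw1 := wave_norm hPd hl (H := H0) (X := X) (fun η hη => (hMs η hη).1) f p R
  have e1 : (fun t y => ‖H0.U M g t y‖ₑ ^ p) = fun t y => ‖H0.U (H0.mu (chi0 c0) psv psv) (mop M g) t y‖ₑ ^ p := by
    ext t y
    rw [U_mopT hMSm (fun η hη => (hMs η hη).2) hg t y]
  rw [← hM, ← hgdef, e1] at hw1
  have h2 := hD (l * R) (mop M g) (by positivity) (mop_adm hMSm hg)
  have h3 := mop_Lp hMSm hg (by linarith : 1 ≤ p) hB hBk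
  rw [hgn] at h3
  change DI R (fun t x => ‖hw X f t x‖ₑ ^ p) ≤ _
  rw [hw1]
  calc _ ≤ ENNReal.ofReal l⁻¹ * (ENNReal.ofReal |P.det⁻¹| * (ENNReal.ofReal (C1 * ((l * R) ^ (α * p + 1) + l * R)) *
        (ENNReal.ofReal (B ^ p) * (ENNReal.ofReal |((P.transpose)⁻¹.det)⁻¹| * ∫⁻ x, ‖f x‖ₑ ^ p)))) := by
        gcongr
        exact h2.trans (by gcongr)
    _ = ENNReal.ofReal (l⁻¹ * (|P.det⁻¹| * ((C1 * ((l * R) ^ (α * p + 1) + l * R)) * (B ^ p * |((P.transpose)⁻¹.det)⁻¹|)))) *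
        ∫⁻ x, ‖f x‖ₑ ^ p := of5 (by positivity) (by positivity) (by positivity) (by positivity) (by positivity) _
    _ ≤ _ := by
        apply mul_le_mul_left
        apply ENNReal.ofReal_le_ofReal
        have e3 : (l * R) ^ (α * p + 1) + l * R ≤ (l ^ (α * p + 1) + l) * R ^ (α * p + 1) := by
          rw [Real.mul_rpow hl.le hR0.le, add_mul]
          gcongr
          calc R = R ^ (1:ℝ) := (Real.rpow_one R).symm
            _ ≤ _ := Real.rpow_le_rpow_of_exponent_le hR hex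
        have e4 : 0 ≤ B ^ p * |((P.transpose)⁻¹.det)⁻¹| := by positivity
        have e5 : C1 * ((l * R) ^ (α * p + 1) + l * R) ≤ C1 * ((l ^ (α * p + 1) + l) * R ^ (α * p + 1)) :=
          mul_le_mul_of_nonneg_left e3 hC1
        calc l⁻¹ * (|P.det⁻¹| * ((C1 * ((l * R) ^ (α * p + 1) + l * R)) * (B ^ p * |((P.transpose)⁻¹.det)⁻¹|))) ≤
              l⁻¹ * (|P.det⁻¹| * ((C1 * ((l ^ (α * p + 1) + l) * R ^ (α * p + 1))) * (B ^ p * |((P.transpose)⁻¹.det)⁻¹|))) :=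
              mul_le_mul_of_nonneg_left (mul_le_mul_of_nonneg_left (mul_le_mul_of_nonneg_right e5 e4) (abs_nonneg _))
                (by positivity)
          _ = _ := by ring

/-! ### sums of multipliers -/

theorem hw_add {X Y f : E3 → ℂ} (hX : Sm X) (hY : Sm Y) (hf : Adm volume f) (t : ℝ) (x : E3) :
    hw (fun ξ => X ξ + Y ξ) f t x = hw X f t x + hw Y f t x := by
  unfold hw
  have hi : ∀ {Z : E3 → ℂ}, Sm Z → Integrable (fun ξ : E3 => cexp (2 * Real.pi * I * (t * ‖ξ‖ : ℝ)) * (Z ξ * 𝓕 f ξ)) := by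
    intro Z hZ
    apply (mint hZ.int hf.int).bdd_mul (c := 1)
    · exact (by fun_prop : Continuous (fun ξ : E3 => cexp (2 * Real.pi * I * (t * ‖ξ‖ : ℝ)))).aestronglyMeasurable
    · exact Eventually.of_forall fun ξ => (norm_ex3 _).le
  rw [← inv_add3 (hi hX) (hi hY)]
  have e : (fun ξ : E3 => cexp (2 * Real.pi * I * (t * ‖ξ‖ : ℝ)) * ((X ξ + Y ξ) * 𝓕 f ξ)) =
      fun ξ => cexp (2 * Real.pi * I * (t * ‖ξ‖ : ℝ)) * (X ξ * 𝓕 f ξ) +
        cexp (2 * Real.pi * I * (t * ‖ξ‖ : ℝ)) * (Y ξ * 𝓕 f ξ) := by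
    ext ξ
    ring
  rw [e]

theorem hw_cont {X f : E3 → ℂ} (hX : Sm X) (hf : Adm volume f) : Continuous (fun z : ℝ × E3 => hw X f z.1 z.2) := by
  unfold hw
  apply cont_mt3 (mint hX.int hf.int) (m := fun t ξ => cexp (2 * Real.pi * I * (t * ‖ξ‖ : ℝ))) (B := 1)
  · intro t
    exact (by fun_prop : Continuous (fun ξ : E3 => cexp (2 * Real.pi * I * (t * ‖ξ‖ : ℝ)))).measurable
  · intro t ξ
    exact (norm_ex3 _).le
  · intro ξ
    fun_prop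

theorem GL_add {p α : ℝ} (hp : 1 ≤ p) {X Y : E3 → ℂ} (hX : Sm X) (hY : Sm Y) (h1 : StGL p α X) (h2 : StGL p α Y) :
    StGL p α (fun ξ => X ξ + Y ξ) := by
  obtain ⟨C1, hC1, h1⟩ := h1
  obtain ⟨C2, hC2, h2⟩ := h2
  refine ⟨2 ^ (p - 1) * (C1 + C2), by positivity, ?_⟩
  intro R f hR hf
  have hR0 : 0 < R := by linarith
  have mX : Measurable (fun z : ℝ × E3 => ‖hw X f z.1 z.2‖ₑ ^ p) := ((hw_cont hX hf).enorm.measurable).pow_const p
  have mY : Measurable (fun z : ℝ × E3 => ‖hw Y f z.1 z.2‖ₑ ^ p) := ((hw_cont hY hf).enorm.measurable).pow_const p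
  have k1 : DI R (fun t x => ‖hw X f t x‖ₑ ^ p) ≤ ENNReal.ofReal (C1 * R ^ (α * p + 1)) * ∫⁻ x, ‖f x‖ₑ ^ p := h1 R f hR hf
  have k2 : DI R (fun t x => ‖hw Y f t x‖ₑ ^ p) ≤ ENNReal.ofReal (C2 * R ^ (α * p + 1)) * ∫⁻ x, ‖f x‖ₑ ^ p := h2 R f hR hf
  change DI R (fun t x => ‖hw (fun ξ => X ξ + Y ξ) f t x‖ₑ ^ p) ≤ _
  have e2 : (2:ℝ≥0∞) ^ (p - 1) = ENNReal.ofReal (2 ^ (p - 1)) := by
    rw [← ENNReal.ofReal_rpow_of_pos (by norm_num)]
    norm_num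
  calc DI R (fun t x => ‖hw (fun ξ => X ξ + Y ξ) f t x‖ₑ ^ p) ≤
      DI R (fun t x => (2:ℝ≥0∞) ^ (p - 1) * (‖hw X f t x‖ₑ ^ p + ‖hw Y f t x‖ₑ ^ p)) := by
        apply DI_mono
        intro t ht y
        rw [hw_add hX hY hf]
        calc ‖hw X f t y + hw Y f t y‖ₑ ^ p ≤ (‖hw X f t y‖ₑ + ‖hw Y f t y‖ₑ) ^ p := by
              gcongr
              exact enorm_add_le _ _
          _ ≤ _ := ENNReal.rpow_add_le_mul_rpow_add_rpow _ _ hp
    _ = (2:ℝ≥0∞) ^ (p - 1) * (DI R (fun t x => ‖hw X f t x‖ₑ ^ p) + DI R (fun t x => ‖hw Y f t x‖ₑ ^ p)) := by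
        rw [DI_mul R _ (by rw [e2]; exact ENNReal.ofReal_ne_top), DI_add R mX mY]
    _ ≤ ENNReal.ofReal (2 ^ (p - 1)) * (ENNReal.ofReal (C1 * R ^ (α * p + 1)) * (∫⁻ x, ‖f x‖ₑ ^ p) +
        ENNReal.ofReal (C2 * R ^ (α * p + 1)) * (∫⁻ x, ‖f x‖ₑ ^ p)) := by
        rw [e2]; gcongr
    _ = _ := by
        rw [← add_mul, ← ENNReal.ofReal_add (by positivity) (by positivity), ← mul_assoc,
          ← ENNReal.ofReal_mul (by positivity)]
        congr 2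
        ring

theorem GL_zero {p α : ℝ} (hp : 0 < p) {X : E3 → ℂ} (h : ∀ ξ, X ξ = 0) : StGL p α X := by
  refine ⟨0, le_rfl, ?_⟩
  intro R f hR hf
  have e : ∀ t x, hw X f t x = 0 := by
    intro t x
    unfold hw
    have : (fun ξ : E3 => cexp (2 * Real.pi * I * (t * ‖ξ‖ : ℝ)) * (X ξ * 𝓕 f ξ)) = fun _ => 0 := by
      ext ξ; rw [h ξ]; ring
    rw [this, Real.fourierInv_eq']
    simp
  change DI R (fun t x => ‖hw X f t x‖ₑ ^ p) ≤ _
  simp_rw [e]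
  unfold DI
  simp [hp]

theorem GL_cover {p α : ℝ} (hp : 1 ≤ p) (r : E3 → ℝ) (hr : ∀ x, 0 < r x) (t : Finset E3) :
    (∀ x ∈ t, ∀ X : E3 → ℂ, ContDiff ℝ ∞ X → (∀ ξ, X ξ ≠ 0 → ‖ξ - x‖ < r x) → StGL p α X) →
    ∀ X : E3 → ℂ, Sm X → (∀ ξ, X ξ ≠ 0 → ∃ x ∈ t, ‖ξ - x‖ < r x / 2) → StGL p α X := by
  classical
  induction t using Finset.induction_on with
  | empty =>
    intro _ X hX hs
    apply GL_zero (by linarith)
    intro ξ
    by_contra hc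
    obtain ⟨x, hx, _⟩ := hs ξ hc
    simp at hx
  | insert x t hx ih =>
    intro hg X hX hs
    have hgx := hg x (Finset.mem_insert_self _ _)
    have ih' := ih (fun y hy => hg y (Finset.mem_insert_of_mem hy))
    have hrx := hr x
    set b : ContDiffBump x := ⟨r x / 2, r x, by positivity, by linarith⟩ with hb
    have hbs : ContDiff ℝ ∞ (fun ξ => ((b ξ : ℝ) : ℂ)) := Complex.ofRealCLM.contDiff.comp b.contDiff
    have h1 : Sm (fun ξ => X ξ * ((b ξ : ℝ) : ℂ)) := ⟨hX.smooth.mul hbs, hX.supp.mul_right⟩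
    have h2 : Sm (fun ξ => X ξ * (1 - ((b ξ : ℝ) : ℂ))) := ⟨hX.smooth.mul (contDiff_const.sub hbs), hX.supp.mul_right⟩
    have e : X = fun ξ => X ξ * ((b ξ : ℝ) : ℂ) + X ξ * (1 - ((b ξ : ℝ) : ℂ)) := by ext ξ; ring
    rw [e]
    apply GL_add hp h1 h2
    · apply hgx _ h1.smooth
      intro ξ hξ
      have h3 : b ξ ≠ 0 := by
        intro h; apply hξ; rw [h]; simp
      have h4 : ξ ∈ Function.support b := h3
      rw [b.support_eq, mem_ball_iff_norm] at h4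
      exact h4
    · apply ih' _ h2
      intro ξ hξ
      obtain ⟨y, hy, hy2⟩ := hs ξ (left_ne_zero_of_mul hξ)
      rw [Finset.mem_insert] at hy
      rcases hy with rfl | hy
      · exfalso
        apply right_ne_zero_of_mul hξ
        have : b ξ = 1 := by
          apply b.one_of_mem_closedBall
          rw [mem_closedBall_iff_norm]
          exact hy2.le
        rw [this]; simp
      · exact ⟨y, hy, hy2⟩

/-- **[TOP]** the estimate for the half wave operator from the model family -/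
theorem top {p α c0 : ℝ} (hp : 2 < p) (hα : 0 < α) (hc0 : 0 < c0) (hc1 : c0 ≤ 1) (h : StLS2 p α c0) : StGLall p α := by
  intro X hX hab
  obtain ⟨a, b, ha, hab⟩ := hab
  have hsm : Sm X := ⟨hX, compact_of_supp (fun ξ hξ => (hab ξ hξ).2)⟩
  have hloc : ∀ x : E3, ∃ r : ℝ, 0 < r ∧ (x ≠ 0 → ∀ X : E3 → ℂ, ContDiff ℝ ∞ X → (∀ ξ, X ξ ≠ 0 → ‖ξ - x‖ < r) → StGL p α X) := by
    intro x
    by_cases hx : x = 0
    · exact ⟨1, one_pos, fun h => absurd hx h⟩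
    · obtain ⟨r, hr, hr2⟩ := local_GL hp hα hc0 hc1 h hx
      exact ⟨r, hr, fun _ => hr2⟩
  choose r hr hr2 using hloc
  set K : Set E3 := {ξ | a ≤ ‖ξ‖ ∧ ‖ξ‖ ≤ b} with hK
  have hKc : IsCompact K := by
    apply (isCompact_closedBall (0:E3) b).of_isClosed_subset
    · exact (isClosed_le continuous_const continuous_norm).inter (isClosed_le continuous_norm continuous_const)
    · intro ξ hξ
      simpa using hξ.2
  obtain ⟨t, ht, hcov⟩ := hKc.elim_nhds_subcover (fun x => Metric.ball x (r x / 2))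
    (fun x hx => Metric.ball_mem_nhds x (by have := hr x; positivity))
  apply GL_cover (by linarith : 1 ≤ p) r hr t _ X hsm
  · intro ξ hξ
    have h1 := hcov (hab ξ hξ)
    rw [mem_iUnion₂] at h1
    obtain ⟨x, hx, hx2⟩ := h1
    exact ⟨x, hx, by rwa [mem_ball_iff_norm] at hx2⟩
  · intro x hx
    apply hr2 x
    intro h0
    have := (ht x hx).1
    rw [h0, norm_zero] at this
    linarith

end Vale.Agent.P106.G
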