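import Vale.Agent.P106.G.LocRec
import Vale.Agent.P106.G.Top
import Vale.Agent.P106.G.Int

/-! # Final assembly: from the local restricted bilinear estimate to the local smoothing estimates -/

open MeasureTheory Complex Set Filter
open scoped ENNReal NNReal ContDiff FourierTransform SchwartzMap Topology

set_option linter.all false

namespace Vale.Agent.P106.G

open Vale.Agent.P117 Vale.Agent.P106

theorem StGL_of_BR {p α α' c0 : ℝ} (hp : 2 < p) (hα' : 0 ≤ α') (hα : α' < α) (hc0 : 0 < c0) (hc1 : c0 ≤ 1)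
    (hBR : StBRg Hyp.ok2 p α' c0) : StGL p α X0 := by
  refine top hp (lt_of_le_of_lt hα' hα) hc0 hc1 (LS2_of_BR hp hα' hα hc0 hc1 hBR) X0 contDiff_X0 ⟨3/8, 3/2, by norm_num, ?_⟩
  intro ξ hξ
  exact q0_supp (r := ‖ξ‖) hξ

namespace LpgFin

/-- the local smoothing estimate for all exponents above the slope `s` -/
theorem LS_of_BR {p s : ℝ} (hp : 2 < p) (hs : 0 ≤ s)
    (hBR : ∀ α, s < α → ∃ c0 : ℝ, 0 < c0 ∧ c0 ≤ 1 ∧ StBRg Hyp.ok2 p α c0) :
    (∀ α, s < α → StGL p α X0) ∧ ∀ α, s < α → LS p α := by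
  have h1 : ∀ α, s < α → StGL p α X0 := by
    intro α hα
    obtain ⟨c0, h1, h2, h3⟩ := hBR ((s + α) / 2) (by linarith)
    exact StGL_of_BR hp (by linarith) (by linarith) h1 h2 h3
  refine ⟨h1, ?_⟩
  intro α hα
  exact LS_of_StGL hp (e := (s + α) / 2) (by linarith) (by linarith) (h1 _ (by linarith))

/-- the final statement from the local restricted bilinear estimate: `p0` is the end of the range of the bilinear
estimate, `s < 1/2` its slope -/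
theorem final_of_BR {p0 s : ℝ} (h2 : 2 < p0) (h3 : p0 < 3) (hs : 0 ≤ s)
    (hBR : ∀ p, 2 < p → p ≤ p0 → ∀ α, s * (1 / 2 - 1 / p) < α → ∃ c0 : ℝ, 0 < c0 ∧ c0 ≤ 1 ∧ StBRg Hyp.ok2 p α c0) :
    (∀ p, 2 < p → p ≤ p0 → ∀ α, s * (1 / 2 - 1 / p) < α → LS p α) ∧
    ((∀ α, 1 / 10 < α → LS (10 / 3) α) →
      ∀ α, 1 / 12 - (1 / 2 - s) * (1 / 2 - 1 / p0) * ((1 / 30) / (1 / p0 - 3 / 10)) < α → LS 3 α) := by
  have hsp : ∀ p, 2 < p → 0 ≤ s * (1 / 2 - 1 / p) := by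
    intro p hp
    have : 1 / p < 1 / 2 := one_div_lt_one_div_of_lt (by norm_num) hp
    have : 0 ≤ 1 / 2 - 1 / p := by linarith
    positivity
  refine ⟨fun p hp hp0 => (LS_of_BR hp (hsp p hp) (hBR p hp hp0)).2, fun h => ?_⟩
  exact cor3 h2 h3 hs (LS_of_BR h2 (hsp p0 h2) (hBR p0 h2 le_rfl)).1 h

/-- the final statement with the exponents of the chain: slope `13/28` and `p0 = 2 + 28/(70 + Cx)` -/
theorem final_Cx (Cx : ℕ)
    (hBR : ∀ p : ℝ, 2 < p → p ≤ 2 + 28 / (70 + Cx) → ∀ α, 13 / 28 * (1 / 2 - 1 / p) < α →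
      ∃ c0 : ℝ, 0 < c0 ∧ c0 ≤ 1 ∧ StBRg Hyp.ok2 p α c0) :
    (∀ p : ℝ, 2 < p → p ≤ 2 + 28 / (70 + Cx) → ∀ α, 13 / 28 * (1 / 2 - 1 / p) < α → LS p α) ∧
    ((∀ α, 1 / 10 < α → LS (10 / 3) α) → ∀ α : ℝ, 1 / 12 - 1 / (24 * (49 + Cx)) < α → LS 3 α) := by
  have hC : (0:ℝ) ≤ Cx := Nat.cast_nonneg _
  have h2 : (2:ℝ) < 2 + 28 / (70 + Cx) := by
    have : (0:ℝ) < 28 / (70 + Cx) := by positivity
    linarith
  have h3 : (2:ℝ) + 28 / (70 + Cx) < 3 := by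
    have : (28:ℝ) / (70 + Cx) < 1 := by rw [div_lt_one (by positivity)]; linarith
    linarith
  obtain ⟨f1, f2⟩ := final_of_BR h2 h3 (by norm_num) hBR
  refine ⟨f1, fun h α hα => f2 h α ?_⟩
  refine lt_of_le_of_lt (le_of_eq ?_) hα
  have e1 : (2:ℝ) + 28 / (70 + Cx) = (168 + 2 * Cx) / (70 + Cx) := by field_simp; ring
  rw [e1, one_div_div]
  have e2 : (0:ℝ) < 168 + 2 * Cx := by positivity
  have e3 : (0:ℝ) < 49 + Cx := by positivity
  have e4 : (70 + (Cx:ℝ)) / (168 + 2 * Cx) - 3 / 10 = (49 + Cx) / (5 * (84 + Cx)) := by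
    field_simp
    ring
  have e5 : (1:ℝ) / 2 - (70 + (Cx:ℝ)) / (168 + 2 * Cx) = 7 / (84 + Cx) := by
    field_simp
    ring
  rw [e4, e5]
  field_simp
  ring

end LpgFin

end Vale.Agent.P106.G
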