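import Vale.Agent.P106.G.Defs

/-! # Fourier tools on `E4` -/

open MeasureTheory Complex Set
open scoped ENNReal NNReal ContDiff FourierTransform SchwartzMap ComplexConjugate Topology

set_option linter.all false

namespace Vale.Agent.P106.G

open Vale.Agent.P117 (lintegral_sq_fourier_le fourierInv_mul_conv)
open Tri (ec norm_ec enorm_ec ec_add ec_zero continuous_ec)

theorem inv_eq (f : E4 → ℂ) (x : E4) : 𝓕⁻ f x = ∫ v, ec (inner ℝ v x) * f v := by
  rw [Real.fourierInv_eq']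
  simp only [ec, smul_eq_mul]

theorem inner4 (x y : E4) : inner ℝ x y = x 0 * y 0 + x 1 * y 1 + x 2 * y 2 + x 3 * y 3 := by
  simp [PiLp.inner_apply, Fin.sum_univ_four]
  ring

theorem norm4_sq (x : E4) : ‖x‖ ^ 2 = x 0 ^ 2 + x 1 ^ 2 + x 2 ^ 2 + x 3 ^ 2 := by
  rw [EuclideanSpace.norm_sq_eq]
  simp [Fin.sum_univ_four]

theorem abs_coord_le (t : E4) (i : Fin 4) : |t i| ≤ ‖t‖ := by
  have := PiLp.norm_apply_le t i
  simpa using this

theorem norm4_le (x : E4) {r : ℝ} (hr : 0 ≤ r) (h : ∀ i, |x i| ≤ r) : ‖x‖ ≤ 2 * r := by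
  have h0 := h 0
  have h1 := h 1
  have h2 := h 2
  have h3 := h 3
  have e := norm4_sq x
  have s : ∀ i, x i ^ 2 ≤ r ^ 2 := by
    intro i
    rw [← sq_abs]
    exact pow_le_pow_left₀ (abs_nonneg _) (h i) 2
  have : ‖x‖ ^ 2 ≤ (2 * r) ^ 2 := by
    have := s 0; have := s 1; have := s 2; have := s 3
    nlinarith
  exact (pow_le_pow_iff_left₀ (norm_nonneg _) (by positivity) two_ne_zero).1 this

theorem lintegral_smul4 {R : ℝ} (hR : 0 < R) (f : E4 → ℝ≥0∞) :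
    ∫⁻ x, f (R • x) = ENNReal.ofReal ((R ^ 4)⁻¹) * ∫⁻ x, f x := by
  have h := Measure.map_addHaar_smul (volume : Measure E4) hR.ne'
  have h2 : ∫⁻ x, f (R • x) = ∫⁻ x, f x ∂(Measure.map (fun x => R • x) volume) :=
    ((Homeomorph.smulOfNeZero R hR.ne').measurableEmbedding.lintegral_map f).symm
  rw [h2, h, lintegral_smul_measure, finrank_euclideanSpace_fin, smul_eq_mul, abs_of_pos (by positivity)]

/-! ## the bump -/

noncomputable def bmp : ContDiffBump (0 : E4) := ⟨1/2, 1, by norm_num, by norm_num⟩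

noncomputable def K0 (x : E4) : ℂ := ((bmp.normed volume x : ℝ) : ℂ)

theorem contDiff_K0 : ContDiff ℝ ∞ K0 :=
  Complex.ofRealCLM.contDiff.comp bmp.contDiff_normed

theorem hasCompactSupport_K0 : HasCompactSupport K0 := by
  have := bmp.hasCompactSupport_normed (μ := (volume : Measure E4))
  exact this.comp_left (g := fun r : ℝ => (r : ℂ)) (by simp)

theorem K0_supp {x : E4} (h : K0 x ≠ 0) : ‖x‖ ≤ 1 := by
  have h1 : bmp.normed volume x ≠ 0 := by
    intro h2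
    apply h
    unfold K0
    rw [h2]; simp
  have h2 : x ∈ Function.support (bmp.normed (volume : Measure E4)) := h1
  rw [bmp.support_normed_eq] at h2
  have := Metric.mem_ball.1 h2
  rw [dist_zero_right] at this
  exact this.le

noncomputable def KS : 𝓢(E4, ℂ) := hasCompactSupport_K0.toSchwartzMap contDiff_K0

theorem KS_apply (x : E4) : KS x = K0 x := rfl

/-- Schwartz function with Fourier transform supported in the unit ball -/
noncomputable def Psi : 𝓢(E4, ℂ) := 𝓕⁻ KS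

theorem Psi_eq (x : E4) : Psi x = 𝓕⁻ (KS : E4 → ℂ) x := by
  unfold Psi
  rw [SchwartzMap.fourierInv_coe]

theorem Psi_zero : Psi 0 = 1 := by
  rw [Psi_eq, inv_eq]
  have e : ∀ v : E4, ec (inner ℝ v 0) * KS v = ((bmp.normed volume v : ℝ) : ℂ) := by
    intro v
    rw [inner_zero_right, ec_zero, one_mul]
    rfl
  simp_rw [e]
  rw [integral_complex_ofReal, bmp.integral_normed]
  simp

theorem Psi_low : ∃ r : ℝ, 0 < r ∧ r ≤ 1 ∧ ∀ x : E4, ‖x‖ ≤ r → 1/2 ≤ ‖Psi x‖ := by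
  have hc : ContinuousAt (fun x : E4 => ‖Psi x‖) 0 := (Psi.continuous.norm).continuousAt
  have h1 : (fun x : E4 => ‖Psi x‖) 0 = 1 := by simp [Psi_zero]
  have h2 : ∀ᶠ x in 𝓝 (0 : E4), 1/2 < ‖Psi x‖ := by
    apply hc.eventually (lt_mem_nhds _)
    show 1/2 < ‖Psi 0‖
    rw [Psi_zero]; norm_num
  obtain ⟨r, hr, h⟩ := Metric.eventually_nhds_iff_ball.1 h2
  refine ⟨min (r/2) 1, by positivity, min_le_right _ _, fun x hx => (h x ?_).le⟩
  rw [Metric.mem_ball, dist_zero_right]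
  have := hx.trans (min_le_left _ _)
  linarith

theorem Psi_decay (M : ℕ) : ∃ C : ℝ, 0 ≤ C ∧ ∀ x : E4, ‖Psi x‖ ≤ C * ((1 + ‖x‖) ^ M)⁻¹ := by
  obtain ⟨C, hC⟩ := Psi.decay M 0
  obtain ⟨C', hC'⟩ := Psi.decay 0 0
  refine ⟨2 ^ M * (C + C'), by
    have := hC.1; have := hC'.1; positivity, ?_⟩
  intro x
  have h1 := hC.2 x
  have h2 := hC'.2 x
  rw [norm_iteratedFDeriv_zero] at h1 h2
  rw [pow_zero, one_mul] at h2
  rw [← div_eq_mul_inv, le_div_iff₀ (by positivity)]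
  have h3 : (1 + ‖x‖) ^ M ≤ 2 ^ M * (1 + ‖x‖ ^ M) := by
    rcases le_total ‖x‖ 1 with h | h
    · calc (1 + ‖x‖) ^ M ≤ 2 ^ M := pow_le_pow_left₀ (by positivity) (by linarith) _
        _ ≤ _ := by
          have : 0 ≤ ‖x‖ ^ M := by positivity
          have : (0:ℝ) < 2 ^ M := by positivity
          nlinarith
    · calc (1 + ‖x‖) ^ M ≤ (2 * ‖x‖) ^ M := pow_le_pow_left₀ (by positivity) (by linarith) _
        _ = 2 ^ M * ‖x‖ ^ M := by rw [mul_pow]
        _ ≤ _ := by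
          have : (0:ℝ) < 2 ^ M := by positivity
          nlinarith
  calc ‖Psi x‖ * (1 + ‖x‖) ^ M ≤ ‖Psi x‖ * (2 ^ M * (1 + ‖x‖ ^ M)) := by gcongr
    _ = 2 ^ M * (‖x‖ ^ M * ‖Psi x‖ + ‖Psi x‖) := by ring
    _ ≤ _ := by gcongr

/-- dilated bump -/
noncomputable def Kk (κ : ℝ) (η : E4) : ℂ := (((κ ^ 4)⁻¹ : ℝ) : ℂ) * KS (κ⁻¹ • η)

theorem continuous_Kk (κ : ℝ) : Continuous (Kk κ) := by
  unfold Kk
  exact continuous_const.mul (KS.continuous.comp (by fun_prop))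

theorem Kk_supp {κ : ℝ} (hκ : 0 < κ) {η : E4} (h : Kk κ η ≠ 0) : ‖η‖ ≤ κ := by
  have h1 : KS (κ⁻¹ • η) ≠ 0 := right_ne_zero_of_mul h
  have h2 := K0_supp h1
  rw [norm_smul, norm_inv, Real.norm_of_nonneg hκ.le, inv_mul_le_iff₀ hκ, mul_one] at h2
  exact h2

theorem Kk_bdd (κ : ℝ) : ∃ C : ℝ, ∀ η, ‖Kk κ η‖ ≤ C := by
  obtain ⟨C, hC⟩ := KS.decay 0 0
  refine ⟨‖(((κ ^ 4)⁻¹ : ℝ) : ℂ)‖ * C, fun η => ?_⟩
  unfold Kk
  rw [norm_mul]
  gcongr
  have := hC.2 (κ⁻¹ • η)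
  simpa using this

theorem integrable_Kk {κ : ℝ} (hκ : 0 < κ) : Integrable (Kk κ) := by
  unfold Kk
  exact (KS.integrable.comp_smul (inv_ne_zero hκ.ne')).const_mul _

theorem inv_Kk {κ : ℝ} (hκ : 0 < κ) (x : E4) : 𝓕⁻ (Kk κ) x = Psi (κ • x) := by
  rw [Psi_eq, inv_eq, inv_eq]
  have h := Measure.integral_comp_smul (volume : Measure E4) (fun v => ec (inner ℝ v (κ • x)) * KS v) κ⁻¹
  rw [finrank_euclideanSpace_fin] at h
  have e : ∀ v : E4, ec (inner ℝ v x) * Kk κ v =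
      (((κ ^ 4)⁻¹ : ℝ) : ℂ) * (ec (inner ℝ (κ⁻¹ • v) (κ • x)) * KS (κ⁻¹ • v)) := by
    intro v
    unfold Kk
    rw [inner_smul_left, inner_smul_right]
    simp only [conj_trivial]
    rw [← mul_assoc κ⁻¹, inv_mul_cancel₀ hκ.ne', one_mul]
    ring
  simp_rw [e]
  rw [integral_const_mul, h, Complex.real_smul, ← mul_assoc, ← Complex.ofReal_mul]
  have : (κ ^ 4)⁻¹ * |((κ⁻¹ ^ 4)⁻¹)| = 1 := by
    rw [abs_of_pos (by positivity)]
    field_simp
  rw [this]
  simp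

/-- modulated bump -/
noncomputable def ky (κ : ℝ) (y η : E4) : ℂ := Kk κ η * ec (-(inner ℝ η y))

theorem continuous_ky (κ : ℝ) (y : E4) : Continuous (ky κ y) := by
  unfold ky
  have h1 := continuous_Kk κ
  have h2 := continuous_ec
  exact h1.mul (h2.comp (by fun_prop))

theorem norm_ky (κ : ℝ) (y η : E4) : ‖ky κ y η‖ = ‖Kk κ η‖ := by
  unfold ky; rw [norm_mul, norm_ec, mul_one]

theorem integrable_ky {κ : ℝ} (hκ : 0 < κ) (y : E4) : Integrable (ky κ y) := by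
  refine (integrable_Kk hκ).norm.mono' (continuous_ky κ y).aestronglyMeasurable ?_
  filter_upwards with η
  rw [norm_ky]

theorem inv_ky {κ : ℝ} (hκ : 0 < κ) (y z : E4) : 𝓕⁻ (ky κ y) z = Psi (κ • (z - y)) := by
  rw [← inv_Kk hκ, inv_eq, inv_eq]
  congr 1
  ext v
  unfold ky
  rw [inner_sub_right, sub_eq_add_neg, ec_add]
  ring

/-- smeared amplitude -/
noncomputable def ga (κ : ℝ) (g : E4 → ℂ) (y ζ : E4) : ℂ := ∫ t, g t * ky κ y (ζ - t)

theorem inv_ga {κ : ℝ} (hκ : 0 < κ) {g : E4 → ℂ} (hg : Integrable g) (y z : E4) :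
    𝓕⁻ (ga κ g y) z = Psi (κ • (z - y)) * 𝓕⁻ g z := by
  rw [← inv_ky hκ, mul_comm, fourierInv_mul_conv hg (integrable_ky hκ y)]
  rfl

theorem ga_supp {κ : ℝ} (hκ : 0 < κ) {g : E4 → ℂ} {y ζ : E4} (h : ga κ g y ζ ≠ 0) :
    ∃ t, g t ≠ 0 ∧ ‖ζ - t‖ ≤ κ := by
  by_contra hcon
  push Not at hcon
  apply h
  unfold ga
  rw [integral_eq_zero_of_ae]
  filter_upwards with t
  by_cases ht : g t = 0
  · simp [ht]
  · have := hcon t ht
    have h2 : Kk κ (ζ - t) = 0 := by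
      by_contra h3
      exact absurd (Kk_supp hκ h3) (not_le.2 this)
    unfold ky
    simp [h2]

theorem ga_bdd {κ : ℝ} {g : E4 → ℂ} (hg : Integrable g) (y : E4) : ∃ C, ∀ ζ, ‖ga κ g y ζ‖ ≤ C := by
  obtain ⟨C, hC⟩ := Kk_bdd κ
  refine ⟨C * ∫ t, ‖g t‖, fun ζ => ?_⟩
  unfold ga
  calc _ ≤ ∫ t, ‖g t * ky κ y (ζ - t)‖ := norm_integral_le_integral_norm _
    _ ≤ ∫ t, C * ‖g t‖ := by
        apply integral_mono_of_nonneg (Filter.Eventually.of_forall fun _ => norm_nonneg _)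
          (hg.norm.const_mul _)
        filter_upwards with t
        rw [norm_mul, norm_ky, mul_comm]
        gcongr
        exact hC _
    _ = _ := integral_const_mul _ _

theorem continuous_ga {κ : ℝ} {g : E4 → ℂ} (hg : Integrable g) (y : E4) : Continuous (ga κ g y) := by
  unfold ga
  obtain ⟨C, hC⟩ := Kk_bdd κ
  apply continuous_of_dominated (bound := fun t => C * ‖g t‖)
  · intro ζ
    exact hg.aestronglyMeasurable.mul ((continuous_ky κ y).comp (by fun_prop)).aestronglyMeasurable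
  · intro ζ
    filter_upwards with t
    rw [norm_mul, norm_ky, mul_comm]
    gcongr
    exact hC _
  · exact hg.norm.const_mul _
  · filter_upwards with t
    exact continuous_const.mul ((continuous_ky κ y).comp (by fun_prop))

theorem integrable_ga {κ : ℝ} (hκ : 0 < κ) {g : E4 → ℂ} (hg : Integrable g) (y : E4) : Integrable (ga κ g y) := by
  have := hg.integrable_convolution (ContinuousLinearMap.mul ℂ ℂ) (integrable_ky hκ y)
  exact this

theorem lintegral_sq_inv_le {f : E4 → ℂ} (hf : Integrable f) (hfm : Measurable f) :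
    ∫⁻ ξ, ‖𝓕⁻ f ξ‖ₑ ^ 2 ≤ ∫⁻ x, ‖f x‖ₑ ^ 2 := by
  have h1 := lintegral_sq_fourier_le (hf.comp_neg) (hfm.comp measurable_neg)
  rw [← Real.fourierInv_eq_fourier_comp_neg] at h1
  refine h1.trans (le_of_eq ?_)
  exact lintegral_neg_eq_self (fun x => ‖f x‖ₑ ^ 2)

theorem continuous_inv {g : E4 → ℂ} (hg : Integrable g) : Continuous (𝓕⁻ g) := by
  have h : 𝓕⁻ g = fun x => 𝓕 g (-x) := by
    ext x
    exact Real.fourierInv_eq_fourier_neg _ _
  rw [h]
  exact (VectorFourier.fourierIntegral_continuous Real.continuous_fourierChar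
    (by exact continuous_inner) hg).comp continuous_neg

theorem norm_inv_le (g : E4 → ℂ) (z : E4) : ‖𝓕⁻ g z‖ ≤ ∫ ζ, ‖g ζ‖ := by
  rw [inv_eq]
  refine (norm_integral_le_integral_norm _).trans (le_of_eq ?_)
  congr 1
  ext v
  rw [norm_mul, norm_ec, one_mul]

theorem integrable_Psi_smul {κ : ℝ} (hκ : 0 < κ) (y : E4) : Integrable (fun z : E4 => Psi (κ • (z - y))) := by
  have := (Psi.integrable (μ := volume)).comp_smul hκ.ne'
  exact this.comp_sub_right y

theorem integrable_inv_ga {κ : ℝ} (hκ : 0 < κ) {g : E4 → ℂ} (hg : Integrable g) (y : E4) :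
    Integrable (𝓕⁻ (ga κ g y)) := by
  have e : 𝓕⁻ (ga κ g y) = fun z => Psi (κ • (z - y)) * 𝓕⁻ g z := by
    ext z; exact inv_ga hκ hg y z
  rw [e]
  apply (integrable_Psi_smul hκ y).mul_bdd (c := ∫ ζ, ‖g ζ‖)
  · exact (continuous_inv hg).aestronglyMeasurable
  · filter_upwards with z
    exact norm_inv_le g z

/-- Plancherel for functions which are continuous with integrable inverse transform -/
theorem plancherel_inv {f : E4 → ℂ} (hf : Integrable f) (hfc : Continuous f) (hi : Integrable (𝓕⁻ f)) :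
    ∫⁻ ζ, ‖f ζ‖ₑ ^ 2 = ∫⁻ z, ‖𝓕⁻ f z‖ₑ ^ 2 := by
  apply le_antisymm
  · have h1 := lintegral_sq_fourier_le hi (continuous_inv hf).measurable
    have hF : Integrable (𝓕 f) := by
      have e : 𝓕 f = fun x => 𝓕⁻ f (-x) := by
        ext x
        rw [Real.fourierInv_eq_fourier_neg, neg_neg]
      rw [e]
      exact hi.comp_neg
    have h2 : 𝓕 (𝓕⁻ f) = f := hfc.fourier_fourierInv_eq hf hF
    rwa [h2] at h1
  · exact lintegral_sq_inv_le hf hfc.measurable

end Vale.Agent.P106.G
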