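import Mathlib

/-! # Abstract hairbrush lemma, part 1: counting lemmas -/

open MeasureTheory Set
open scoped ENNReal

set_option linter.all false

namespace Vale.Agent.P106.G

/-- total length of finitely many subsets of the line of bounded overlap, contained in a short interval -/
theorem sumlen {ι : Type*} (J' : Finset ι) (A : ι → Set ℝ) (hA : ∀ j ∈ J', MeasurableSet (A j)) {K ℓ : ℝ}
    (hK : 0 ≤ K) (hl : 0 ≤ ℓ)
    (hc : ∀ t, ((by classical exact (J'.filter fun j => t ∈ A j).card : ℕ) : ℝ) ≤ K)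
    (hd : ∀ j ∈ J', ∀ j' ∈ J', ∀ t ∈ A j, ∀ t' ∈ A j', |t - t'| ≤ ℓ) :
    ∑ j ∈ J', volume (A j) ≤ ENNReal.ofReal (K * (2 * ℓ)) := by
  classical
  by_cases h : ∃ j ∈ J', (A j).Nonempty
  · obtain ⟨j0, hj0, t0, ht0⟩ := h
    have hsub : ∀ j ∈ J', A j ⊆ Icc (t0 - ℓ) (t0 + ℓ) := by
      intro j hj t ht
      have := abs_le.1 (hd j hj j0 hj0 t ht t0 ht0)
      exact ⟨by linarith [this.1], by linarith [this.2]⟩
    calc ∑ j ∈ J', volume (A j) = ∑ j ∈ J', ∫⁻ t in Icc (t0 - ℓ) (t0 + ℓ), (A j).indicator 1 t := by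
          refine Finset.sum_congr rfl fun j hj => ?_
          rw [lintegral_indicator_one (hA j hj), Measure.restrict_apply (hA j hj),
            inter_eq_left.2 (hsub j hj)]
      _ = ∫⁻ t in Icc (t0 - ℓ) (t0 + ℓ), ∑ j ∈ J', (A j).indicator 1 t := by
          rw [lintegral_finset_sum']
          intro j hj
          exact (measurable_one.indicator (hA j hj)).aemeasurable
      _ ≤ ∫⁻ t in Icc (t0 - ℓ) (t0 + ℓ), ENNReal.ofReal K := by
          refine lintegral_mono fun t => ?_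
          have e : ∑ j ∈ J', (A j).indicator (1 : ℝ → ℝ≥0∞) t = ((J'.filter fun j => t ∈ A j).card : ℝ≥0∞) := by
            rw [Finset.card_filter]
            push_cast
            refine Finset.sum_congr rfl fun j _ => ?_
            by_cases ht : t ∈ A j <;> simp [ht]
          rw [e]
          have h1 := hc t
          have : ((J'.filter fun j => t ∈ A j).card : ℝ≥0∞) =
              ENNReal.ofReal ((J'.filter fun j => t ∈ A j).card : ℝ) := by
            rw [ENNReal.ofReal_natCast]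
          rw [this]
          refine ENNReal.ofReal_le_ofReal ?_
          convert h1
      _ = ENNReal.ofReal (K * (2 * ℓ)) := by
          rw [setLIntegral_const, Real.volume_Icc, ← ENNReal.ofReal_mul hK]
          congr 1; ring
  · push Not at h
    have : ∑ j ∈ J', volume (A j) = 0 := Finset.sum_eq_zero fun j hj => by rw [h j hj]; simp
    rw [this]; exact bot_le

/-- dyadic majorant of `d / max d φ` -/
theorem dymaj {d φ : ℝ} (hd : 0 < d) (hφ : 0 ≤ φ) {n : ℕ} (hn : φ ≤ 2 ^ n * d) :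
    ∃ i ∈ Finset.range (n + 1), φ ≤ 2 ^ i * d ∧ (2 ^ i * d ≤ 2 * max d φ) ∧ d / max d φ ≤ 2 * (2 ^ i)⁻¹ := by
  classical
  have hex : ∃ i : ℕ, φ ≤ 2 ^ i * d := ⟨n, hn⟩
  have hm0 : 0 < max d φ := lt_of_lt_of_le hd (le_max_left _ _)
  refine ⟨Nat.find hex, ?_, Nat.find_spec hex, ?_, ?_⟩
  · rw [Finset.mem_range]
    exact Nat.lt_succ_of_le (Nat.find_min' hex hn)
  · rcases Nat.eq_zero_or_pos (Nat.find hex) with h0 | h0
    · rw [h0]; have := le_max_left d φ; simp only [pow_zero, one_mul]; linarith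
    · have := Nat.find_min hex (m := Nat.find hex - 1) (by omega)
      push Not at this
      obtain ⟨m, hm⟩ : ∃ m, Nat.find hex = m + 1 := ⟨Nat.find hex - 1, by omega⟩
      rw [hm] at this ⊢
      simp only [Nat.add_sub_cancel] at this
      have h2 := le_max_right d φ
      rw [pow_succ]; nlinarith
  · rcases Nat.eq_zero_or_pos (Nat.find hex) with h0 | h0
    · rw [h0]; simp only [pow_zero, inv_one, mul_one]
      rw [div_le_iff₀ hm0]
      have := le_max_left d φ; linarith
    · have := Nat.find_min hex (m := Nat.find hex - 1) (by omega)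
      push Not at this
      obtain ⟨m, hm⟩ : ∃ m, Nat.find hex = m + 1 := ⟨Nat.find hex - 1, by omega⟩
      rw [hm] at this ⊢
      simp only [Nat.add_sub_cancel] at this
      rw [div_le_iff₀ hm0]
      have e : (2:ℝ) * (2 ^ (m + 1))⁻¹ = (2 ^ m)⁻¹ := by
        rw [pow_succ]; field_simp
      rw [e]
      calc d = (2 ^ m)⁻¹ * (2 ^ m * d) := by field_simp
        _ ≤ (2 ^ m)⁻¹ * max d φ := by
          have := le_max_right d φ
          gcongr; linarith

/-- popularity lemma -/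
theorem pop2 {Ω ι : Type*} [MeasurableSpace Ω] (Λ : Measure Ω) {G : Set Ω} (hG : MeasurableSet G) (J : Finset ι)
    (Z : ι → Set (Ω × ℝ)) (mZ : ∀ j, MeasurableSet (Z j)) (n : ι → ℝ) {E d I m l : ℝ} (hE : 0 < E) (hd : 0 < d)
    (hI : 0 < I) (hm : 0 < m) (hl : 0 < l)
    (h1 : ∀ x ∈ G, ∀ j ∈ J, ∀ t t', (x, t) ∈ Z j → (x, t') ∈ Z j → |t - t'| ≤ E * d)
    (hn0 : ∀ j ∈ J, 0 ≤ n j) (hn : ∀ j ∈ J, n j ≤ E) (hnI : ∑ j ∈ J, n j ≤ I) (hΛ : Λ G ≤ ENNReal.ofReal m)
    (h : ENNReal.ofReal l ≤ ∫⁻ x in G, ∑ j ∈ J, ENNReal.ofReal (n j) * volume {t : ℝ | (x, t) ∈ Z j} ∂Λ) :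
    ∃ x0 ∈ G, ∃ J1 ⊆ J, (∀ j ∈ J1, ∃ t, (x0, t) ∈ Z j) ∧
      ENNReal.ofReal (l ^ 2 / (16 * m * E ^ 2 * d * I)) ≤ ∫⁻ x in G, ∑ j ∈ J1, volume {t : ℝ | (x, t) ∈ Z j} ∂Λ := by
  classical
  have mw : ∀ j, Measurable fun x : Ω => volume {t : ℝ | (x, t) ∈ Z j} := fun j => measurable_measure_prodMk_left (mZ j)
  set D : ι → ℝ≥0∞ := fun j => ∫⁻ x in G, volume {t : ℝ | (x, t) ∈ Z j} ∂Λ with hD
  have hsum : ∀ J' : Finset ι, ∫⁻ x in G, ∑ j ∈ J', ENNReal.ofReal (n j) * volume {t : ℝ | (x, t) ∈ Z j} ∂Λ =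
      ∑ j ∈ J', ENNReal.ofReal (n j) * D j := by
    intro J'
    rw [lintegral_finset_sum _ fun j _ => (mw j).const_mul _]
    refine Finset.sum_congr rfl fun j _ => ?_
    rw [lintegral_const_mul _ (mw j)]
  set J' := J.filter fun j => ENNReal.ofReal (l / (2 * I)) ≤ D j with hJ'
  have hJJ : J' ⊆ J := Finset.filter_subset _ _
  have h2 : ∑ j ∈ J.filter (fun j => ¬ ENNReal.ofReal (l / (2 * I)) ≤ D j), ENNReal.ofReal (n j) * D j ≤
      ENNReal.ofReal (l / 2) := by
    calc ∑ j ∈ J.filter (fun j => ¬ ENNReal.ofReal (l / (2 * I)) ≤ D j), ENNReal.ofReal (n j) * D j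
        ≤ ∑ j ∈ J.filter (fun j => ¬ ENNReal.ofReal (l / (2 * I)) ≤ D j),
            ENNReal.ofReal (n j) * ENNReal.ofReal (l / (2 * I)) := by
          refine Finset.sum_le_sum fun j hj => ?_
          have := (Finset.mem_filter.1 hj).2
          gcongr
          exact (not_le.1 this).le
      _ ≤ ∑ j ∈ J, ENNReal.ofReal (n j) * ENNReal.ofReal (l / (2 * I)) :=
          Finset.sum_le_sum_of_subset (Finset.filter_subset _ _)
      _ = ENNReal.ofReal ((∑ j ∈ J, n j) * (l / (2 * I))) := by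
          rw [← Finset.sum_mul, ENNReal.ofReal_mul (Finset.sum_nonneg hn0), ENNReal.ofReal_sum_of_nonneg hn0]
      _ ≤ ENNReal.ofReal (l / 2) := by
          refine ENNReal.ofReal_le_ofReal ?_
          calc (∑ j ∈ J, n j) * (l / (2 * I)) ≤ I * (l / (2 * I)) := by gcongr
            _ = l / 2 := by field_simp
  have h3 : ENNReal.ofReal (l / 2) ≤ ∑ j ∈ J', ENNReal.ofReal (n j) * D j := by
    rw [hsum, ← Finset.sum_filter_add_sum_filter_not J (fun j => ENNReal.ofReal (l / (2 * I)) ≤ D j)] at h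
    have e : ENNReal.ofReal l = ENNReal.ofReal (l / 2) + ENNReal.ofReal (l / 2) := by
      rw [← ENNReal.ofReal_add (by positivity) (by positivity)]; congr 1; ring
    rw [e] at h
    have h4 := h.trans (add_le_add_right h2 _)
    exact (ENNReal.add_le_add_iff_right ENNReal.ofReal_ne_top).1 h4
  obtain ⟨x0, hx0, hx⟩ : ∃ x0 ∈ G, ENNReal.ofReal (l / (4 * m)) ≤
      ∑ j ∈ J', ENNReal.ofReal (n j) * volume {t : ℝ | (x0, t) ∈ Z j} := by
    by_contra hcon
    push Not at hcon
    have h5 : ∑ j ∈ J', ENNReal.ofReal (n j) * D j ≤ ENNReal.ofReal (l / 4) := by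
      rw [← hsum]
      calc ∫⁻ x in G, ∑ j ∈ J', ENNReal.ofReal (n j) * volume {t : ℝ | (x, t) ∈ Z j} ∂Λ
          ≤ ∫⁻ x in G, ENNReal.ofReal (l / (4 * m)) ∂Λ := setLIntegral_mono' hG fun x hx => (hcon x hx).le
        _ = ENNReal.ofReal (l / (4 * m)) * Λ G := by rw [setLIntegral_const]
        _ ≤ ENNReal.ofReal (l / (4 * m)) * ENNReal.ofReal m := by gcongr
        _ = ENNReal.ofReal (l / 4) := by
          rw [← ENNReal.ofReal_mul (by positivity)]; congr 1; field_simp
    have h6 := h3.trans h5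
    rw [ENNReal.ofReal_le_ofReal_iff (by positivity)] at h6
    linarith
  set J1 := J'.filter fun j => ∃ t, (x0, t) ∈ Z j with hJ1
  refine ⟨x0, hx0, J1, (Finset.filter_subset _ _).trans hJJ, fun j hj => (Finset.mem_filter.1 hj).2, ?_⟩
  have hvol : ∀ j ∈ J, volume {t : ℝ | (x0, t) ∈ Z j} ≤ ENNReal.ofReal (2 * (E * d)) := by
    intro j hj
    by_cases hne : ∃ t, (x0, t) ∈ Z j
    · obtain ⟨t0, ht0⟩ := hne
      calc volume {t : ℝ | (x0, t) ∈ Z j} ≤ volume (Icc (t0 - E * d) (t0 + E * d)) := by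
            refine measure_mono fun t ht => ?_
            have := abs_le.1 (h1 x0 hx0 j hj t t0 ht ht0)
            exact ⟨by linarith [this.1], by linarith [this.2]⟩
        _ = ENNReal.ofReal (2 * (E * d)) := by rw [Real.volume_Icc]; congr 1; ring
    · have : {t : ℝ | (x0, t) ∈ Z j} = ∅ := by
        ext t; simp only [mem_setOf_eq, mem_empty_iff_false, iff_false]
        exact fun h => hne ⟨t, h⟩
      rw [this]; simp
  have hcard : l / (4 * m) ≤ (J1.card : ℝ) * (E * (2 * (E * d))) := by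
    have h7 : ENNReal.ofReal (l / (4 * m)) ≤ ENNReal.ofReal ((J1.card : ℝ) * (E * (2 * (E * d)))) := by
      refine hx.trans ?_
      calc ∑ j ∈ J', ENNReal.ofReal (n j) * volume {t : ℝ | (x0, t) ∈ Z j}
          = ∑ j ∈ J1, ENNReal.ofReal (n j) * volume {t : ℝ | (x0, t) ∈ Z j} := by
            symm
            refine Finset.sum_filter_of_ne fun j _ hne => ?_
            by_contra hcon
            refine hne ?_
            have : {t : ℝ | (x0, t) ∈ Z j} = ∅ := by
              ext t; simp only [mem_setOf_eq, mem_empty_iff_false, iff_false]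
              exact fun h => hcon ⟨t, h⟩
            rw [this]; simp
        _ ≤ ∑ j ∈ J1, ENNReal.ofReal (E * (2 * (E * d))) := by
            refine Finset.sum_le_sum fun j hj => ?_
            have hjJ : j ∈ J := hJJ ((Finset.filter_subset _ _) hj)
            rw [ENNReal.ofReal_mul hE.le]
            exact mul_le_mul' (ENNReal.ofReal_le_ofReal (hn j hjJ)) (hvol j hjJ)
        _ = ENNReal.ofReal ((J1.card : ℝ) * (E * (2 * (E * d)))) := by
            rw [Finset.sum_const, nsmul_eq_mul, ENNReal.ofReal_mul (p := (J1.card : ℝ)) (by positivity), ENNReal.ofReal_natCast]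
    rwa [ENNReal.ofReal_le_ofReal_iff (by positivity)] at h7
  rw [lintegral_finset_sum _ fun j _ => mw j]
  calc ENNReal.ofReal (l ^ 2 / (16 * m * E ^ 2 * d * I)) ≤ ENNReal.ofReal ((J1.card : ℝ) * (l / (2 * I))) := by
        refine ENNReal.ofReal_le_ofReal ?_
        have : l / (8 * m * E ^ 2 * d) ≤ (J1.card : ℝ) := by
          rw [div_le_iff₀ (by positivity)]
          rw [div_le_iff₀ (by positivity)] at hcard
          calc l ≤ _ := hcard
            _ = _ := by ring
        calc l ^ 2 / (16 * m * E ^ 2 * d * I) = l / (8 * m * E ^ 2 * d) * (l / (2 * I)) := by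
              field_simp; ring
          _ ≤ _ := by gcongr
    _ = ∑ j ∈ J1, ENNReal.ofReal (l / (2 * I)) := by
        rw [Finset.sum_const, nsmul_eq_mul, ENNReal.ofReal_mul (by positivity), ENNReal.ofReal_natCast]
    _ ≤ ∑ j ∈ J1, D j := by
        refine Finset.sum_le_sum fun j hj => ?_
        exact (Finset.mem_filter.1 ((Finset.filter_subset _ _) hj)).2

end Vale.Agent.P106.G
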