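import Vale.Agent.P106.G.GeA

/-! # Abstract hairbrush lemma, part 2 -/

open MeasureTheory Set
open scoped ENNReal

set_option linter.all false

namespace Vale.Agent.P106.G

/-- hypotheses of the hairbrush lemma: `x` = line `{(a x + c o x, c)}` in three-space, `cc x t` = coordinate `c` at time `t`,
`Z j` = incidences with the cell `j`, `cm x` = coordinate of the mark -/
structure HB {Ω ι : Type*} [MeasurableSpace Ω] (Λ : Measure Ω) (S0 : Set Ω) (J : Finset ι)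
    (Z : ι → Set (Ω × ℝ)) (cc : Ω → ℝ → ℝ) (a1 a2 o1 o2 cm : Ω → ℝ) (E d B m0 : ℝ) : Prop where
  mS : MeasurableSet S0
  mZ : ∀ j, MeasurableSet (Z j)
  mcc : Measurable (fun p : Ω × ℝ => cc p.1 p.2)
  ma1 : Measurable a1
  ma2 : Measurable a2
  mo1 : Measurable o1
  mo2 : Measurable o2
  mcm : Measurable cm
  E1 : 1 ≤ E
  d0 : 0 < d
  d1 : d ≤ 1
  B0 : 0 < B
  m0p : 0 < m0
  BE : B * m0 ≤ E
  mE : m0 ≤ E
  h0 : ∀ x ∈ S0, ∀ j ∈ J, ∀ t, (x, t) ∈ Z j → |t| ≤ E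
  h1 : ∀ x ∈ S0, ∀ j ∈ J, ∀ t t', (x, t) ∈ Z j → (x, t') ∈ Z j → |t - t'| ≤ E * d
  h2 : ∀ x ∈ S0, ∀ t, ((by classical exact (J.filter fun j => (x, t) ∈ Z j).card : ℕ) : ℝ) ≤ E
  h3 : ∀ x ∈ S0, ∀ x' ∈ S0, ∀ j ∈ J, ∀ t t', (x, t) ∈ Z j → (x', t') ∈ Z j →
    |(a1 x - a1 x') + cc x t * (o1 x - o1 x')| ≤ E * d ∧ |(a2 x - a2 x') + cc x t * (o2 x - o2 x')| ≤ E * d
  h4 : ∀ x ∈ S0, ∀ j ∈ J, ∀ j' ∈ J, ∀ t t', (x, t) ∈ Z j → (x, t') ∈ Z j' → |t - t'| ≤ E * |cc x t - cc x t'|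
  h5 : ∀ x ∈ S0, |cm x| ≤ E ∧ |o1 x| ≤ E ∧ |o2 x| ≤ E ∧ ∀ j ∈ J, ∀ t, (x, t) ∈ Z j → |cc x t| ≤ E
  h6 : ∀ (p1 p2 q1 q2 p1' p2' q1' q2' n1 n2 r r' : ℝ), n1 ^ 2 + n2 ^ 2 = 1 → 0 ≤ r → 0 ≤ r' →
    Λ {x ∈ S0 | |(a1 x + cm x * o1 x) - (p1 + cm x * q1)| ≤ r ∧ |(a2 x + cm x * o2 x) - (p2 + cm x * q2)| ≤ r ∧
      |((a1 x + cm x * o1 x) - (p1' + cm x * q1')) * n1 + ((a2 x + cm x * o2 x) - (p2' + cm x * q2')) * n2| ≤ r'} ≤
      ENNReal.ofReal (B * r * r')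
  h7 : Λ S0 ≤ ENNReal.ofReal m0

namespace HB

variable {Ω ι : Type*} [MeasurableSpace Ω] {Λ : Measure Ω} {S0 : Set Ω} {J : Finset ι}
    {Z : ι → Set (Ω × ℝ)} {cc : Ω → ℝ → ℝ} {a1 a2 o1 o2 cm : Ω → ℝ} {E d B m0 : ℝ}

/-- angle of two lines -/
noncomputable def ang (o1 o2 : Ω → ℝ) (x x' : Ω) : ℝ := max |o1 x - o1 x'| |o2 x - o2 x'|

theorem ang_nonneg (o1 o2 : Ω → ℝ) (x x' : Ω) : 0 ≤ ang o1 o2 x x' := le_max_of_le_left (abs_nonneg _)

/-- two values of an affine map: if both are small then the parameters are close -/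
theorem aff_close {a1 a2 b1 b2 c c' e φ : ℝ} (hφ : φ = max |b1| |b2|)
    (h1 : |a1 + c * b1| ≤ e) (h2 : |a2 + c * b2| ≤ e) (h1' : |a1 + c' * b1| ≤ e) (h2' : |a2 + c' * b2| ≤ e) :
    φ * |c - c'| ≤ 2 * e := by
  rw [abs_le] at h1 h2 h1' h2'
  rw [hφ]
  rcases max_cases |b1| |b2| with ⟨hm, _⟩ | ⟨hm, _⟩
  · rw [hm, ← abs_mul, abs_le]; constructor <;> nlinarith [h1.1, h1.2, h1'.1, h1'.2]
  · rw [hm, ← abs_mul, abs_le]; constructor <;> nlinarith [h2.1, h2.2, h2'.1, h2'.2]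

variable (H : HB Λ S0 J Z cc a1 a2 o1 o2 cm E d B m0)
include H

/-- total time a line spends in cells which meet another line -/
theorem tau_le {x0 x : Ω} (hx0 : x0 ∈ S0) (hx : x ∈ S0) {J' : Finset ι} (hJ' : J' ⊆ J)
    (hw : ∀ j ∈ J', ∃ t, (x0, t) ∈ Z j) {Z' : ι → Set (Ω × ℝ)} (mZ' : ∀ j, MeasurableSet (Z' j))
    (hZ' : ∀ j, Z' j ⊆ Z j) :
    ∑ j ∈ J', volume {t : ℝ | (x, t) ∈ Z' j} ≤ ENNReal.ofReal (4 * E ^ 3 * (d / max d (ang o1 o2 x x0))) := by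
  classical
  have hE := H.E1
  have hd := H.d0
  have hm0 : 0 < max d (ang o1 o2 x x0) := lt_of_lt_of_le hd (le_max_left _ _)
  have e : 4 * E ^ 3 * (d / max d (ang o1 o2 x x0)) = E * (2 * (2 * E ^ 2 * (d / max d (ang o1 o2 x x0)))) := by ring
  rw [e]
  refine sumlen J' _ (fun j _ => measurable_prodMk_left (mZ' j)) (by linarith) (by positivity) ?_ ?_
  · intro t
    refine le_trans ?_ (H.h2 x hx t)
    norm_cast
    refine Finset.card_le_card fun j hj => ?_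
    rw [Finset.mem_filter] at hj ⊢
    exact ⟨hJ' hj.1, hZ' j hj.2⟩
  · intro j hj j' hj' t ht t' ht'
    have ht := hZ' j ht
    have ht' := hZ' j' ht'
    rcases le_total (ang o1 o2 x x0) d with hφ | hφ
    · rw [max_eq_left hφ, div_self hd.ne', mul_one]
      have g1 := abs_le.1 (H.h0 x hx j (hJ' hj) t ht)
      have g2 := abs_le.1 (H.h0 x hx j' (hJ' hj') t' ht')
      rw [abs_le]; constructor <;> nlinarith [g1.1, g1.2, g2.1, g2.2]
    · rw [max_eq_right hφ]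
      have hφ0 : 0 < ang o1 o2 x x0 := lt_of_lt_of_le hd hφ
      obtain ⟨s, hs⟩ := hw j hj
      obtain ⟨s', hs'⟩ := hw j' hj'
      have g1 := H.h3 x hx x0 hx0 j (hJ' hj) t s ht hs
      have g2 := H.h3 x hx x0 hx0 j' (hJ' hj') t' s' ht' hs'
      have g3 := aff_close (φ := ang o1 o2 x x0) rfl g1.1 g1.2 g2.1 g2.2
      have g4 := H.h4 x hx j (hJ' hj) j' (hJ' hj') t t' ht ht'
      refine g4.trans ?_
      have g5 : |cc x t - cc x t'| ≤ 2 * (E * d) / ang o1 o2 x x0 := by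
        rw [le_div_iff₀ hφ0]; linarith
      calc E * |cc x t - cc x t'| ≤ E * (2 * (E * d) / ang o1 o2 x x0) := by gcongr
        _ = _ := by ring

/-- the marks of lines meeting at a small angle are close -/
theorem near {x0 x : Ω} (hx0 : x0 ∈ S0) (hx : x ∈ S0) {j : ι} (hj : j ∈ J) {t t' : ℝ} (ht : (x, t) ∈ Z j)
    (ht' : (x0, t') ∈ Z j) {r : ℝ} (hr : d ≤ r) (hφ : ang o1 o2 x x0 ≤ r) :
    |(a1 x + cm x * o1 x) - (a1 x0 + cm x * o1 x0)| ≤ 3 * E * r ∧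
    |(a2 x + cm x * o2 x) - (a2 x0 + cm x * o2 x0)| ≤ 3 * E * r := by
  have hE := H.E1
  have g1 := H.h3 x hx x0 hx0 j hj t t' ht ht'
  have g5 := H.h5 x hx
  have c1 := abs_le.1 g5.1
  have c2 := abs_le.1 (g5.2.2.2 j hj t ht)
  have hc : |cm x - cc x t| ≤ 2 * E := by rw [abs_le]; constructor <;> linarith [c1.1, c1.2, c2.1, c2.2]
  have o1' : |o1 x - o1 x0| ≤ r := (le_max_left _ _).trans hφ
  have o2' : |o2 x - o2 x0| ≤ r := (le_max_right _ _).trans hφ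
  have hEd : E * d ≤ E * r := by gcongr
  constructor
  · calc |(a1 x + cm x * o1 x) - (a1 x0 + cm x * o1 x0)|
        = |((a1 x - a1 x0) + cc x t * (o1 x - o1 x0)) + (cm x - cc x t) * (o1 x - o1 x0)| := by congr 1; ring
      _ ≤ |(a1 x - a1 x0) + cc x t * (o1 x - o1 x0)| + |cm x - cc x t| * |o1 x - o1 x0| := by
          rw [← abs_mul]; exact abs_add_le _ _
      _ ≤ E * d + 2 * E * r := by
          have : 0 ≤ |cm x - cc x t| := abs_nonneg _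
          gcongr; exact g1.1
      _ ≤ 3 * E * r := by linarith
  · calc |(a2 x + cm x * o2 x) - (a2 x0 + cm x * o2 x0)|
        = |((a2 x - a2 x0) + cc x t * (o2 x - o2 x0)) + (cm x - cc x t) * (o2 x - o2 x0)| := by congr 1; ring
      _ ≤ |(a2 x - a2 x0) + cc x t * (o2 x - o2 x0)| + |cm x - cc x t| * |o2 x - o2 x0| := by
          rw [← abs_mul]; exact abs_add_le _ _
      _ ≤ E * d + 2 * E * r := by
          gcongr; exact g1.2
      _ ≤ 3 * E * r := by linarith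

end HB

/-- sum over dyadic angles -/
theorem dysum {Ω : Type*} [MeasurableSpace Ω] {Λ : Measure Ω} {G : Set Ω} (hG : MeasurableSet G) (τ : Ω → ℝ≥0∞)
    (φ : Ω → ℝ) {d K M : ℝ} {n : ℕ} (hd : 0 < d) (hK : 0 ≤ K) (hM : 0 ≤ M) (hφ0 : ∀ x ∈ G, 0 ≤ φ x)
    (hφ : ∀ x ∈ G, φ x ≤ 2 ^ n * d) (hτ : ∀ x ∈ G, τ x ≤ ENNReal.ofReal (K * (d / max d (φ x)))) (I0 : Set ℕ)
    (hI0 : ∀ x ∈ G, ∀ i : ℕ, 2 ^ i * d ≤ 2 * max d (φ x) → i ∈ I0)
    (N : ℕ → Set Ω)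
    (hN : ∀ x ∈ G, τ x ≠ 0 → ∀ i : ℕ, φ x ≤ 2 ^ i * d → x ∈ N i)
    (hΛ : ∀ i ∈ I0, Λ (N i) ≤ ENNReal.ofReal (M * 2 ^ i)) :
    ∫⁻ x in G, τ x ∂Λ ≤ ENNReal.ofReal (2 * K * M * (n + 1)) := by
  classical
  -- measurable hulls
  set N' : ℕ → Set Ω := fun i => toMeasurable Λ (N i)
  have mN' : ∀ i, MeasurableSet (N' i) := fun i => measurableSet_toMeasurable _ _
  calc ∫⁻ x in G, τ x ∂Λ ≤ ∫⁻ x in G, ∑ i ∈ (Finset.range (n + 1)).filter (· ∈ I0),
          ENNReal.ofReal (2 * K * (2 ^ i)⁻¹) * (N' i).indicator 1 x ∂Λ := by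
        refine setLIntegral_mono' hG fun x hx => ?_
        by_cases h0 : τ x = 0
        · rw [h0]; exact bot_le
        · obtain ⟨i, hi, h1, h2, h3⟩ := dymaj hd (hφ0 x hx) (hφ x hx)
          have hi' : i ∈ (Finset.range (n + 1)).filter (· ∈ I0) :=
            Finset.mem_filter.2 ⟨hi, hI0 x hx i h2⟩
          refine le_trans ?_ (Finset.single_le_sum (fun _ _ => bot_le) hi')
          have hxN : x ∈ N' i := subset_toMeasurable _ _ (hN x hx h0 i h1)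
          rw [indicator_of_mem hxN, Pi.one_apply, mul_one]
          refine (hτ x hx).trans (ENNReal.ofReal_le_ofReal ?_)
          calc K * (d / max d (φ x)) ≤ K * (2 * (2 ^ i)⁻¹) := by gcongr
            _ = _ := by ring
    _ = ∑ i ∈ (Finset.range (n + 1)).filter (· ∈ I0), ENNReal.ofReal (2 * K * (2 ^ i)⁻¹) * (Λ.restrict G) (N' i) := by
        rw [lintegral_finset_sum _ fun i _ => ((measurable_one.indicator (mN' i)).const_mul _)]
        refine Finset.sum_congr rfl fun i _ => ?_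
        rw [lintegral_const_mul _ (measurable_one.indicator (mN' i)), lintegral_indicator_one (mN' i)]
    _ ≤ ∑ i ∈ (Finset.range (n + 1)).filter (· ∈ I0), ENNReal.ofReal (2 * K * M) := by
        refine Finset.sum_le_sum fun i hi => ?_
        have hi0 := (Finset.mem_filter.1 hi).2
        calc ENNReal.ofReal (2 * K * (2 ^ i)⁻¹) * (Λ.restrict G) (N' i)
            ≤ ENNReal.ofReal (2 * K * (2 ^ i)⁻¹) * ENNReal.ofReal (M * 2 ^ i) := by
              gcongr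
              refine (Measure.restrict_apply_le _ _).trans ?_
              rw [measure_toMeasurable]; exact hΛ i hi0
          _ = ENNReal.ofReal (2 * K * M) := by
              rw [← ENNReal.ofReal_mul (by positivity)]; congr 1; field_simp
    _ ≤ ∑ i ∈ Finset.range (n + 1), ENNReal.ofReal (2 * K * M) :=
        Finset.sum_le_sum_of_subset (Finset.filter_subset _ _)
    _ = ENNReal.ofReal (2 * K * M * (n + 1)) := by
        rw [Finset.sum_const, Finset.card_range, nsmul_eq_mul, mul_comm,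
          ENNReal.ofReal_mul (by positivity : (0:ℝ) ≤ 2 * K * M)]
        congr 1
        rw [← Nat.cast_succ, ENNReal.ofReal_natCast]

end Vale.Agent.P106.G
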