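import Vale.Agent.P106.G.GeA2

/-! # Abstract hairbrush lemma, part 3: the choice of the hairbrush -/

open MeasureTheory Set
open scoped ENNReal

set_option linter.all false

namespace Vale.Agent.P106.G.HB

variable {Ω ι : Type*} [MeasurableSpace Ω] {Λ : Measure Ω} {S0 : Set Ω} {J : Finset ι}
    {Z : ι → Set (Ω × ℝ)} {cc : Ω → ℝ → ℝ} {a1 a2 o1 o2 cm : Ω → ℝ} {E d B m0 : ℝ}

variable (H : HB Λ S0 J Z cc a1 a2 o1 o2 cm E d B m0)
include H

theorem meas_ang (x0 : Ω) : Measurable fun x => ang o1 o2 x x0 := by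
  unfold ang
  exact ((H.mo1.sub_const _).abs).max ((H.mo2.sub_const _).abs)

theorem ang_le {x x0 : Ω} (hx : x ∈ S0) (hx0 : x0 ∈ S0) : ang o1 o2 x x0 ≤ 2 * E := by
  have h := H.h5 x hx
  have h' := H.h5 x0 hx0
  unfold ang
  refine max_le ((abs_sub _ _).trans (by linarith [h.2.1, h'.2.1])) ((abs_sub _ _).trans (by linarith [h.2.2.1, h'.2.2.1]))

/-- [step 1] the hairbrush: a line `x0` and a large set `Hs` of lines meeting it at the angle at least `θ` -/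
theorem step1 {n : ι → ℝ} {I l : ℝ} (hn0 : ∀ j ∈ J, 0 ≤ n j) (hn : ∀ j ∈ J, n j ≤ E) (hnI : ∑ j ∈ J, n j ≤ I)
    (hI : 0 < I) (hl : 0 < l) {ns : ℕ} (hns : 2 * E ≤ 2 ^ ns * d)
    (h : ENNReal.ofReal l ≤ ∫⁻ x in S0, ∑ j ∈ J, ENNReal.ofReal (n j) * volume {t : ℝ | (x, t) ∈ Z j} ∂Λ)
    {j1 θ : ℝ} (hj1 : j1 = (l / 2) ^ 2 / (16 * m0 * E ^ 2 * d * I)) (hθ : θ = j1 / (288 * E ^ 5 * B * d * (ns + 1)))
    (hθd : d ≤ θ) :
    ∃ x0 ∈ S0, ∃ Hs ⊆ S0, MeasurableSet Hs ∧ (∀ x ∈ Hs, θ ≤ ang o1 o2 x x0) ∧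
      (∀ x ∈ Hs, ∃ j ∈ J, ∃ t t', (x, t) ∈ Z j ∧ (x0, t') ∈ Z j) ∧
      (∀ x ∈ Hs, ENNReal.ofReal (l / (2 * m0)) ≤ ∑ j ∈ J, ENNReal.ofReal (n j) * volume {t : ℝ | (x, t) ∈ Z j}) ∧
      ENNReal.ofReal (j1 * θ / (8 * E ^ 3 * d)) ≤ Λ Hs := by
  classical
  have hE := H.E1
  have hd := H.d0
  have hB := H.B0
  have hm0 := H.m0p
  have hj1p : 0 < j1 := by rw [hj1]; positivity
  have hθp : 0 < θ := lt_of_lt_of_le hd hθd
  have mw : ∀ j, Measurable fun x : Ω => volume {t : ℝ | (x, t) ∈ Z j} := fun j => measurable_measure_prodMk_left (H.mZ j)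
  set F : Ω → ℝ≥0∞ := fun x => ∑ j ∈ J, ENNReal.ofReal (n j) * volume {t : ℝ | (x, t) ∈ Z j} with hF
  have mF : Measurable F := Finset.measurable_sum _ fun j _ => (mw j).const_mul _
  set G : Set Ω := S0 ∩ {x | ENNReal.ofReal (l / (2 * m0)) ≤ F x} with hG
  have mG : MeasurableSet G := H.mS.inter (measurableSet_le measurable_const mF)
  have hGS : G ⊆ S0 := inter_subset_left
  have h1 : ENNReal.ofReal (l / 2) ≤ ∫⁻ x in G, F x ∂Λ := by
    have e : ENNReal.ofReal l = ENNReal.ofReal (l / 2) + ENNReal.ofReal (l / 2) := by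
      rw [← ENNReal.ofReal_add (by positivity) (by positivity)]; congr 1; ring
    have h2 : ∫⁻ x in S0, F x ∂Λ ≤ ∫⁻ x in G, F x ∂Λ + ENNReal.ofReal (l / 2) := by
      have hsplit : ∫⁻ x in S0, F x ∂Λ = ∫⁻ x in G, F x ∂Λ + ∫⁻ x in S0 \ G, F x ∂Λ := by
        have := lintegral_inter_add_diff (μ := Λ) F S0 mG
        rw [← this, inter_eq_right.2 hGS]
      rw [hsplit]
      gcongr
      calc ∫⁻ x in S0 \ G, F x ∂Λ ≤ ∫⁻ x in S0 \ G, ENNReal.ofReal (l / (2 * m0)) ∂Λ := by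
            refine setLIntegral_mono' (H.mS.diff mG) fun x hx => ?_
            have : ¬ ENNReal.ofReal (l / (2 * m0)) ≤ F x := fun hc => hx.2 ⟨hx.1, hc⟩
            exact (not_le.1 this).le
        _ = ENNReal.ofReal (l / (2 * m0)) * Λ (S0 \ G) := by rw [setLIntegral_const]
        _ ≤ ENNReal.ofReal (l / (2 * m0)) * ENNReal.ofReal m0 := by
            gcongr; exact (measure_mono diff_subset).trans H.h7
        _ = ENNReal.ofReal (l / 2) := by
            rw [← ENNReal.ofReal_mul (by positivity)]; congr 1; field_simp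
    rw [e] at h
    have h4 := h.trans h2
    exact (ENNReal.add_le_add_iff_right ENNReal.ofReal_ne_top).1 h4
  obtain ⟨x0, hx0, J1, hJ1, hJw, hpop⟩ := pop2 Λ mG J Z H.mZ n (by linarith : 0 < E) hd hI hm0 (by positivity : 0 < l / 2)
    (fun x hx => H.h1 x (hGS hx)) hn0 hn hnI ((measure_mono hGS).trans H.h7) h1
  rw [← hj1] at hpop
  set τ : Ω → ℝ≥0∞ := fun x => ∑ j ∈ J1, volume {t : ℝ | (x, t) ∈ Z j} with hτ
  have mτ : Measurable τ := Finset.measurable_sum _ fun j _ => mw j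
  have hx0S := hGS hx0
  have mφ := meas_ang H x0
  set G' : Set Ω := G ∩ {x | ang o1 o2 x x0 < θ} with hG'
  have mG' : MeasurableSet G' := mG.inter (measurableSet_lt mφ measurable_const)
  have htau : ∀ x ∈ S0, τ x ≤ ENNReal.ofReal (4 * E ^ 3 * (d / max d (ang o1 o2 x x0))) := fun x hx =>
    tau_le H hx0S hx hJ1 hJw H.mZ fun _ => subset_rfl
  have hwit : ∀ x, τ x ≠ 0 → ∃ j ∈ J1, ∃ t, (x, t) ∈ Z j := by
    intro x hx
    by_contra hcon
    push Not at hcon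
    refine hx (Finset.sum_eq_zero fun j hj => ?_)
    have : {t : ℝ | (x, t) ∈ Z j} = ∅ := by
      ext t; simp only [mem_setOf_eq, mem_empty_iff_false, iff_false]; exact hcon j hj t
    rw [this]; simp
  -- small angles
  have hlow : ∫⁻ x in G', τ x ∂Λ ≤ ENNReal.ofReal (j1 / 2) := by
    have e : 2 * (4 * E ^ 3) * (18 * E ^ 2 * B * θ * d) * (ns + 1) = j1 / 2 := by
      rw [hθ]; field_simp; ring
    rw [← e]
    refine dysum mG' τ (fun x => ang o1 o2 x x0) hd (by positivity) (by positivity)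
      (fun x _ => ang_nonneg _ _ _ _) (fun x hx => (ang_le H (hGS hx.1) hx0S).trans hns)
      (fun x hx => htau x (hGS hx.1)) {i | 2 ^ i * d ≤ 2 * θ} ?_
      (fun i => {x ∈ S0 | |(a1 x + cm x * o1 x) - (a1 x0 + cm x * o1 x0)| ≤ 3 * E * (2 ^ i * d) ∧
        |(a2 x + cm x * o2 x) - (a2 x0 + cm x * o2 x0)| ≤ 3 * E * (2 ^ i * d) ∧
        |((a1 x + cm x * o1 x) - (a1 x0 + cm x * o1 x0)) * 1 + ((a2 x + cm x * o2 x) - (a2 x0 + cm x * o2 x0)) * 0| ≤
          3 * E * (2 ^ i * d)}) ?_ ?_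
    · intro x hx i hi
      have : max d (ang o1 o2 x x0) ≤ θ := max_le hθd (hx.2 : ang o1 o2 x x0 < θ).le
      exact hi.trans (by linarith)
    · intro x hx hne i hi
      obtain ⟨j, hj, t, ht⟩ := hwit x hne
      obtain ⟨t', ht'⟩ := hJw j hj
      have h2i : d ≤ 2 ^ i * d := le_mul_of_one_le_left hd.le (one_le_pow₀ (by norm_num))
      have := near H hx0S (hGS hx.1) (hJ1 hj) ht ht' h2i hi
      refine ⟨hGS hx.1, this.1, this.2, ?_⟩
      rw [mul_one, mul_zero, add_zero]; exact this.1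
    · intro i hi
      have hi : (2:ℝ) ^ i * d ≤ 2 * θ := hi
      refine (H.h6 (a1 x0) (a2 x0) (o1 x0) (o2 x0) (a1 x0) (a2 x0) (o1 x0) (o2 x0) 1 0 (3 * E * (2 ^ i * d))
        (3 * E * (2 ^ i * d)) (by norm_num) (by positivity) (by positivity)).trans (ENNReal.ofReal_le_ofReal ?_)
      calc B * (3 * E * (2 ^ i * d)) * (3 * E * (2 ^ i * d)) = 9 * E ^ 2 * B * d * 2 ^ i * (2 ^ i * d) := by ring
        _ ≤ 9 * E ^ 2 * B * d * 2 ^ i * (2 * θ) := by gcongr
        _ = _ := by ring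
  set Hs : Set Ω := (G \ G') ∩ {x | τ x ≠ 0} with hHs
  have mHs : MeasurableSet Hs := (mG.diff mG').inter (mτ (measurableSet_singleton 0).compl)
  have hHG : Hs ⊆ G := fun x hx => hx.1.1
  have hang : ∀ x ∈ Hs, θ ≤ ang o1 o2 x x0 := by
    intro x hx
    have : ¬ ang o1 o2 x x0 < θ := fun hc => hx.1.2 ⟨hx.1.1, hc⟩
    exact not_lt.1 this
  refine ⟨x0, hx0S, Hs, hHG.trans hGS, mHs, hang, ?_, fun x hx => (hHG hx).2, ?_⟩
  · intro x hx
    obtain ⟨j, hj, t, ht⟩ := hwit x hx.2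
    obtain ⟨t', ht'⟩ := hJw j hj
    exact ⟨j, hJ1 hj, t, t', ht, ht'⟩
  · have hhigh : ENNReal.ofReal (j1 / 2) ≤ ∫⁻ x in Hs, τ x ∂Λ := by
      have e : ENNReal.ofReal j1 = ENNReal.ofReal (j1 / 2) + ENNReal.ofReal (j1 / 2) := by
        rw [← ENNReal.ofReal_add (by positivity) (by positivity)]; congr 1; ring
      have h2 : ∫⁻ x in G, τ x ∂Λ = ∫⁻ x in G', τ x ∂Λ + ∫⁻ x in G \ G', τ x ∂Λ := by
        have := lintegral_inter_add_diff (μ := Λ) τ G mG'
        rw [← this, inter_eq_right.2 inter_subset_left]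
      have h3 : ∫⁻ x in G \ G', τ x ∂Λ = ∫⁻ x in Hs, τ x ∂Λ := by
        rw [← lintegral_indicator (mG.diff mG'), ← lintegral_indicator mHs]
        congr 1; ext x
        by_cases hx : x ∈ G \ G'
        · by_cases h0 : τ x = 0
          · rw [indicator_of_mem hx, h0, indicator_of_notMem (fun hc => hc.2 h0)]
          · rw [indicator_of_mem hx, indicator_of_mem (show x ∈ Hs from ⟨hx, h0⟩)]
        · rw [indicator_of_notMem hx, indicator_of_notMem (fun hc => hx hc.1)]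
      rw [h2, e, h3] at hpop
      have h4 := hpop.trans (add_le_add_left hlow _)
      exact (ENNReal.add_le_add_iff_left ENNReal.ofReal_ne_top).1 h4
    have hup : ∫⁻ x in Hs, τ x ∂Λ ≤ ENNReal.ofReal (4 * E ^ 3 * (d / θ)) * Λ Hs := by
      rw [← setLIntegral_const]
      refine setLIntegral_mono' mHs fun x hx => (htau x (hGS (hHG hx))).trans (ENNReal.ofReal_le_ofReal ?_)
      have : θ ≤ max d (ang o1 o2 x x0) := (hang x hx).trans (le_max_right _ _)
      gcongr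
    have h5 := hhigh.trans hup
    have hK : 0 < 4 * E ^ 3 * (d / θ) := by positivity
    have : ENNReal.ofReal (j1 * θ / (8 * E ^ 3 * d)) = ENNReal.ofReal (j1 / 2) / ENNReal.ofReal (4 * E ^ 3 * (d / θ)) := by
      rw [← ENNReal.ofReal_div_of_pos hK]; congr 1; field_simp; ring
    rw [this]
    refine ENNReal.div_le_of_le_mul ?_
    rw [mul_comm]; exact h5

end Vale.Agent.P106.G.HB
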