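import Vale.Agent.P106.G.GeA3

/-! # Abstract hairbrush lemma, part 4: the second popularity argument -/

open MeasureTheory Set
open scoped ENNReal

set_option linter.all false

namespace Vale.Agent.P106.G.HB

variable {Ω ι : Type*} [MeasurableSpace Ω] {Λ : Measure Ω} {S0 : Set Ω} {J : Finset ι}
    {Z : ι → Set (Ω × ℝ)} {cc : Ω → ℝ → ℝ} {a1 a2 o1 o2 cm : Ω → ℝ} {E d B m0 : ℝ}

/-- size of the displacement of a line from `x0` -/
noncomputable def dis (cc : Ω → ℝ → ℝ) (a1 a2 o1 o2 : Ω → ℝ) (x0 : Ω) (p : Ω × ℝ) : ℝ :=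
  max |(a1 p.1 - a1 x0) + cc p.1 p.2 * (o1 p.1 - o1 x0)| |(a2 p.1 - a2 x0) + cc p.1 p.2 * (o2 p.1 - o2 x0)|

/-- [plane geometry] a line meeting `x0` and, away from `x0`, the line `x'` is contained in a thin slab -/
theorem slab {E d ρ : ℝ} (hE : 1 ≤ E) (hd : 0 < d) (hd1 : d ≤ 1) (hρ : 0 < ρ) (hρd : 2 * E * d ≤ ρ)
    {A1 A2 b1 b2 A1' A2' b1' b2' c1 c2 c3 cm n1 n2 : ℝ}
    -- `x'` minus `x0`: `A' + c b'`; `x''` minus `x0`: `A + c b`
    (hn : n1 ^ 2 + n2 ^ 2 = 1) (hperp : b1' * n1 + b2' * n2 = 0)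
    (h1 : |A1' + c1 * b1'| ≤ E * d) (h1' : |A2' + c1 * b2'| ≤ E * d)
    (h2 : |A1 + c2 * b1| ≤ E * d) (h2' : |A2 + c2 * b2| ≤ E * d)
    (h3 : |(A1 - A1') + c3 * (b1 - b1')| ≤ E * d) (h3' : |(A2 - A2') + c3 * (b2 - b2')| ≤ E * d)
    (hoff : ρ ≤ max |A1 + c3 * b1| |A2 + c3 * b2|)
    (hb1 : |b1| ≤ 2 * E) (hb2 : |b2| ≤ 2 * E) (hc2 : |c2| ≤ E) (hc3 : |c3| ≤ E) (hcm : |cm| ≤ E) :
    |(A1 + cm * b1) * n1 + (A2 + cm * b2) * n2| ≤ 60 * E ^ 3 * d / ρ := by
  have hEd : 0 < E * d := by positivity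
  have hn1 : |n1| ≤ 1 := by rw [← sq_le_one_iff_abs_le_one]; nlinarith [sq_nonneg n2]
  have hn2 : |n2| ≤ 1 := by rw [← sq_le_one_iff_abs_le_one]; nlinarith [sq_nonneg n1]
  -- combination bound
  have comb : ∀ u v e : ℝ, |u| ≤ e → |v| ≤ e → |u * n1 + v * n2| ≤ 2 * e := by
    intro u v e hu hv
    have he : 0 ≤ e := (abs_nonneg _).trans hu
    calc |u * n1 + v * n2| ≤ |u| * |n1| + |v| * |n2| := by
          rw [← abs_mul, ← abs_mul]; exact abs_add_le _ _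
      _ ≤ e * 1 + e * 1 := by gcongr
      _ = 2 * e := by ring
  have g1 := comb _ _ _ h1 h1'
  have g2 := comb _ _ _ h2 h2'
  have g3 := comb _ _ _ h3 h3'
  -- value at `c3`
  have g4 : |(A1 + c3 * b1) * n1 + (A2 + c3 * b2) * n2| ≤ 4 * (E * d) := by
    have e : (A1 + c3 * b1) * n1 + (A2 + c3 * b2) * n2 =
        (((A1 - A1') + c3 * (b1 - b1')) * n1 + ((A2 - A2') + c3 * (b2 - b2')) * n2) +
        ((A1' + c1 * b1') * n1 + (A2' + c1 * b2') * n2) + (c3 - c1) * (b1' * n1 + b2' * n2) := by ring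
    rw [e, hperp, mul_zero, add_zero]
    exact (abs_add_le _ _).trans (by linarith)
  set β := b1 * n1 + b2 * n2 with hβ
  have hβc : |β * (c3 - c2)| ≤ 6 * (E * d) := by
    have e : β * (c3 - c2) = ((A1 + c3 * b1) * n1 + (A2 + c3 * b2) * n2) -
        ((A1 + c2 * b1) * n1 + (A2 + c2 * b2) * n2) := by rw [hβ]; ring
    rw [e]
    exact (abs_sub _ _).trans (by linarith)
  -- separation of `c2`, `c3`
  have hsep : ρ / 2 ≤ 2 * E * |c3 - c2| := by
    rcases max_cases |A1 + c3 * b1| |A2 + c3 * b2| with ⟨hm, _⟩ | ⟨hm, _⟩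
    · rw [hm] at hoff
      have : |A1 + c3 * b1| ≤ |A1 + c2 * b1| + |b1| * |c3 - c2| := by
        rw [← abs_mul]
        refine le_trans (le_of_eq ?_) (abs_add_le _ _)
        congr 1; ring
      have h5 : |b1| * |c3 - c2| ≤ 2 * E * |c3 - c2| := by gcongr
      linarith
    · rw [hm] at hoff
      have : |A2 + c3 * b2| ≤ |A2 + c2 * b2| + |b2| * |c3 - c2| := by
        rw [← abs_mul]
        refine le_trans (le_of_eq ?_) (abs_add_le _ _)
        congr 1; ring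
      have h5 : |b2| * |c3 - c2| ≤ 2 * E * |c3 - c2| := by gcongr
      linarith
  have hρE : ρ ≤ 5 * E ^ 2 := by
    have hcc : |c3 - c2| ≤ 2 * E := (abs_sub _ _).trans (by linarith)
    have : ρ ≤ E * d + 2 * E * |c3 - c2| := by
      rcases max_cases |A1 + c3 * b1| |A2 + c3 * b2| with ⟨hm, _⟩ | ⟨hm, _⟩
      · rw [hm] at hoff
        have : |A1 + c3 * b1| ≤ |A1 + c2 * b1| + |b1| * |c3 - c2| := by
          rw [← abs_mul]
          refine le_trans (le_of_eq ?_) (abs_add_le _ _)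
          congr 1; ring
        have h5 : |b1| * |c3 - c2| ≤ 2 * E * |c3 - c2| := by gcongr
        linarith
      · rw [hm] at hoff
        have : |A2 + c3 * b2| ≤ |A2 + c2 * b2| + |b2| * |c3 - c2| := by
          rw [← abs_mul]
          refine le_trans (le_of_eq ?_) (abs_add_le _ _)
          congr 1; ring
        have h5 : |b2| * |c3 - c2| ≤ 2 * E * |c3 - c2| := by gcongr
        linarith
    nlinarith
  have hβ1 : |β| * ρ ≤ 24 * E ^ 2 * d := by
    rw [abs_mul] at hβc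
    have hb0 := abs_nonneg β
    have hc0 := abs_nonneg (c3 - c2)
    nlinarith
  have hfin : |(A1 + cm * b1) * n1 + (A2 + cm * b2) * n2| ≤ 2 * (E * d) + |β| * (2 * E) := by
    have e : (A1 + cm * b1) * n1 + (A2 + cm * b2) * n2 =
        ((A1 + c2 * b1) * n1 + (A2 + c2 * b2) * n2) + β * (cm - c2) := by rw [hβ]; ring
    rw [e]
    refine (abs_add_le _ _).trans ?_
    rw [abs_mul]
    have : |cm - c2| ≤ 2 * E := (abs_sub _ _).trans (by linarith)
    gcongr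
  rw [le_div_iff₀ hρ]
  have hb0 := abs_nonneg β
  calc |(A1 + cm * b1) * n1 + (A2 + cm * b2) * n2| * ρ ≤ (2 * (E * d) + |β| * (2 * E)) * ρ := by gcongr
    _ = 2 * (E * d) * ρ + 2 * E * (|β| * ρ) := by ring
    _ ≤ 2 * (E * d) * (5 * E ^ 2) + 2 * E * (24 * E ^ 2 * d) := by gcongr
    _ = 58 * (E ^ 3 * d) := by ring
    _ ≤ 60 * E ^ 3 * d := by nlinarith [show 0 < E ^ 3 * d by positivity]

variable (H : HB Λ S0 J Z cc a1 a2 o1 o2 cm E d B m0)
include H

theorem meas_dis (x0 : Ω) : Measurable (dis cc a1 a2 o1 o2 x0) := by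
  unfold dis
  refine (Measurable.abs ?_).max (Measurable.abs ?_)
  · exact ((H.ma1.comp measurable_fst).sub_const _).add (H.mcc.mul ((H.mo1.comp measurable_fst).sub_const _))
  · exact ((H.ma2.comp measurable_fst).sub_const _).add (H.mcc.mul ((H.mo2.comp measurable_fst).sub_const _))

/-- [step 2] upper bound of the hairbrush -/
theorem step2 {n : ι → ℝ} {I l : ℝ} (hn0 : ∀ j ∈ J, 0 ≤ n j) (hn : ∀ j ∈ J, n j ≤ E) (hnI : ∑ j ∈ J, n j ≤ I)
    (hI : 0 < I) (hl : 0 < l) {ns : ℕ} (hns : 2 * E ≤ 2 ^ ns * d) {κ θ ρ : ℝ} (hκ : κ = l / (2 * m0))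
    (hθ : 0 < θ) (hρ : ρ = κ * θ / (8 * E ^ 3)) (hρd : 2 * E * d ≤ ρ)
    {x0 : Ω} (hx0 : x0 ∈ S0) {Hs : Set Ω} (hHS : Hs ⊆ S0) (mHs : MeasurableSet Hs)
    (hang : ∀ x ∈ Hs, θ ≤ ang o1 o2 x x0)
    (hmeet : ∀ x ∈ Hs, ∃ j ∈ J, ∃ t t', (x, t) ∈ Z j ∧ (x0, t') ∈ Z j)
    (hbig : ∀ x ∈ Hs, ENNReal.ofReal κ ≤ ∑ j ∈ J, ENNReal.ofReal (n j) * volume {t : ℝ | (x, t) ∈ Z j})
    {h : ℝ} (hh : 0 < h) (hHh : Λ Hs = ENNReal.ofReal h) :
    κ ^ 2 * h * ρ ≤ 92160 * (ns + 1) * E ^ 9 * B * I * d ^ 3 := by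
  classical
  have hE := H.E1
  have hd := H.d0
  have hd1 := H.d1
  have hB := H.B0
  have hm0 := H.m0p
  have hκp : 0 < κ := by rw [hκ]; positivity
  have hρp : 0 < ρ := lt_of_lt_of_le (by positivity) hρd
  set Z' : ι → Set (Ω × ℝ) := fun j => Z j ∩ {p | ρ ≤ dis cc a1 a2 o1 o2 x0 p} with hZ'
  have mZ' : ∀ j, MeasurableSet (Z' j) := fun j => (H.mZ j).inter (measurableSet_le measurable_const (meas_dis H x0))
  set Z2 : ι → Set (Ω × ℝ) := fun j => Z j \ Z' j with hZ2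
  have mZ2 : ∀ j, MeasurableSet (Z2 j) := fun j => (H.mZ j).diff (mZ' j)
  have mw' : ∀ j, Measurable fun x : Ω => volume {t : ℝ | (x, t) ∈ Z' j} := fun j => measurable_measure_prodMk_left (mZ' j)
  -- the part near `x0`
  have hnear : ∀ x ∈ Hs, ∑ j ∈ J, volume {t : ℝ | (x, t) ∈ Z2 j} ≤ ENNReal.ofReal (E * (2 * (E * (2 * ρ / θ)))) := by
    intro x hx
    have hxS := hHS hx
    refine sumlen J _ (fun j _ => measurable_prodMk_left (mZ2 j)) (by linarith) (by positivity) ?_ ?_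
    · intro t
      refine le_trans ?_ (H.h2 x hxS t)
      norm_cast
      refine Finset.card_le_card fun j hj => ?_
      rw [Finset.mem_filter] at hj ⊢
      exact ⟨hj.1, hj.2.1⟩
    · intro j hj j' hj' t ht t' ht'
      have e1 : dis cc a1 a2 o1 o2 x0 (x, t) < ρ := by
        by_contra hc; exact ht.2 ⟨ht.1, not_lt.1 hc⟩
      have e2 : dis cc a1 a2 o1 o2 x0 (x, t') < ρ := by
        by_contra hc; exact ht'.2 ⟨ht'.1, not_lt.1 hc⟩
      have g3 := aff_close (φ := ang o1 o2 x x0) rfl ((le_max_left _ _).trans e1.le) ((le_max_right _ _).trans e1.le)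
        ((le_max_left _ _).trans e2.le) ((le_max_right _ _).trans e2.le)
      have g4 := H.h4 x hxS j hj j' hj' t t' ht.1 ht'.1
      refine g4.trans ?_
      have g5 : |cc x t - cc x t'| ≤ 2 * ρ / θ := by
        rw [le_div_iff₀ hθ]
        have := hang x hx
        have h0 := abs_nonneg (cc x t - cc x t')
        calc |cc x t - cc x t'| * θ ≤ |cc x t - cc x t'| * ang o1 o2 x x0 := by gcongr
          _ ≤ 2 * ρ := by linarith
      gcongr
  have hfar : ∀ x ∈ Hs, ENNReal.ofReal (κ / 2) ≤ ∑ j ∈ J, ENNReal.ofReal (n j) * volume {t : ℝ | (x, t) ∈ Z' j} := by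
    intro x hx
    have e : ENNReal.ofReal κ = ENNReal.ofReal (κ / 2) + ENNReal.ofReal (κ / 2) := by
      rw [← ENNReal.ofReal_add (by positivity) (by positivity)]; congr 1; ring
    have h1 : ∑ j ∈ J, ENNReal.ofReal (n j) * volume {t : ℝ | (x, t) ∈ Z j} ≤
        ∑ j ∈ J, ENNReal.ofReal (n j) * volume {t : ℝ | (x, t) ∈ Z' j} + ENNReal.ofReal (κ / 2) := by
      calc ∑ j ∈ J, ENNReal.ofReal (n j) * volume {t : ℝ | (x, t) ∈ Z j}
          ≤ ∑ j ∈ J, (ENNReal.ofReal (n j) * volume {t : ℝ | (x, t) ∈ Z' j} +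
              ENNReal.ofReal E * volume {t : ℝ | (x, t) ∈ Z2 j}) := by
            refine Finset.sum_le_sum fun j hj => ?_
            calc ENNReal.ofReal (n j) * volume {t : ℝ | (x, t) ∈ Z j}
                ≤ ENNReal.ofReal (n j) * (volume {t : ℝ | (x, t) ∈ Z' j} + volume {t : ℝ | (x, t) ∈ Z2 j}) := by
                  gcongr
                  refine (measure_mono fun t ht => ?_).trans (measure_union_le _ _)
                  by_cases hc : (x, t) ∈ Z' j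
                  · exact Or.inl hc
                  · exact Or.inr ⟨ht, hc⟩
              _ ≤ _ := by
                  rw [mul_add]; gcongr; exact hn j hj
        _ = ∑ j ∈ J, ENNReal.ofReal (n j) * volume {t : ℝ | (x, t) ∈ Z' j} +
              ENNReal.ofReal E * ∑ j ∈ J, volume {t : ℝ | (x, t) ∈ Z2 j} := by
            rw [Finset.sum_add_distrib, Finset.mul_sum]
        _ ≤ _ := by
            gcongr
            calc ENNReal.ofReal E * ∑ j ∈ J, volume {t : ℝ | (x, t) ∈ Z2 j}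
                ≤ ENNReal.ofReal E * ENNReal.ofReal (E * (2 * (E * (2 * ρ / θ)))) := by gcongr; exact hnear x hx
              _ = ENNReal.ofReal (κ / 2) := by
                  rw [← ENNReal.ofReal_mul (by linarith), hρ]; congr 1; field_simp; ring
    have h2 := (hbig x hx).trans h1
    rw [e] at h2
    exact (ENNReal.add_le_add_iff_right ENNReal.ofReal_ne_top).1 h2
  have hint : ENNReal.ofReal (κ / 2 * h) ≤ ∫⁻ x in Hs, ∑ j ∈ J, ENNReal.ofReal (n j) * volume {t : ℝ | (x, t) ∈ Z' j} ∂Λ := by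
    calc ENNReal.ofReal (κ / 2 * h) = ∫⁻ x in Hs, ENNReal.ofReal (κ / 2) ∂Λ := by
          rw [setLIntegral_const, hHh, ENNReal.ofReal_mul (by positivity)]
      _ ≤ _ := setLIntegral_mono' mHs hfar
  obtain ⟨x1, hx1, J2, hJ2, hJw, hpop⟩ := pop2 Λ mHs J Z' mZ' n (by linarith : 0 < E) hd hI hh
    (by positivity : 0 < κ / 2 * h) (fun x hx j hj t t' ht ht' => H.h1 x (hHS hx) j hj t t' ht.1 ht'.1) hn0 hn hnI
    hHh.le hint
  have hx1S := hHS hx1
  -- the normal vector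
  set D1 := o1 x1 - o1 x0 with hD1
  set D2 := o2 x1 - o2 x0 with hD2
  have hDpos : 0 < D1 ^ 2 + D2 ^ 2 := by
    have h1 := hang x1 hx1
    rcases max_cases |o1 x1 - o1 x0| |o2 x1 - o2 x0| with ⟨hm, _⟩ | ⟨hm, _⟩
    · have : 0 < |D1| := by rw [hD1, ← hm]; exact lt_of_lt_of_le hθ h1
      have := sq_pos_of_ne_zero (abs_pos.1 this)
      nlinarith [sq_nonneg D2]
    · have : 0 < |D2| := by rw [hD2, ← hm]; exact lt_of_lt_of_le hθ h1
      have := sq_pos_of_ne_zero (abs_pos.1 this)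
      nlinarith [sq_nonneg D1]
  set s := Real.sqrt (D1 ^ 2 + D2 ^ 2) with hs
  have hsp : 0 < s := Real.sqrt_pos.2 hDpos
  have hs2 : s ^ 2 = D1 ^ 2 + D2 ^ 2 := Real.sq_sqrt hDpos.le
  have hnn : (-D2 / s) ^ 2 + (D1 / s) ^ 2 = 1 := by
    field_simp; rw [hs2]; ring
  have hperp : D1 * (-D2 / s) + D2 * (D1 / s) = 0 := by ring
  obtain ⟨ja, hja, ta, ta', hta, hta'⟩ := hmeet x1 hx1
  have g1 := H.h3 x1 hx1S x0 hx0 ja hja ta ta' hta hta'
  have hwit : ∀ x, (∑ j ∈ J2, volume {t : ℝ | (x, t) ∈ Z' j}) ≠ 0 → ∃ j ∈ J2, ∃ t, (x, t) ∈ Z' j := by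
    intro x hx
    by_contra hcon
    push Not at hcon
    refine hx (Finset.sum_eq_zero fun j hj => ?_)
    have : {t : ℝ | (x, t) ∈ Z' j} = ∅ := by
      ext t; simp only [mem_setOf_eq, mem_empty_iff_false, iff_false]; exact hcon j hj t
    rw [this]; simp
  have hup : ∫⁻ x in Hs, ∑ j ∈ J2, volume {t : ℝ | (x, t) ∈ Z' j} ∂Λ ≤
      ENNReal.ofReal (2 * (4 * E ^ 3) * (180 * E ^ 4 * B * d ^ 2 / ρ) * (ns + 1)) := by
    refine dysum mHs _ (fun x => ang o1 o2 x x1) hd (by positivity) (by positivity)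
      (fun x _ => ang_nonneg _ _ _ _) (fun x hx => (ang_le H (hHS hx) hx1S).trans hns)
      (fun x hx => tau_le H hx1S (hHS hx) hJ2 (fun j hj => (hJw j hj).imp fun t ht => ht.1) mZ' fun _ => inter_subset_left)
      Set.univ (fun _ _ _ _ => mem_univ _)
      (fun i => {x ∈ S0 | |(a1 x + cm x * o1 x) - (a1 x1 + cm x * o1 x1)| ≤ 3 * E * (2 ^ i * d) ∧
        |(a2 x + cm x * o2 x) - (a2 x1 + cm x * o2 x1)| ≤ 3 * E * (2 ^ i * d) ∧
        |((a1 x + cm x * o1 x) - (a1 x0 + cm x * o1 x0)) * (-D2 / s) +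
          ((a2 x + cm x * o2 x) - (a2 x0 + cm x * o2 x0)) * (D1 / s)| ≤ 60 * E ^ 3 * d / ρ}) ?_ ?_
    · intro x hx hne i hi
      obtain ⟨j, hj, t, ht⟩ := hwit x hne
      obtain ⟨t', ht'⟩ := hJw j hj
      have hxS := hHS hx
      have h2i : d ≤ 2 ^ i * d := le_mul_of_one_le_left hd.le (one_le_pow₀ (by norm_num))
      have hne := near H hx1S hxS (hJ2 hj) ht.1 ht'.1 h2i hi
      refine ⟨hxS, hne.1, hne.2, ?_⟩
      obtain ⟨jb, hjb, tb, tb', htb, htb'⟩ := hmeet x hx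
      have g2 := H.h3 x hxS x0 hx0 jb hjb tb tb' htb htb'
      have g3 := H.h3 x hxS x1 hx1S j (hJ2 hj) t t' ht.1 ht'.1
      have h5 := H.h5 x hxS
      have h50 := H.h5 x0 hx0
      have hoff : ρ ≤ dis cc a1 a2 o1 o2 x0 (x, t) := ht.2
      have := slab (cm := cm x) hE hd hd1 hρp hρd hnn hperp g1.1 g1.2 g2.1 g2.2
        (c3 := cc x t) (by convert g3.1 using 2; ring) (by convert g3.2 using 2; ring) hoff
        ((abs_sub _ _).trans (by linarith [h5.2.1, h50.2.1])) ((abs_sub _ _).trans (by linarith [h5.2.2.1, h50.2.2.1]))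
        (h5.2.2.2 jb hjb tb htb) (h5.2.2.2 j (hJ2 hj) t ht.1) h5.1
      convert this using 2
      ring
    · intro i _
      refine (H.h6 (a1 x1) (a2 x1) (o1 x1) (o2 x1) (a1 x0) (a2 x0) (o1 x0) (o2 x0) (-D2 / s) (D1 / s) (3 * E * (2 ^ i * d))
        (60 * E ^ 3 * d / ρ) hnn (by positivity) (by positivity)).trans (ENNReal.ofReal_le_ofReal ?_)
      refine le_of_eq ?_
      field_simp; ring
  have hfin := hpop.trans hup
  rw [ENNReal.ofReal_le_ofReal_iff (by positivity)] at hfin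
  have e1 : (κ / 2 * h) ^ 2 / (16 * h * E ^ 2 * d * I) = κ ^ 2 * h / (64 * E ^ 2 * d * I) := by
    field_simp; ring
  have e2 : 2 * (4 * E ^ 3) * (180 * E ^ 4 * B * d ^ 2 / ρ) * (ns + 1) = 1440 * E ^ 7 * B * d ^ 2 * (ns + 1) / ρ := by
    field_simp; ring
  rw [e1, e2, div_le_div_iff₀ (by positivity) hρp] at hfin
  calc κ ^ 2 * h * ρ ≤ _ := hfin
    _ = _ := by ring

end Vale.Agent.P106.G.HB
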