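import Vale.Agent.P106.G.GeA4

/-! # Abstract hairbrush lemma, part 5: conclusion -/

open MeasureTheory Set
open scoped ENNReal

set_option linter.all false

namespace Vale.Agent.P106.G.HB

variable {Ω ι : Type*} [MeasurableSpace Ω] {Λ : Measure Ω} {S0 : Set Ω} {J : Finset ι}
    {Z : ι → Set (Ω × ℝ)} {cc : Ω → ℝ → ℝ} {a1 a2 o1 o2 cm : Ω → ℝ} {E d B m0 : ℝ}

/-- **Hairbrush lemma** -/
theorem main (H : HB Λ S0 J Z cc a1 a2 o1 o2 cm E d B m0) {n : ι → ℝ} {I l : ℝ} (hn0 : ∀ j ∈ J, 0 ≤ n j)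
    (hn : ∀ j ∈ J, n j ≤ E) (hnI : ∑ j ∈ J, n j ≤ I)
    (hI : 0 < I) (hl : 0 < l) {ns : ℕ} (hns : 2 * E ≤ 2 ^ ns * d)
    (h : ENNReal.ofReal l ≤ ∫⁻ x in S0, ∑ j ∈ J, ENNReal.ofReal (n j) * volume {t : ℝ | (x, t) ∈ Z j} ∂Λ) :
    l ^ 2 ≤ 18432 * E ^ 8 * (ns + 1) * I * d ^ 3 ∨ l ^ 3 ≤ 589824 * E ^ 13 * (ns + 1) * I * d ^ 3 ∨
    l ^ 9 ≤ 5898240 * 82944 * 2097152 * (ns + 1) ^ 3 * E ^ 37 * I ^ 4 * d ^ 9 := by
  have hE := H.E1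
  have hE0 : 0 < E := by linarith
  have hd := H.d0
  have hd1 := H.d1
  have hB := H.B0
  have hm0 := H.m0p
  have hBE := H.BE
  have hmE := H.mE
  have hns0 : (0:ℝ) < ns + 1 := by positivity
  set j1 := (l / 2) ^ 2 / (16 * m0 * E ^ 2 * d * I) with hj1
  set θ := j1 / (288 * E ^ 5 * B * d * (ns + 1)) with hθ
  set κ := l / (2 * m0) with hκ
  set ρ := κ * θ / (8 * E ^ 3) with hρ
  have hj1p : 0 < j1 := by rw [hj1]; positivity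
  have hθp : 0 < θ := by rw [hθ]; positivity
  have hκp : 0 < κ := by rw [hκ]; positivity
  have hρp : 0 < ρ := by rw [hρ]; positivity
  have el : l = 2 * m0 * κ := by rw [hκ]; field_simp
  have ej : l ^ 2 = 64 * m0 * E ^ 2 * d * I * j1 := by rw [hj1]; field_simp; ring
  have et : j1 = θ * (288 * E ^ 5 * B * d * (ns + 1)) := by rw [hθ]; field_simp
  have er : κ * θ = ρ * (8 * E ^ 3) := by rw [hρ]; field_simp
  rcases lt_or_ge θ d with hc | hc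
  · left
    have h1 : j1 ≤ d * (288 * E ^ 5 * B * d * (ns + 1)) := by rw [et]; gcongr
    calc l ^ 2 = 64 * m0 * E ^ 2 * d * I * j1 := ej
      _ ≤ 64 * m0 * E ^ 2 * d * I * (d * (288 * E ^ 5 * B * d * (ns + 1))) := by gcongr
      _ = 18432 * E ^ 7 * (B * m0) * (ns + 1) * I * d ^ 3 := by ring
      _ ≤ 18432 * E ^ 7 * E * (ns + 1) * I * d ^ 3 := by gcongr
      _ = _ := by ring
  rcases lt_or_ge ρ (2 * E * d) with hc2 | hc2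
  · right; left
    have h1 : κ * θ ≤ 2 * E * d * (8 * E ^ 3) := by rw [er]; gcongr
    calc l ^ 3 = l * l ^ 2 := by ring
      _ = 2 * m0 * κ * (64 * m0 * E ^ 2 * d * I * (θ * (288 * E ^ 5 * B * d * (ns + 1)))) := by
          rw [ej, ← et, ← el]
      _ = 36864 * (B * m0) * m0 * E ^ 7 * d ^ 2 * I * (ns + 1) * (κ * θ) := by ring
      _ ≤ 36864 * E * E * E ^ 7 * d ^ 2 * I * (ns + 1) * (2 * E * d * (8 * E ^ 3)) := by gcongr
      _ = _ := by ring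
  right; right
  obtain ⟨x0, hx0, Hs, hHS, mHs, hang, hmeet, hbig, hlow⟩ := step1 H hn0 hn hnI hI hl hns h hj1 hθ hc
  have hfin : Λ Hs ≠ ⊤ := ne_top_of_le_ne_top ENNReal.ofReal_ne_top ((measure_mono hHS).trans H.h7)
  set h' := (Λ Hs).toReal with hh'
  have hHh : Λ Hs = ENNReal.ofReal h' := (ENNReal.ofReal_toReal hfin).symm
  have hlow' : j1 * θ / (8 * E ^ 3 * d) ≤ h' := by
    rw [hHh] at hlow
    by_contra hcon
    push Not at hcon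
    have := (ENNReal.ofReal_lt_ofReal_iff (by positivity)).2 hcon
    exact absurd hlow (not_le.2 this)
  have hh : 0 < h' := lt_of_lt_of_le (by positivity) hlow'
  have h2 := step2 H hn0 hn hnI hI hl hns hκ hθp hρ hc2 hx0 hHS mHs hang hmeet hbig hh hHh
  -- algebra
  have h3 : κ ^ 2 * (j1 * θ / (8 * E ^ 3 * d)) * ρ ≤ 92160 * (ns + 1) * E ^ 9 * B * I * d ^ 3 := by
    refine le_trans ?_ h2; gcongr
  have h4 : κ ^ 3 * j1 * θ ^ 2 ≤ 5898240 * (ns + 1) * E ^ 15 * B * I * d ^ 4 := by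
    have e : κ ^ 2 * (j1 * θ / (8 * E ^ 3 * d)) * ρ = κ ^ 3 * j1 * θ ^ 2 / (64 * E ^ 6 * d) := by
      rw [hρ]; field_simp; ring
    rw [e, div_le_iff₀ (by positivity)] at h3
    calc κ ^ 3 * j1 * θ ^ 2 ≤ _ := h3
      _ = _ := by ring
  have h5 : κ ^ 3 * j1 ^ 3 ≤ 5898240 * 82944 * (ns + 1) ^ 3 * E ^ 25 * B ^ 3 * I * d ^ 6 := by
    calc κ ^ 3 * j1 ^ 3 = κ ^ 3 * j1 * θ ^ 2 * (288 * E ^ 5 * B * d * (ns + 1)) ^ 2 := by
          rw [et]; ring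
      _ ≤ 5898240 * (ns + 1) * E ^ 15 * B * I * d ^ 4 * (288 * E ^ 5 * B * d * (ns + 1)) ^ 2 := by gcongr
      _ = _ := by ring
  have h6 : l ^ 9 = 2097152 * m0 ^ 6 * E ^ 6 * d ^ 3 * I ^ 3 * (κ ^ 3 * j1 ^ 3) := by
    calc l ^ 9 = l ^ 3 * (l ^ 2) ^ 3 := by ring
      _ = (2 * m0 * κ) ^ 3 * (64 * m0 * E ^ 2 * d * I * j1) ^ 3 := by rw [ej, ← el]
      _ = _ := by ring
  calc l ^ 9 = 2097152 * m0 ^ 6 * E ^ 6 * d ^ 3 * I ^ 3 * (κ ^ 3 * j1 ^ 3) := h6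
    _ ≤ 2097152 * m0 ^ 6 * E ^ 6 * d ^ 3 * I ^ 3 * (5898240 * 82944 * (ns + 1) ^ 3 * E ^ 25 * B ^ 3 * I * d ^ 6) := by
        gcongr
    _ = 5898240 * 82944 * 2097152 * (ns + 1) ^ 3 * E ^ 31 * ((B * m0) ^ 3 * m0 ^ 3) * I ^ 4 * d ^ 9 := by ring
    _ ≤ 5898240 * 82944 * 2097152 * (ns + 1) ^ 3 * E ^ 31 * (E ^ 3 * E ^ 3) * I ^ 4 * d ^ 9 := by
        have hBm : 0 ≤ B * m0 := by positivity
        gcongr
    _ = _ := by ring

end Vale.Agent.P106.G.HB
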