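import Vale.Agent.P106.G.DefsG

/-! # Algebra of the hair map -/

open MeasureTheory Set
open scoped ENNReal

set_option linter.all false

namespace Vale.Agent.P106.G

/-! ## the data hyperplane -/

theorem Hyp.okb {H : Hyp} (h : H.ok) : 0 ≤ H.s ∧ H.s ≤ 1/64 ∧ -(1/16) ≤ H.q1 ∧ H.q1 ≤ 0 ∧ -(1/16) ≤ H.q2 ∧ H.q2 ≤ 0 ∧
    3 * (H.q1 ^ 2 + H.q2 ^ 2) ≤ H.s := by
  obtain ⟨σ, b1, b2, h0, h1, h2, h3, h4, h5, e1, e2, e3⟩ := h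
  have hp : 0 < 1 + b1 ^ 2 + b2 ^ 2 := by positivity
  have hb : b1 ^ 2 + b2 ^ 2 ≤ 1/2 := by nlinarith
  refine ⟨?_, ?_, ?_, ?_, ?_, ?_, ?_⟩
  · rw [e1]; positivity
  · rw [e1, div_le_iff₀ hp]; nlinarith
  · rw [e2, le_div_iff₀ hp]; nlinarith [mul_nonneg h0.le h2, sq_nonneg b1, sq_nonneg b2]
  · rw [e2, div_le_iff₀ hp]; nlinarith [mul_nonneg h0.le h2]
  · rw [e3, le_div_iff₀ hp]; nlinarith [mul_nonneg h0.le h4, sq_nonneg b1, sq_nonneg b2]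
  · rw [e3, div_le_iff₀ hp]; nlinarith [mul_nonneg h0.le h4]
  · rw [e1, e2, e3]
    have : 3 * ((-σ * b1 / (1 + b1 ^ 2 + b2 ^ 2)) ^ 2 + (-σ * b2 / (1 + b1 ^ 2 + b2 ^ 2)) ^ 2) =
        3 * σ ^ 2 * (b1 ^ 2 + b2 ^ 2) / (1 + b1 ^ 2 + b2 ^ 2) ^ 2 := by field_simp
    rw [this, div_le_div_iff₀ (by positivity) hp]
    have hs : 0 ≤ σ ^ 2 := sq_nonneg σ
    have : 3 * (b1 ^ 2 + b2 ^ 2) * (1 + b1 ^ 2 + b2 ^ 2) ≤ (1 + b1 ^ 2 + b2 ^ 2) ^ 2 := by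
      nlinarith
    nlinarith

theorem Hyp.m_ge {H : Hyp} (h : H.ok) {v1 v2 : ℝ} (h1 : 0 ≤ v1) (h2 : 0 ≤ v2) : 1 ≤ H.m v1 v2 := by
  obtain ⟨a, b, c, d, e, f, g⟩ := Hyp.okb h
  unfold Hyp.m
  nlinarith [mul_nonneg a (by positivity : 0 ≤ v1 ^ 2 + v2 ^ 2), mul_nonneg (neg_nonneg.2 d) h1, mul_nonneg (neg_nonneg.2 f) h2]

theorem Hyp.m_le {H : Hyp} (h : H.ok) {v1 v2 : ℝ} (h1 : 0 ≤ v1) (h1' : v1 ≤ 1) (h2 : 0 ≤ v2) (h2' : v2 ≤ 1) :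
    H.m v1 v2 ≤ 2 := by
  obtain ⟨a, b, c, d, e, f, g⟩ := Hyp.okb h
  unfold Hyp.m
  have q1 : v1 ^ 2 + v2 ^ 2 ≤ 2 := by nlinarith
  have q2 : H.s * (v1 ^ 2 + v2 ^ 2) ≤ 1/64 * 2 := by
    apply mul_le_mul b q1 (by positivity) (by norm_num)
  nlinarith

/-- the discriminant inequality -/
theorem Hyp.gam {H : Hyp} (h : H.ok) {v1 v2 : ℝ} (h1 : 0 ≤ v1) (h2 : 0 ≤ v2) (p1 p2 : ℝ) :
    (p1 ^ 2 + p2 ^ 2) / 6 ≤ H.s + (H.q1 - H.s * v1) * p1 + (H.q2 - H.s * v2) * p2 + H.m v1 v2 * (p1 ^ 2 + p2 ^ 2) / 4 := by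
  obtain ⟨a, b, c, d, e, f, g⟩ := Hyp.okb h
  have hm := Hyp.m_ge h h1 h2
  set m := H.m v1 v2 with hmd
  set k := m / 4 - 1/6 with hk
  have hk0 : 0 < k := by rw [hk]; linarith
  have e1 : (H.q1 - H.s * v1) ^ 2 + (H.q2 - H.s * v2) ^ 2 = H.s * m - H.s + (H.q1 ^ 2 + H.q2 ^ 2) := by
    rw [hmd]; unfold Hyp.m; ring
  have e2 : (H.q1 - H.s * v1) ^ 2 + (H.q2 - H.s * v2) ^ 2 ≤ 4 * k * H.s := by
    rw [e1, hk]; linarith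
  have key : 0 ≤ 4 * k * (H.s + (H.q1 - H.s * v1) * p1 + (H.q2 - H.s * v2) * p2 + k * (p1 ^ 2 + p2 ^ 2)) := by
    nlinarith [sq_nonneg (2 * k * p1 + (H.q1 - H.s * v1)), sq_nonneg (2 * k * p2 + (H.q2 - H.s * v2))]
  have key2 : 0 ≤ H.s + (H.q1 - H.s * v1) * p1 + (H.q2 - H.s * v2) * p2 + k * (p1 ^ 2 + p2 ^ 2) := by
    by_contra hc
    push Not at hc
    nlinarith
  rw [hk] at key2
  linarith

/-! ## relative coordinates -/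

/-- relative coordinates with the origin `a` and the velocity `v` -/
noncomputable def g0 (a : E4) (v1 v2 : ℝ) (z : E4) : ℝ :=
  (z 0 - a 0) + v1 * (z 1 - a 1) + v2 * (z 2 - a 2) + (v1 ^ 2 + v2 ^ 2) * (z 3 - a 3)
noncomputable def g1 (a : E4) (v1 : ℝ) (z : E4) : ℝ := (z 1 - a 1) + 2 * v1 * (z 3 - a 3)
noncomputable def g2 (a : E4) (v2 : ℝ) (z : E4) : ℝ := (z 2 - a 2) + 2 * v2 * (z 3 - a 3)
noncomputable def g3 (a : E4) (z : E4) : ℝ := z 3 - a 3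

theorem kap0 (v1 v2 : ℝ) : kap v1 v2 0 = v1 ^ 2 + v2 ^ 2 := rfl
theorem kap1 (v1 v2 : ℝ) : kap v1 v2 1 = -2 * v1 := rfl
theorem kap2 (v1 v2 : ℝ) : kap v1 v2 2 = -2 * v2 := rfl
theorem kap3 (v1 v2 : ℝ) : kap v1 v2 3 = 1 := rfl

theorem g0_add (a : E4) (v1 v2 : ℝ) (z : E4) (r u1 u2 : ℝ) :
    g0 a v1 v2 (z + r • kap u1 u2) = g0 a v1 v2 z + r * ((u1 - v1) ^ 2 + (u2 - v2) ^ 2) := by
  simp only [g0, PiLp.add_apply, PiLp.smul_apply, smul_eq_mul, kap0, kap1, kap2, kap3]; ring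

theorem g1_add (a : E4) (v1 : ℝ) (z : E4) (r u1 u2 : ℝ) :
    g1 a v1 (z + r • kap u1 u2) = g1 a v1 z - 2 * r * (u1 - v1) := by
  simp only [g1, PiLp.add_apply, PiLp.smul_apply, smul_eq_mul, kap0, kap1, kap2, kap3]; ring

theorem g2_add (a : E4) (v2 : ℝ) (z : E4) (r u1 u2 : ℝ) :
    g2 a v2 (z + r • kap u1 u2) = g2 a v2 z - 2 * r * (u2 - v2) := by
  simp only [g2, PiLp.add_apply, PiLp.smul_apply, smul_eq_mul, kap0, kap1, kap2, kap3]; ring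

theorem g3_add (a : E4) (z : E4) (r u1 u2 : ℝ) : g3 a (z + r • kap u1 u2) = g3 a z + r := by
  simp only [g3, PiLp.add_apply, PiLp.smul_apply, smul_eq_mul, kap0, kap1, kap2, kap3]; ring

theorem tm_add (H : Hyp) (z : E4) (r u1 u2 : ℝ) : H.tm (z + r • kap u1 u2) = H.tm z + r * H.m u1 u2 := by
  simp only [Hyp.tm, Hyp.m, PiLp.add_apply, PiLp.smul_apply, smul_eq_mul, kap0, kap1, kap2, kap3]; ring

theorem tm_rel (H : Hyp) (a : E4) (v1 v2 : ℝ) (z : E4) :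
    H.tm z - H.tm a = H.s * g0 a v1 v2 z + (H.q1 - H.s * v1) * g1 a v1 z + (H.q2 - H.s * v2) * g2 a v2 z +
      H.m v1 v2 * g3 a z := by
  simp only [Hyp.tm, Hyp.m, g0, g1, g2, g3]; ring

theorem tm_ptG (H : Hyp) (y : E3) : H.tm (H.pt y) = 0 := by
  have h0 : H.pt y 0 = y 0 := rfl
  have h1 : H.pt y 1 = y 1 := rfl
  have h2 : H.pt y 2 = y 2 := rfl
  have h3 : H.pt y 3 = -(H.s * y 0 + H.q1 * y 1 + H.q2 * y 2) := rfl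
  simp only [Hyp.tm, h0, h1, h2, h3]; ring

/-! ## the hair map -/

/-- coefficient of the time coordinate -/
noncomputable def D3 (w0 w1 w2 u1 u2 : ℝ) : ℝ :=
  4 * w0 ^ 2 + 4 * w0 * (w1 * u1 + w2 * u2) + (w1 ^ 2 + w2 ^ 2) * (u1 ^ 2 + u2 ^ 2)

/-- coefficient of the space coordinates -/
noncomputable def D1 (w0 w1 u1 q : ℝ) : ℝ := -4 * (2 * w0 * u1 + w1 * q)

/-- time coordinate of the hair -/
noncomputable def hcc (w0 w1 w2 w3 : ℝ) : ℝ := w3 - (w1 ^ 2 + w2 ^ 2) / (4 * w0)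

theorem mv_p {w0 w1 r u1 q : ℝ} (h : w0 ≠ 0) (h' : w0 + r * q ≠ 0) :
    (w1 - 2 * r * u1) / (w0 + r * q) = w1 / w0 + r / (4 * w0 * (w0 + r * q)) * D1 w0 w1 u1 q := by
  unfold D1; field_simp; ring

theorem mv_c {w0 w1 w2 w3 r u1 u2 : ℝ} (h : w0 ≠ 0) (h' : w0 + r * (u1 ^ 2 + u2 ^ 2) ≠ 0) :
    hcc (w0 + r * (u1 ^ 2 + u2 ^ 2)) (w1 - 2 * r * u1) (w2 - 2 * r * u2) (w3 + r) =
      hcc w0 w1 w2 w3 + r / (4 * w0 * (w0 + r * (u1 ^ 2 + u2 ^ 2))) * D3 w0 w1 w2 u1 u2 := by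
  unfold hcc D3; field_simp; ring

theorem D3_inv (w0 w1 w2 u1 u2 r : ℝ) :
    D3 (w0 + r * (u1 ^ 2 + u2 ^ 2)) (w1 - 2 * r * u1) (w2 - 2 * r * u2) u1 u2 = D3 w0 w1 w2 u1 u2 := by
  unfold D3; ring

/-- inputs common to the following lemmas -/
structure NH (w0 w1 w2 w3 r β1 β2 τ η c T0 A d : ℝ) : Prop where
  hc : 0 < c
  hη : 0 < η
  hA : 100 ≤ A
  hAc : 100 ≤ A * c
  hAT : 100 * T0 ≤ A
  hT : 1 ≤ T0
  hAη : 100 ≤ A * (η * c ^ 2)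
  hd : 0 < d
  hdη : 100 * d ≤ η * c ^ 2
  hd1 : d ≤ 1
  hr : η / 2 ≤ r
  hrT : r ≤ T0
  hq : c ^ 2 ≤ β1 ^ 2 + β2 ^ 2
  hβ1 : |β1| ≤ 1
  hβ2 : |β2| ≤ 1
  hτ : |τ| ≤ 2 * T0
  h0 : |w0 + r * (β1 ^ 2 + β2 ^ 2)| ≤ 5 * d
  h1 : |w1 - 2 * r * β1| ≤ 5 * d
  h2 : |w2 - 2 * r * β2| ≤ 5 * d
  h3 : |w3 + r - τ| ≤ 5 * d

theorem NH.q2 {w0 w1 w2 w3 r β1 β2 τ η c T0 A d : ℝ} (H : NH w0 w1 w2 w3 r β1 β2 τ η c T0 A d) :
    β1 ^ 2 + β2 ^ 2 ≤ 2 := by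
  have b1 : β1 ^ 2 ≤ 1 := by rw [← sq_abs]; nlinarith [abs_nonneg β1, H.hβ1]
  have b2 : β2 ^ 2 ≤ 1 := by rw [← sq_abs]; nlinarith [abs_nonneg β2, H.hβ2]
  linarith

theorem NH.w0b {w0 w1 w2 w3 r β1 β2 τ η c T0 A d : ℝ} (H : NH w0 w1 w2 w3 r β1 β2 τ η c T0 A d) :
    w0 ≤ -(1 / A) ∧ |w0| ≤ A ∧ 1 / |w0| ≤ A := by
  have hA0 : 0 < A := by linarith [H.hA]
  have q2 := H.q2
  obtain ⟨hc, hη, hA, hAc, hAT, hT, hAη, hd, hdη, hd1, hr, hrT, hq, hβ1, hβ2, hτ, h0, h1, h2, h3⟩ := H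
  clear h1 h2 h3 hτ hβ1 hβ2
  generalize hqd : β1 ^ 2 + β2 ^ 2 = q at *
  have hq0 : 0 < q := lt_of_lt_of_le (by positivity) hq
  have hr0 : 0 < r := by linarith
  obtain ⟨h0l, h0u⟩ := abs_le.1 h0
  have hrq : η * c ^ 2 / 2 ≤ r * q := by
    have : η / 2 * c ^ 2 ≤ r * q := mul_le_mul hr hq (by positivity) hr0.le
    linarith
  have hrq2 : r * q ≤ 2 * T0 := by
    have : r * q ≤ T0 * 2 := mul_le_mul hrT q2 hq0.le (by linarith)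
    linarith
  have hw0 : w0 ≤ -(η * c ^ 2 / 4) := by linarith
  have hinv : 1 / A ≤ η * c ^ 2 / 4 := by
    rw [div_le_iff₀ hA0]
    linarith [mul_comm A (η * c ^ 2)]
  have hw0A : w0 ≤ -(1 / A) := by linarith
  have hw0n : w0 < 0 := by have : 0 < 1 / A := by positivity
                           linarith
  refine ⟨hw0A, ?_, ?_⟩
  · rw [abs_of_neg hw0n]; linarith
  · rw [abs_of_neg hw0n, div_le_iff₀ (by linarith)]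
    have : A * (1 / A) ≤ A * -w0 := by gcongr; linarith
    rw [mul_one_div_cancel hA0.ne'] at this
    exact this

theorem NH.wjb {w0 w1 w2 w3 r β1 β2 τ η c T0 A d : ℝ} (H : NH w0 w1 w2 w3 r β1 β2 τ η c T0 A d) :
    |w1| ≤ A ∧ |w2| ≤ A ∧ |w3| ≤ A := by
  obtain ⟨hc, hη, hA, hAc, hAT, hT, hAη, hd, hdη, hd1, hr, hrT, hq, hβ1, hβ2, hτ, h0, h1, h2, h3⟩ := H
  clear h0 hq hAη hdη
  have hr0 : 0 < r := by linarith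
  have hrβ1 : |2 * r * β1| ≤ 2 * T0 := by
    rw [abs_mul, abs_of_pos (by linarith : 0 < 2 * r)]
    calc 2 * r * |β1| ≤ 2 * r * 1 := by gcongr
      _ ≤ 2 * T0 := by linarith
  have hrβ2 : |2 * r * β2| ≤ 2 * T0 := by
    rw [abs_mul, abs_of_pos (by linarith : 0 < 2 * r)]
    calc 2 * r * |β2| ≤ 2 * r * 1 := by gcongr
      _ ≤ 2 * T0 := by linarith
  obtain ⟨hτl, hτu⟩ := abs_le.1 hτ
  obtain ⟨h3l, h3u⟩ := abs_le.1 h3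
  refine ⟨?_, ?_, ?_⟩
  · have : |w1| ≤ |w1 - 2 * r * β1| + |2 * r * β1| := by
      refine le_trans (le_of_eq ?_) (abs_add_le _ _); congr 1; ring
    linarith
  · have : |w2| ≤ |w2 - 2 * r * β2| + |2 * r * β2| := by
      refine le_trans (le_of_eq ?_) (abs_add_le _ _); congr 1; ring
    linarith
  · rw [abs_le]; constructor <;> linarith

theorem betaq {β β' c : ℝ} (hc : 0 < c) (hq : c ^ 2 ≤ β ^ 2 + β' ^ 2) : |2 * β / (β ^ 2 + β' ^ 2)| ≤ 2 / c := by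
  have hq0 : 0 < β ^ 2 + β' ^ 2 := lt_of_lt_of_le (by positivity) hq
  rw [abs_div, abs_of_pos hq0, abs_mul, abs_two, div_le_div_iff₀ hq0 hc]
  have h5 : |β| ^ 2 ≤ β ^ 2 + β' ^ 2 := by rw [sq_abs]; nlinarith [sq_nonneg β']
  nlinarith [sq_nonneg (c - |β|), abs_nonneg β]

theorem NH.pb1 {w0 w1 w2 w3 r β1 β2 τ η c T0 A d : ℝ} (H : NH w0 w1 w2 w3 r β1 β2 τ η c T0 A d) :
    |w1 / w0 - (-2 * β1 / (β1 ^ 2 + β2 ^ 2))| ≤ A ^ 2 * d := by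
  have hA0 : 0 < A := by linarith [H.hA]
  obtain ⟨c0, c1, c2⟩ := H.w0b
  have hβ := betaq H.hc H.hq
  have hw0n : w0 < 0 := by have : 0 < 1 / A := by positivity
                           linarith
  obtain ⟨hc, hη, hA, hAc, hAT, hT, hAη, hd, hdη, hd1, hr, hrT, hq, hβ1, hβ2, hτ, h0, h1, h2, h3⟩ := H
  have hq0 : 0 < β1 ^ 2 + β2 ^ 2 := lt_of_lt_of_le (by positivity) hq
  clear hAη hdη hτ h2 h3 hβ1 hβ2 hq hrT hr hd1 hT hAT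
  generalize hqd : β1 ^ 2 + β2 ^ 2 = q at *
  have h2c : 2 / c ≤ A / 50 := by
    rw [div_le_div_iff₀ hc (by norm_num)]; linarith
  have e : w1 / w0 - (-2 * β1 / q) = ((w1 - 2 * r * β1) + (2 * β1 / q) * (w0 + r * q)) / w0 := by
    field_simp [hw0n.ne]; ring
  rw [e, abs_div, div_eq_mul_one_div]
  calc |(w1 - 2 * r * β1) + (2 * β1 / q) * (w0 + r * q)| * (1 / |w0|)
      ≤ (5 * d + A / 50 * (5 * d)) * A := by
        refine mul_le_mul ((abs_add_le _ _).trans ?_) c2 (by positivity) (by positivity)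
        rw [abs_mul]
        refine add_le_add h1 (mul_le_mul (hβ.trans h2c) h0 (abs_nonneg _) (by positivity))
    _ ≤ A ^ 2 * d := by nlinarith [mul_pos hA0 hd]

theorem NH.swap {w0 w1 w2 w3 r β1 β2 τ η c T0 A d : ℝ} (H : NH w0 w1 w2 w3 r β1 β2 τ η c T0 A d) :
    NH w0 w2 w1 w3 r β2 β1 τ η c T0 A d := by
  obtain ⟨hc, hη, hA, hAc, hAT, hT, hAη, hd, hdη, hd1, hr, hrT, hq, hβ1, hβ2, hτ, h0, h1, h2, h3⟩ := H
  refine ⟨hc, hη, hA, hAc, hAT, hT, hAη, hd, hdη, hd1, hr, hrT, ?_, hβ2, hβ1, hτ, ?_, h2, h1, h3⟩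
  · linarith
  · rw [add_comm (β2 ^ 2)]; exact h0

theorem NH.pb2 {w0 w1 w2 w3 r β1 β2 τ η c T0 A d : ℝ} (H : NH w0 w1 w2 w3 r β1 β2 τ η c T0 A d) :
    |w2 / w0 - (-2 * β2 / (β1 ^ 2 + β2 ^ 2))| ≤ A ^ 2 * d := by
  rw [add_comm (β1 ^ 2)]
  exact H.swap.pb1

theorem hcc_id {w0 w1 w2 w3 r β1 β2 τ : ℝ} (h : w0 ≠ 0) :
    hcc w0 w1 w2 w3 - τ = (w3 + r - τ) - (4 * r * β1 * (w1 - 2 * r * β1) + 4 * r * β2 * (w2 - 2 * r * β2) +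
        (w1 - 2 * r * β1) ^ 2 + (w2 - 2 * r * β2) ^ 2 + 4 * r * (w0 + r * (β1 ^ 2 + β2 ^ 2))) / 4 / w0 := by
  unfold hcc; field_simp; ring

theorem num_b {x1 x2 x0 r β1 β2 T0 d : ℝ} (hr : 0 < r) (hrT : r ≤ T0) (hβ1 : |β1| ≤ 1) (hβ2 : |β2| ≤ 1) (hd : 0 < d)
    (hd1 : d ≤ 1) (h1 : |x1| ≤ 5 * d) (h2 : |x2| ≤ 5 * d) (h0 : |x0| ≤ 5 * d) :
    |(4 * r * β1 * x1 + 4 * r * β2 * x2 + x1 ^ 2 + x2 ^ 2 + 4 * r * x0) / 4| ≤ (60 * T0 + 50) * d / 4 := by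
  have hT : 0 ≤ T0 := by linarith
  have a1 : |4 * r * β1 * x1| ≤ 4 * T0 * (5 * d) := by
    rw [abs_mul]
    have : |4 * r * β1| ≤ 4 * T0 := by
      rw [abs_mul, abs_of_pos (by linarith : 0 < 4 * r)]
      calc 4 * r * |β1| ≤ 4 * r * 1 := by gcongr
        _ ≤ 4 * T0 := by linarith
    gcongr
  have a2 : |4 * r * β2 * x2| ≤ 4 * T0 * (5 * d) := by
    rw [abs_mul]
    have : |4 * r * β2| ≤ 4 * T0 := by
      rw [abs_mul, abs_of_pos (by linarith : 0 < 4 * r)]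
      calc 4 * r * |β2| ≤ 4 * r * 1 := by gcongr
        _ ≤ 4 * T0 := by linarith
    gcongr
  have a3 : x1 ^ 2 ≤ 25 * d := by
    rw [← sq_abs]; nlinarith [abs_nonneg x1]
  have a4 : x2 ^ 2 ≤ 25 * d := by
    rw [← sq_abs]; nlinarith [abs_nonneg x2]
  have a5 : |4 * r * x0| ≤ 4 * T0 * (5 * d) := by
    rw [abs_mul, abs_of_pos (by linarith : 0 < 4 * r)]
    gcongr
  have a3' := sq_nonneg x1
  have a4' := sq_nonneg x2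
  rw [abs_div, abs_of_pos (by norm_num : (0:ℝ) < 4)]
  rw [abs_le] at a1 a2 a5
  gcongr
  rw [abs_le]
  constructor <;> linarith [a1.1, a1.2, a2.1, a2.2, a5.1, a5.2]

theorem NH.cb {w0 w1 w2 w3 r β1 β2 τ η c T0 A d : ℝ} (H : NH w0 w1 w2 w3 r β1 β2 τ η c T0 A d) :
    |hcc w0 w1 w2 w3 - τ| ≤ A ^ 2 * d / 2 := by
  have hA0 : 0 < A := by linarith [H.hA]
  obtain ⟨c0, c1, c2⟩ := H.w0b
  have hw0n : w0 < 0 := by have : 0 < 1 / A := by positivity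
                           linarith
  obtain ⟨hc, hη, hA, hAc, hAT, hT, hAη, hd, hdη, hd1, hr, hrT, hq, hβ1, hβ2, hτ, h0, h1, h2, h3⟩ := H
  have hr0 : 0 < r := by linarith
  have hn := num_b hr0 hrT hβ1 hβ2 hd hd1 h1 h2 h0
  rw [hcc_id (r := r) (β1 := β1) (β2 := β2) (τ := τ) hw0n.ne]
  refine (abs_sub _ _).trans ?_
  rw [abs_div _ w0, div_eq_mul_one_div _ (|w0|)]
  clear h0 h1 h2 hτ hβ1 hβ2 hq hAη hdη
  have hT0 : 0 < T0 := by linarith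
  have h5 : (60 * T0 + 50) * d / 4 * A ≤ (A * d * A) * (3/10) := by
    have : (60 * T0 + 50) / 4 ≤ A * (3/10) := by linarith
    calc (60 * T0 + 50) * d / 4 * A = (60 * T0 + 50) / 4 * (d * A) := by ring
      _ ≤ A * (3/10) * (d * A) := by gcongr
      _ = _ := by ring
  have h6 : 5 * d ≤ (A * d * A) * (1/10) := by
    have : 50 ≤ A * A := by nlinarith
    nlinarith
  refine (add_le_add h3 (mul_le_mul hn c2 (by positivity) (by positivity))).trans ?_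
  nlinarith

/-- the point is near the hair of velocity `β` through the point `(0, 0, 0, τ)` -/
theorem near_hair {w0 w1 w2 w3 r β1 β2 τ η c T0 A d : ℝ} (H : NH w0 w1 w2 w3 r β1 β2 τ η c T0 A d) :
    w0 ≤ -(1 / A) ∧ |w0| ≤ A ∧ |w1| ≤ A ∧ |w2| ≤ A ∧ |w3| ≤ A ∧
      |w1 / w0 - (-2 * β1 / (β1 ^ 2 + β2 ^ 2))| ≤ A ^ 2 * d ∧ |w2 / w0 - (-2 * β2 / (β1 ^ 2 + β2 ^ 2))| ≤ A ^ 2 * d ∧
      |hcc w0 w1 w2 w3 - τ| ≤ A ^ 2 * d / 2 := by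
  obtain ⟨c0, c1, c2⟩ := H.w0b
  obtain ⟨e1, e2, e3⟩ := H.wjb
  exact ⟨c0, c1, e1, e2, e3, H.pb1, H.pb2, H.cb⟩

end Vale.Agent.P106.G
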