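import Vale.Agent.P106.G.Ker

/-! # Exact rescaling of caps -/

open MeasureTheory Complex Set Filter
open scoped ENNReal NNReal ContDiff FourierTransform Topology

set_option linter.all false

namespace Vale.Agent.P106.G

open Vale.Agent.P117 (Adm)

/-! ### Linear maps of `E3` -/

noncomputable def mat3 (A : Matrix (Fin 3) (Fin 3) ℝ) : E3 →ₗ[ℝ] E3 :=
  Matrix.toLin (EuclideanSpace.basisFun (Fin 3) ℝ).toBasis (EuclideanSpace.basisFun (Fin 3) ℝ).toBasis A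

theorem mat3_apply (A : Matrix (Fin 3) (Fin 3) ℝ) (y : E3) (i : Fin 3) :
    mat3 A y i = A i 0 * y 0 + A i 1 * y 1 + A i 2 * y 2 := by
  unfold mat3
  rw [Matrix.toLin_apply]
  simp [Matrix.mulVec, dotProduct, Fin.sum_univ_three]
  fin_cases i <;> simp

theorem mat3_mul (A B : Matrix (Fin 3) (Fin 3) ℝ) (y : E3) : mat3 (A * B) y = mat3 A (mat3 B y) := by
  unfold mat3
  rw [Matrix.toLin_mul_apply (v₂ := (EuclideanSpace.basisFun (Fin 3) ℝ).toBasis)]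

theorem mat3_one (y : E3) : mat3 1 y = y := by
  unfold mat3
  rw [Matrix.toLin_one]
  rfl

theorem mat3_det (A : Matrix (Fin 3) (Fin 3) ℝ) : LinearMap.det (mat3 A) = A.det := by
  unfold mat3
  rw [LinearMap.det_toLin]

theorem mat3_cont (A : Matrix (Fin 3) (Fin 3) ℝ) : Continuous (mat3 A) := (mat3 A).continuous_of_finiteDimensional

theorem mat3_emb {A : Matrix (Fin 3) (Fin 3) ℝ} (h : A.det ≠ 0) : MeasurableEmbedding (mat3 A) := by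
  have hdet : LinearMap.det (mat3 A) ≠ 0 := by rwa [mat3_det]
  have : Function.Injective (mat3 A) := (LinearMap.equivOfDetNeZero _ hdet).injective
  exact ((mat3_cont A).measurableEmbedding this)

theorem integral_mat3 {A : Matrix (Fin 3) (Fin 3) ℝ} (h : A.det ≠ 0) (F : E3 → ℂ) :
    ∫ y : E3, F (mat3 A y) = (|A.det⁻¹| : ℝ) • ∫ x, F x := by
  have hdet : LinearMap.det (mat3 A) ≠ 0 := by rwa [mat3_det]
  have hmap := Measure.map_linearMap_addHaar_eq_smul_addHaar (μ := (volume : Measure E3)) hdet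
  have h2 : ∫ y, F (mat3 A y) = ∫ ξ, F ξ ∂(Measure.map (mat3 A) volume) := ((mat3_emb h).integral_map F).symm
  rw [h2, hmap, integral_smul_measure, mat3_det, ENNReal.toReal_ofReal (abs_nonneg _)]

theorem lintegral_mat3 {A : Matrix (Fin 3) (Fin 3) ℝ} (h : A.det ≠ 0) (F : E3 → ℝ≥0∞) :
    ∫⁻ y : E3, F (mat3 A y) = ENNReal.ofReal |A.det⁻¹| * ∫⁻ x, F x := by
  have hdet : LinearMap.det (mat3 A) ≠ 0 := by rwa [mat3_det]
  have hmap := Measure.map_linearMap_addHaar_eq_smul_addHaar (μ := (volume : Measure E3)) hdet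
  have h2 : ∫⁻ y, F (mat3 A y) = ∫⁻ ξ, F ξ ∂(Measure.map (mat3 A) volume) := ((mat3_emb h).lintegral_map F).symm
  rw [h2, hmap, lintegral_smul_measure, mat3_det, smul_eq_mul]

theorem integrable_mat3 {A : Matrix (Fin 3) (Fin 3) ℝ} (h : A.det ≠ 0) {F : E3 → ℂ} (hF : Integrable F) :
    Integrable (fun y : E3 => F (mat3 A y)) := by
  have hdet : LinearMap.det (mat3 A) ≠ 0 := by rwa [mat3_det]
  have hmap := Measure.map_linearMap_addHaar_eq_smul_addHaar (μ := (volume : Measure E3)) hdet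
  have := ((mat3_emb h).integrable_map_iff (g := F) (μ := volume)).1 (by
    rw [hmap]
    exact hF.smul_measure ENNReal.ofReal_ne_top)
  exact this

theorem adm_mat3 {A : Matrix (Fin 3) (Fin 3) ℝ} (h : A.det ≠ 0) {F : E3 → ℂ} (hF : Adm volume F) :
    Adm volume (fun y : E3 => F (mat3 A y)) := by
  obtain ⟨M, hM⟩ := hF.bdd
  exact ⟨hF.meas.comp (mat3_cont A).measurable, integrable_mat3 h hF.int, M, fun x => hM _⟩

theorem inner3 (x y : E3) : inner ℝ x y = x 0 * y 0 + x 1 * y 1 + x 2 * y 2 := by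
  simp [PiLp.inner_apply, Fin.sum_univ_three]
  ring

theorem inner_mat3 (A : Matrix (Fin 3) (Fin 3) ℝ) (x y : E3) :
    inner ℝ (mat3 A.transpose x) y = inner ℝ x (mat3 A y) := by
  rw [inner3, inner3]
  simp only [mat3_apply, Matrix.transpose_apply]
  ring

theorem mat3_inv_left {A : Matrix (Fin 3) (Fin 3) ℝ} (h : A.det ≠ 0) (y : E3) : mat3 A⁻¹ (mat3 A y) = y := by
  rw [← mat3_mul, Matrix.nonsing_inv_mul _ (isUnit_iff_ne_zero.2 h), mat3_one]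

theorem mat3_inv_right {A : Matrix (Fin 3) (Fin 3) ℝ} (h : A.det ≠ 0) (y : E3) : mat3 A (mat3 A⁻¹ y) = y := by
  rw [← mat3_mul, Matrix.mul_nonsing_inv _ (isUnit_iff_ne_zero.2 h), mat3_one]

/-- Fourier transform of the composition with a linear map -/
theorem fourier_mat3 {A : Matrix (Fin 3) (Fin 3) ℝ} (h : A.det ≠ 0) (f : E3 → ℂ) (ξ : E3) :
    𝓕 (fun x => f (mat3 (A.transpose)⁻¹ x)) ξ = (|A.det| : ℝ) • 𝓕 f (mat3 A ξ) := by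
  have ht : A.transpose.det ≠ 0 := by rwa [Matrix.det_transpose]
  rw [Real.fourier_eq', Real.fourier_eq']
  have h1 := integral_mat3 ht (fun x : E3 => cexp (((-2 * Real.pi * inner ℝ x ξ : ℝ) : ℂ) * I) • f (mat3 (A.transpose)⁻¹ x))
  simp only [mat3_inv_left ht] at h1
  simp only [inner_mat3] at h1
  rw [h1, Matrix.det_transpose, smul_smul, abs_inv, mul_inv_cancel₀ (abs_ne_zero.2 h), one_smul]

/-! ### The rescaled hyperplane -/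

/-- the hyperplane after the rescaling of the cap `(β, τ)` -/
noncomputable def Hyp.sub (H : Hyp) (β1 β2 τ : ℝ) : Hyp :=
  ⟨H.s * τ ^ 2 / H.m β1 β2, τ * (H.q1 - H.s * β1) / H.m β1 β2, τ * (H.q2 - H.s * β2) / H.m β1 β2⟩

theorem hyp_m (σ b1 b2 β1 β2 : ℝ) : (hyp σ b1 b2).m β1 β2 =
    (1 + (b1 + σ * β1) ^ 2 + (b2 + σ * β2) ^ 2) / (1 + b1 ^ 2 + b2 ^ 2) := by
  unfold Hyp.m hyp
  have h : 1 + b1 ^ 2 + b2 ^ 2 ≠ 0 := by positivity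
  simp only
  field_simp
  ring

theorem hyp_sub (σ b1 b2 β1 β2 τ : ℝ) :
    (hyp σ b1 b2).sub β1 β2 τ = hyp (σ * τ) (b1 + σ * β1) (b2 + σ * β2) := by
  unfold Hyp.sub
  rw [hyp_m]
  have h : 1 + b1 ^ 2 + b2 ^ 2 ≠ 0 := by positivity
  have h' : 1 + (b1 + σ * β1) ^ 2 + (b2 + σ * β2) ^ 2 ≠ 0 := by positivity
  unfold hyp
  simp only [Hyp.mk.injEq]
  refine ⟨?_, ?_, ?_⟩
  · field_simp
  · field_simp
    ring
  · field_simp
    ring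

/-- linear map of the data frequencies -/
noncomputable def Hyp.AT (H : Hyp) (β1 β2 τ : ℝ) : Matrix (Fin 3) (Fin 3) ℝ :=
  !![1 - H.s * (β1 ^ 2 + β2 ^ 2), -(2 * H.s * τ * β1), -(2 * H.s * τ * β2);
     β1 - H.q1 * (β1 ^ 2 + β2 ^ 2), τ * (1 - 2 * H.q1 * β1), -(2 * τ * H.q1 * β2);
     β2 - H.q2 * (β1 ^ 2 + β2 ^ 2), -(2 * τ * H.q2 * β1), τ * (1 - 2 * H.q2 * β2)]

theorem AT_det (H : Hyp) (β1 β2 τ : ℝ) : (H.AT β1 β2 τ).det = τ ^ 2 * H.m β1 β2 := by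
  unfold Hyp.AT Hyp.m
  rw [Matrix.det_fin_three]
  simp
  ring

/-- linear map of the cone variable -/
noncomputable def Lw (β1 β2 τ : ℝ) (w : E3) : E3 := !₂[w 0, β1 * w 0 + τ * w 1, β2 * w 0 + τ * w 2]

theorem hc_Lw (β1 β2 τ : ℝ) {w : E3} (hw : w 0 ≠ 0) :
    hc (Lw β1 β2 τ w) = (β1 ^ 2 + β2 ^ 2) * w 0 + 2 * τ * (β1 * w 1 + β2 * w 2) + τ ^ 2 * hc w := by
  unfold hc Lw
  simp
  field_simp
  ring

theorem Lw_surj (β1 β2 : ℝ) {τ : ℝ} (hτ : τ ≠ 0) (w : E3) :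
    Lw β1 β2 τ !₂[w 0, (w 1 - β1 * w 0) / τ, (w 2 - β2 * w 0) / τ] = w := by
  unfold Lw
  ext i
  fin_cases i
  · simp
  · simp; field_simp; ring
  · simp; field_simp; ring

/-- conjugation identity -/
theorem AT_Ph (H : Hyp) {β1 β2 τ : ℝ} (hm : H.m β1 β2 ≠ 0) {w : E3} (hw : w 0 ≠ 0) :
    mat3 (H.AT β1 β2 τ) ((H.sub β1 β2 τ).Ph w) = H.Ph (Lw β1 β2 τ w) := by
  have e1 : (H.sub β1 β2 τ).s = H.s * τ ^ 2 / H.m β1 β2 := rfl
  have e2 : (H.sub β1 β2 τ).q1 = τ * (H.q1 - H.s * β1) / H.m β1 β2 := rfl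
  have e3 : (H.sub β1 β2 τ).q2 = τ * (H.q2 - H.s * β2) / H.m β1 β2 := rfl
  have em : H.m β1 β2 = H.s * (β1 ^ 2 + β2 ^ 2) - 2 * (H.q1 * β1 + H.q2 * β2) + 1 := rfl
  set m := H.m β1 β2 with hmdef
  have hh := hc_Lw β1 β2 τ hw
  have p0 : ∀ (G : Hyp) (w : E3), G.Ph w 0 = w 0 - G.s * hc w := fun G w => rfl
  have p1 : ∀ (G : Hyp) (w : E3), G.Ph w 1 = w 1 - G.q1 * hc w := fun G w => rfl
  have p2 : ∀ (G : Hyp) (w : E3), G.Ph w 2 = w 2 - G.q2 * hc w := fun G w => rfl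
  have l0 : Lw β1 β2 τ w 0 = w 0 := rfl
  have l1 : Lw β1 β2 τ w 1 = β1 * w 0 + τ * w 1 := rfl
  have l2 : Lw β1 β2 τ w 2 = β2 * w 0 + τ * w 2 := rfl
  set k := hc w / m with hk
  have ek : hc w = m * k := by rw [hk]; field_simp
  have f1 : H.s * τ ^ 2 / m * hc w = H.s * τ ^ 2 * k := by rw [hk]; ring
  have f2 : τ * (H.q1 - H.s * β1) / m * hc w = τ * (H.q1 - H.s * β1) * k := by rw [hk]; ring
  have f3 : τ * (H.q2 - H.s * β2) / m * hc w = τ * (H.q2 - H.s * β2) * k := by rw [hk]; ring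
  ext i
  rw [mat3_apply]
  rw [p0, p1, p2, e1, e2, e3, f1, f2, f3]
  fin_cases i
  · simp only [Fin.zero_eta, p0, hh, l0, Hyp.AT, Matrix.of_apply, Matrix.cons_val', Matrix.cons_val_zero,
      Matrix.cons_val_one, Matrix.cons_val, ek]
    linear_combination (H.s * τ ^ 2 * k) * em
  · simp only [Fin.mk_one, p1, hh, l1, Hyp.AT, Matrix.of_apply, Matrix.cons_val', Matrix.cons_val_zero,
      Matrix.cons_val_one, Matrix.cons_val, ek]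
    linear_combination (H.q1 * τ ^ 2 * k) * em
  · simp only [Fin.reduceFinMk, p2, hh, l2, Hyp.AT, Matrix.of_apply, Matrix.cons_val', Matrix.cons_val_zero,
      Matrix.cons_val_one, Matrix.cons_val, ek]
    linear_combination (H.q2 * τ ^ 2 * k) * em

/-- the multiplier on the cone -/
theorem mu_Ph {H : Hyp} (hb : H.Bd) {χ φ1 φ2 : ℝ → ℂ} {w : E3} (hw : 1 ≤ w 0) (h1 : |w 1 / w 0| ≤ 5/4)
    (h2 : |w 2 / w 0| ≤ 5/4) : H.mu χ φ1 φ2 (H.Ph w) = cutw χ φ1 φ2 w := by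
  have h0 : 0 < w 0 := by linarith
  have hB := Hyp.B_lower hb h0 h1 h2
  have hB2 : 1/2 ≤ H.B (H.Ph w) := by linarith
  rw [mu_eq, stB_one hB2, one_mul, Hyp.Om_Ph hb.D0 h0 (by linarith)]

/-- cut-off with support in `w 0 ≥ 1` -/
structure R1 (χ : ℝ → ℂ) : Prop extends Rcut χ where
  ge1 : ∀ t, χ t ≠ 0 → 1 ≤ t

/-- every point of the support of the multiplier is a cone point -/
theorem mu_cone {H : Hyp} (hb : H.Bd) {χ φ1 φ2 : ℝ → ℂ} (hχ : R1 χ) (h1 : Vc φ1) (h2 : Vc φ2) {ξ : E3}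
    (h : H.mu χ φ1 φ2 ξ ≠ 0) : ∃ w : E3, ξ = H.Ph w ∧ 1 ≤ w 0 ∧ |w 1 / w 0| ≤ 5/4 ∧ |w 2 / w 0| ≤ 5/4 ∧
      H.om ξ = hc w ∧ cutw χ φ1 φ2 w ≠ 0 := by
  obtain ⟨hB, ⟨hw0, hw0'⟩, hv1, hv2⟩ := mu_supp hb hχ.toRcut h1 h2 h
  have hwne : H.Om ξ 0 ≠ 0 := by linarith
  have hB0 : 0 < H.B ξ := by linarith
  have h3 := right_ne_zero_of_mul (mu_eq H χ φ1 φ2 ξ ▸ h)
  exact ⟨H.Om ξ, (Hyp.Ph_Om hb.D0 hB0 hwne).symm, hχ.ge1 _ (left_ne_zero_of_mul h3), hv1, hv2,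
    (Hyp.hc_Om hb.D0 hB0 hwne).symm, h3⟩

theorem Lw_inj (β1 β2 : ℝ) {τ : ℝ} (hτ : τ ≠ 0) {w w' : E3} (h : Lw β1 β2 τ w = Lw β1 β2 τ w') : w = w' := by
  have h0 : (Lw β1 β2 τ w) 0 = (Lw β1 β2 τ w') 0 := by rw [h]
  have h1 : (Lw β1 β2 τ w) 1 = (Lw β1 β2 τ w') 1 := by rw [h]
  have h2 : (Lw β1 β2 τ w) 2 = (Lw β1 β2 τ w') 2 := by rw [h]
  change w 0 = w' 0 at h0
  change β1 * w 0 + τ * w 1 = β1 * w' 0 + τ * w' 1 at h1
  change β2 * w 0 + τ * w 2 = β2 * w' 0 + τ * w' 2 at h2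
  ext i
  fin_cases i
  · exact h0
  · have : τ * w 1 = τ * w' 1 := by rw [h0] at h1; linarith
    exact mul_left_cancel₀ hτ this
  · have : τ * w 2 = τ * w' 2 := by rw [h0] at h2; linarith
    exact mul_left_cancel₀ hτ this

theorem mat3_inj {A : Matrix (Fin 3) (Fin 3) ℝ} (h : A.det ≠ 0) : Function.Injective (mat3 A) :=
  fun x y hxy => by rw [← mat3_inv_left h x, hxy, mat3_inv_left h]

section
variable {H : Hyp} {β1 β2 τ : ℝ} (hb : H.Bd) (hb' : (H.sub β1 β2 τ).Bd) (hm : 0 < H.m β1 β2) (hτ : 0 < τ)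

include hm hτ in
theorem AT_det_pos : 0 < (H.AT β1 β2 τ).det := by rw [AT_det]; positivity

theorem cutw_Lw {χ φ1 φ2 : ℝ → ℂ} {w : E3} (hw : w 0 ≠ 0) :
    cutw χ φ1 φ2 (Lw β1 β2 τ w) = cutw χ (fun t => φ1 (β1 + τ * t)) (fun t => φ2 (β2 + τ * t)) w := by
  unfold cutw Lw
  simp only [PiLp.toLp_apply, Matrix.cons_val_zero, Matrix.cons_val_one, Matrix.cons_val]
  congr 3
  · congr 1; field_simp
  · congr 1; field_simp

include hb hb' hm hτ in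
/-- **conjugation of the multiplier and of the dispersion relation** -/
theorem mu_AT {χ φ1 φ2 : ℝ → ℂ} (hχ : R1 χ) (h1 : Vc φ1) (h2 : Vc φ2)
    (h1' : Vc (fun t => φ1 (β1 + τ * t))) (h2' : Vc (fun t => φ2 (β2 + τ * t))) (ξ : E3) :
    H.mu χ φ1 φ2 (mat3 (H.AT β1 β2 τ) ξ) =
      (H.sub β1 β2 τ).mu χ (fun t => φ1 (β1 + τ * t)) (fun t => φ2 (β2 + τ * t)) ξ ∧
    (H.mu χ φ1 φ2 (mat3 (H.AT β1 β2 τ) ξ) ≠ 0 → H.om (mat3 (H.AT β1 β2 τ) ξ) =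
      (β1 ^ 2 + β2 ^ 2) * ξ 0 + 2 * τ * (β1 * ξ 1 + β2 * ξ 2) + τ ^ 2 / H.m β1 β2 * (H.sub β1 β2 τ).om ξ) := by
  have hdet := (AT_det_pos (H := H) (β1 := β1) (β2 := β2) hm hτ).ne'
  -- common part
  have key : ∀ w : E3, ξ = (H.sub β1 β2 τ).Ph w → 1 ≤ w 0 →
      cutw χ φ1 φ2 (Lw β1 β2 τ w) ≠ 0 →
      H.mu χ φ1 φ2 (mat3 (H.AT β1 β2 τ) ξ) =
      (H.sub β1 β2 τ).mu χ (fun t => φ1 (β1 + τ * t)) (fun t => φ2 (β2 + τ * t)) ξ ∧
      H.om (mat3 (H.AT β1 β2 τ) ξ) =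
      (β1 ^ 2 + β2 ^ 2) * ξ 0 + 2 * τ * (β1 * ξ 1 + β2 * ξ 2) + τ ^ 2 / H.m β1 β2 * (H.sub β1 β2 τ).om ξ := by
    intro w hw hw1 hne
    have hw0 : w 0 ≠ 0 := by linarith
    have hwp : 0 < w 0 := by linarith
    have hne' := hne
    rw [cutw_Lw hw0] at hne'
    have hA := AT_Ph H (τ := τ) hm.ne' hw0
    have v1 := h1.supp _ (left_ne_zero_of_mul (right_ne_zero_of_mul hne))
    have v2 := h2.supp _ (right_ne_zero_of_mul (right_ne_zero_of_mul hne))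
    have v1' := h1'.supp _ (left_ne_zero_of_mul (right_ne_zero_of_mul hne'))
    have v2' := h2'.supp _ (right_ne_zero_of_mul (right_ne_zero_of_mul hne'))
    have hl0 : Lw β1 β2 τ w 0 = w 0 := rfl
    have hl1 : 1 ≤ Lw β1 β2 τ w 0 := by rw [hl0]; exact hw1
    have hlp : 0 < Lw β1 β2 τ w 0 := by rw [hl0]; exact hwp
    have hB := Hyp.B_lower hb hlp v1 v2
    have hB' := Hyp.B_lower hb' hwp v1' v2'
    have o1 := Hyp.om_Ph hb.D0 hlp (by linarith)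
    have o2 := Hyp.om_Ph hb'.D0 hwp (by linarith)
    rw [hw, hA, mu_Ph hb hl1 v1 v2, mu_Ph hb' hw1 v1' v2', cutw_Lw hw0]
    refine ⟨rfl, ?_⟩
    rw [o1, o2, hc_Lw β1 β2 τ hw0]
    have q0 : (H.sub β1 β2 τ).Ph w 0 = w 0 - H.s * τ ^ 2 / H.m β1 β2 * hc w := rfl
    have q1 : (H.sub β1 β2 τ).Ph w 1 = w 1 - τ * (H.q1 - H.s * β1) / H.m β1 β2 * hc w := rfl
    have q2 : (H.sub β1 β2 τ).Ph w 2 = w 2 - τ * (H.q2 - H.s * β2) / H.m β1 β2 * hc w := rfl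
    rw [q0, q1, q2]
    have em : H.m β1 β2 = H.s * (β1 ^ 2 + β2 ^ 2) - 2 * (H.q1 * β1 + H.q2 * β2) + 1 := rfl
    have hmne := hm.ne'
    set m := H.m β1 β2 with hmdef
    set k := hc w / m with hk
    have ek : hc w = m * k := by rw [hk]; field_simp
    have f1 : H.s * τ ^ 2 / m * hc w = H.s * τ ^ 2 * k := by rw [hk]; ring
    have f2 : τ * (H.q1 - H.s * β1) / m * hc w = τ * (H.q1 - H.s * β1) * k := by rw [hk]; ring
    have f3 : τ * (H.q2 - H.s * β2) / m * hc w = τ * (H.q2 - H.s * β2) * k := by rw [hk]; ring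
    have f4 : τ ^ 2 / m * hc w = τ ^ 2 * k := by rw [hk]; ring
    rw [f1, f2, f3, f4, ek]
    linear_combination (τ ^ 2 * k) * em
  constructor
  · by_cases hz : (H.sub β1 β2 τ).mu χ (fun t => φ1 (β1 + τ * t)) (fun t => φ2 (β2 + τ * t)) ξ = 0
    · rw [hz]
      by_contra hc
      obtain ⟨w, e1, e2, e3, e4, e5, e6⟩ := mu_cone hb hχ h1 h2 hc
      set w' : E3 := !₂[w 0, (w 1 - β1 * w 0) / τ, (w 2 - β2 * w 0) / τ] with hw'
      have hL : Lw β1 β2 τ w' = w := Lw_surj β1 β2 hτ.ne' w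
      have h10 : w' 0 = w 0 := rfl
      have hA := AT_Ph H (τ := τ) hm.ne' (w := w') (by rw [h10]; linarith)
      rw [hL, ← e1] at hA
      have hxi := mat3_inj hdet hA
      have := (key w' hxi.symm (by rw [h10]; exact e2) (by rw [hL]; exact e6)).1
      rw [this] at hc
      exact hc hz
    · obtain ⟨w, e1, e2, e3, e4, e5, e6⟩ := mu_cone hb' hχ h1' h2' hz
      exact (key w e1 e2 (by rw [cutw_Lw (by linarith)]; exact e6)).1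
  · intro hc
    obtain ⟨w, e1, e2, e3, e4, e5, e6⟩ := mu_cone hb hχ h1 h2 hc
    set w' : E3 := !₂[w 0, (w 1 - β1 * w 0) / τ, (w 2 - β2 * w 0) / τ] with hw'
    have hL : Lw β1 β2 τ w' = w := Lw_surj β1 β2 hτ.ne' w
    have h10 : w' 0 = w 0 := rfl
    have hA := AT_Ph H (τ := τ) hm.ne' (w := w') (by rw [h10]; linarith)
    rw [hL, ← e1] at hA
    have hxi := mat3_inj hdet hA
    exact (key w' hxi.symm (by rw [h10]; exact e2) (by rw [hL]; exact e6)).2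

include hb hb' hm hτ in
/-- **exact rescaling of the evolution** -/
theorem U_resc {χ φ1 φ2 : ℝ → ℂ} (hχ : R1 χ) (h1 : Vc φ1) (h2 : Vc φ2)
    (h1' : Vc (fun t => φ1 (β1 + τ * t))) (h2' : Vc (fun t => φ2 (β2 + τ * t))) (h : E3 → ℂ) (t : ℝ) (y : E3) :
    H.U (H.mu χ φ1 φ2) h t y = (H.sub β1 β2 τ).U ((H.sub β1 β2 τ).mu χ (fun t => φ1 (β1 + τ * t)) (fun t => φ2 (β2 + τ * t)))
      (fun x => h (mat3 ((H.AT β1 β2 τ).transpose)⁻¹ x)) (τ ^ 2 / H.m β1 β2 * t)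
      (mat3 (H.AT β1 β2 τ).transpose y + t • !₂[β1 ^ 2 + β2 ^ 2, 2 * τ * β1, 2 * τ * β2]) := by
  have hdp := AT_det_pos (H := H) (β1 := β1) (β2 := β2) hm hτ
  have hdet := hdp.ne'
  unfold Hyp.U
  rw [Real.fourierInv_eq', Real.fourierInv_eq']
  have hI := integral_mat3 hdet (fun v : E3 => cexp (((2 * Real.pi * inner ℝ v y : ℝ) : ℂ) * I) •
    (cexp (2 * Real.pi * I * (t * H.om v : ℝ)) * (H.mu χ φ1 φ2 v * 𝓕 h v)))
  have hI2 : ∫ x : E3, cexp (((2 * Real.pi * inner ℝ x y : ℝ) : ℂ) * I) •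
    (cexp (2 * Real.pi * I * (t * H.om x : ℝ)) * (H.mu χ φ1 φ2 x * 𝓕 h x)) =
      ((H.AT β1 β2 τ).det : ℂ) * ∫ y_1 : E3, cexp (((2 * Real.pi * inner ℝ (mat3 (H.AT β1 β2 τ) y_1) y : ℝ) : ℂ) * I) •
      (cexp (2 * Real.pi * I * (t * H.om (mat3 (H.AT β1 β2 τ) y_1) : ℝ)) *
        (H.mu χ φ1 φ2 (mat3 (H.AT β1 β2 τ) y_1) * 𝓕 h (mat3 (H.AT β1 β2 τ) y_1))) := by
    rw [hI, Complex.real_smul, ← mul_assoc, ← Complex.ofReal_mul, abs_inv, abs_of_pos hdp, mul_inv_cancel₀ hdet,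
      Complex.ofReal_one, one_mul]
  rw [hI2, ← integral_const_mul]
  congr 1
  ext ξ
  obtain ⟨k1, k2⟩ := mu_AT hb hb' hm hτ hχ h1 h2 h1' h2' ξ
  rw [fourier_mat3 hdet h ξ, ← k1, abs_of_pos hdp, Complex.real_smul, smul_eq_mul, smul_eq_mul]
  by_cases hz : H.mu χ φ1 φ2 (mat3 (H.AT β1 β2 τ) ξ) = 0
  · rw [hz]; ring
  · rw [k2 hz]
    have ei : inner ℝ (mat3 (H.AT β1 β2 τ) ξ) y = inner ℝ ξ (mat3 (H.AT β1 β2 τ).transpose y) := by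
      rw [real_inner_comm, ← inner_mat3, real_inner_comm]
    have ec : inner ℝ ξ (t • !₂[β1 ^ 2 + β2 ^ 2, 2 * τ * β1, 2 * τ * β2] : E3) =
        t * ((β1 ^ 2 + β2 ^ 2) * ξ 0 + 2 * τ * (β1 * ξ 1 + β2 * ξ 2)) := by
      rw [inner_smul_right, inner3]
      simp only [PiLp.toLp_apply, Matrix.cons_val_zero, Matrix.cons_val_one, Matrix.cons_val]
      ring
    rw [inner_add_right, ei, ec]
    have e3 : cexp (((2 * Real.pi * inner ℝ ξ (mat3 (H.AT β1 β2 τ).transpose y) : ℝ) : ℂ) * I) *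
        cexp (2 * Real.pi * I * (t * ((β1 ^ 2 + β2 ^ 2) * ξ 0 + 2 * τ * (β1 * ξ 1 + β2 * ξ 2) +
          τ ^ 2 / H.m β1 β2 * (H.sub β1 β2 τ).om ξ) : ℝ)) =
        cexp (((2 * Real.pi * (inner ℝ ξ (mat3 (H.AT β1 β2 τ).transpose y) +
          t * ((β1 ^ 2 + β2 ^ 2) * ξ 0 + 2 * τ * (β1 * ξ 1 + β2 * ξ 2))) : ℝ) : ℂ) * I) *
        cexp (2 * Real.pi * I * (τ ^ 2 / H.m β1 β2 * t * (H.sub β1 β2 τ).om ξ : ℝ)) := by
      rw [← Complex.exp_add, ← Complex.exp_add]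
      congr 1
      push_cast
      ring
    linear_combination ((H.AT β1 β2 τ).det : ℂ) * (H.mu χ φ1 φ2 (mat3 (H.AT β1 β2 τ) ξ) *
      𝓕 h (mat3 (H.AT β1 β2 τ) ξ)) * e3

include hm hτ in
theorem AT_det_ne : (H.AT β1 β2 τ).det ≠ 0 := (AT_det_pos hm hτ).ne'

theorem lintegral_Icc_scale {l : ℝ} (hl : 0 < l) (R : ℝ) (F : ℝ → ℝ≥0∞) :
    ∫⁻ t in Icc R (2 * R), F (l * t) = ENNReal.ofReal l⁻¹ * ∫⁻ T in Icc (l * R) (2 * (l * R)), F T := by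
  rw [← lintegral_indicator measurableSet_Icc, ← lintegral_indicator measurableSet_Icc]
  have h1 := Real.map_volume_mul_left hl.ne'
  have h2 : ∀ t : ℝ, (Icc R (2 * R)).indicator (fun t => F (l * t)) t =
      ((Icc (l * R) (2 * (l * R))).indicator F) (l * t) := by
    intro t
    by_cases ht : t ∈ Icc R (2 * R)
    · rw [indicator_of_mem ht, indicator_of_mem]
      exact ⟨by nlinarith [ht.1], by nlinarith [ht.2]⟩
    · rw [indicator_of_notMem ht, indicator_of_notMem]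
      intro h
      apply ht
      constructor
      · exact le_of_mul_le_mul_left h.1 hl
      · have := h.2
        exact le_of_mul_le_mul_left (by linarith) hl
  simp_rw [h2]
  have h3 : ∫⁻ t : ℝ, ((Icc (l * R) (2 * (l * R))).indicator F) (l * t) =
      ∫⁻ T, ((Icc (l * R) (2 * (l * R))).indicator F) T ∂(Measure.map (l * ·) (volume : Measure ℝ)) :=
    (MeasureTheory.lintegral_map_equiv _ (Homeomorph.mulLeft₀ l hl.ne').toMeasurableEquiv).symm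
  rw [h3, h1, lintegral_smul_measure, abs_of_pos (inv_pos.2 hl)]
  rfl

include hb hb' hm hτ in
/-- rescaling of the norms -/
theorem resc_norm {χ φ1 φ2 : ℝ → ℂ} (hχ : R1 χ) (h1 : Vc φ1) (h2 : Vc φ2)
    (h1' : Vc (fun t => φ1 (β1 + τ * t))) (h2' : Vc (fun t => φ2 (β2 + τ * t))) (h : E3 → ℂ) (p R : ℝ) :
    ∫⁻ t in Icc R (2 * R), ∫⁻ y, ‖H.U (H.mu χ φ1 φ2) h t y‖ₑ ^ p =
      ENNReal.ofReal ((τ ^ 2 / H.m β1 β2)⁻¹) * (ENNReal.ofReal ((H.AT β1 β2 τ).det⁻¹) *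
      ∫⁻ t in Icc (τ ^ 2 / H.m β1 β2 * R) (2 * (τ ^ 2 / H.m β1 β2 * R)), ∫⁻ y,
        ‖(H.sub β1 β2 τ).U ((H.sub β1 β2 τ).mu χ (fun t => φ1 (β1 + τ * t)) (fun t => φ2 (β2 + τ * t)))
          (fun x => h (mat3 ((H.AT β1 β2 τ).transpose)⁻¹ x)) t y‖ₑ ^ p) := by
  have hdp := AT_det_pos (H := H) (β1 := β1) (β2 := β2) hm hτ
  have hdt : (H.AT β1 β2 τ).transpose.det ≠ 0 := by rw [Matrix.det_transpose]; exact hdp.ne'
  simp_rw [U_resc hb hb' hm hτ hχ h1 h2 h1' h2' h]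
  set V := (H.sub β1 β2 τ).U ((H.sub β1 β2 τ).mu χ (fun t => φ1 (β1 + τ * t)) (fun t => φ2 (β2 + τ * t)))
          (fun x => h (mat3 ((H.AT β1 β2 τ).transpose)⁻¹ x)) with hV
  have hl : 0 < τ ^ 2 / H.m β1 β2 := by positivity
  have hin : ∀ t : ℝ, ∫⁻ y, ‖V (τ ^ 2 / H.m β1 β2 * t) (mat3 (H.AT β1 β2 τ).transpose y +
      t • !₂[β1 ^ 2 + β2 ^ 2, 2 * τ * β1, 2 * τ * β2])‖ₑ ^ p =
      ENNReal.ofReal ((H.AT β1 β2 τ).det⁻¹) * ∫⁻ y, ‖V (τ ^ 2 / H.m β1 β2 * t) y‖ₑ ^ p := by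
    intro t
    rw [lintegral_mat3 hdt (fun x : E3 => ‖V (τ ^ 2 / H.m β1 β2 * t) (x + t • !₂[β1 ^ 2 + β2 ^ 2, 2 * τ * β1, 2 * τ * β2])‖ₑ ^ p),
      Matrix.det_transpose, abs_of_pos (inv_pos.2 hdp)]
    congr 1
    exact lintegral_add_right_eq_self (fun x : E3 => ‖V (τ ^ 2 / H.m β1 β2 * t) x‖ₑ ^ p) _
  simp_rw [hin]
  rw [lintegral_Icc_scale hl R (fun t => ENNReal.ofReal ((H.AT β1 β2 τ).det⁻¹) * ∫⁻ y, ‖V t y‖ₑ ^ p)]
  congr 1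
  rw [lintegral_const_mul' _ _ ENNReal.ofReal_ne_top]

end

/-! ### The class of hyperplanes -/

/-- class closed under rescaling -/
def Hyp.ok2 (H : Hyp) : Prop := ∃ σ b1 b2 : ℝ, 0 < σ ∧ σ ≤ 1/8 ∧ 0 ≤ b1 ∧ b1 + σ ≤ 1/2 ∧ 0 ≤ b2 ∧ b2 + σ ≤ 1/2 ∧
  H = hyp σ b1 b2

theorem Hyp.ok2.ok {H : Hyp} (h : H.ok2) : H.ok := by
  obtain ⟨σ, b1, b2, h1, h2, h3, h4, h5, h6, rfl⟩ := h
  exact (Hyp.ok_iff _).2 ⟨σ, b1, b2, h1, h2, h3, by linarith, h5, by linarith, rfl⟩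

theorem Hyp.ok2.sub {H : Hyp} (h : H.ok2) {β1 β2 τ : ℝ} (hτ : 0 < τ) (h1 : 0 ≤ β1) (h1' : β1 + τ ≤ 1)
    (h2 : 0 ≤ β2) (h2' : β2 + τ ≤ 1) : (H.sub β1 β2 τ).ok2 := by
  obtain ⟨σ, b1, b2, k1, k2, k3, k4, k5, k6, rfl⟩ := h
  refine ⟨σ * τ, b1 + σ * β1, b2 + σ * β2, by positivity, by nlinarith, by positivity, ?_, by positivity, ?_, hyp_sub _ _ _ _ _ _⟩
  · nlinarith
  · nlinarith

theorem Hyp.ok2.m_bd {H : Hyp} (h : H.ok2) {β1 β2 : ℝ} (h1 : 0 ≤ β1) (h1' : β1 ≤ 1)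
    (h2 : 0 ≤ β2) (h2' : β2 ≤ 1) : 1 ≤ H.m β1 β2 ∧ H.m β1 β2 ≤ 2 := by
  obtain ⟨σ, b1, b2, k1, k2, k3, k4, k5, k6, rfl⟩ := h
  rw [hyp_m]
  have hd : 0 < 1 + b1 ^ 2 + b2 ^ 2 := by positivity
  have e1 : 0 ≤ σ * β1 := by positivity
  have e2 : 0 ≤ σ * β2 := by positivity
  have e3 : σ * β1 ≤ σ := by nlinarith
  have e4 : σ * β2 ≤ σ := by nlinarith
  rw [le_div_iff₀ hd, div_le_iff₀ hd]
  constructor
  · nlinarith [mul_nonneg k3 e1, mul_nonneg k5 e2]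
  · have f1 : (b1 + σ * β1) ^ 2 ≤ (1/2) ^ 2 := pow_le_pow_left₀ (by positivity) (by linarith) 2
    have f2 : (b2 + σ * β2) ^ 2 ≤ (1/2) ^ 2 := pow_le_pow_left₀ (by positivity) (by linarith) 2
    nlinarith [sq_nonneg b1, sq_nonneg b2]

end Vale.Agent.P106.G
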