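import Vale.Agent.P106.G.GeB
import Vale.Agent.P106.G.Resc

/-! # Volume of the marks -/

open MeasureTheory Set
open scoped ENNReal

set_option linter.all false

namespace Vale.Agent.P106.G

/-- three-space as a product -/
noncomputable def q3 : E3 ≃ᵐ ℝ × (ℝ × ℝ) :=
  ((MeasurableEquiv.toLp 2 (Fin 3 → ℝ)).symm.trans
    (MeasurableEquiv.piFinSuccAbove (fun _ => ℝ) (0 : Fin 3))).trans
    (MeasurableEquiv.prodCongr (MeasurableEquiv.refl ℝ) MeasurableEquiv.finTwoArrow)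

theorem mp_q3 : MeasurePreserving q3 volume volume := by
  have h1 : MeasurePreserving (MeasurableEquiv.toLp 2 (Fin 3 → ℝ)).symm volume volume :=
    PiLp.volume_preserving_ofLp (Fin 3)
  have h2 := volume_preserving_piFinSuccAbove (fun _ : Fin 3 => ℝ) (0 : Fin 3)
  have h3 : MeasurePreserving (MeasurableEquiv.prodCongr (MeasurableEquiv.refl ℝ)
      (MeasurableEquiv.finTwoArrow (α := ℝ))) (volume.prod volume) (volume.prod volume) :=
    (MeasurePreserving.id volume).prod (volume_preserving_finTwoArrow ℝ)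
  exact h3.comp (h2.comp h1)

theorem q3_symm (p : ℝ × (ℝ × ℝ)) : q3.symm p = !₂[p.1, p.2.1, p.2.2] := by
  rw [MeasurableEquiv.symm_apply_eq]
  rfl

theorem measurable_mk3 : Measurable (fun p : ℝ × (ℝ × ℝ) => (!₂[p.1, p.2.1, p.2.2] : E3)) := by
  have : (fun p : ℝ × (ℝ × ℝ) => (!₂[p.1, p.2.1, p.2.2] : E3)) = q3.symm := by
    ext1 p; rw [q3_symm]
  rw [this]; exact q3.symm.measurable

theorem lint3 {F : E3 → ℝ≥0∞} (hF : Measurable F) :
    ∫⁻ x, F x = ∫⁻ a : ℝ, ∫⁻ b : ℝ, ∫⁻ c : ℝ, F !₂[a, b, c] := by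
  have h := mp_q3.symm.lintegral_comp_emb q3.symm.measurableEmbedding F
  rw [← h, Measure.volume_eq_prod]
  simp_rw [q3_symm]
  have h1 := lintegral_prod (μ := (volume : Measure ℝ)) (ν := (volume : Measure (ℝ × ℝ)))
    (fun p : ℝ × (ℝ × ℝ) => F !₂[p.1, p.2.1, p.2.2]) (hF.comp measurable_mk3).aemeasurable
  rw [h1]
  refine lintegral_congr fun a => ?_
  have h2 := lintegral_prod (μ := (volume : Measure ℝ)) (ν := (volume : Measure ℝ))
    (fun p : ℝ × ℝ => F !₂[a, p.1, p.2]) ((hF.comp measurable_mk3).comp measurable_prodMk_left).aemeasurable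
  exact h2

theorem lint_scale {a : ℝ} (ha : a ≠ 0) {f : ℝ → ℝ≥0∞} (hf : Measurable f) :
    ∫⁻ x, f x = ENNReal.ofReal |a| * ∫⁻ p, f (a * p) := by
  have h1 : ∫⁻ p, f (a * p) = ∫⁻ x, f x ∂(Measure.map (a * ·) volume) :=
    (lintegral_map hf (measurable_const_mul a)).symm
  rw [h1, Real.map_volume_mul_left ha, lintegral_smul_measure, smul_eq_mul, ← mul_assoc,
    ← ENNReal.ofReal_mul (abs_nonneg a), ← abs_mul, mul_inv_cancel₀ ha, abs_one, ENNReal.ofReal_one, one_mul]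

theorem swap3 {F : ℝ × ℝ × ℝ → ℝ≥0∞} (hF : Measurable F) :
    ∫⁻ a, ∫⁻ b, ∫⁻ c, F (a, b, c) = ∫⁻ b, ∫⁻ c, ∫⁻ a, F (a, b, c) := by
  have h1 : ∀ a, ∫⁻ b, ∫⁻ c, F (a, b, c) = ∫⁻ p : ℝ × ℝ, F (a, p) := by
    intro a
    rw [Measure.volume_eq_prod, lintegral_prod]
    exact (hF.comp measurable_prodMk_left).aemeasurable
  simp_rw [h1]
  rw [lintegral_lintegral_swap (f := fun (a : ℝ) (p : ℝ × ℝ) => F (a, p)) (by exact hF.aemeasurable),
    Measure.volume_eq_prod, lintegral_prod]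
  exact hF.lintegral_prod_left'.aemeasurable

theorem strip_aux {r r' : ℝ} (hr : 0 ≤ r) (hr' : 0 ≤ r') (α1 α2 β1 β2 n1 n2 : ℝ) (h2 : 1/2 ≤ |n2|) :
    ∫⁻ p1 : ℝ, ∫⁻ p2 : ℝ, ({p : ℝ × ℝ | |p.1 - α1| ≤ r ∧ |p.2 - α2| ≤ r ∧
      |(p.1 - β1) * n1 + (p.2 - β2) * n2| ≤ r'}).indicator (fun _ => (1 : ℝ≥0∞)) (p1, p2) ≤ ENNReal.ofReal (8 * r * r') := by
  have hn2 : n2 ≠ 0 := by
    intro h; rw [h, abs_zero] at h2; linarith
  have h1 : ∀ p1 : ℝ, ∫⁻ p2 : ℝ, ({p : ℝ × ℝ | |p.1 - α1| ≤ r ∧ |p.2 - α2| ≤ r ∧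
    |(p.1 - β1) * n1 + (p.2 - β2) * n2| ≤ r'}).indicator (fun _ => (1 : ℝ≥0∞)) (p1, p2) ≤
      (Metric.closedBall α1 r).indicator (fun _ => ENNReal.ofReal (4 * r')) p1 := by
    intro p1
    by_cases hp : p1 ∈ Metric.closedBall α1 r
    · rw [indicator_of_mem hp]
      have h3 : ∀ p2 : ℝ, ({p : ℝ × ℝ | |p.1 - α1| ≤ r ∧ |p.2 - α2| ≤ r ∧
          |(p.1 - β1) * n1 + (p.2 - β2) * n2| ≤ r'}).indicator (fun _ => (1 : ℝ≥0∞)) (p1, p2) ≤
          (Metric.closedBall (β2 - (p1 - β1) * n1 / n2) (2 * r')).indicator (fun _ => (1 : ℝ≥0∞)) p2 := by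
        intro p2
        by_cases hm : (p1, p2) ∈ {p : ℝ × ℝ | |p.1 - α1| ≤ r ∧ |p.2 - α2| ≤ r ∧
          |(p.1 - β1) * n1 + (p.2 - β2) * n2| ≤ r'}
        · rw [indicator_of_mem hm]
          have hm3 : |(p1 - β1) * n1 + (p2 - β2) * n2| ≤ r' := hm.2.2
          have : p2 ∈ Metric.closedBall (β2 - (p1 - β1) * n1 / n2) (2 * r') := by
            rw [Metric.mem_closedBall, Real.dist_eq]
            have e : p2 - (β2 - (p1 - β1) * n1 / n2) = ((p1 - β1) * n1 + (p2 - β2) * n2) / n2 := by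
              field_simp; ring
            rw [e, abs_div, div_le_iff₀ (by linarith)]
            nlinarith
          rw [indicator_of_mem this]
        · rw [indicator_of_notMem hm]; exact bot_le
      refine (lintegral_mono h3).trans ?_
      rw [lintegral_indicator measurableSet_closedBall, setLIntegral_const, one_mul, Real.volume_closedBall]
      refine ENNReal.ofReal_le_ofReal (by linarith)
    · rw [indicator_of_notMem hp]
      have h3 : ∀ p2 : ℝ, ({p : ℝ × ℝ | |p.1 - α1| ≤ r ∧ |p.2 - α2| ≤ r ∧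
          |(p.1 - β1) * n1 + (p.2 - β2) * n2| ≤ r'}).indicator (fun _ => (1 : ℝ≥0∞)) (p1, p2) = 0 := by
        intro p2
        refine indicator_of_notMem (fun hm => hp ?_) _
        rw [Metric.mem_closedBall, Real.dist_eq]; exact hm.1
      simp_rw [h3]; simp
  refine (lintegral_mono h1).trans ?_
  rw [lintegral_indicator measurableSet_closedBall, setLIntegral_const, Real.volume_closedBall,
    ← ENNReal.ofReal_mul (by positivity)]
  refine ENNReal.ofReal_le_ofReal (by nlinarith)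

theorem meas_strip (α1 α2 β1 β2 n1 n2 r r' : ℝ) : MeasurableSet {p : ℝ × ℝ | |p.1 - α1| ≤ r ∧ |p.2 - α2| ≤ r ∧
      |(p.1 - β1) * n1 + (p.2 - β2) * n2| ≤ r'} := by
  have h1 : Measurable fun p : ℝ × ℝ => |p.1 - α1| := by fun_prop
  have h2 : Measurable fun p : ℝ × ℝ => |p.2 - α2| := by fun_prop
  have h3 : Measurable fun p : ℝ × ℝ => |(p.1 - β1) * n1 + (p.2 - β2) * n2| := by fun_prop
  exact (measurableSet_le h1 measurable_const).inter ((measurableSet_le h2 measurable_const).inter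
    (measurableSet_le h3 measurable_const))

/-- area of the intersection of a square and a strip -/
theorem strip_box (α1 α2 β1 β2 n1 n2 r r' : ℝ) (hn : n1 ^ 2 + n2 ^ 2 = 1) (hr : 0 ≤ r) (hr' : 0 ≤ r') :
    ∫⁻ p1 : ℝ, ∫⁻ p2 : ℝ, ({p : ℝ × ℝ | |p.1 - α1| ≤ r ∧ |p.2 - α2| ≤ r ∧
      |(p.1 - β1) * n1 + (p.2 - β2) * n2| ≤ r'}).indicator (fun _ => (1 : ℝ≥0∞)) (p1, p2) ≤ ENNReal.ofReal (8 * r * r') := by
  rcases le_or_gt (1/2) |n2| with h2 | h2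
  · exact strip_aux hr hr' α1 α2 β1 β2 n1 n2 h2
  · have h1 : 1/2 ≤ |n1| := by
      by_contra hc
      push Not at hc
      have e1 : n1 ^ 2 < (1/2) ^ 2 := by rw [← sq_abs]; gcongr
      have e2 : n2 ^ 2 < (1/2) ^ 2 := by rw [← sq_abs]; gcongr
      linarith
    have h3 := strip_aux hr hr' α2 α1 β2 β1 n2 n1 h1
    rw [lintegral_lintegral_swap]
    · refine le_trans (le_of_eq ?_) h3
      refine lintegral_congr fun p1 => lintegral_congr fun p2 => ?_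
      by_cases hm : (p1, p2) ∈ {p : ℝ × ℝ | |p.1 - α2| ≤ r ∧ |p.2 - α1| ≤ r ∧
          |(p.1 - β2) * n2 + (p.2 - β1) * n1| ≤ r'}
      · rw [indicator_of_mem hm, indicator_of_mem]
        obtain ⟨m1, m2, m3⟩ := hm
        refine ⟨m2, m1, ?_⟩
        rw [add_comm]; exact m3
      · rw [indicator_of_notMem hm, indicator_of_notMem]
        intro hm'
        obtain ⟨m1, m2, m3⟩ := hm'
        refine hm ⟨m2, m1, ?_⟩
        rw [add_comm]; exact m3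
    · exact ((measurable_const.indicator (meas_strip α1 α2 β1 β2 n1 n2 r r')).comp
        (measurable_fst.prodMk measurable_snd)).aemeasurable

theorem mand {α : Type*} [MeasurableSpace α] {p q : α → Prop} (hp : MeasurableSet {x | p x})
    (hq : MeasurableSet {x | q x}) : MeasurableSet {x | p x ∧ q x} := hp.inter hq

theorem ind_le {α β : Type*} {S : Set α} {T : Set β} {x : α} {y : β} (h : x ∈ S → y ∈ T) :
    S.indicator (fun _ => (1 : ℝ≥0∞)) x ≤ T.indicator (fun _ => (1 : ℝ≥0∞)) y := by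
  by_cases hx : x ∈ S
  · rw [indicator_of_mem hx, indicator_of_mem (h hx)]
  · rw [indicator_of_notMem hx]; exact bot_le

/-- set of the marks in the coordinates `w` -/
def Gset (s Q1 Q2 m A δ : ℝ) (K : Set (ℝ × ℝ × ℝ)) : Set (ℝ × ℝ × ℝ) :=
  {w | -(2 * A) ≤ w.1 ∧ w.1 < 0 ∧ δ ≤ max |w.2.1| |w.2.2| ∧
    (w.2.1 / w.1, w.2.2 / w.1, -w.1 * ((s + Q1 * (w.2.1 / w.1) + Q2 * (w.2.2 / w.1) +
      m * ((w.2.1 / w.1) ^ 2 + (w.2.2 / w.1) ^ 2) / 4) / m)) ∈ K}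

theorem meas_Gset (s Q1 Q2 m A δ : ℝ) {K : Set (ℝ × ℝ × ℝ)} (hK : MeasurableSet K) : MeasurableSet (Gset s Q1 Q2 m A δ K) := by
  have m1 : Measurable fun w : ℝ × ℝ × ℝ => w.1 := measurable_fst
  have m2 : Measurable fun w : ℝ × ℝ × ℝ => w.2.1 := measurable_fst.comp measurable_snd
  have m3 : Measurable fun w : ℝ × ℝ × ℝ => w.2.2 := measurable_snd.comp measurable_snd
  refine mand (measurableSet_le measurable_const m1) (mand (measurableSet_lt m1 measurable_const)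
    (mand (measurableSet_le measurable_const ?_) ?_))
  · exact m2.abs.max m3.abs
  · refine hK.preimage ((m2.div m1).prodMk ((m3.div m1).prodMk ?_))
    fun_prop

/-- the same for the variables `p = w' / w0` -/
def Gset' (s Q1 Q2 m A δ : ℝ) (K : Set (ℝ × ℝ × ℝ)) : Set (ℝ × ℝ × ℝ) :=
  {w | -(2 * A) ≤ w.1 ∧ w.1 < 0 ∧ δ ≤ 2 * A * max |w.2.1| |w.2.2| ∧
    (w.2.1, w.2.2, -w.1 * ((s + Q1 * w.2.1 + Q2 * w.2.2 + m * (w.2.1 ^ 2 + w.2.2 ^ 2) / 4) / m)) ∈ K}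

theorem meas_Gset' (s Q1 Q2 m A δ : ℝ) {K : Set (ℝ × ℝ × ℝ)} (hK : MeasurableSet K) : MeasurableSet (Gset' s Q1 Q2 m A δ K) := by
  have m1 : Measurable fun w : ℝ × ℝ × ℝ => w.1 := measurable_fst
  have m2 : Measurable fun w : ℝ × ℝ × ℝ => w.2.1 := measurable_fst.comp measurable_snd
  have m3 : Measurable fun w : ℝ × ℝ × ℝ => w.2.2 := measurable_snd.comp measurable_snd
  refine mand (measurableSet_le measurable_const m1) (mand (measurableSet_lt m1 measurable_const)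
    (mand (measurableSet_le measurable_const ?_) ?_))
  · exact (m2.abs.max m3.abs).const_mul _
  · refine hK.preimage (m2.prodMk (m3.prodMk ?_))
    fun_prop

theorem vol_w1 {s Q1 Q2 m A δ : ℝ} (hA : 1 ≤ A) {K : Set (ℝ × ℝ × ℝ)} (hK : MeasurableSet K) (w0 : ℝ) :
    ∫⁻ w1 : ℝ, ∫⁻ w2 : ℝ, (Gset s Q1 Q2 m A δ K).indicator (fun _ => (1 : ℝ≥0∞)) (w0, w1, w2) ≤
      ENNReal.ofReal (4 * A ^ 2) * ∫⁻ p1 : ℝ, ∫⁻ p2 : ℝ, (Gset' s Q1 Q2 m A δ K).indicator (fun _ => (1 : ℝ≥0∞)) (w0, p1, p2) := by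
  have i1 : Measurable ((Gset s Q1 Q2 m A δ K).indicator (fun _ => (1 : ℝ≥0∞))) :=
    measurable_const.indicator (meas_Gset s Q1 Q2 m A δ hK)
  by_cases hw : -(2 * A) ≤ w0 ∧ w0 < 0
  · have hw0 : w0 ≠ 0 := hw.2.ne
    have hwA : |w0| ≤ 2 * A := by rw [abs_of_neg hw.2]; linarith
    have e1 : ∀ w1, ∫⁻ w2 : ℝ, (Gset s Q1 Q2 m A δ K).indicator (fun _ => (1 : ℝ≥0∞)) (w0, w1, w2) =
        ENNReal.ofReal |w0| * ∫⁻ p2 : ℝ, (Gset s Q1 Q2 m A δ K).indicator (fun _ => (1 : ℝ≥0∞)) (w0, w1, w0 * p2) := by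
      intro w1
      exact lint_scale hw0 (f := fun w2 => (Gset s Q1 Q2 m A δ K).indicator (fun _ => (1 : ℝ≥0∞)) (w0, w1, w2))
        (i1.comp (measurable_prodMk_left.comp measurable_prodMk_left))
    have mm : Measurable fun w : ℝ × ℝ => (Gset s Q1 Q2 m A δ K).indicator (fun _ => (1 : ℝ≥0∞)) (w0, w.1, w0 * w.2) := by
      refine i1.comp (measurable_const.prodMk (measurable_fst.prodMk ?_))
      fun_prop
    simp_rw [e1]
    rw [lintegral_const_mul' _ _ ENNReal.ofReal_ne_top]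
    rw [lint_scale hw0 (f := fun w1 => ∫⁻ p2 : ℝ, (Gset s Q1 Q2 m A δ K).indicator (fun _ => (1 : ℝ≥0∞)) (w0, w1, w0 * p2))
      mm.lintegral_prod_right', ← mul_assoc, ← ENNReal.ofReal_mul (abs_nonneg _)]
    refine mul_le_mul' (ENNReal.ofReal_le_ofReal (by nlinarith [abs_nonneg w0])) ?_
    refine lintegral_mono fun p1 => lintegral_mono fun p2 => ?_
    refine ind_le ?_
    rintro ⟨h1, h2, h3, h4⟩
    refine ⟨h1, h2, ?_, ?_⟩
    · refine h3.trans ?_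
      show max |w0 * p1| |w0 * p2| ≤ 2 * A * max |p1| |p2|
      rw [abs_mul, abs_mul]
      refine max_le ?_ ?_
      · exact mul_le_mul hwA (le_max_left _ _) (abs_nonneg _) (by linarith)
      · exact mul_le_mul hwA (le_max_right _ _) (abs_nonneg _) (by linarith)
    · have e3 : ∀ p : ℝ, w0 * p / w0 = p := fun p => mul_div_cancel_left₀ p hw0
      simp only [e3] at h4
      exact h4
  · have h0 : ∀ w1 w2 : ℝ, (Gset s Q1 Q2 m A δ K).indicator (fun _ => (1 : ℝ≥0∞)) (w0, w1, w2) = 0 := by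
      intro w1 w2
      refine indicator_of_notMem (fun hm => hw ?_) _
      exact ⟨hm.1, hm.2.1⟩
    simp_rw [h0]; simp

theorem vol_w2 {s Q1 Q2 m A δ : ℝ}
    (hγ : ∀ p1 p2 : ℝ, (p1 ^ 2 + p2 ^ 2) / 6 ≤ s + Q1 * p1 + Q2 * p2 + m * (p1 ^ 2 + p2 ^ 2) / 4)
    (hm : 1 ≤ m) (hm2 : m ≤ 2) (hA : 1 ≤ A) (hδ : 0 < δ) {K : Set (ℝ × ℝ × ℝ)} (hK : MeasurableSet K) (p1 p2 : ℝ) :
    ∫⁻ w0 : ℝ, (Gset' s Q1 Q2 m A δ K).indicator (fun _ => (1 : ℝ≥0∞)) (w0, p1, p2) ≤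
      ENNReal.ofReal (48 * A ^ 2 / δ ^ 2) * ∫⁻ c : ℝ, K.indicator (fun _ => (1 : ℝ≥0∞)) (p1, p2, c) := by
  have hm0 : 0 < m := by linarith
  have hA0 : 0 < A := by linarith
  by_cases hp : δ ≤ 2 * A * max |p1| |p2|
  · have hp2 : (max |p1| |p2|) ^ 2 ≤ p1 ^ 2 + p2 ^ 2 := by
      rcases max_cases |p1| |p2| with ⟨h, _⟩ | ⟨h, _⟩ <;> rw [h, sq_abs] <;> nlinarith [sq_nonneg p1, sq_nonneg p2]
    have hδ2 : δ ^ 2 ≤ 4 * A ^ 2 * (p1 ^ 2 + p2 ^ 2) := by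
      calc δ ^ 2 ≤ (2 * A * max |p1| |p2|) ^ 2 := by gcongr
        _ = 4 * A ^ 2 * (max |p1| |p2|) ^ 2 := by ring
        _ ≤ _ := by gcongr
    have hg : δ ^ 2 / (24 * A ^ 2) ≤ s + Q1 * p1 + Q2 * p2 + m * (p1 ^ 2 + p2 ^ 2) / 4 := by
      refine le_trans ?_ (hγ p1 p2)
      rw [div_le_div_iff₀ (by positivity) (by norm_num)]
      nlinarith
    set g := s + Q1 * p1 + Q2 * p2 + m * (p1 ^ 2 + p2 ^ 2) / 4 with hgd
    have hg0 : 0 < g := lt_of_lt_of_le (by positivity) hg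
    have ha : -(g / m) ≠ 0 := by
      have : 0 < g / m := by positivity
      exact neg_ne_zero.2 this.ne'
    have i3 : Measurable fun c : ℝ => K.indicator (fun _ => (1 : ℝ≥0∞)) (p1, p2, c) :=
      (measurable_const.indicator hK).comp (measurable_prodMk_left.comp measurable_prodMk_left)
    rw [lint_scale ha i3, ← mul_assoc, ← ENNReal.ofReal_mul (by positivity)]
    have h1 : (1:ℝ≥0∞) ≤ ENNReal.ofReal (48 * A ^ 2 / δ ^ 2 * |-(g / m)|) := by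
      rw [← ENNReal.ofReal_one]
      refine ENNReal.ofReal_le_ofReal ?_
      rw [abs_neg, abs_of_pos (by positivity : 0 < g / m)]
      rw [div_mul_div_comm, le_div_iff₀ (by positivity), one_mul]
      rw [div_le_iff₀ (by positivity)] at hg
      nlinarith [sq_nonneg δ]
    calc ∫⁻ w0 : ℝ, (Gset' s Q1 Q2 m A δ K).indicator (fun _ => (1 : ℝ≥0∞)) (w0, p1, p2)
        ≤ ∫⁻ w0 : ℝ, K.indicator (fun _ => (1 : ℝ≥0∞)) (p1, p2, -(g / m) * w0) := by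
          refine lintegral_mono fun w0 => ind_le ?_
          rintro ⟨h1, h2, h3, h4⟩
          have e : -(g / m) * w0 = -w0 * (g / m) := by ring
          rw [e]
          exact h4
      _ = 1 * ∫⁻ w0 : ℝ, K.indicator (fun _ => (1 : ℝ≥0∞)) (p1, p2, -(g / m) * w0) := (one_mul _).symm
      _ ≤ _ := mul_le_mul' h1 le_rfl
  · have h0 : ∀ w0 : ℝ, (Gset' s Q1 Q2 m A δ K).indicator (fun _ => (1 : ℝ≥0∞)) (w0, p1, p2) = 0 := by
      intro w0
      exact indicator_of_notMem (fun hm => hp hm.2.2.1) _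
    simp_rw [h0]; simp

theorem vol_w {s Q1 Q2 m A δ L V : ℝ}
    (hγ : ∀ p1 p2 : ℝ, (p1 ^ 2 + p2 ^ 2) / 6 ≤ s + Q1 * p1 + Q2 * p2 + m * (p1 ^ 2 + p2 ^ 2) / 4)
    (hm : 1 ≤ m) (hm2 : m ≤ 2) (hA : 1 ≤ A) (hδ : 0 < δ) (hL : 0 ≤ L) (hV : 0 ≤ V) {K : Set (ℝ × ℝ × ℝ)} (hK : MeasurableSet K)
    (hKL : ∀ p ∈ K, |p.2.2| ≤ L)
    (hKV : ∀ c, ∫⁻ p1 : ℝ, ∫⁻ p2 : ℝ, K.indicator (fun _ => (1 : ℝ≥0∞)) (p1, p2, c) ≤ ENNReal.ofReal V) :
    ∫⁻ w0 : ℝ, ∫⁻ w1 : ℝ, ∫⁻ w2 : ℝ, (Gset s Q1 Q2 m A δ K).indicator (fun _ => (1 : ℝ≥0∞)) (w0, w1, w2) ≤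
      ENNReal.ofReal (384 * A ^ 4 * L * V / δ ^ 2) := by
  have i2 : Measurable ((Gset' s Q1 Q2 m A δ K).indicator (fun _ => (1 : ℝ≥0∞))) :=
    measurable_const.indicator (meas_Gset' s Q1 Q2 m A δ hK)
  have i3 : Measurable (K.indicator (fun _ => (1 : ℝ≥0∞))) := measurable_const.indicator hK
  have hA0 : 0 < A := by linarith
  have i4 : Measurable fun p : ℝ × ℝ × ℝ => K.indicator (fun _ => (1 : ℝ≥0∞)) (p.2.1, p.2.2, p.1) :=
    i3.comp ((measurable_fst.comp measurable_snd).prodMk ((measurable_snd.comp measurable_snd).prodMk measurable_fst))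
  calc ∫⁻ w0 : ℝ, ∫⁻ w1 : ℝ, ∫⁻ w2 : ℝ, (Gset s Q1 Q2 m A δ K).indicator (fun _ => (1 : ℝ≥0∞)) (w0, w1, w2)
      ≤ ∫⁻ w0 : ℝ, ENNReal.ofReal (4 * A ^ 2) * ∫⁻ p1 : ℝ, ∫⁻ p2 : ℝ,
          (Gset' s Q1 Q2 m A δ K).indicator (fun _ => (1 : ℝ≥0∞)) (w0, p1, p2) := lintegral_mono fun w0 => vol_w1 hA hK w0
    _ = ENNReal.ofReal (4 * A ^ 2) * ∫⁻ p1 : ℝ, ∫⁻ p2 : ℝ, ∫⁻ w0 : ℝ,
          (Gset' s Q1 Q2 m A δ K).indicator (fun _ => (1 : ℝ≥0∞)) (w0, p1, p2) := by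
        rw [lintegral_const_mul' _ _ ENNReal.ofReal_ne_top, swap3 i2]
    _ ≤ ENNReal.ofReal (4 * A ^ 2) * ∫⁻ p1 : ℝ, ∫⁻ p2 : ℝ, ENNReal.ofReal (48 * A ^ 2 / δ ^ 2) *
          ∫⁻ c : ℝ, K.indicator (fun _ => (1 : ℝ≥0∞)) (p1, p2, c) := by
        refine mul_le_mul' le_rfl (lintegral_mono fun p1 => lintegral_mono fun p2 => vol_w2 hγ hm hm2 hA hδ hK p1 p2)
    _ = ENNReal.ofReal (4 * A ^ 2) * (ENNReal.ofReal (48 * A ^ 2 / δ ^ 2) * ∫⁻ c : ℝ, ∫⁻ p1 : ℝ, ∫⁻ p2 : ℝ,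
          K.indicator (fun _ => (1 : ℝ≥0∞)) (p1, p2, c)) := by
        simp_rw [lintegral_const_mul' _ _ (ENNReal.ofReal_ne_top (r := 48 * A ^ 2 / δ ^ 2))]
        congr 2
        exact (swap3 i4).symm
    _ ≤ ENNReal.ofReal (4 * A ^ 2) * (ENNReal.ofReal (48 * A ^ 2 / δ ^ 2) *
          ∫⁻ c : ℝ, (Metric.closedBall (0:ℝ) L).indicator (fun _ => ENNReal.ofReal V) c) := by
        refine mul_le_mul' le_rfl (mul_le_mul' le_rfl (lintegral_mono fun c => ?_))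
        by_cases hc : c ∈ Metric.closedBall (0:ℝ) L
        · rw [indicator_of_mem hc]; exact hKV c
        · rw [indicator_of_notMem hc]
          have h0 : ∀ p1 p2 : ℝ, K.indicator (fun _ => (1 : ℝ≥0∞)) (p1, p2, c) = 0 := by
            intro p1 p2
            refine indicator_of_notMem (fun hm => hc ?_) _
            rw [mem_closedBall_zero_iff, Real.norm_eq_abs]
            exact hKL _ hm
          simp_rw [h0]; simp
    _ = ENNReal.ofReal (384 * A ^ 4 * L * V / δ ^ 2) := by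
        rw [lintegral_indicator measurableSet_closedBall, setLIntegral_const, Real.volume_closedBall,
          ← ENNReal.ofReal_mul hV, ← ENNReal.ofReal_mul (by positivity), ← ENNReal.ofReal_mul (by positivity)]
        congr 1
        field_simp
        ring

end Vale.Agent.P106.G
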