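import Vale.Agent.P106.G.GeC

/-! # Volume of the marks, in the base coordinates -/

open MeasureTheory Set
open scoped ENNReal

set_option linter.all false

namespace Vale.Agent.P106.G

/-- matrix of the map `y ↦ w` -/
noncomputable def Hyp.mat (H : Hyp) (v1 v2 : ℝ) : Matrix (Fin 3) (Fin 3) ℝ :=
  !![1 - (v1 ^ 2 + v2 ^ 2) * H.s, v1 - (v1 ^ 2 + v2 ^ 2) * H.q1, v2 - (v1 ^ 2 + v2 ^ 2) * H.q2;
     -2 * v1 * H.s, 1 - 2 * v1 * H.q1, -2 * v1 * H.q2;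
     -2 * v2 * H.s, -2 * v2 * H.q1, 1 - 2 * v2 * H.q2]

theorem Hyp.mat_det (H : Hyp) (v1 v2 : ℝ) : (H.mat v1 v2).det = H.m v1 v2 := by
  unfold Hyp.mat Hyp.m
  rw [Matrix.det_fin_three]
  simp
  ring

theorem pt0 (H : Hyp) (y : E3) : H.pt y 0 = y 0 := rfl
theorem pt1 (H : Hyp) (y : E3) : H.pt y 1 = y 1 := rfl
theorem pt2 (H : Hyp) (y : E3) : H.pt y 2 = y 2 := rfl
theorem pt3 (H : Hyp) (y : E3) : H.pt y 3 = -(H.s * y 0 + H.q1 * y 1 + H.q2 * y 2) := rfl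

theorem mat_g0 (H : Hyp) (v1 v2 : ℝ) (ys y : E3) : mat3 (H.mat v1 v2) (y - ys) 0 = g0 (H.pt ys) v1 v2 (H.pt y) := by
  rw [mat3_apply]
  unfold g0
  rw [pt0, pt1, pt2, pt3, pt0, pt1, pt2, pt3]
  simp only [Hyp.mat, PiLp.sub_apply, Matrix.of_apply, Matrix.cons_val_zero, Matrix.cons_val_one, Matrix.cons_val]
  ring

theorem mat_g1 (H : Hyp) (v1 v2 : ℝ) (ys y : E3) : mat3 (H.mat v1 v2) (y - ys) 1 = g1 (H.pt ys) v1 (H.pt y) := by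
  rw [mat3_apply]
  unfold g1
  rw [pt1, pt3, pt1, pt3]
  simp only [Hyp.mat, PiLp.sub_apply, Matrix.of_apply, Matrix.cons_val_zero, Matrix.cons_val_one, Matrix.cons_val]
  ring

theorem mat_g2 (H : Hyp) (v1 v2 : ℝ) (ys y : E3) : mat3 (H.mat v1 v2) (y - ys) 2 = g2 (H.pt ys) v2 (H.pt y) := by
  rw [mat3_apply]
  unfold g2
  rw [pt2, pt3, pt2, pt3]
  simp only [Hyp.mat, PiLp.sub_apply, Matrix.of_apply, Matrix.cons_val_zero, Matrix.cons_val_one, Matrix.cons_val]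
  ring

/-- the three relative coordinates of a base point -/
noncomputable def wb (H : Hyp) (ys : E3) (v1 v2 : ℝ) (y : E3) : ℝ × ℝ × ℝ :=
  (g0 (H.pt ys) v1 v2 (H.pt y), g1 (H.pt ys) v1 (H.pt y), g2 (H.pt ys) v2 (H.pt y))

theorem wb_eq (H : Hyp) (ys : E3) (v1 v2 : ℝ) (y : E3) :
    wb H ys v1 v2 y = (mat3 (H.mat v1 v2) (y - ys) 0, mat3 (H.mat v1 v2) (y - ys) 1, mat3 (H.mat v1 v2) (y - ys) 2) := by
  unfold wb; rw [mat_g0, mat_g1, mat_g2]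

theorem meas_wb (H : Hyp) (ys : E3) (v1 v2 : ℝ) : Measurable (wb H ys v1 v2) := by
  have h := (mat3_cont (H.mat v1 v2)).measurable
  have h2 : Measurable fun y : E3 => mat3 (H.mat v1 v2) (y - ys) := h.comp (measurable_id.sub_const ys)
  have e : wb H ys v1 v2 = fun y => (mat3 (H.mat v1 v2) (y - ys) 0, mat3 (H.mat v1 v2) (y - ys) 1,
      mat3 (H.mat v1 v2) (y - ys) 2) := by
    ext1 y; exact wb_eq H ys v1 v2 y
  rw [e]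
  fun_prop

theorem vol_y {H : Hyp} (hH : H.ok) (ys : E3) {v1 v2 : ℝ} (h1 : 0 ≤ v1) (h2 : 0 ≤ v2) {G : Set (ℝ × ℝ × ℝ)}
    (mG : MeasurableSet G) : volume {y : E3 | wb H ys v1 v2 y ∈ G} ≤
      ∫⁻ a : ℝ, ∫⁻ b : ℝ, ∫⁻ c : ℝ, G.indicator (fun _ => (1 : ℝ≥0∞)) (a, b, c) := by
  have hm := Hyp.m_ge hH h1 h2
  have hdet : (H.mat v1 v2).det ≠ 0 := by rw [Hyp.mat_det]; linarith
  set F : E3 → ℝ≥0∞ := fun x => G.indicator (fun _ => (1 : ℝ≥0∞)) (x 0, x 1, x 2) with hF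
  have mF : Measurable F := by
    refine (measurable_const.indicator mG).comp ?_
    fun_prop
  have e1 : volume {y : E3 | wb H ys v1 v2 y ∈ G} = ∫⁻ y, F (mat3 (H.mat v1 v2) (y - ys)) := by
    have e0 : {y : E3 | wb H ys v1 v2 y ∈ G} = wb H ys v1 v2 ⁻¹' G := rfl
    rw [e0, ← lintegral_indicator_one (mG.preimage (meas_wb H ys v1 v2))]
    refine lintegral_congr fun y => ?_
    rw [hF]
    simp only
    rw [← wb_eq]
    rfl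
  rw [e1, lintegral_sub_right_eq_self (fun y => F (mat3 (H.mat v1 v2) y)), lintegral_mat3 hdet, lint3 mF, Hyp.mat_det]
  have h3 : ENNReal.ofReal |(H.m v1 v2)⁻¹| ≤ 1 := by
    rw [← ENNReal.ofReal_one]
    refine ENNReal.ofReal_le_ofReal ?_
    rw [abs_of_pos (by positivity)]
    exact inv_le_one_of_one_le₀ hm
  calc _ ≤ 1 * ∫⁻ a : ℝ, ∫⁻ b : ℝ, ∫⁻ c : ℝ, F !₂[a, b, c] := mul_le_mul' h3 le_rfl
    _ = _ := by rw [one_mul]; rfl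

/-- coordinate `c` of the mark -/
theorem hcc_pt {H : Hyp} (hH : H.ok) (ys y : E3) {v1 v2 : ℝ} (h1 : 0 ≤ v1) (h2 : 0 ≤ v2)
    (h0 : g0 (H.pt ys) v1 v2 (H.pt y) ≠ 0) :
    hcc (g0 (H.pt ys) v1 v2 (H.pt y)) (g1 (H.pt ys) v1 (H.pt y)) (g2 (H.pt ys) v2 (H.pt y)) (g3 (H.pt ys) (H.pt y)) =
      -(g0 (H.pt ys) v1 v2 (H.pt y)) * ((H.s + (H.q1 - H.s * v1) * (g1 (H.pt ys) v1 (H.pt y) / g0 (H.pt ys) v1 v2 (H.pt y)) +
        (H.q2 - H.s * v2) * (g2 (H.pt ys) v2 (H.pt y) / g0 (H.pt ys) v1 v2 (H.pt y)) +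
        H.m v1 v2 * ((g1 (H.pt ys) v1 (H.pt y) / g0 (H.pt ys) v1 v2 (H.pt y)) ^ 2 +
          (g2 (H.pt ys) v2 (H.pt y) / g0 (H.pt ys) v1 v2 (H.pt y)) ^ 2) / 4) / H.m v1 v2) := by
  have hm := Hyp.m_ge hH h1 h2
  have hm0 : H.m v1 v2 ≠ 0 := by linarith
  have h := tm_rel H (H.pt ys) v1 v2 (H.pt y)
  rw [tm_ptG, tm_ptG] at h
  generalize g0 (H.pt ys) v1 v2 (H.pt y) = w0 at *
  generalize g1 (H.pt ys) v1 (H.pt y) = w1 at *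
  generalize g2 (H.pt ys) v2 (H.pt y) = w2 at *
  generalize g3 (H.pt ys) (H.pt y) = w3 at *
  generalize H.m v1 v2 = m at *
  unfold hcc
  field_simp
  linear_combination (-4 * w0) * h

theorem mark_vol {H : Hyp} (hH : H.ok) (ys : E3) {v1 v2 : ℝ} (h1 : 0 ≤ v1) (h1' : v1 ≤ 1) (h2 : 0 ≤ v2) (h2' : v2 ≤ 1)
    {A δ L : ℝ} (hA : 1 ≤ A) (hδ : 0 < δ) (hL : 0 ≤ L) (p1 p2 q1 q2 p1' p2' q1' q2' n1 n2 r r' : ℝ) (hn : n1 ^ 2 + n2 ^ 2 = 1)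
    (hr : 0 ≤ r) (hr' : 0 ≤ r') :
    volume {y : E3 | -(2 * A) ≤ g0 (H.pt ys) v1 v2 (H.pt y) ∧ g0 (H.pt ys) v1 v2 (H.pt y) < 0 ∧
      δ ≤ max |g1 (H.pt ys) v1 (H.pt y)| |g2 (H.pt ys) v2 (H.pt y)| ∧
      |hcc (g0 (H.pt ys) v1 v2 (H.pt y)) (g1 (H.pt ys) v1 (H.pt y)) (g2 (H.pt ys) v2 (H.pt y)) (g3 (H.pt ys) (H.pt y))| ≤ L ∧
      |g1 (H.pt ys) v1 (H.pt y) / g0 (H.pt ys) v1 v2 (H.pt y) -
        (p1 + hcc (g0 (H.pt ys) v1 v2 (H.pt y)) (g1 (H.pt ys) v1 (H.pt y)) (g2 (H.pt ys) v2 (H.pt y)) (g3 (H.pt ys) (H.pt y)) * q1)| ≤ r ∧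
      |g2 (H.pt ys) v2 (H.pt y) / g0 (H.pt ys) v1 v2 (H.pt y) -
        (p2 + hcc (g0 (H.pt ys) v1 v2 (H.pt y)) (g1 (H.pt ys) v1 (H.pt y)) (g2 (H.pt ys) v2 (H.pt y)) (g3 (H.pt ys) (H.pt y)) * q2)| ≤ r ∧
      |(g1 (H.pt ys) v1 (H.pt y) / g0 (H.pt ys) v1 v2 (H.pt y) -
        (p1' + hcc (g0 (H.pt ys) v1 v2 (H.pt y)) (g1 (H.pt ys) v1 (H.pt y)) (g2 (H.pt ys) v2 (H.pt y)) (g3 (H.pt ys) (H.pt y)) * q1')) * n1 +
       (g2 (H.pt ys) v2 (H.pt y) / g0 (H.pt ys) v1 v2 (H.pt y) -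
        (p2' + hcc (g0 (H.pt ys) v1 v2 (H.pt y)) (g1 (H.pt ys) v1 (H.pt y)) (g2 (H.pt ys) v2 (H.pt y)) (g3 (H.pt ys) (H.pt y)) * q2')) * n2| ≤ r'} ≤
    ENNReal.ofReal (3072 * A ^ 4 * L / δ ^ 2 * r * r') := by
  set K : Set (ℝ × ℝ × ℝ) := {p | |p.2.2| ≤ L ∧ |p.1 - (p1 + p.2.2 * q1)| ≤ r ∧ |p.2.1 - (p2 + p.2.2 * q2)| ≤ r ∧
    |(p.1 - (p1' + p.2.2 * q1')) * n1 + (p.2.1 - (p2' + p.2.2 * q2')) * n2| ≤ r'} with hK
  have mK : MeasurableSet K := by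
    have m1 : Measurable fun p : ℝ × ℝ × ℝ => |p.2.2| := by fun_prop
    have m2 : Measurable fun p : ℝ × ℝ × ℝ => |p.1 - (p1 + p.2.2 * q1)| := by fun_prop
    have m3 : Measurable fun p : ℝ × ℝ × ℝ => |p.2.1 - (p2 + p.2.2 * q2)| := by fun_prop
    have m4 : Measurable fun p : ℝ × ℝ × ℝ => |(p.1 - (p1' + p.2.2 * q1')) * n1 + (p.2.1 - (p2' + p.2.2 * q2')) * n2| := by
      fun_prop
    exact mand (measurableSet_le m1 measurable_const) (mand (measurableSet_le m2 measurable_const)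
      (mand (measurableSet_le m3 measurable_const) (measurableSet_le m4 measurable_const)))
  have hm := Hyp.m_ge hH h1 h2
  have hm2 := Hyp.m_le hH h1 h1' h2 h2'
  have h3 := vol_w (fun a b => Hyp.gam hH h1 h2 a b) hm hm2 hA hδ hL (V := 8 * r * r') (by positivity) mK (fun p hp => hp.1)
    (fun c => by
      refine le_trans (lintegral_mono fun x1 => lintegral_mono fun x2 => ?_)
        (strip_box (p1 + c * q1) (p2 + c * q2) (p1' + c * q1') (p2' + c * q2') n1 n2 r r' hn hr hr')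
      refine ind_le ?_
      rintro ⟨_, a1, a2, a3⟩
      exact ⟨a1, a2, a3⟩)
  refine (measure_mono ?_).trans ((vol_y hH ys h1 h2 (meas_Gset _ _ _ _ _ _ mK)).trans (h3.trans (le_of_eq ?_)))
  · rintro y ⟨a1, a2, a3, a4, a5, a6, a7⟩
    rw [hcc_pt hH ys y h1 h2 a2.ne] at a4 a5 a6 a7
    exact ⟨a1, a2, a3, a4, a5, a6, a7⟩
  · congr 1; ring

theorem thin_vol {H : Hyp} (hH : H.ok) (ys : E3) {v1 v2 : ℝ} (h1 : 0 ≤ v1) (h2 : 0 ≤ v2)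
    {A θ : ℝ} (hA : 1 ≤ A) (hθ : 0 ≤ θ) :
    volume {y : E3 | -(2 * A) ≤ g0 (H.pt ys) v1 v2 (H.pt y) ∧ g0 (H.pt ys) v1 v2 (H.pt y) < 0 ∧
      max |g1 (H.pt ys) v1 (H.pt y)| |g2 (H.pt ys) v2 (H.pt y)| ≤ θ} ≤ ENNReal.ofReal (8 * A * θ ^ 2) := by
  have mG : MeasurableSet (Icc (-(2 * A)) 0 ×ˢ (Icc (-θ) θ ×ˢ Icc (-θ) θ)) :=
    measurableSet_Icc.prod (measurableSet_Icc.prod measurableSet_Icc)
  refine (measure_mono ?_).trans ((vol_y hH ys h1 h2 mG).trans ?_)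
  · rintro y ⟨a1, a2, a3⟩
    have b1 := abs_le.1 ((le_max_left _ _).trans a3)
    have b2 := abs_le.1 ((le_max_right _ _).trans a3)
    exact ⟨⟨a1, a2.le⟩, b1, b2⟩
  · have e : ∀ a b c : ℝ, (Icc (-(2 * A)) 0 ×ˢ (Icc (-θ) θ ×ˢ Icc (-θ) θ)).indicator (fun _ => (1 : ℝ≥0∞)) (a, b, c) =
        ((Icc (-(2 * A)) 0).indicator (fun _ => (1 : ℝ≥0∞)) a * (Icc (-θ) θ).indicator (fun _ => (1 : ℝ≥0∞)) b) *
          (Icc (-θ) θ).indicator (fun _ => (1 : ℝ≥0∞)) c := by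
      intro a b c
      have hmem : ((a, b, c) : ℝ × ℝ × ℝ) ∈ (Icc (-(2 * A)) 0 ×ˢ (Icc (-θ) θ ×ˢ Icc (-θ) θ)) ↔
        a ∈ Icc (-(2 * A)) 0 ∧ b ∈ Icc (-θ) θ ∧ c ∈ Icc (-θ) θ := Iff.rfl
      simp only [indicator, hmem]
      by_cases ha : a ∈ Icc (-(2 * A)) 0 <;> by_cases hb : b ∈ Icc (-θ) θ <;> by_cases hc : c ∈ Icc (-θ) θ <;>
        simp only [ha, hb, hc, and_self, and_true, and_false, true_and, false_and, if_true, if_false, one_mul, mul_one,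
          mul_zero, zero_mul]
    have i1 : ∀ x y : ℝ, ∫⁻ a, (Icc x y).indicator (fun _ => (1 : ℝ≥0∞)) a = ENNReal.ofReal (y - x) := by
      intro x y
      rw [lintegral_indicator measurableSet_Icc, setLIntegral_const, one_mul, Real.volume_Icc]
    have mi : ∀ x y : ℝ, Measurable ((Icc x y).indicator (fun _ => (1 : ℝ≥0∞))) := fun x y =>
      measurable_const.indicator measurableSet_Icc
    have e3 : ∀ a b : ℝ, ∫⁻ c : ℝ, (Icc (-(2 * A)) 0 ×ˢ (Icc (-θ) θ ×ˢ Icc (-θ) θ)).indicator (fun _ => (1 : ℝ≥0∞)) (a, b, c) =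
        ((Icc (-(2 * A)) 0).indicator (fun _ => (1 : ℝ≥0∞)) a * ENNReal.ofReal (θ - -θ)) *
          (Icc (-θ) θ).indicator (fun _ => (1 : ℝ≥0∞)) b := by
      intro a b
      rw [lintegral_congr (e a b), lintegral_const_mul _ (mi _ _), i1]
      ring
    have e4 : ∀ a : ℝ, ∫⁻ b : ℝ, ∫⁻ c : ℝ, (Icc (-(2 * A)) 0 ×ˢ (Icc (-θ) θ ×ˢ Icc (-θ) θ)).indicator
        (fun _ => (1 : ℝ≥0∞)) (a, b, c) =
        (ENNReal.ofReal (θ - -θ) * ENNReal.ofReal (θ - -θ)) * (Icc (-(2 * A)) 0).indicator (fun _ => (1 : ℝ≥0∞)) a := by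
      intro a
      rw [lintegral_congr (e3 a), lintegral_const_mul _ (mi _ _), i1]
      ring
    rw [lintegral_congr e4, lintegral_const_mul _ (mi _ _), i1, ← ENNReal.ofReal_mul (by linarith),
      ← ENNReal.ofReal_mul (by nlinarith)]
    refine ENNReal.ofReal_le_ofReal (by nlinarith)

end Vale.Agent.P106.G
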