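import Vale.Agent.P106.G.GeC2
import Vale.Agent.P106.G.GeA5

/-! # Frame of a tube: coordinates of the lines -/

open MeasureTheory Set
open scoped ENNReal

set_option linter.all false

namespace Vale.Agent.P106.G

/-- the lines: direction and base point -/
abbrev Om := (ℤ × ℤ) × E3

/-- frame -/
structure Fr where
  H : Hyp
  N : ℕ
  ys : E3
  v1 : ℝ
  v2 : ℝ

/-- parameters -/
structure Par (c C1 T0 η A d : ℝ) : Prop where
  hc : 0 < c
  hη : 0 < η
  hη1 : η ≤ 1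
  hT : 1 ≤ T0
  hA : 5000 ≤ A
  hAC : C1 ≤ A
  hAT : 100 * T0 ≤ A
  hAc : 100 ≤ A * c
  hAη : 100 ≤ A * (η * c ^ 2)
  hd : 0 < d
  hdA : d * A ^ 6 ≤ 1

namespace Fr

variable (F : Fr)

noncomputable def W0 (x : Om) : ℝ := g0 (F.H.pt F.ys) F.v1 F.v2 (F.H.pt x.2)
noncomputable def W1 (x : Om) : ℝ := g1 (F.H.pt F.ys) F.v1 (F.H.pt x.2)
noncomputable def W2 (x : Om) : ℝ := g2 (F.H.pt F.ys) F.v2 (F.H.pt x.2)
noncomputable def W3 (x : Om) : ℝ := g3 (F.H.pt F.ys) (F.H.pt x.2)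
noncomputable def b1 (k : ℤ × ℤ) : ℝ := (k.1:ℝ) / F.N - F.v1
noncomputable def b2 (k : ℤ × ℤ) : ℝ := (k.2:ℝ) / F.N - F.v2
noncomputable def M (k : ℤ × ℤ) : ℝ := F.H.m ((k.1:ℝ) / F.N) ((k.2:ℝ) / F.N)
noncomputable def w0 (x : Om) (t : ℝ) : ℝ := F.W0 x + t / F.M x.1 * (F.b1 x.1 ^ 2 + F.b2 x.1 ^ 2)
noncomputable def w1 (x : Om) (t : ℝ) : ℝ := F.W1 x - 2 * (t / F.M x.1) * F.b1 x.1
noncomputable def w2 (x : Om) (t : ℝ) : ℝ := F.W2 x - 2 * (t / F.M x.1) * F.b2 x.1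
noncomputable def w3 (x : Om) (t : ℝ) : ℝ := F.W3 x + t / F.M x.1
noncomputable def cc (x : Om) (t : ℝ) : ℝ := hcc (F.w0 x t) (F.w1 x t) (F.w2 x t) (F.w3 x t)
noncomputable def cm (x : Om) : ℝ := hcc (F.W0 x) (F.W1 x) (F.W2 x) (F.W3 x)
noncomputable def DD (x : Om) : ℝ := D3 (F.W0 x) (F.W1 x) (F.W2 x) (F.b1 x.1) (F.b2 x.1)
noncomputable def o1 (x : Om) : ℝ := D1 (F.W0 x) (F.W1 x) (F.b1 x.1) (F.b1 x.1 ^ 2 + F.b2 x.1 ^ 2) / F.DD x
noncomputable def o2 (x : Om) : ℝ := D1 (F.W0 x) (F.W2 x) (F.b2 x.1) (F.b1 x.1 ^ 2 + F.b2 x.1 ^ 2) / F.DD x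
noncomputable def a1 (x : Om) : ℝ := F.W1 x / F.W0 x - F.cm x * F.o1 x
noncomputable def a2 (x : Om) : ℝ := F.W2 x / F.W0 x - F.cm x * F.o2 x

/-- lines near the cell `j = (i, k)` -/
def Z (A d T0 : ℝ) (j : ℤ × (ℤ × ℤ)) : Set (Om × ℝ) :=
  {p | (1 ≤ p.2 ∧ p.2 ≤ T0) ∧ F.w0 p.1 p.2 ≤ -(1 / A) ∧ |F.w0 p.1 p.2| ≤ A ∧ |F.w1 p.1 p.2| ≤ A ∧ |F.w2 p.1 p.2| ≤ A ∧
    |F.w3 p.1 p.2| ≤ A ∧
    |F.w1 p.1 p.2 / F.w0 p.1 p.2 - (-2 * F.b1 j.2 / (F.b1 j.2 ^ 2 + F.b2 j.2 ^ 2))| ≤ A ^ 2 * d ∧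
    |F.w2 p.1 p.2 / F.w0 p.1 p.2 - (-2 * F.b2 j.2 / (F.b1 j.2 ^ 2 + F.b2 j.2 ^ 2))| ≤ A ^ 2 * d ∧
    |F.cc p.1 p.2 - j.1 * d / F.H.m F.v1 F.v2| ≤ A ^ 2 * d}

/-- the lines which occur -/
def Sb (A : ℝ) : Set Om := {x | x.1 ∈ grd F.N ∧ -(2 * A) ≤ F.W0 x ∧ F.W0 x ≤ -(1 / A) ∧ |F.W1 x| ≤ 2 * A ∧ |F.W2 x| ≤ 2 * A ∧
  |F.W3 x| ≤ 2 * A ∧ (A ^ 3)⁻¹ ≤ F.DD x}

/-- a shell -/
def S (A δ : ℝ) : Set Om := {x | x ∈ F.Sb A ∧ δ ≤ max |F.W1 x| |F.W2 x| ∧ max |F.W1 x| |F.W2 x| ≤ 2 * δ}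

/-! ### measurability -/

theorem meas_int (f : ℤ × ℤ → ℝ) : Measurable f := measurable_of_countable f

theorem mW0 : Measurable F.W0 := by
  have h := (meas_wb F.H F.ys F.v1 F.v2).fst
  exact h.comp measurable_snd
theorem mW1 : Measurable F.W1 := by
  have h := (meas_wb F.H F.ys F.v1 F.v2).snd.fst
  exact h.comp measurable_snd
theorem mW2 : Measurable F.W2 := by
  have h := (meas_wb F.H F.ys F.v1 F.v2).snd.snd
  exact h.comp measurable_snd
theorem mW3 : Measurable F.W3 := by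
  have h : Measurable fun y : E3 => g3 (F.H.pt F.ys) (F.H.pt y) := by
    unfold g3
    simp only [pt3]
    fun_prop
  exact h.comp measurable_snd
theorem mb1 : Measurable fun x : Om => F.b1 x.1 := (meas_int F.b1).comp measurable_fst
theorem mb2 : Measurable fun x : Om => F.b2 x.1 := (meas_int F.b2).comp measurable_fst
theorem mM : Measurable fun x : Om => F.M x.1 := (meas_int F.M).comp measurable_fst
theorem mr : Measurable fun p : Om × ℝ => p.2 / F.M p.1.1 := measurable_snd.div (F.mM.comp measurable_fst)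
theorem mw0 : Measurable fun p : Om × ℝ => F.w0 p.1 p.2 := by
  unfold w0
  exact (F.mW0.comp measurable_fst).add (F.mr.mul (((F.mb1.comp measurable_fst).pow_const 2).add
    ((F.mb2.comp measurable_fst).pow_const 2)))
theorem mw1 : Measurable fun p : Om × ℝ => F.w1 p.1 p.2 := by
  unfold w1
  exact (F.mW1.comp measurable_fst).sub ((F.mr.const_mul 2).mul (F.mb1.comp measurable_fst))
theorem mw2 : Measurable fun p : Om × ℝ => F.w2 p.1 p.2 := by
  unfold w2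
  exact (F.mW2.comp measurable_fst).sub ((F.mr.const_mul 2).mul (F.mb2.comp measurable_fst))
theorem mw3 : Measurable fun p : Om × ℝ => F.w3 p.1 p.2 := by
  unfold w3
  exact (F.mW3.comp measurable_fst).add F.mr
theorem m_hcc {α : Type*} [MeasurableSpace α] {f0 f1 f2 f3 : α → ℝ} (h0 : Measurable f0) (h1 : Measurable f1)
    (h2 : Measurable f2) (h3 : Measurable f3) : Measurable fun x => hcc (f0 x) (f1 x) (f2 x) (f3 x) := by
  unfold hcc
  exact h3.sub (((h1.pow_const 2).add (h2.pow_const 2)).div (h0.const_mul 4))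
theorem mcc : Measurable fun p : Om × ℝ => F.cc p.1 p.2 := m_hcc F.mw0 F.mw1 F.mw2 F.mw3
theorem mcm : Measurable F.cm := m_hcc F.mW0 F.mW1 F.mW2 F.mW3
theorem mDD : Measurable F.DD := by
  have e0 := F.mW0
  have e1 := F.mW1
  have e2 := F.mW2
  have e3 := F.mb1
  have e4 := F.mb2
  unfold DD D3
  exact (((e0.pow_const 2).const_mul 4).add ((e0.const_mul 4).mul ((e1.mul e3).add (e2.mul e4)))).add
    (((e1.pow_const 2).add (e2.pow_const 2)).mul ((e3.pow_const 2).add (e4.pow_const 2)))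
theorem mo1 : Measurable F.o1 := by
  have e0 := F.mW0
  have e1 := F.mW1
  have e3 := F.mb1
  have e4 := F.mb2
  unfold o1 D1
  exact ((((e0.const_mul 2).mul e3).add (e1.mul ((e3.pow_const 2).add (e4.pow_const 2)))).const_mul (-4)).div F.mDD
theorem mo2 : Measurable F.o2 := by
  have e0 := F.mW0
  have e2 := F.mW2
  have e3 := F.mb1
  have e4 := F.mb2
  unfold o2 D1
  exact ((((e0.const_mul 2).mul e4).add (e2.mul ((e3.pow_const 2).add (e4.pow_const 2)))).const_mul (-4)).div F.mDD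
theorem ma1 : Measurable F.a1 := (F.mW1.div F.mW0).sub (F.mcm.mul F.mo1)
theorem ma2 : Measurable F.a2 := (F.mW2.div F.mW0).sub (F.mcm.mul F.mo2)

theorem mZ (A d T0 : ℝ) (j : ℤ × (ℤ × ℤ)) : MeasurableSet (F.Z A d T0 j) := by
  refine mand ?_ (mand ?_ (mand ?_ (mand ?_ (mand ?_ (mand ?_ (mand ?_ (mand ?_ ?_)))))))
  · exact mand (measurableSet_le measurable_const measurable_snd) (measurableSet_le measurable_snd measurable_const)
  · exact measurableSet_le F.mw0 measurable_const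
  · exact measurableSet_le F.mw0.abs measurable_const
  · exact measurableSet_le F.mw1.abs measurable_const
  · exact measurableSet_le F.mw2.abs measurable_const
  · exact measurableSet_le F.mw3.abs measurable_const
  · exact measurableSet_le ((F.mw1.div F.mw0).sub_const _).abs measurable_const
  · exact measurableSet_le ((F.mw2.div F.mw0).sub_const _).abs measurable_const
  · exact measurableSet_le (F.mcc.sub_const _).abs measurable_const

theorem mSb (A : ℝ) : MeasurableSet (F.Sb A) := by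
  refine mand ?_ (mand ?_ (mand ?_ (mand ?_ (mand ?_ (mand ?_ ?_)))))
  · have : MeasurableSet {k : ℤ × ℤ | k ∈ grd F.N} := (grd F.N).measurableSet
    exact this.preimage measurable_fst
  · exact measurableSet_le measurable_const F.mW0
  · exact measurableSet_le F.mW0 measurable_const
  · exact measurableSet_le F.mW1.abs measurable_const
  · exact measurableSet_le F.mW2.abs measurable_const
  · exact measurableSet_le F.mW3.abs measurable_const
  · exact measurableSet_le measurable_const F.mDD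

theorem mS (A δ : ℝ) : MeasurableSet (F.S A δ) := by
  refine mand (F.mSb A) (mand ?_ ?_)
  · exact measurableSet_le measurable_const (F.mW1.abs.max F.mW2.abs)
  · exact measurableSet_le (F.mW1.abs.max F.mW2.abs) measurable_const

end Fr

end Vale.Agent.P106.G
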