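import Vale.Agent.P106.G.GeD

/-! # Geometry of the lines near the cells -/

open MeasureTheory Set
open scoped ENNReal

set_option linter.all false

namespace Vale.Agent.P106.G

theorem grd_range {N : ℕ} {k : ℤ × ℤ} (hk : k ∈ grd N) :
    (0 ≤ (k.1:ℝ) / N ∧ (k.1:ℝ) / N ≤ 1) ∧ (0 ≤ (k.2:ℝ) / N ∧ (k.2:ℝ) / N ≤ 1) := by
  unfold grd at hk
  rw [Finset.mem_product, Finset.mem_Ico, Finset.mem_Ico] at hk
  obtain ⟨⟨h1, h2⟩, ⟨h3, h4⟩⟩ := hk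
  have hN : (0:ℝ) < N := by
    have : (0:ℤ) < N := lt_of_le_of_lt h1 h2
    exact_mod_cast this
  have h1' : (0:ℝ) ≤ k.1 := by exact_mod_cast h1
  have h2' : (k.1:ℝ) ≤ N := by exact_mod_cast h2.le
  have h3' : (0:ℝ) ≤ k.2 := by exact_mod_cast h3
  have h4' : (k.2:ℝ) ≤ N := by exact_mod_cast h4.le
  refine ⟨⟨by positivity, ?_⟩, ⟨by positivity, ?_⟩⟩
  · rw [div_le_one hN]; exact h2'
  · rw [div_le_one hN]; exact h4'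

namespace Fr

/-- basic conditions -/
structure Good (F : Fr) : Prop where
  ok : F.H.ok
  v1a : 0 ≤ F.v1
  v1b : F.v1 ≤ 1
  v2a : 0 ≤ F.v2
  v2b : F.v2 ≤ 1

variable {F : Fr} {c C1 T0 η A d : ℝ}

theorem Good.b1 (G : Good F) {k : ℤ × ℤ} (hk : k ∈ grd F.N) : |F.b1 k| ≤ 1 := by
  obtain ⟨⟨h1, h2⟩, _⟩ := grd_range hk
  unfold Fr.b1
  rw [abs_le]; constructor <;> linarith [G.v1a, G.v1b]

theorem Good.b2 (G : Good F) {k : ℤ × ℤ} (hk : k ∈ grd F.N) : |F.b2 k| ≤ 1 := by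
  obtain ⟨_, ⟨h1, h2⟩⟩ := grd_range hk
  unfold Fr.b2
  rw [abs_le]; constructor <;> linarith [G.v2a, G.v2b]

theorem sq_le1 {x : ℝ} (h : |x| ≤ 1) : x ^ 2 ≤ 1 := by
  rw [← sq_abs]; nlinarith [abs_nonneg x]

theorem Good.bb (G : Good F) {k : ℤ × ℤ} (hk : k ∈ grd F.N) : F.b1 k ^ 2 + F.b2 k ^ 2 ≤ 2 := by
  linarith [sq_le1 (G.b1 hk), sq_le1 (G.b2 hk)]

theorem Good.M1 (G : Good F) {k : ℤ × ℤ} (hk : k ∈ grd F.N) : 1 ≤ F.M k := by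
  obtain ⟨⟨h1, h2⟩, ⟨h3, h4⟩⟩ := grd_range hk
  exact Hyp.m_ge G.ok h1 h3

theorem Good.M2 (G : Good F) {k : ℤ × ℤ} (hk : k ∈ grd F.N) : F.M k ≤ 2 := by
  obtain ⟨⟨h1, h2⟩, ⟨h3, h4⟩⟩ := grd_range hk
  exact Hyp.m_le G.ok h1 h2 h3 h4

theorem p_line1 {x : Om} {t : ℝ} (h0 : F.W0 x ≠ 0) (h0' : F.w0 x t ≠ 0) (hD : F.DD x ≠ 0) :
    F.w1 x t / F.w0 x t = F.a1 x + F.cc x t * F.o1 x := by
  have h1 := mv_p (w1 := F.W1 x) (u1 := F.b1 x.1) h0 h0'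
  have h2 := mv_c (w1 := F.W1 x) (w2 := F.W2 x) (w3 := F.W3 x) (r := t / F.M x.1) (u1 := F.b1 x.1) (u2 := F.b2 x.1) h0 h0'
  have h2' : F.cc x t = F.cm x + t / F.M x.1 / (4 * F.W0 x * F.w0 x t) * F.DD x := h2
  have h1' : F.w1 x t / F.w0 x t = F.W1 x / F.W0 x + t / F.M x.1 / (4 * F.W0 x * F.w0 x t) *
    D1 (F.W0 x) (F.W1 x) (F.b1 x.1) (F.b1 x.1 ^ 2 + F.b2 x.1 ^ 2) := h1
  rw [h1', h2', a1, o1]
  have e : ∀ κ D : ℝ, κ * F.DD x * (D / F.DD x) = κ * D := by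
    intro κ D; field_simp
  rw [add_mul, e]
  ring

theorem p_line2 {x : Om} {t : ℝ} (h0 : F.W0 x ≠ 0) (h0' : F.w0 x t ≠ 0) (hD : F.DD x ≠ 0) :
    F.w2 x t / F.w0 x t = F.a2 x + F.cc x t * F.o2 x := by
  have h1 := mv_p (w1 := F.W2 x) (u1 := F.b2 x.1) h0 h0'
  have h2 := mv_c (w1 := F.W1 x) (w2 := F.W2 x) (w3 := F.W3 x) (r := t / F.M x.1) (u1 := F.b1 x.1) (u2 := F.b2 x.1) h0 h0'
  have h2' : F.cc x t = F.cm x + t / F.M x.1 / (4 * F.W0 x * F.w0 x t) * F.DD x := h2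
  have h1' : F.w2 x t / F.w0 x t = F.W2 x / F.W0 x + t / F.M x.1 / (4 * F.W0 x * F.w0 x t) *
    D1 (F.W0 x) (F.W2 x) (F.b2 x.1) (F.b1 x.1 ^ 2 + F.b2 x.1 ^ 2) := h1
  rw [h1', h2', a2, o2]
  have e : ∀ κ D : ℝ, κ * F.DD x * (D / F.DD x) = κ * D := by
    intro κ D; field_simp
  rw [add_mul, e]
  ring

theorem cc_time {x : Om} {t t' : ℝ} (h0 : F.w0 x t ≠ 0) (h0' : F.w0 x t' ≠ 0) :
    F.cc x t' = F.cc x t + (t' - t) / F.M x.1 / (4 * F.w0 x t * F.w0 x t') * F.DD x := by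
  have e0 : F.w0 x t' = F.w0 x t + (t' - t) / F.M x.1 * (F.b1 x.1 ^ 2 + F.b2 x.1 ^ 2) := by unfold w0; ring
  have e1 : F.w1 x t' = F.w1 x t - 2 * ((t' - t) / F.M x.1) * F.b1 x.1 := by unfold w1; ring
  have e2 : F.w2 x t' = F.w2 x t - 2 * ((t' - t) / F.M x.1) * F.b2 x.1 := by unfold w2; ring
  have e3 : F.w3 x t' = F.w3 x t + (t' - t) / F.M x.1 := by unfold w3; ring
  have eD : D3 (F.w0 x t) (F.w1 x t) (F.w2 x t) (F.b1 x.1) (F.b2 x.1) = F.DD x := by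
    unfold w0 w1 w2 DD
    exact D3_inv _ _ _ _ _ _
  rw [cc, e1, e2, e3, cc]
  rw [e0] at h0' ⊢
  rw [mv_c h0 h0', eD]

theorem cc_inv {x : Om} {t t' A : ℝ} (hA : 0 < A) (h0 : F.w0 x t ≠ 0) (h0' : F.w0 x t' ≠ 0) (b0 : |F.w0 x t| ≤ A)
    (b0' : |F.w0 x t'| ≤ A) (hM1 : 1 ≤ F.M x.1) (hM2 : F.M x.1 ≤ 2) (hD : (A ^ 3)⁻¹ ≤ F.DD x) :
    |t - t'| ≤ 8 * A ^ 5 * |F.cc x t - F.cc x t'| := by
  have hD0 : 0 < F.DD x := lt_of_lt_of_le (by positivity) hD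
  have hM0 : 0 < F.M x.1 := by linarith
  have h := cc_time h0 h0'
  have e : |t - t'| = F.M x.1 * (4 * |F.w0 x t| * |F.w0 x t'|) / F.DD x * |F.cc x t - F.cc x t'| := by
    have e1 : F.cc x t - F.cc x t' = (t - t') / F.M x.1 / (4 * F.w0 x t * F.w0 x t') * F.DD x := by rw [h]; ring
    have a0 : |F.w0 x t| ≠ 0 := abs_ne_zero.2 h0
    have a0' : |F.w0 x t'| ≠ 0 := abs_ne_zero.2 h0'
    rw [e1, abs_mul, abs_div, abs_div, abs_mul, abs_mul, abs_of_pos hM0, abs_of_pos hD0,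
      abs_of_pos (by norm_num : (0:ℝ) < 4)]
    field_simp
  rw [e]
  gcongr
  have h3 : 1 / F.DD x ≤ A ^ 3 := by
    rw [one_div]
    exact inv_le_of_inv_le₀ (by positivity) hD
  calc F.M x.1 * (4 * |F.w0 x t| * |F.w0 x t'|) / F.DD x = F.M x.1 * (4 * |F.w0 x t| * |F.w0 x t'|) * (1 / F.DD x) := by ring
    _ ≤ 2 * (4 * A * A) * A ^ 3 := by gcongr
    _ = 8 * A ^ 5 := by ring

theorem inv_A {w A : ℝ} (hA : 0 < A) (h : w ≤ -(1 / A)) : w < 0 ∧ 1 / |w| ≤ A := by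
  have h1 : 0 < 1 / A := by positivity
  have hw : w < 0 := by linarith
  refine ⟨hw, ?_⟩
  rw [abs_of_neg hw, div_le_iff₀ (by linarith)]
  have : A * (1 / A) ≤ A * -w := by gcongr; linarith
  rwa [mul_one_div_cancel hA.ne'] at this

theorem hcc_bd {w0 w1 w2 w3 A : ℝ} (hA : 10 ≤ A) (h0 : w0 ≤ -(1 / A)) (h1 : |w1| ≤ 2 * A) (h2 : |w2| ≤ 2 * A)
    (h3 : |w3| ≤ 2 * A) : |hcc w0 w1 w2 w3| ≤ A ^ 4 := by
  have hA0 : 0 < A := by linarith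
  obtain ⟨hw, hi⟩ := inv_A hA0 h0
  unfold hcc
  have q1 : w1 ^ 2 ≤ 4 * A ^ 2 := by rw [← sq_abs]; nlinarith [abs_nonneg w1]
  have q2 : w2 ^ 2 ≤ 4 * A ^ 2 := by rw [← sq_abs]; nlinarith [abs_nonneg w2]
  have e : |(w1 ^ 2 + w2 ^ 2) / (4 * w0)| = (w1 ^ 2 + w2 ^ 2) / 4 * (1 / |w0|) := by
    rw [abs_div, abs_mul, abs_of_nonneg (by positivity : (0:ℝ) ≤ w1 ^ 2 + w2 ^ 2), abs_of_pos (by norm_num : (0:ℝ) < 4)]
    have : |w0| ≠ 0 := abs_ne_zero.2 hw.ne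
    field_simp
  refine (abs_sub _ _).trans ?_
  rw [e]
  have h4 : (w1 ^ 2 + w2 ^ 2) / 4 * (1 / |w0|) ≤ (4 * A ^ 2 + 4 * A ^ 2) / 4 * A := by gcongr
  have h5 : A * 10 ≤ A * A := by gcongr
  have h6 : A * A * 10 ≤ A * A * A := by gcongr
  have h7 : A * A * A * 10 ≤ A * A * A * A := by gcongr
  nlinarith

theorem o_bd {W0 W1 b q D A : ℝ} (hA : 10 ≤ A) (h0 : |W0| ≤ 2 * A) (h1 : |W1| ≤ 2 * A) (hb : |b| ≤ 1) (hq : |q| ≤ 2)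
    (hD : (A ^ 3)⁻¹ ≤ D) : |D1 W0 W1 b q / D| ≤ A ^ 6 := by
  have hA0 : 0 < A := by linarith
  have hD0 : 0 < D := lt_of_lt_of_le (by positivity) hD
  have h3 : 1 / D ≤ A ^ 3 := by
    rw [one_div]
    exact inv_le_of_inv_le₀ (by positivity) hD
  rw [abs_div, abs_of_pos hD0, div_eq_mul_one_div]
  have h4 : |D1 W0 W1 b q| ≤ 4 * (2 * (2 * A) * 1 + 2 * A * 2) := by
    unfold D1
    rw [abs_mul, abs_neg, abs_of_pos (by norm_num : (0:ℝ) < 4)]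
    gcongr
    refine (abs_add_le _ _).trans ?_
    rw [abs_mul, abs_mul, abs_mul, abs_two]
    gcongr
  calc |D1 W0 W1 b q| * (1 / D) ≤ 4 * (2 * (2 * A) * 1 + 2 * A * 2) * A ^ 3 := by gcongr
    _ = 32 * A * A ^ 3 := by ring
    _ ≤ (A * A) * A * A ^ 3 := by
        have : 32 ≤ A * A := by nlinarith
        gcongr
    _ = A ^ 6 := by ring

end Fr

end Vale.Agent.P106.G
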