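import Vale.Agent.P106.G.GeD2

/-! # Counting the cells and the relevant lines -/

open MeasureTheory Set
open scoped ENNReal

set_option linter.all false

namespace Vale.Agent.P106.G

theorem card_box {s : Finset (ℤ × (ℤ × ℤ))} {m : ℕ}
    (h : ∀ j ∈ s, ∀ j' ∈ s, |j.1 - j'.1| ≤ m ∧ |j.2.1 - j'.2.1| ≤ m ∧ |j.2.2 - j'.2.2| ≤ m) : s.card ≤ (2 * m + 1) ^ 3 := by
  rcases s.eq_empty_or_nonempty with h0 | ⟨j0, hj0⟩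
  · rw [h0]; simp
  · have hsub : s ⊆ Finset.Icc (j0.1 - m) (j0.1 + m) ×ˢ (Finset.Icc (j0.2.1 - m) (j0.2.1 + m) ×ˢ
        Finset.Icc (j0.2.2 - m) (j0.2.2 + m)) := by
      intro j hj
      obtain ⟨h1, h2, h3⟩ := h j hj j0 hj0
      rw [abs_le] at h1 h2 h3
      rw [Finset.mem_product, Finset.mem_product, Finset.mem_Icc, Finset.mem_Icc, Finset.mem_Icc]
      refine ⟨⟨?_, ?_⟩, ⟨?_, ?_⟩, ⟨?_, ?_⟩⟩ <;> linarith [h1.1, h1.2, h2.1, h2.2, h3.1, h3.2]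
    refine (Finset.card_le_card hsub).trans ?_
    rw [Finset.card_product, Finset.card_product]
    have e : ∀ a : ℤ, (Finset.Icc (a - m) (a + m)).card = 2 * m + 1 := by
      intro a
      rw [Int.card_Icc]
      have : a + m + 1 - (a - m) = ((2 * m + 1 : ℕ) : ℤ) := by push_cast; ring
      rw [this, Int.toNat_natCast]
    rw [e, e, e]
    ring_nf
    exact le_rfl

theorem inv_dist {b1 b2 b1' b2' : ℝ} (h : b1 ^ 2 + b2 ^ 2 ≠ 0) (h' : b1' ^ 2 + b2' ^ 2 ≠ 0) :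
    (b1 - b1') ^ 2 + (b2 - b2') ^ 2 = (b1 ^ 2 + b2 ^ 2) * (b1' ^ 2 + b2' ^ 2) / 4 *
      ((-2 * b1 / (b1 ^ 2 + b2 ^ 2) - (-2 * b1' / (b1' ^ 2 + b2' ^ 2))) ^ 2 +
       (-2 * b2 / (b1 ^ 2 + b2 ^ 2) - (-2 * b2' / (b1' ^ 2 + b2' ^ 2))) ^ 2) := by
  field_simp
  ring

theorem inv_close {b1 b2 b1' b2' P1 P2 ε : ℝ} (h : 0 < b1 ^ 2 + b2 ^ 2) (h' : 0 < b1' ^ 2 + b2' ^ 2)
    (hb : b1 ^ 2 + b2 ^ 2 ≤ 2) (hb' : b1' ^ 2 + b2' ^ 2 ≤ 2) (hε : 0 ≤ ε)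
    (e1 : |P1 - (-2 * b1 / (b1 ^ 2 + b2 ^ 2))| ≤ ε) (e2 : |P2 - (-2 * b2 / (b1 ^ 2 + b2 ^ 2))| ≤ ε)
    (e1' : |P1 - (-2 * b1' / (b1' ^ 2 + b2' ^ 2))| ≤ ε) (e2' : |P2 - (-2 * b2' / (b1' ^ 2 + b2' ^ 2))| ≤ ε) :
    |b1 - b1'| ≤ 3 * ε ∧ |b2 - b2'| ≤ 3 * ε := by
  have k := inv_dist h.ne' h'.ne'
  generalize -2 * b1 / (b1 ^ 2 + b2 ^ 2) = p1 at *
  generalize -2 * b2 / (b1 ^ 2 + b2 ^ 2) = p2 at *
  generalize -2 * b1' / (b1' ^ 2 + b2' ^ 2) = p1' at *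
  generalize -2 * b2' / (b1' ^ 2 + b2' ^ 2) = p2' at *
  rw [abs_le] at e1 e2 e1' e2'
  have s1 : (p1 - p1') ^ 2 ≤ 4 * ε ^ 2 := by nlinarith [e1.1, e1.2, e1'.1, e1'.2]
  have s2 : (p2 - p2') ^ 2 ≤ 4 * ε ^ 2 := by nlinarith [e2.1, e2.2, e2'.1, e2'.2]
  have s3 : (b1 ^ 2 + b2 ^ 2) * (b1' ^ 2 + b2' ^ 2) / 4 ≤ 1 := by nlinarith
  have s4 : (b1 - b1') ^ 2 + (b2 - b2') ^ 2 ≤ 1 * (4 * ε ^ 2 + 4 * ε ^ 2) := by
    rw [k]; gcongr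
  constructor
  · refine abs_le_of_sq_le_sq (by nlinarith [sq_nonneg (b2 - b2')]) (by positivity) 
  · refine abs_le_of_sq_le_sq (by nlinarith [sq_nonneg (b1 - b1')]) (by positivity)

/-- the quadratic form `D3 / w0²` -/
noncomputable def Qf (P1 P2 u1 u2 : ℝ) : ℝ := 4 + 4 * (P1 * u1 + P2 * u2) + (P1 ^ 2 + P2 ^ 2) * (u1 ^ 2 + u2 ^ 2)

theorem D3_Qf {w0 w1 w2 u1 u2 : ℝ} (h : w0 ≠ 0) : D3 w0 w1 w2 u1 u2 = w0 ^ 2 * Qf (w1 / w0) (w2 / w0) u1 u2 := by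
  unfold D3 Qf; field_simp

theorem Qf_beta {b1 b2 u1 u2 : ℝ} (h : b1 ^ 2 + b2 ^ 2 ≠ 0) :
    Qf (-2 * b1 / (b1 ^ 2 + b2 ^ 2)) (-2 * b2 / (b1 ^ 2 + b2 ^ 2)) u1 u2 =
      4 * ((u1 - b1) ^ 2 + (u2 - b2) ^ 2) / (b1 ^ 2 + b2 ^ 2) := by
  unfold Qf; field_simp; ring

theorem Qf_lip {P1 P2 p1 p2 u1 u2 ε R : ℝ} (hε : 0 ≤ ε) (hR : 0 ≤ R) (h1 : |P1 - p1| ≤ ε) (h2 : |P2 - p2| ≤ ε)
    (hp1 : |p1| ≤ R) (hp2 : |p2| ≤ R) (hu1 : |u1| ≤ 1) (hu2 : |u2| ≤ 1) :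
    |Qf P1 P2 u1 u2 - Qf p1 p2 u1 u2| ≤ 8 * ε + 4 * (ε * (2 * R + ε)) := by
  have e : Qf P1 P2 u1 u2 - Qf p1 p2 u1 u2 = 4 * ((P1 - p1) * u1 + (P2 - p2) * u2) +
      ((P1 - p1) * ((P1 - p1) + 2 * p1) + (P2 - p2) * ((P2 - p2) + 2 * p2)) * (u1 ^ 2 + u2 ^ 2) := by unfold Qf; ring
  rw [e]
  have q1 : |(P1 - p1) * u1 + (P2 - p2) * u2| ≤ ε * 1 + ε * 1 := by
    refine (abs_add_le _ _).trans ?_
    rw [abs_mul, abs_mul]; gcongr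
  have q2 : ∀ x y : ℝ, |x| ≤ ε → |y| ≤ R → |x * (x + 2 * y)| ≤ ε * (ε + 2 * R) := by
    intro x y hx hy
    rw [abs_mul]
    gcongr
    refine (abs_add_le _ _).trans ?_
    rw [abs_mul, abs_two]; gcongr
  have q3 : |(P1 - p1) * ((P1 - p1) + 2 * p1) + (P2 - p2) * ((P2 - p2) + 2 * p2)| ≤ ε * (ε + 2 * R) + ε * (ε + 2 * R) :=
    (abs_add_le _ _).trans (add_le_add (q2 _ _ h1 hp1) (q2 _ _ h2 hp2))
  have q4 : |u1 ^ 2 + u2 ^ 2| ≤ 2 := by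
    rw [abs_of_nonneg (by positivity)]
    linarith [Fr.sq_le1 hu1, Fr.sq_le1 hu2]
  refine (abs_add_le _ _).trans ?_
  rw [abs_mul 4, abs_mul _ (u1 ^ 2 + u2 ^ 2), abs_of_pos (by norm_num : (0:ℝ) < 4)]
  have q5 : |(P1 - p1) * ((P1 - p1) + 2 * p1) + (P2 - p2) * ((P2 - p2) + 2 * p2)| * |u1 ^ 2 + u2 ^ 2| ≤
      (ε * (ε + 2 * R) + ε * (ε + 2 * R)) * 2 := by gcongr
  linarith

namespace Fr

variable {F : Fr} {c C1 T0 η A d : ℝ}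

theorem zcount (G : Good F) (P : Par c C1 T0 η A d) (hN : 1 ≤ F.N) (hd : d = (F.N:ℝ)⁻¹) {J : Finset (ℤ × (ℤ × ℤ))}
    (hJ : ∀ j ∈ J, j.2 ∈ grd F.N ∧ c ^ 2 ≤ F.b1 j.2 ^ 2 + F.b2 j.2 ^ 2) (x : Om) (t : ℝ) :
    ((by classical exact (J.filter fun j => (x, t) ∈ F.Z A d T0 j).card : ℕ) : ℝ) ≤ A ^ 7 := by
  classical
  have hA := P.hA
  have hA0 : 0 < A := by linarith
  have hc2 : 0 < c ^ 2 := by have := P.hc; positivity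
  have hN0 : (0:ℝ) < F.N := by exact_mod_cast hN
  set m := ⌈4 * A ^ 2⌉₊ with hm
  have hm1 : 4 * A ^ 2 ≤ m := Nat.le_ceil _
  have hm2 : (m:ℝ) < 4 * A ^ 2 + 1 := Nat.ceil_lt_add_one (by positivity)
  have hms : 1 ≤ F.H.m F.v1 F.v2 := Hyp.m_ge G.ok G.v1a G.v2a
  have hms2 : F.H.m F.v1 F.v2 ≤ 2 := Hyp.m_le G.ok G.v1a G.v1b G.v2a G.v2b
  have hcard : (J.filter fun j => (x, t) ∈ F.Z A d T0 j).card ≤ (2 * m + 1) ^ 3 := by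
    refine card_box fun j hj j' hj' => ?_
    rw [Finset.mem_filter] at hj hj'
    obtain ⟨hj1, _, _, _, _, _, _, p1, p2, p3⟩ := hj
    obtain ⟨hj1', _, _, _, _, _, _, p1', p2', p3'⟩ := hj'
    obtain ⟨g1, g2⟩ := hJ j hj1
    obtain ⟨g1', g2'⟩ := hJ j' hj1'
    have c1 := inv_close (lt_of_lt_of_le hc2 g2) (lt_of_lt_of_le hc2 g2') (G.bb g1) (G.bb g1')
      (by have := P.hd; positivity) p1 p2 p1' p2'
    have c2 : |(j.1:ℝ) - j'.1| ≤ 4 * A ^ 2 := by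
      simp only at p3 p3'
      rw [abs_le] at p3 p3'
      have e : ((j.1:ℝ) - j'.1) * (d / F.H.m F.v1 F.v2) = j.1 * d / F.H.m F.v1 F.v2 - j'.1 * d / F.H.m F.v1 F.v2 := by ring
      have e2 : |((j.1:ℝ) - j'.1) * (d / F.H.m F.v1 F.v2)| ≤ 2 * (A ^ 2 * d) := by
        rw [e, abs_le]; constructor <;> linarith [p3.1, p3.2, p3'.1, p3'.2]
      rw [abs_mul, abs_of_pos (by have := P.hd; positivity : 0 < d / F.H.m F.v1 F.v2), ← mul_div_assoc,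
        div_le_iff₀ (by linarith)] at e2
      have hd0 := P.hd
      have : |(j.1:ℝ) - j'.1| * d ≤ (4 * A ^ 2) * d := by
        calc |(j.1:ℝ) - j'.1| * d ≤ 2 * (A ^ 2 * d) * F.H.m F.v1 F.v2 := e2
          _ ≤ 2 * (A ^ 2 * d) * 2 := by gcongr
          _ = _ := by ring
      exact le_of_mul_le_mul_right this hd0
    have key : ∀ a b : ℤ, |(a:ℝ) / F.N - F.v1 - ((b:ℝ) / F.N - F.v1)| ≤ 3 * (A ^ 2 * d) → |a - b| ≤ m := by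
      intro a b h
      have e : (a:ℝ) / F.N - F.v1 - ((b:ℝ) / F.N - F.v1) = ((a:ℝ) - b) / F.N := by ring
      rw [e, abs_div, abs_of_pos hN0, div_le_iff₀ hN0, hd] at h
      have e3 : 3 * (A ^ 2 * (F.N:ℝ)⁻¹) * F.N = 3 * A ^ 2 := by field_simp
      rw [e3] at h
      have : |(a:ℝ) - b| ≤ m := by linarith [sq_nonneg A]
      exact_mod_cast this
    have key2 : ∀ a b : ℤ, |(a:ℝ) / F.N - F.v2 - ((b:ℝ) / F.N - F.v2)| ≤ 3 * (A ^ 2 * d) → |a - b| ≤ m := by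
      intro a b h
      refine key a b ?_
      have e : (a:ℝ) / F.N - F.v1 - ((b:ℝ) / F.N - F.v1) = (a:ℝ) / F.N - F.v2 - ((b:ℝ) / F.N - F.v2) := by ring
      rw [e]; exact h
    refine ⟨?_, key _ _ c1.1, key2 _ _ c1.2⟩
    have : |(j.1:ℝ) - j'.1| ≤ m := by linarith
    exact_mod_cast this
  have h2 : (((J.filter fun j => (x, t) ∈ F.Z A d T0 j).card : ℕ) : ℝ) ≤ (2 * m + 1) ^ 3 := by exact_mod_cast hcard
  refine h2.trans ?_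
  have h3 : (2 * (m:ℝ) + 1) ≤ 9 * A ^ 2 := by nlinarith
  calc (2 * (m:ℝ) + 1) ^ 3 ≤ (9 * A ^ 2) ^ 3 := by gcongr
    _ = 729 * A ^ 6 := by ring
    _ ≤ A * A ^ 6 := by gcongr; linarith
    _ = A ^ 7 := by ring

theorem num1 (P : Par c C1 T0 η A d) : 8 * (A ^ 2 * d) + 4 * (A ^ 2 * d * (2 * (A / 50) + A ^ 2 * d)) ≤ c ^ 2 := by
  have hA := P.hA
  have hA0 : 0 < A := by linarith
  have hd := P.hd
  have hdA := P.hdA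
  have hAc := P.hAc
  clear P
  have hεA : A ^ 2 * d ≤ 1 / A ^ 4 := by
    rw [le_div_iff₀ (by positivity)]
    calc A ^ 2 * d * A ^ 4 = d * A ^ 6 := by ring
      _ ≤ 1 := hdA
  have hc2 : 10000 / A ^ 2 ≤ c ^ 2 := by
    rw [div_le_iff₀ (by positivity)]
    calc (10000:ℝ) = 100 ^ 2 := by norm_num
      _ ≤ (A * c) ^ 2 := by gcongr
      _ = _ := by ring
  have h3 : A ^ 2 * d ≤ 1 := by
    refine hεA.trans ?_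
    rw [div_le_one (by positivity)]
    exact one_le_pow₀ (by linarith)
  have h5 : 8 * (A ^ 2 * d) + 4 * (A ^ 2 * d * (2 * (A / 50) + A ^ 2 * d)) ≤ (A ^ 2 * d) * A := by
    have e : 8 * (A ^ 2 * d) + 4 * (A ^ 2 * d * (2 * (A / 50) + A ^ 2 * d)) =
      (A ^ 2 * d) * (8 + 4 * (2 * (A / 50) + A ^ 2 * d)) := by ring
    rw [e]
    gcongr
    linarith
  have h6 : (A ^ 2 * d) * A ≤ 1 / A ^ 4 * A := by gcongr
  have h7 : 1 / A ^ 4 * A ≤ 1 / A ^ 2 := by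
    rw [div_mul_eq_mul_div, div_le_div_iff₀ (by positivity) (by positivity)]
    calc 1 * A * A ^ 2 = A ^ 3 * 1 := by ring
      _ ≤ A ^ 3 * A := by gcongr; linarith
      _ = 1 * A ^ 4 := by ring
  have h8 : 1 / A ^ 2 ≤ 10000 / A ^ 2 := by gcongr; norm_num
  linarith

theorem DD_low {w0 w1 w2 b1 b2 β1 β2 : ℝ} (P : Par c C1 T0 η A d) (z0 : w0 ≤ -(1 / A))
    (p1 : |w1 / w0 - (-2 * β1 / (β1 ^ 2 + β2 ^ 2))| ≤ A ^ 2 * d) (p2 : |w2 / w0 - (-2 * β2 / (β1 ^ 2 + β2 ^ 2))| ≤ A ^ 2 * d)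
    (hb1 : |b1| ≤ 1) (hb2 : |b2| ≤ 1) (hjc : c ^ 2 ≤ β1 ^ 2 + β2 ^ 2) (hq2 : β1 ^ 2 + β2 ^ 2 ≤ 2)
    (hsep : c ^ 2 ≤ (b1 - β1) ^ 2 + (b2 - β2) ^ 2) : (A ^ 3)⁻¹ ≤ D3 w0 w1 w2 b1 b2 := by
  have hA := P.hA
  have hA0 : 0 < A := by linarith
  have hc := P.hc
  have hd := P.hd
  obtain ⟨hw, hwi⟩ := inv_A hA0 z0
  have hq0 : 0 < β1 ^ 2 + β2 ^ 2 := lt_of_lt_of_le (by positivity) hjc
  have hR : 2 / c ≤ A / 50 := by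
    rw [div_le_div_iff₀ hc (by norm_num)]; linarith [P.hAc]
  have hp1 : |-2 * β1 / (β1 ^ 2 + β2 ^ 2)| ≤ A / 50 := by
    have := (betaq hc hjc).trans hR
    rw [neg_mul, neg_div, abs_neg]; exact this
  have hp2 : |-2 * β2 / (β1 ^ 2 + β2 ^ 2)| ≤ A / 50 := by
    have := (betaq (β := β2) (β' := β1) hc (by linarith)).trans hR
    rw [neg_mul, neg_div, abs_neg, add_comm (β1 ^ 2)]; exact this
  have hε : 0 ≤ A ^ 2 * d := by positivity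
  have hlip := Qf_lip hε (by positivity) p1 p2 hp1 hp2 hb1 hb2
  have hβ := Qf_beta (u1 := b1) (u2 := b2) hq0.ne'
  have h1 : 2 * c ^ 2 ≤ 4 * ((b1 - β1) ^ 2 + (b2 - β2) ^ 2) / (β1 ^ 2 + β2 ^ 2) := by
    rw [le_div_iff₀ hq0]
    calc 2 * c ^ 2 * (β1 ^ 2 + β2 ^ 2) ≤ 2 * c ^ 2 * 2 := by gcongr
      _ = 4 * c ^ 2 := by ring
      _ ≤ _ := by gcongr
  have h2 := num1 P
  have hQ : c ^ 2 ≤ Qf (w1 / w0) (w2 / w0) b1 b2 := by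
    rw [hβ] at hlip
    have := (abs_le.1 hlip).1
    linarith
  have hwi2 : (A ^ 2)⁻¹ ≤ w0 ^ 2 := by
    rw [← sq_abs w0, ← inv_pow]
    have hw' : 0 < |w0| := abs_pos.2 hw.ne
    have : A⁻¹ ≤ |w0| := by
      rw [inv_le_comm₀ hA0 hw', ← one_div]; exact hwi
    gcongr
  have hAc2 : 100 ≤ A * c ^ 2 := by
    refine P.hAη.trans ?_
    have : η * c ^ 2 ≤ 1 * c ^ 2 := by gcongr; exact P.hη1
    rw [one_mul] at this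
    gcongr
  rw [D3_Qf hw.ne]
  calc (A ^ 3)⁻¹ = (A ^ 2)⁻¹ * A⁻¹ := by field_simp
    _ ≤ (A ^ 2)⁻¹ * c ^ 2 := by
        gcongr
        rw [inv_eq_one_div, div_le_iff₀ hA0]; linarith [mul_comm A (c ^ 2)]
    _ ≤ _ := by gcongr

/-- the relevant lines -/
theorem rel (G : Good F) (P : Par c C1 T0 η A d) {x : Om} {t : ℝ} {j : ℤ × (ℤ × ℤ)} (hx : x.1 ∈ grd F.N)
    (hZ : (x, t) ∈ F.Z A d T0 j) (hj : j.2 ∈ grd F.N) (hjc : c ^ 2 ≤ F.b1 j.2 ^ 2 + F.b2 j.2 ^ 2)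
    (hsep : c ^ 2 ≤ (F.b1 x.1 - F.b1 j.2) ^ 2 + (F.b2 x.1 - F.b2 j.2) ^ 2) : x ∈ F.Sb A := by
  have hA := P.hA
  have hA0 : 0 < A := by linarith
  have hAT := P.hAT
  have hT := P.hT
  have hc := P.hc
  have hd := P.hd
  have M1 := G.M1 hx
  have hb1 := G.b1 hx
  have hb2 := G.b2 hx
  have hbb := G.bb hx
  obtain ⟨⟨t1, t2⟩, z0, z0', z1, z2, z3, p1, p2, p3⟩ := hZ
  simp only at t1 t2 z0 z0' z1 z2 z3 p1 p2 p3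
  have hr0 : 0 ≤ t / F.M x.1 := by positivity
  have hrT : t / F.M x.1 ≤ T0 := by
    rw [div_le_iff₀ (by linarith)]; nlinarith
  have hrb : t / F.M x.1 * (F.b1 x.1 ^ 2 + F.b2 x.1 ^ 2) ≤ T0 * 2 := by gcongr
  have hrb0 : 0 ≤ t / F.M x.1 * (F.b1 x.1 ^ 2 + F.b2 x.1 ^ 2) := by positivity
  have r1 : |2 * (t / F.M x.1) * F.b1 x.1| ≤ 2 * T0 := by
    rw [abs_mul, abs_of_nonneg (by positivity : 0 ≤ 2 * (t / F.M x.1))]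
    calc 2 * (t / F.M x.1) * |F.b1 x.1| ≤ 2 * T0 * 1 := by gcongr
      _ = _ := mul_one _
  have r2 : |2 * (t / F.M x.1) * F.b2 x.1| ≤ 2 * T0 := by
    rw [abs_mul, abs_of_nonneg (by positivity : 0 ≤ 2 * (t / F.M x.1))]
    calc 2 * (t / F.M x.1) * |F.b2 x.1| ≤ 2 * T0 * 1 := by gcongr
      _ = _ := mul_one _
  obtain ⟨hw, hwi⟩ := inv_A hA0 z0
  have e0 : F.w0 x t = F.W0 x + t / F.M x.1 * (F.b1 x.1 ^ 2 + F.b2 x.1 ^ 2) := rfl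
  have e1 : F.w1 x t = F.W1 x - 2 * (t / F.M x.1) * F.b1 x.1 := rfl
  have e2 : F.w2 x t = F.W2 x - 2 * (t / F.M x.1) * F.b2 x.1 := rfl
  have e3 : F.w3 x t = F.W3 x + t / F.M x.1 := rfl
  have z0'' := abs_le.1 z0'
  have z1' := abs_le.1 z1
  have z2' := abs_le.1 z2
  have z3' := abs_le.1 z3
  have r1' := abs_le.1 r1
  have r2' := abs_le.1 r2
  refine ⟨hx, by linarith [z0''.1], by linarith, ?_, ?_, ?_, ?_⟩
  · rw [abs_le]; constructor <;> linarith [z1'.1, z1'.2, r1'.1, r1'.2]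
  · rw [abs_le]; constructor <;> linarith [z2'.1, z2'.2, r2'.1, r2'.2]
  · rw [abs_le]; constructor <;> linarith [z3'.1, z3'.2]
  · have eD : F.DD x = D3 (F.w0 x t) (F.w1 x t) (F.w2 x t) (F.b1 x.1) (F.b2 x.1) := by
      unfold w0 w1 w2 DD
      exact (D3_inv _ _ _ _ _ _).symm
    rw [eD]
    exact DD_low P z0 p1 p2 hb1 hb2 hjc (G.bb hj) hsep

end Fr

end Vale.Agent.P106.G
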