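import Vale.Agent.P106.G.GeD3

/-! # The measure of lines and the instance of the hairbrush lemma -/

open MeasureTheory Set
open scoped ENNReal

set_option linter.all false

namespace Vale.Agent.P106.G

/-- measure on the lines -/
noncomputable def Lam (N : ℕ) (ν : ℤ × ℤ → E3 → ℝ≥0∞) : Measure Om :=
  ∑ k ∈ grd N, (volume.withDensity (ν k)).map (Prod.mk k)

theorem lint_Lam {N : ℕ} {ν : ℤ × ℤ → E3 → ℝ≥0∞} (hν : ∀ k, Measurable (ν k)) {f : Om → ℝ≥0∞} (hf : Measurable f) :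
    ∫⁻ x, f x ∂(Lam N ν) = ∑ k ∈ grd N, ∫⁻ y, ν k y * f (k, y) := by
  unfold Lam
  rw [lintegral_finset_sum_measure]
  refine Finset.sum_congr rfl fun k _ => ?_
  rw [lintegral_map hf measurable_prodMk_left]
  exact lintegral_withDensity_eq_lintegral_mul volume (hν k) (hf.comp measurable_prodMk_left)

theorem Lam_le {N : ℕ} {C1 : ℝ} {ν : ℤ × ℤ → E3 → ℝ≥0∞} (hν : ∀ k, Measurable (ν k))
    (hs : ∀ y, ∑ k ∈ grd N, ν k y ≤ ENNReal.ofReal C1) {S : Set Om} {S' : Set E3} (h : ∀ x ∈ S, x.2 ∈ S') :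
    Lam N ν S ≤ ENNReal.ofReal C1 * volume S' := by
  have hsub : S ⊆ {x : Om | x.2 ∈ toMeasurable volume S'} := fun x hx => subset_toMeasurable _ _ (h x hx)
  have m1 : MeasurableSet (toMeasurable volume S') := measurableSet_toMeasurable _ _
  have m2 : MeasurableSet {x : Om | x.2 ∈ toMeasurable volume S'} := m1.preimage measurable_snd
  refine (measure_mono hsub).trans ?_
  rw [← lintegral_indicator_one m2, lint_Lam hν (measurable_one.indicator m2)]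
  have e : ∀ k ∈ grd N, ∫⁻ y, ν k y * ({x : Om | x.2 ∈ toMeasurable volume S'}).indicator 1 (k, y) =
      ∫⁻ y in toMeasurable volume S', ν k y := by
    intro k _
    rw [← lintegral_indicator m1]
    refine lintegral_congr fun y => ?_
    by_cases hy : y ∈ toMeasurable volume S'
    · rw [indicator_of_mem hy, indicator_of_mem (by exact hy)]; simp
    · rw [indicator_of_notMem hy, indicator_of_notMem (by exact hy)]; simp
  rw [Finset.sum_congr rfl e, ← lintegral_finset_sum _ (fun k _ => hν k)]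
  calc ∫⁻ y in toMeasurable volume S', ∑ k ∈ grd N, ν k y ≤ ∫⁻ y in toMeasurable volume S', ENNReal.ofReal C1 :=
        lintegral_mono fun y => hs y
    _ = _ := by rw [setLIntegral_const, measure_toMeasurable]

namespace Fr

variable {F : Fr} {c C1 T0 η A d : ℝ}

theorem hd1 (P : Par c C1 T0 η A d) : d ≤ 1 := by
  have h1 : (1:ℝ) ≤ A ^ 6 := one_le_pow₀ (by linarith [P.hA])
  have := P.hdA
  have := P.hd
  nlinarith

theorem z_time (G : Good F) (P : Par c C1 T0 η A d) {x : Om} (hx : x ∈ F.Sb A) {j j' : ℤ × (ℤ × ℤ)} {t t' : ℝ}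
    (h : (x, t) ∈ F.Z A d T0 j) (h' : (x, t') ∈ F.Z A d T0 j') : |t - t'| ≤ 8 * A ^ 5 * |F.cc x t - F.cc x t'| := by
  have hA0 : 0 < A := by linarith [P.hA]
  obtain ⟨_, z0, z0', _⟩ := h
  obtain ⟨_, y0, y0', _⟩ := h'
  obtain ⟨hx1, _, _, _, _, _, hD⟩ := hx
  exact cc_inv hA0 (inv_A hA0 z0).1.ne (inv_A hA0 y0).1.ne z0' y0' (G.M1 hx1) (G.M2 hx1) hD

theorem cc_same {x x' : Om} {j : ℤ × (ℤ × ℤ)} {t t' : ℝ}
    (h : (x, t) ∈ F.Z A d T0 j) (h' : (x', t') ∈ F.Z A d T0 j) : |F.cc x t - F.cc x' t'| ≤ 2 * (A ^ 2 * d) := by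
  have h1 := h.2.2.2.2.2.2.2.2
  have h2 := h'.2.2.2.2.2.2.2.2
  simp only at h1 h2
  rw [abs_le] at h1 h2 ⊢
  constructor <;> linarith [h1.1, h1.2, h2.1, h2.2]

theorem o_bd1 (G : Good F) (P : Par c C1 T0 η A d) {x : Om} (hx : x ∈ F.Sb A) : |F.o1 x| ≤ A ^ 6 ∧ |F.o2 x| ≤ A ^ 6 := by
  obtain ⟨hx1, x1, x2, x3, x4, x5, hD⟩ := hx
  have hA := P.hA
  have hA0 : 0 < A := by linarith
  have hW : |F.W0 x| ≤ 2 * A := by
    rw [abs_le]
    have : 0 < 1 / A := by positivity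
    constructor <;> linarith
  have hq : |F.b1 x.1 ^ 2 + F.b2 x.1 ^ 2| ≤ 2 := by
    rw [abs_of_nonneg (by positivity)]; exact G.bb hx1
  exact ⟨o_bd (by linarith) hW x3 (G.b1 hx1) hq hD, o_bd (by linarith) hW x4 (G.b2 hx1) hq hD⟩

theorem p_diff (G : Good F) (P : Par c C1 T0 η A d) {x x' : Om} (hx : x ∈ F.Sb A) (hx' : x' ∈ F.Sb A) {j : ℤ × (ℤ × ℤ)}
    {t t' : ℝ} (h : (x, t) ∈ F.Z A d T0 j) (h' : (x', t') ∈ F.Z A d T0 j) :
    |(F.a1 x - F.a1 x') + F.cc x t * (F.o1 x - F.o1 x')| ≤ A ^ 13 * d ∧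
    |(F.a2 x - F.a2 x') + F.cc x t * (F.o2 x - F.o2 x')| ≤ A ^ 13 * d := by
  have hA := P.hA
  have hA0 : 0 < A := by linarith
  have hd := P.hd
  have hc := cc_same h h'
  obtain ⟨o1b, o2b⟩ := o_bd1 G P hx'
  obtain ⟨_, z0, _, _, _, _, p1, p2, _⟩ := h
  obtain ⟨_, y0, _, _, _, _, r1, r2, _⟩ := h'
  obtain ⟨hx1, _, x2, _, _, _, hD⟩ := hx
  obtain ⟨hx1', _, x2', _, _, _, hD'⟩ := hx'
  simp only at z0 y0 p1 p2 r1 r2
  have hDn : F.DD x ≠ 0 := (lt_of_lt_of_le (by positivity) hD).ne'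
  have hDn' : F.DD x' ≠ 0 := (lt_of_lt_of_le (by positivity) hD').ne'
  rw [p_line1 (inv_A hA0 x2).1.ne (inv_A hA0 z0).1.ne hDn] at p1
  rw [p_line2 (inv_A hA0 x2).1.ne (inv_A hA0 z0).1.ne hDn] at p2
  rw [p_line1 (inv_A hA0 x2').1.ne (inv_A hA0 y0).1.ne hDn'] at r1
  rw [p_line2 (inv_A hA0 x2').1.ne (inv_A hA0 y0).1.ne hDn'] at r2
  have key : ∀ a a' o o' C C' q : ℝ, |a + C * o - q| ≤ A ^ 2 * d → |a' + C' * o' - q| ≤ A ^ 2 * d → |C - C'| ≤ 2 * (A ^ 2 * d) →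
      |o'| ≤ A ^ 6 → |(a - a') + C * (o - o')| ≤ A ^ 13 * d := by
    intro a a' o o' C C' q h1 h2 h3 h4
    have e : (a - a') + C * (o - o') = ((a + C * o - q) - (a' + C' * o' - q)) + -((C - C') * o') := by ring
    rw [e]
    refine (abs_add_le _ _).trans ?_
    rw [abs_neg, abs_mul]
    have h5 : |(a + C * o - q) - (a' + C' * o' - q)| ≤ A ^ 2 * d + A ^ 2 * d := (abs_sub _ _).trans (add_le_add h1 h2)
    have h6 : |C - C'| * |o'| ≤ 2 * (A ^ 2 * d) * A ^ 6 := by gcongr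
    have h7 : A ^ 2 * d ≤ A ^ 8 * d := by
      gcongr
      · linarith
      · norm_num
    have h8 : A ^ 8 * 4 ≤ A ^ 8 * A ^ 5 := by
      gcongr
      calc (4:ℝ) ≤ A ^ 1 := by linarith
        _ ≤ A ^ 5 := pow_le_pow_right₀ (by linarith) (by norm_num)
    calc |(a + C * o - q) - (a' + C' * o' - q)| + |C - C'| * |o'| ≤ (A ^ 8 * d + A ^ 8 * d) + 2 * (A ^ 2 * d) * A ^ 6 := by
          linarith
      _ = (A ^ 8 * 4) * d := by ring
      _ ≤ (A ^ 8 * A ^ 5) * d := by gcongr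
      _ = A ^ 13 * d := by ring
  exact ⟨key _ _ _ _ _ _ _ p1 r1 hc o1b, key _ _ _ _ _ _ _ p2 r2 hc o2b⟩

theorem hb (G : Good F) (P : Par c C1 T0 η A d) (hN : 1 ≤ F.N) (hd : d = (F.N:ℝ)⁻¹) {ν : ℤ × ℤ → E3 → ℝ≥0∞}
    (hν : Dens F.N C1 d ν) {J : Finset (ℤ × (ℤ × ℤ))}
    (hJ : ∀ j ∈ J, j.2 ∈ grd F.N ∧ c ^ 2 ≤ F.b1 j.2 ^ 2 + F.b2 j.2 ^ 2) {δ : ℝ} (hδ : 0 < δ) (hδA : δ ≤ 2 * A) :
    HB (Lam F.N ν) (F.S A δ) J (F.Z A d T0) F.cc F.a1 F.a2 F.o1 F.o2 F.cm (A ^ 13) d (A ^ 10 / δ ^ 2) (A ^ 3 * δ ^ 2) := by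
  have hA := P.hA
  have hA0 : 0 < A := by linarith
  have hA1 : 1 ≤ A := by linarith
  have hd0 := P.hd
  have pw : ∀ n : ℕ, n ≤ 13 → A ^ n ≤ A ^ 13 := fun n hn => pow_le_pow_right₀ hA1 hn
  refine ⟨F.mS A δ, F.mZ A d T0, F.mcc, F.ma1, F.ma2, F.mo1, F.mo2, F.mcm, one_le_pow₀ hA1, hd0, hd1 P, by positivity,
    by positivity, ?_, ?_, ?_, ?_, ?_, ?_, ?_, ?_, ?_, ?_⟩
  · apply le_of_eq; field_simp
  · calc A ^ 3 * δ ^ 2 ≤ A ^ 3 * (2 * A) ^ 2 := by gcongr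
      _ = 4 * A ^ 5 := by ring
      _ ≤ A * A ^ 5 := by gcongr; linarith
      _ = A ^ 6 := by ring
      _ ≤ A ^ 13 := pw 6 (by norm_num)
  · intro x hx j hj t ht
    obtain ⟨⟨t1, t2⟩, _⟩ := ht
    simp only at t1 t2
    rw [abs_of_pos (by linarith)]
    have := pw 1 (by norm_num)
    have := P.hAT
    linarith
  · intro x hx j hj t t' ht ht'
    refine (z_time G P hx.1 ht ht').trans ?_
    calc 8 * A ^ 5 * |F.cc x t - F.cc x t'| ≤ 8 * A ^ 5 * (2 * (A ^ 2 * d)) := by gcongr; exact cc_same ht ht'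
      _ = 16 * A ^ 7 * d := by ring
      _ ≤ A * A ^ 7 * d := by gcongr; linarith
      _ = A ^ 8 * d := by ring
      _ ≤ A ^ 13 * d := by gcongr ?_ * d; exact pw 8 (by norm_num)
  · intro x hx t
    exact (zcount G P hN hd hJ x t).trans (pw 7 (by norm_num))
  · intro x hx x' hx' j hj t t' ht ht'
    exact p_diff G P hx.1 hx'.1 ht ht'
  · intro x hx j hj j' hj' t t' ht ht'
    refine (z_time G P hx.1 ht ht').trans ?_
    gcongr
    calc 8 * A ^ 5 ≤ A * A ^ 5 := by gcongr; linarith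
      _ = A ^ 6 := by ring
      _ ≤ A ^ 13 := pw 6 (by norm_num)
  · intro x hx
    have ho := o_bd1 G P hx.1
    obtain ⟨⟨hx1, x1, x2, x3, x4, x5, hD⟩, _, _⟩ := hx
    refine ⟨(hcc_bd (by linarith) x2 x3 x4 x5).trans (pw 4 (by norm_num)), ho.1.trans (pw 6 (by norm_num)),
      ho.2.trans (pw 6 (by norm_num)), ?_⟩
    intro j hj t ht
    obtain ⟨_, z0, _, z1, z2, z3, _⟩ := ht
    exact (hcc_bd (by linarith) z0 (z1.trans (by linarith)) (z2.trans (by linarith)) (z3.trans (by linarith))).trans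
      (pw 4 (by norm_num))
  · intro p1 p2 q1 q2 p1' p2' q1' q2' n1 n2 r r' hn hr hr'
    have hv := mark_vol G.ok F.ys G.v1a G.v1b G.v2a G.v2b hA1 hδ (by positivity : 0 ≤ A ^ 4) p1 p2 q1 q2 p1' p2' q1' q2' n1 n2
      r r' hn hr hr'
    refine (Lam_le hν.meas hν.sum ?_).trans ((mul_le_mul' (ENNReal.ofReal_le_ofReal P.hAC) hv).trans ?_)
    · rintro x ⟨⟨⟨hx1, x1, x2, x3, x4, x5, hD⟩, s1, s2⟩, k1, k2, k3⟩
      have e1 : F.a1 x + F.cm x * F.o1 x = F.W1 x / F.W0 x := by unfold a1; ring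
      have e2 : F.a2 x + F.cm x * F.o2 x = F.W2 x / F.W0 x := by unfold a2; ring
      rw [e1] at k1 k3
      rw [e2] at k2 k3
      exact ⟨x1, (inv_A hA0 x2).1, s1, hcc_bd (by linarith) x2 x3 x4 x5, k1, k2, k3⟩
    · rw [← ENNReal.ofReal_mul hA0.le]
      refine ENNReal.ofReal_le_ofReal ?_
      have e : A * (3072 * A ^ 4 * A ^ 4 / δ ^ 2 * r * r') = 3072 * A ^ 9 / δ ^ 2 * r * r' := by ring
      rw [e]
      gcongr
      calc 3072 * A ^ 9 ≤ A * A ^ 9 := by gcongr; linarith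
        _ = A ^ 10 := by ring
  · have hv := thin_vol G.ok F.ys G.v1a G.v2a hA1 (by positivity : 0 ≤ 2 * δ)
    refine (Lam_le hν.meas hν.sum ?_).trans ((mul_le_mul' (ENNReal.ofReal_le_ofReal P.hAC) hv).trans ?_)
    · rintro x ⟨⟨hx1, x1, x2, x3, x4, x5, hD⟩, s1, s2⟩
      exact ⟨x1, (inv_A hA0 x2).1, s2⟩
    · rw [← ENNReal.ofReal_mul hA0.le]
      refine ENNReal.ofReal_le_ofReal ?_
      calc A * (8 * A * (2 * δ) ^ 2) = 32 * A ^ 2 * δ ^ 2 := by ring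
        _ ≤ A * A ^ 2 * δ ^ 2 := by gcongr; linarith
        _ = A ^ 3 * δ ^ 2 := by ring

end Fr

end Vale.Agent.P106.G
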