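import Vale.Agent.P106.G.GeE

/-! # Decomposition into shells -/

open MeasureTheory Set
open scoped ENNReal

set_option linter.all false

namespace Vale.Agent.P106.G

/-- dyadic location of a number -/
theorem dy_loc {A m : ℝ} {ns : ℕ} (h1 : m ≤ 2 * A) (h2 : 2 * A / 2 ^ ns < m) :
    ∃ s ∈ Finset.range ns, A / 2 ^ s ≤ m ∧ m ≤ 2 * (A / 2 ^ s) := by
  classical
  induction ns with
  | zero => simp at h2; linarith
  | succ k ih =>
    rcases lt_or_ge (2 * A / 2 ^ k) m with h | h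
    · obtain ⟨s, hs, h3⟩ := ih h
      exact ⟨s, Finset.mem_range.2 (lt_trans (Finset.mem_range.1 hs) (Nat.lt_succ_self k)), h3⟩
    · refine ⟨k, Finset.self_mem_range_succ k, ?_, ?_⟩
      · have : 2 * A / 2 ^ (k + 1) = A / 2 ^ k := by rw [pow_succ]; field_simp
        linarith
      · calc m ≤ 2 * A / 2 ^ k := h
          _ = _ := by ring

namespace Fr

variable {F : Fr} {c C1 T0 η A d : ℝ}

/-- the integrand -/
noncomputable def ff (F : Fr) (A d T0 : ℝ) (J : Finset (ℤ × (ℤ × ℤ))) (n : ℤ × (ℤ × ℤ) → ℝ) (x : Om) : ℝ≥0∞ :=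
  ∑ j ∈ J, ENNReal.ofReal (n j) * volume {t : ℝ | (x, t) ∈ F.Z A d T0 j}

theorem mff (A d T0 : ℝ) (J : Finset (ℤ × (ℤ × ℤ))) (n : ℤ × (ℤ × ℤ) → ℝ) : Measurable (F.ff A d T0 J n) := by
  unfold ff
  refine Finset.measurable_sum _ fun j _ => ?_
  refine Measurable.const_mul ?_ _
  exact measurable_measure_prodMk_left (F.mZ A d T0 j)

theorem ff_le (G : Good F) (P : Par c C1 T0 η A d) (hN : 1 ≤ F.N) (hd : d = (F.N:ℝ)⁻¹) {J : Finset (ℤ × (ℤ × ℤ))}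
    (hJ : ∀ j ∈ J, j.2 ∈ grd F.N ∧ c ^ 2 ≤ F.b1 j.2 ^ 2 + F.b2 j.2 ^ 2) {n : ℤ × (ℤ × ℤ) → ℝ} (hn : ∀ j ∈ J, n j ≤ A ^ 13)
    (x : Om) : F.ff A d T0 J n x ≤ ENNReal.ofReal (2 * A ^ 21) := by
  classical
  have hA := P.hA
  have hA0 : 0 < A := by linarith
  have h1 : ∑ j ∈ J, volume {t : ℝ | (x, t) ∈ F.Z A d T0 j} ≤ ENNReal.ofReal (A ^ 7 * (2 * A)) := by
    refine sumlen J _ (fun j _ => measurable_prodMk_left (F.mZ A d T0 j)) (by positivity) hA0.le ?_ ?_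
    · intro t
      exact zcount G P hN hd hJ x t
    · intro j hj j' hj' t ht t' ht'
      obtain ⟨⟨t1, t2⟩, _⟩ := ht
      obtain ⟨⟨t1', t2'⟩, _⟩ := ht'
      simp only at t1 t2 t1' t2'
      have := P.hAT
      rw [abs_le]; constructor <;> linarith
  unfold ff
  calc ∑ j ∈ J, ENNReal.ofReal (n j) * volume {t : ℝ | (x, t) ∈ F.Z A d T0 j}
      ≤ ∑ j ∈ J, ENNReal.ofReal (A ^ 13) * volume {t : ℝ | (x, t) ∈ F.Z A d T0 j} := by
        refine Finset.sum_le_sum fun j hj => mul_le_mul' (ENNReal.ofReal_le_ofReal (hn j hj)) le_rfl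
    _ = ENNReal.ofReal (A ^ 13) * ∑ j ∈ J, volume {t : ℝ | (x, t) ∈ F.Z A d T0 j} := by rw [Finset.mul_sum]
    _ ≤ ENNReal.ofReal (A ^ 13) * ENNReal.ofReal (A ^ 7 * (2 * A)) := mul_le_mul' le_rfl h1
    _ = _ := by
        rw [← ENNReal.ofReal_mul (by positivity)]; congr 1; ring

/-- the thin lines -/
def Th (F : Fr) (A θ : ℝ) : Set Om := {x | x ∈ F.Sb A ∧ max |F.W1 x| |F.W2 x| ≤ θ}

theorem mTh (A θ : ℝ) : MeasurableSet (F.Th A θ) := by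
  refine mand (F.mSb A) ?_
  exact measurableSet_le (F.mW1.abs.max F.mW2.abs) measurable_const

theorem Th_le (G : Good F) (P : Par c C1 T0 η A d) {ν : ℤ × ℤ → E3 → ℝ≥0∞} (hν : Dens F.N C1 d ν) {θ : ℝ} (hθ : 0 ≤ θ) :
    Lam F.N ν (F.Th A θ) ≤ ENNReal.ofReal (8 * A ^ 2 * θ ^ 2) := by
  have hA := P.hA
  have hA0 : 0 < A := by linarith
  have hv := thin_vol G.ok F.ys G.v1a G.v2a (by linarith : 1 ≤ A) hθ
  refine (Lam_le hν.meas hν.sum ?_).trans ((mul_le_mul' (ENNReal.ofReal_le_ofReal P.hAC) hv).trans ?_)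
  · rintro x ⟨⟨hx1, x1, x2, x3, x4, x5, hD⟩, s2⟩
    exact ⟨x1, (inv_A hA0 x2).1, s2⟩
  · rw [← ENNReal.ofReal_mul hA0.le]
    refine ENNReal.ofReal_le_ofReal ?_
    apply le_of_eq; ring

theorem shell_ex (G : Good F) (P : Par c C1 T0 η A d) (hN : 1 ≤ F.N) (hd : d = (F.N:ℝ)⁻¹) {ν : ℤ × ℤ → E3 → ℝ≥0∞}
    (hν : Dens F.N C1 d ν) {J : Finset (ℤ × (ℤ × ℤ))}
    (hJ : ∀ j ∈ J, j.2 ∈ grd F.N ∧ c ^ 2 ≤ F.b1 j.2 ^ 2 + F.b2 j.2 ^ 2) {n : ℤ × (ℤ × ℤ) → ℝ} (hn : ∀ j ∈ J, n j ≤ A ^ 13)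
    {lam : ℝ} (hlam : 0 < lam) {ns : ℕ} (hns : 1 ≤ ns) (h2 : 2 * A ^ 26 < lam * 4 ^ ns)
    (hrel : ∀ x : Om, x.1 ∈ grd F.N → ν x.1 x.2 ≠ 0 → ∀ j ∈ J, ∀ t, (x, t) ∈ F.Z A d T0 j → x ∈ F.Sb A)
    (h : ENNReal.ofReal lam ≤ ∫⁻ x, F.ff A d T0 J n x ∂(Lam F.N ν)) :
    ∃ s : ℕ, ENNReal.ofReal (lam / (2 * ns)) ≤ ∫⁻ x in F.S A (A / 2 ^ s), F.ff A d T0 J n x ∂(Lam F.N ν) := by
  classical
  by_contra hcon
  push Not at hcon
  have hA := P.hA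
  have hA0 : 0 < A := by linarith
  have hns0 : (0:ℝ) < ns := by exact_mod_cast hns
  set Λ := Lam F.N ν with hΛ
  set f := F.ff A d T0 J n with hf
  have mf : Measurable f := mff A d T0 J n
  set θ := 2 * A / 2 ^ ns with hθ
  -- restriction to the relevant lines
  have r1 : ∫⁻ x, f x ∂Λ = ∫⁻ x in F.Sb A, f x ∂Λ := by
    rw [← lintegral_indicator (F.mSb A), hΛ, lint_Lam hν.meas mf, lint_Lam hν.meas (mf.indicator (F.mSb A))]
    refine Finset.sum_congr rfl fun k hk => lintegral_congr fun y => ?_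
    by_cases hx : ((k, y) : Om) ∈ F.Sb A
    · rw [indicator_of_mem hx]
    · rw [indicator_of_notMem hx, mul_zero]
      by_cases hy : ν k y = 0
      · rw [hy, zero_mul]
      · have : f (k, y) = 0 := by
          rw [hf]
          unfold ff
          refine Finset.sum_eq_zero fun j hj => ?_
          have he : {t : ℝ | (((k, y) : Om), t) ∈ F.Z A d T0 j} = ∅ := by
            rw [Set.eq_empty_iff_forall_notMem]
            intro t ht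
            exact hx (hrel (k, y) hk hy j hj t ht)
          rw [he, measure_empty, mul_zero]
        rw [this, mul_zero]
  have r2 : ∀ x, (F.Sb A).indicator f x ≤ (∑ s ∈ Finset.range ns, (F.S A (A / 2 ^ s)).indicator f x) +
      (F.Th A θ).indicator f x := by
    intro x
    by_cases hx : x ∈ F.Sb A
    · rw [indicator_of_mem hx]
      rcases le_or_gt (max |F.W1 x| |F.W2 x|) θ with hm | hm
      · have : x ∈ F.Th A θ := ⟨hx, hm⟩
        rw [indicator_of_mem this]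
        exact le_add_self
      · obtain ⟨s, hs, h3, h4⟩ := dy_loc (max_le hx.2.2.2.1 hx.2.2.2.2.1) hm
        have hxs : x ∈ F.S A (A / 2 ^ s) := ⟨hx, h3, h4⟩
        refine le_trans ?_ le_self_add
        refine le_trans (le_of_eq ?_) (Finset.single_le_sum (f := fun s => (F.S A (A / 2 ^ s)).indicator f x)
          (fun _ _ => bot_le) hs)
        exact (indicator_of_mem hxs f).symm
    · rw [indicator_of_notMem hx]; exact bot_le
  have r3 : ∫⁻ x in F.Sb A, f x ∂Λ ≤ (∑ s ∈ Finset.range ns, ∫⁻ x in F.S A (A / 2 ^ s), f x ∂Λ) + ∫⁻ x in F.Th A θ, f x ∂Λ := by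
    rw [← lintegral_indicator (F.mSb A), ← lintegral_indicator (mTh A θ)]
    have e : ∀ s ∈ Finset.range ns, ∫⁻ x in F.S A (A / 2 ^ s), f x ∂Λ = ∫⁻ x, (F.S A (A / 2 ^ s)).indicator f x ∂Λ := by
      intro s _
      rw [lintegral_indicator (F.mS A _)]
    rw [Finset.sum_congr rfl e, ← lintegral_finset_sum _ (fun s _ => mf.indicator (F.mS A _)),
      ← lintegral_add_left (Finset.measurable_sum _ fun s _ => mf.indicator (F.mS A _))]
    exact lintegral_mono r2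
  have r4 : ∑ s ∈ Finset.range ns, ∫⁻ x in F.S A (A / 2 ^ s), f x ∂Λ ≤ ENNReal.ofReal (lam / 2) := by
    calc ∑ s ∈ Finset.range ns, ∫⁻ x in F.S A (A / 2 ^ s), f x ∂Λ ≤ ∑ s ∈ Finset.range ns, ENNReal.ofReal (lam / (2 * ns)) :=
          Finset.sum_le_sum fun s _ => (hcon s).le
      _ = ENNReal.ofReal (lam / 2) := by
          rw [Finset.sum_const, Finset.card_range, nsmul_eq_mul, ← ENNReal.ofReal_natCast, ← ENNReal.ofReal_mul hns0.le]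
          congr 1; field_simp
  have r5 : ∫⁻ x in F.Th A θ, f x ∂Λ ≤ ENNReal.ofReal (A ^ 26 / 4 ^ ns) := by
    calc ∫⁻ x in F.Th A θ, f x ∂Λ ≤ ∫⁻ x in F.Th A θ, ENNReal.ofReal (2 * A ^ 21) ∂Λ :=
          lintegral_mono fun x => ff_le G P hN hd hJ hn x
      _ = ENNReal.ofReal (2 * A ^ 21) * Λ (F.Th A θ) := setLIntegral_const _ _
      _ ≤ ENNReal.ofReal (2 * A ^ 21) * ENNReal.ofReal (8 * A ^ 2 * θ ^ 2) :=
          mul_le_mul' le_rfl (Th_le G P hν (by rw [hθ]; positivity))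
      _ ≤ _ := by
          rw [← ENNReal.ofReal_mul (by positivity)]
          refine ENNReal.ofReal_le_ofReal ?_
          have e4 : (4:ℝ) ^ ns = 2 ^ ns * 2 ^ ns := by rw [← mul_pow]; norm_num
          calc 2 * A ^ 21 * (8 * A ^ 2 * θ ^ 2) = 64 * A ^ 25 / 4 ^ ns := by rw [hθ, e4]; field_simp; ring
            _ ≤ A * A ^ 25 / 4 ^ ns := by gcongr; linarith
            _ = A ^ 26 / 4 ^ ns := by ring
  have r6 : A ^ 26 / 4 ^ ns < lam / 2 := by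
    rw [div_lt_div_iff₀ (by positivity) (by norm_num)]; linarith
  have r7 : ENNReal.ofReal lam < ENNReal.ofReal lam := by
    calc ENNReal.ofReal lam ≤ ∫⁻ x, f x ∂Λ := h
      _ = ∫⁻ x in F.Sb A, f x ∂Λ := r1
      _ ≤ _ := r3
      _ ≤ ENNReal.ofReal (lam / 2) + ENNReal.ofReal (A ^ 26 / 4 ^ ns) := add_le_add r4 r5
      _ < ENNReal.ofReal (lam / 2) + ENNReal.ofReal (lam / 2) :=
          ENNReal.add_lt_add_left ENNReal.ofReal_ne_top ((ENNReal.ofReal_lt_ofReal_iff (by positivity)).2 r6)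
      _ = ENNReal.ofReal lam := by
          rw [← ENNReal.ofReal_add (by positivity) (by positivity)]; congr 1; ring
  exact lt_irrefl _ r7

theorem shell_main (G : Good F) (P : Par c C1 T0 η A d) (hN : 1 ≤ F.N) (hd : d = (F.N:ℝ)⁻¹) {ν : ℤ × ℤ → E3 → ℝ≥0∞}
    (hν : Dens F.N C1 d ν) {J : Finset (ℤ × (ℤ × ℤ))}
    (hJ : ∀ j ∈ J, j.2 ∈ grd F.N ∧ c ^ 2 ≤ F.b1 j.2 ^ 2 + F.b2 j.2 ^ 2) {n : ℤ × (ℤ × ℤ) → ℝ} (hn0 : ∀ j ∈ J, 0 ≤ n j)
    (hn : ∀ j ∈ J, n j ≤ A ^ 13) {I : ℝ} (hI : 0 < I) (hnI : ∑ j ∈ J, n j ≤ I)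
    {lam : ℝ} (hlam : 0 < lam) {ns : ℕ} (hns : 1 ≤ ns) (h1 : 2 * A ^ 13 ≤ 2 ^ ns * d) (h2 : 2 * A ^ 26 < lam * 4 ^ ns)
    (hrel : ∀ x : Om, x.1 ∈ grd F.N → ν x.1 x.2 ≠ 0 → ∀ j ∈ J, ∀ t, (x, t) ∈ F.Z A d T0 j → x ∈ F.Sb A)
    (h : ENNReal.ofReal lam ≤ ∫⁻ x, F.ff A d T0 J n x ∂(Lam F.N ν)) :
    (lam / (2 * ns)) ^ 2 ≤ 18432 * (A ^ 13) ^ 8 * (ns + 1) * I * d ^ 3 ∨
    (lam / (2 * ns)) ^ 3 ≤ 589824 * (A ^ 13) ^ 13 * (ns + 1) * I * d ^ 3 ∨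
    (lam / (2 * ns)) ^ 9 ≤ 5898240 * 82944 * 2097152 * (ns + 1) ^ 3 * (A ^ 13) ^ 37 * I ^ 4 * d ^ 9 := by
  obtain ⟨s, hs⟩ := shell_ex G P hN hd hν hJ hn hlam hns h2 hrel h
  have hA := P.hA
  have hA0 : 0 < A := by linarith
  have hns0 : (0:ℝ) < ns := by exact_mod_cast hns
  have hδ : 0 < A / 2 ^ s := by positivity
  have hδA : A / 2 ^ s ≤ 2 * A := by
    have : A / 2 ^ s ≤ A := div_le_self hA0.le (one_le_pow₀ (by norm_num))
    linarith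
  exact HB.main (hb G P hN hd hν hJ hδ hδA) hn0 hn hnI hI (by positivity) h1 hs

end Fr

end Vale.Agent.P106.G
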