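import Vale.Agent.P106.G.GeC2

/-! # Fubini along the rays -/

open MeasureTheory Set
open scoped ENNReal

set_option linter.all false

namespace Vale.Agent.P106.G

/-- four-space as a product, last coordinate first -/
noncomputable def r4 : E4 ≃ᵐ ℝ × E3 :=
  ((MeasurableEquiv.toLp 2 (Fin 4 → ℝ)).symm.trans
    (MeasurableEquiv.piFinSuccAbove (fun _ => ℝ) (3 : Fin 4))).trans
    (MeasurableEquiv.prodCongr (MeasurableEquiv.refl ℝ) (MeasurableEquiv.toLp 2 (Fin 3 → ℝ)))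

theorem mp_r4 : MeasurePreserving r4 volume volume := by
  have h1 : MeasurePreserving (MeasurableEquiv.toLp 2 (Fin 4 → ℝ)).symm volume volume :=
    PiLp.volume_preserving_ofLp (Fin 4)
  have h2 := volume_preserving_piFinSuccAbove (fun _ : Fin 4 => ℝ) (3 : Fin 4)
  have h3 : MeasurePreserving (MeasurableEquiv.prodCongr (MeasurableEquiv.refl ℝ)
      (MeasurableEquiv.toLp 2 (Fin 3 → ℝ))) (volume.prod volume) (volume.prod volume) :=
    (MeasurePreserving.id volume).prod (PiLp.volume_preserving_toLp (Fin 3))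
  exact h3.comp (h2.comp h1)

/-- joining -/
noncomputable def jn (y : E3) (t : ℝ) : E4 := !₂[y 0, y 1, y 2, t]

theorem jn0 (y : E3) (t : ℝ) : jn y t 0 = y 0 := rfl
theorem jn1 (y : E3) (t : ℝ) : jn y t 1 = y 1 := rfl
theorem jn2 (y : E3) (t : ℝ) : jn y t 2 = y 2 := rfl
theorem jn3 (y : E3) (t : ℝ) : jn y t 3 = t := rfl

theorem r4_symm (p : ℝ × E3) : r4.symm p = jn p.2 p.1 := by
  rw [MeasurableEquiv.symm_apply_eq]
  refine Prod.ext rfl ?_
  apply PiLp.ext
  intro i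
  fin_cases i <;> rfl

theorem measurable_jn : Measurable (fun p : E3 × ℝ => jn p.1 p.2) := by
  have : (fun p : E3 × ℝ => jn p.1 p.2) = fun p : E3 × ℝ => r4.symm (p.2, p.1) := by
    ext1 p; rw [r4_symm]
  rw [this]; exact r4.symm.measurable.comp (measurable_snd.prodMk measurable_fst)

theorem lintL {F : E4 → ℝ≥0∞} (hF : Measurable F) : ∫⁻ z, F z = ∫⁻ t : ℝ, ∫⁻ y : E3, F (jn y t) := by
  have h := mp_r4.symm.lintegral_comp_emb r4.symm.measurableEmbedding F
  rw [← h, Measure.volume_eq_prod]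
  simp_rw [r4_symm]
  exact lintegral_prod (μ := (volume : Measure ℝ)) (ν := (volume : Measure E3)) (fun p : ℝ × E3 => F (jn p.2 p.1))
    (hF.comp (measurable_jn.comp measurable_swap)).aemeasurable

/-- ray data: `L y t` is the point of the ray with base point `y` at the time `t` -/
structure RD (L : E3 → ℝ → E4) (b : E4 → E3) (τ : E4 → ℝ) : Prop where
  mL : Measurable (fun p : E3 × ℝ => L p.1 p.2)
  mb : Measurable b
  mτ : Measurable τ
  bL : ∀ y t, b (L y t) = y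
  τL : ∀ y t, τ (L y t) = t
  Lb : ∀ z, L (b z) (τ z) = z
  fub : ∀ F : E4 → ℝ≥0∞, Measurable F → ∫⁻ z, F z = ∫⁻ y, ∫⁻ t, F (L y t)

/-- the point of the ray at the time `t` -/
noncomputable def ln (H : Hyp) (v1 v2 : ℝ) (y : E3) (t : ℝ) : E4 := H.ray y v1 v2 (t / H.m v1 v2)

theorem ext4' {x y : E4} (h0 : x 0 = y 0) (h1 : x 1 = y 1) (h2 : x 2 = y 2) (h3 : x 3 = y 3) : x = y := by
  apply PiLp.ext
  intro i
  fin_cases i <;> assumption

theorem ln0 (H : Hyp) (v1 v2 : ℝ) (y : E3) (t : ℝ) : ln H v1 v2 y t 0 = y 0 + t / H.m v1 v2 * (v1 ^ 2 + v2 ^ 2) := rfl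
theorem ln1 (H : Hyp) (v1 v2 : ℝ) (y : E3) (t : ℝ) : ln H v1 v2 y t 1 = y 1 + t / H.m v1 v2 * (-2 * v1) := rfl
theorem ln2 (H : Hyp) (v1 v2 : ℝ) (y : E3) (t : ℝ) : ln H v1 v2 y t 2 = y 2 + t / H.m v1 v2 * (-2 * v2) := rfl
theorem ln3 (H : Hyp) (v1 v2 : ℝ) (y : E3) (t : ℝ) :
    ln H v1 v2 y t 3 = -(H.s * y 0 + H.q1 * y 1 + H.q2 * y 2) + t / H.m v1 v2 * 1 := rfl

theorem tm_ln {H : Hyp} {v1 v2 : ℝ} (hm : H.m v1 v2 ≠ 0) (y : E3) (t : ℝ) : H.tm (ln H v1 v2 y t) = t := by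
  unfold Hyp.tm
  rw [ln0, ln1, ln2, ln3]
  have e1 : t / H.m v1 v2 * H.m v1 v2 = t := div_mul_cancel₀ _ hm
  have e3 : H.m v1 v2 = H.s * (v1 ^ 2 + v2 ^ 2) - 2 * (H.q1 * v1 + H.q2 * v2) + 1 := rfl
  generalize hg : t / H.m v1 v2 = g at *
  rw [e3] at e1
  linear_combination e1

theorem rd {H : Hyp} {v1 v2 : ℝ} (hm : H.m v1 v2 ≠ 0) : RD (ln H v1 v2) (H.bp v1 v2) H.tm := by
  have mL : Measurable (fun p : E3 × ℝ => ln H v1 v2 p.1 p.2) := by
    have e : (fun p : E3 × ℝ => ln H v1 v2 p.1 p.2) = fun p : E3 × ℝ =>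
        (WithLp.toLp 2 ![p.1 0 + p.2 / H.m v1 v2 * (v1 ^ 2 + v2 ^ 2), p.1 1 + p.2 / H.m v1 v2 * (-2 * v1),
          p.1 2 + p.2 / H.m v1 v2 * (-2 * v2), -(H.s * p.1 0 + H.q1 * p.1 1 + H.q2 * p.1 2) + p.2 / H.m v1 v2 * 1] : E4) := by
      ext1 p
      exact ext4' rfl rfl rfl rfl
    rw [e]
    refine (WithLp.measurable_toLp 2 (Fin 4 → ℝ)).comp (measurable_pi_lambda _ fun i => ?_)
    fin_cases i
    · show Measurable fun p : E3 × ℝ => p.1 0 + p.2 / H.m v1 v2 * (v1 ^ 2 + v2 ^ 2)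
      fun_prop
    · show Measurable fun p : E3 × ℝ => p.1 1 + p.2 / H.m v1 v2 * (-2 * v1)
      fun_prop
    · show Measurable fun p : E3 × ℝ => p.1 2 + p.2 / H.m v1 v2 * (-2 * v2)
      fun_prop
    · show Measurable fun p : E3 × ℝ => -(H.s * p.1 0 + H.q1 * p.1 1 + H.q2 * p.1 2) + p.2 / H.m v1 v2 * 1
      fun_prop
  have mτ : Measurable H.tm := by unfold Hyp.tm; fun_prop
  refine ⟨mL, ?_, mτ, ?_, ?_, ?_, ?_⟩
  · unfold Hyp.bp
    refine (WithLp.measurable_toLp 2 (Fin 3 → ℝ)).comp (measurable_pi_lambda _ fun i => ?_)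
    fin_cases i
    · show Measurable fun z : E4 => z 0 - H.tm z / H.m v1 v2 * (v1 ^ 2 + v2 ^ 2)
      fun_prop
    · show Measurable fun z : E4 => z 1 + 2 * (H.tm z / H.m v1 v2) * v1
      fun_prop
    · show Measurable fun z : E4 => z 2 + 2 * (H.tm z / H.m v1 v2) * v2
      fun_prop
  · intro y t
    have ht := tm_ln hm y t
    apply PiLp.ext
    intro i
    fin_cases i
    · show ln H v1 v2 y t 0 - H.tm (ln H v1 v2 y t) / H.m v1 v2 * (v1 ^ 2 + v2 ^ 2) = y 0
      rw [ht, ln0]; ring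
    · show ln H v1 v2 y t 1 + 2 * (H.tm (ln H v1 v2 y t) / H.m v1 v2) * v1 = y 1
      rw [ht, ln1]; ring
    · show ln H v1 v2 y t 2 + 2 * (H.tm (ln H v1 v2 y t) / H.m v1 v2) * v2 = y 2
      rw [ht, ln2]; ring
  · intro y t
    exact tm_ln hm y t
  · intro z
    have b0 : H.bp v1 v2 z 0 = z 0 - H.tm z / H.m v1 v2 * (v1 ^ 2 + v2 ^ 2) := rfl
    have b1 : H.bp v1 v2 z 1 = z 1 + 2 * (H.tm z / H.m v1 v2) * v1 := rfl
    have b2 : H.bp v1 v2 z 2 = z 2 + 2 * (H.tm z / H.m v1 v2) * v2 := rfl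
    refine ext4' ?_ ?_ ?_ ?_
    · rw [ln0, b0]; ring
    · rw [ln1, b1]; ring
    · rw [ln2, b2]; ring
    · rw [ln3, b0, b1, b2]
      have e1 : H.tm z / H.m v1 v2 * H.m v1 v2 = H.tm z := div_mul_cancel₀ _ hm
      have e2 : H.tm z = H.s * z 0 + H.q1 * z 1 + H.q2 * z 2 + z 3 := rfl
      have e3 : H.m v1 v2 = H.s * (v1 ^ 2 + v2 ^ 2) - 2 * (H.q1 * v1 + H.q2 * v2) + 1 := rfl
      generalize hg : H.tm z / H.m v1 v2 = g at *
      rw [e3] at e1
      linear_combination e1 + e2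
  · intro F hF
    set σ : E3 → ℝ := fun y => H.s * y 0 + H.q1 * y 1 + H.q2 * y 2 with hσ
    have mσ : Measurable σ := by rw [hσ]; fun_prop
    have m1 : Measurable fun p : ℝ × E3 => F (jn p.2 p.1) := hF.comp (measurable_jn.comp measurable_swap)
    have m2 : Measurable fun p : E3 × ℝ => F (jn p.1 (p.2 - σ p.1)) :=
      hF.comp (measurable_jn.comp (measurable_fst.prodMk (measurable_snd.sub (mσ.comp measurable_fst))))
    have m3 : Measurable fun p : ℝ × E3 => F (ln H v1 v2 p.2 p.1) := hF.comp (mL.comp measurable_swap)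
    set κ : E3 := !₂[v1 ^ 2 + v2 ^ 2, -2 * v1, -2 * v2] with hκ
    have k0 : κ 0 = v1 ^ 2 + v2 ^ 2 := rfl
    have k1 : κ 1 = -2 * v1 := rfl
    have k2 : κ 2 = -2 * v2 := rfl
    calc ∫⁻ z, F z = ∫⁻ t : ℝ, ∫⁻ y : E3, F (jn y t) := lintL hF
      _ = ∫⁻ y : E3, ∫⁻ t : ℝ, F (jn y t) := lintegral_lintegral_swap m1.aemeasurable
      _ = ∫⁻ y : E3, ∫⁻ t : ℝ, F (jn y (t - σ y)) := by
          refine lintegral_congr fun y => ?_
          exact (lintegral_sub_right_eq_self (fun t => F (jn y t)) (σ y)).symm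
      _ = ∫⁻ t : ℝ, ∫⁻ y : E3, F (jn y (t - σ y)) := lintegral_lintegral_swap m2.aemeasurable
      _ = ∫⁻ t : ℝ, ∫⁻ y : E3, F (ln H v1 v2 y t) := by
          refine lintegral_congr fun t => ?_
          rw [← lintegral_add_right_eq_self (fun y => F (jn y (t - σ y))) ((t / H.m v1 v2) • κ)]
          refine lintegral_congr fun y => ?_
          congr 1
          refine ext4' ?_ ?_ ?_ ?_
          · rw [jn0, ln0, PiLp.add_apply, PiLp.smul_apply, k0, smul_eq_mul]
          · rw [jn1, ln1, PiLp.add_apply, PiLp.smul_apply, k1, smul_eq_mul]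
          · rw [jn2, ln2, PiLp.add_apply, PiLp.smul_apply, k2, smul_eq_mul]
          · rw [jn3, ln3, hσ]
            simp only [PiLp.add_apply, PiLp.smul_apply, k0, k1, k2, smul_eq_mul]
            have e1 : t / H.m v1 v2 * H.m v1 v2 = t := div_mul_cancel₀ _ hm
            have e3 : H.m v1 v2 = H.s * (v1 ^ 2 + v2 ^ 2) - 2 * (H.q1 * v1 + H.q2 * v2) + 1 := rfl
            generalize hg : t / H.m v1 v2 = g at *
            rw [e3] at e1
            linear_combination -e1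
      _ = ∫⁻ y : E3, ∫⁻ t : ℝ, F (ln H v1 v2 y t) := lintegral_lintegral_swap m3.aemeasurable

theorem meas_setL {α : Type*} [MeasurableSpace α] {S : Set (α × ℝ)} (mS : MeasurableSet S) {G : α × ℝ → ℝ≥0∞}
    (mG : Measurable G) : Measurable fun z => ∫⁻ t in {t : ℝ | (z, t) ∈ S}, G (z, t) := by
  have e : (fun z => ∫⁻ t in {t : ℝ | (z, t) ∈ S}, G (z, t)) = fun z => ∫⁻ t, S.indicator G (z, t) := by
    ext1 z
    have m1 : MeasurableSet {t : ℝ | (z, t) ∈ S} := measurable_prodMk_left mS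
    rw [← lintegral_indicator m1]
    refine lintegral_congr fun t => ?_
    by_cases h : (z, t) ∈ S
    · rw [indicator_of_mem h, indicator_of_mem (by exact h)]
    · rw [indicator_of_notMem h, indicator_of_notMem (by exact h)]
  rw [e]
  exact (mG.indicator mS).lintegral_prod_right'

/-- the two-point integral -/
theorem pair_swap {f g : ℝ → ℝ≥0∞} (hf : Measurable f) (hg : Measurable g) (η : ℝ) :
    ∫⁻ t, f t * ∫⁻ t' in {t' : ℝ | t' ≤ t - η}, g t' = ∫⁻ t', g t' * ∫⁻ t in {t : ℝ | t' ≤ t - η}, f t := by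
  have mS : MeasurableSet {p : ℝ × ℝ | p.2 ≤ p.1 - η} := measurableSet_le measurable_snd (measurable_fst.sub_const η)
  have h1 : ∀ t, f t * ∫⁻ t' in {t' : ℝ | t' ≤ t - η}, g t' =
      ∫⁻ t', ({p : ℝ × ℝ | p.2 ≤ p.1 - η}).indicator (fun p => f p.1 * g p.2) (t, t') := by
    intro t
    have mS'' : MeasurableSet {t' : ℝ | t' ≤ t - η} := measurableSet_le measurable_id measurable_const
    rw [← lintegral_const_mul _ hg, ← lintegral_indicator mS'']
    refine lintegral_congr fun t' => ?_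
    by_cases h : t' ≤ t - η
    · rw [indicator_of_mem (by exact h), indicator_of_mem (by exact h)]
    · rw [indicator_of_notMem (by exact h), indicator_of_notMem (by exact h)]
  have h2 : ∀ t', g t' * ∫⁻ t in {t : ℝ | t' ≤ t - η}, f t =
      ∫⁻ t, ({p : ℝ × ℝ | p.2 ≤ p.1 - η}).indicator (fun p => f p.1 * g p.2) (t, t') := by
    intro t'
    have mS' : MeasurableSet {t : ℝ | t' ≤ t - η} := measurableSet_le measurable_const (measurable_id.sub_const η)
    rw [← lintegral_const_mul _ hf, ← lintegral_indicator mS']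
    refine lintegral_congr fun t => ?_
    by_cases h : t' ≤ t - η
    · rw [indicator_of_mem (by exact h), indicator_of_mem (by exact h), mul_comm]
    · rw [indicator_of_notMem (by exact h), indicator_of_notMem (by exact h)]
  rw [lintegral_congr h1, lintegral_congr h2]
  refine lintegral_lintegral_swap ?_
  have : Measurable fun p : ℝ × ℝ => f p.1 * g p.2 := (hf.comp measurable_fst).mul (hg.comp measurable_snd)
  exact (this.indicator mS).aemeasurable

namespace RD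

variable {L : E3 → ℝ → E4} {b : E4 → E3} {τ : E4 → ℝ}

theorem mLb (R : RD L b τ) {Q : E4 → ℝ≥0∞} (hQ : Measurable Q) : Measurable fun p : E4 × ℝ => Q (L (b p.1) p.2) :=
  hQ.comp (R.mL.comp ((R.mb.comp measurable_fst).prodMk measurable_snd))

theorem mL1 (R : RD L b τ) {Q : E4 → ℝ≥0∞} (hQ : Measurable Q) (y : E3) : Measurable fun t : ℝ => Q (L y t) :=
  hQ.comp (R.mL.comp measurable_prodMk_left)

theorem expand (R : RD L b τ) {ν : E3 → ℝ≥0∞} (hν : Measurable ν)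
    {P Q : E4 → ℝ≥0∞} (hP : Measurable P) (hQ : Measurable Q) (η : ℝ) :
    ∫⁻ z, P z * (ν (b z) * ∫⁻ t in {t : ℝ | t ≤ τ z - η}, Q (L (b z) t)) =
      ∫⁻ y, ν y * ∫⁻ t, P (L y t) * ∫⁻ t' in {t' : ℝ | t' ≤ t - η}, Q (L y t') := by
  have mS : MeasurableSet {p : E4 × ℝ | p.2 ≤ τ p.1 - η} :=
    measurableSet_le measurable_snd ((R.mτ.comp measurable_fst).sub_const η)
  have mI : Measurable fun z => ∫⁻ t in {t : ℝ | t ≤ τ z - η}, Q (L (b z) t) := meas_setL mS (R.mLb hQ)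
  have hfub := R.fub (fun z => P z * (ν (b z) * ∫⁻ t in {t : ℝ | t ≤ τ z - η}, Q (L (b z) t)))
    (hP.mul ((hν.comp R.mb).mul mI))
  rw [hfub]
  refine lintegral_congr fun y => ?_
  simp_rw [R.bL, R.τL]
  have mS' : MeasurableSet {p : ℝ × ℝ | p.2 ≤ p.1 - η} := measurableSet_le measurable_snd (measurable_fst.sub_const η)
  have mI' : Measurable fun t => ∫⁻ t' in {t' : ℝ | t' ≤ t - η}, Q (L y t') :=
    meas_setL mS' ((R.mL1 hQ y).comp measurable_snd)
  have h3 := lintegral_const_mul (μ := volume) (ν y) ((R.mL1 hP y).mul mI')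
  refine Eq.trans ?_ h3
  refine lintegral_congr fun t => ?_
  show _ = ν y * (P (L y t) * ∫⁻ t' in {t' : ℝ | t' ≤ t - η}, Q (L y t'))
  ring

theorem expand' (R : RD L b τ) {ν : E3 → ℝ≥0∞} (hν : Measurable ν)
    {P Q : E4 → ℝ≥0∞} (hP : Measurable P) (hQ : Measurable Q) (η : ℝ) :
    ∫⁻ z, Q z * (ν (b z) * ∫⁻ t in {t : ℝ | τ z ≤ t - η}, P (L (b z) t)) =
      ∫⁻ y, ν y * ∫⁻ t', Q (L y t') * ∫⁻ t in {t : ℝ | t' ≤ t - η}, P (L y t) := by
  have mS : MeasurableSet {p : E4 × ℝ | τ p.1 ≤ p.2 - η} :=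
    measurableSet_le (R.mτ.comp measurable_fst) (measurable_snd.sub_const η)
  have mI : Measurable fun z => ∫⁻ t in {t : ℝ | τ z ≤ t - η}, P (L (b z) t) := meas_setL mS (R.mLb hP)
  have hfub := R.fub (fun z => Q z * (ν (b z) * ∫⁻ t in {t : ℝ | τ z ≤ t - η}, P (L (b z) t)))
    (hQ.mul ((hν.comp R.mb).mul mI))
  rw [hfub]
  refine lintegral_congr fun y => ?_
  simp_rw [R.bL, R.τL]
  have mS' : MeasurableSet {p : ℝ × ℝ | p.1 ≤ p.2 - η} := measurableSet_le measurable_fst (measurable_snd.sub_const η)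
  have mI' : Measurable fun t' => ∫⁻ t in {t : ℝ | t' ≤ t - η}, P (L y t) :=
    meas_setL mS' ((R.mL1 hP y).comp measurable_snd)
  have h3 := lintegral_const_mul (μ := volume) (ν y) ((R.mL1 hQ y).mul mI')
  refine Eq.trans ?_ h3
  refine lintegral_congr fun t' => ?_
  show _ = ν y * (Q (L y t') * ∫⁻ t in {t : ℝ | t' ≤ t - η}, P (L y t))
  ring

/-- exchange of the two points of a ray -/
theorem swap (R : RD L b τ) {ν : E3 → ℝ≥0∞} (hν : Measurable ν)
    {P Q : E4 → ℝ≥0∞} (hP : Measurable P) (hQ : Measurable Q) (η : ℝ) :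
    ∫⁻ z, P z * (ν (b z) * ∫⁻ t in {t : ℝ | t ≤ τ z - η}, Q (L (b z) t)) =
      ∫⁻ z, Q z * (ν (b z) * ∫⁻ t in {t : ℝ | τ z ≤ t - η}, P (L (b z) t)) := by
  rw [R.expand hν hP hQ, R.expand' hν hP hQ]
  refine lintegral_congr fun y => ?_
  congr 1
  exact pair_swap (R.mL1 hP y) (R.mL1 hQ y) η

/-- integral of a transported density -/
theorem trans (R : RD L b τ) {ν : E3 → ℝ≥0∞} (hν : Measurable ν) {P : E4 → ℝ≥0∞} (hP : Measurable P) :
    ∫⁻ z, ν (b z) * P z = ∫⁻ y, ν y * ∫⁻ t, P (L y t) := by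
  have hfub := R.fub (fun z => ν (b z) * P z) ((hν.comp R.mb).mul hP)
  rw [hfub]
  refine lintegral_congr fun y => ?_
  simp_rw [R.bL]
  rw [lintegral_const_mul _ (R.mL1 hP y)]

end RD

/-- number of pairs at distance at least `η` in a set of times -/
theorem pairs {A : Set ℝ} (mA : MeasurableSet A) (hA : volume A ≠ ⊤) {e : ℝ} (he : 0 ≤ e) :
    ENNReal.ofReal (e / 8) * volume A ≤
      (∫⁻ t in A, volume {t' : ℝ | t' ∈ A ∧ t' ≤ t - e / 8}) + ENNReal.ofReal (e ^ 2 / 16) := by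
  set f : ℝ → ℝ≥0∞ := A.indicator (fun _ => (1 : ℝ≥0∞)) with hf
  have mf : Measurable f := measurable_const.indicator mA
  have q1 : ∀ t, ∫⁻ t' in {t' : ℝ | t' ≤ t - e / 8}, f t' = volume {t' : ℝ | t' ∈ A ∧ t' ≤ t - e / 8} := by
    intro t
    rw [hf, lintegral_indicator mA, setLIntegral_const, one_mul, Measure.restrict_apply mA]
    rfl
  have q2 : ∀ t, ∫⁻ t' in {t' : ℝ | t ≤ t' - e / 8}, f t' = volume {t' : ℝ | t' ∈ A ∧ t ≤ t' - e / 8} := by
    intro t
    rw [hf, lintegral_indicator mA, setLIntegral_const, one_mul, Measure.restrict_apply mA]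
    rfl
  have q3 : ∀ g : ℝ → ℝ≥0∞, ∫⁻ t, f t * g t = ∫⁻ t in A, g t := by
    intro g
    rw [← lintegral_indicator mA]
    refine lintegral_congr fun t => ?_
    by_cases h : t ∈ A
    · rw [hf, indicator_of_mem h, indicator_of_mem h, one_mul]
    · rw [hf, indicator_of_notMem h, indicator_of_notMem h, zero_mul]
  have hsw := pair_swap mf mf (e / 8)
  rw [q3, q3] at hsw
  simp_rw [q1, q2] at hsw
  set X := ∫⁻ t in A, volume {t' : ℝ | t' ∈ A ∧ t' ≤ t - e / 8} with hX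
  have h1 : ∀ t, volume A ≤ volume {t' : ℝ | t' ∈ A ∧ t' ≤ t - e / 8} + volume {t' : ℝ | t' ∈ A ∧ t ≤ t' - e / 8} +
      ENNReal.ofReal (e / 4) := by
    intro t
    have hsub : A ⊆ ({t' : ℝ | t' ∈ A ∧ t' ≤ t - e / 8} ∪ {t' : ℝ | t' ∈ A ∧ t ≤ t' - e / 8}) ∪ Icc (t - e / 8) (t + e / 8) := by
      intro t' ht'
      by_cases c1 : t' ≤ t - e / 8
      · exact Or.inl (Or.inl ⟨ht', c1⟩)
      · by_cases c2 : t ≤ t' - e / 8
        · exact Or.inl (Or.inr ⟨ht', c2⟩)
        · exact Or.inr ⟨by linarith, by linarith⟩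
    refine (measure_mono hsub).trans ((measure_union_le _ _).trans ?_)
    refine add_le_add (measure_union_le _ _) (le_of_eq ?_)
    rw [Real.volume_Icc]; congr 1; ring
  have h2 : volume A * volume A ≤ X + X + ENNReal.ofReal (e / 4) * volume A := by
    calc volume A * volume A = ∫⁻ t in A, volume A := (setLIntegral_const _ _).symm
      _ ≤ ∫⁻ t in A, (volume {t' : ℝ | t' ∈ A ∧ t' ≤ t - e / 8} + volume {t' : ℝ | t' ∈ A ∧ t ≤ t' - e / 8} +
          ENNReal.ofReal (e / 4)) := lintegral_mono fun t => h1 t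
      _ = X + X + ENNReal.ofReal (e / 4) * volume A := by
          have mS1 : MeasurableSet {p : ℝ × ℝ | p.2 ∈ A ∧ p.2 ≤ p.1 - e / 8} :=
            mand (mA.preimage measurable_snd) (measurableSet_le measurable_snd (measurable_fst.sub_const _))
          have mD1 : Measurable fun t : ℝ => volume {t' : ℝ | t' ∈ A ∧ t' ≤ t - e / 8} := measurable_measure_prodMk_left mS1
          rw [lintegral_add_right _ measurable_const, lintegral_add_left mD1, setLIntegral_const, ← hsw]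
  have hXf : X ≠ ⊤ := by
    have : X ≤ volume A * volume A := by
      calc X ≤ ∫⁻ t in A, volume A := lintegral_mono fun t => measure_mono fun t' h => h.1
        _ = _ := setLIntegral_const _ _
    exact ne_top_of_le_ne_top (ENNReal.mul_ne_top hA hA) this
  lift X to NNReal using hXf with x hx
  lift volume A to NNReal using hA with a ha
  have h3 : (a:ℝ) * a ≤ x + x + e / 4 * a := by
    have e1 : ENNReal.ofReal (e / 4) * (a : ℝ≥0∞) = ENNReal.ofReal (e / 4 * a) := by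
      rw [ENNReal.ofReal_mul (by positivity), ENNReal.ofReal_coe_nnreal]
    rw [e1] at h2
    have e2 : (a : ℝ≥0∞) * a = ENNReal.ofReal ((a:ℝ) * a) := by
      rw [ENNReal.ofReal_mul a.coe_nonneg, ENNReal.ofReal_coe_nnreal]
    have e3 : (x : ℝ≥0∞) + x + ENNReal.ofReal (e / 4 * a) = ENNReal.ofReal ((x:ℝ) + x + e / 4 * a) := by
      rw [ENNReal.ofReal_add (by positivity) (by positivity), ENNReal.ofReal_add (by positivity) (by positivity),
        ENNReal.ofReal_coe_nnreal]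
    rw [e2, e3] at h2
    exact (ENNReal.ofReal_le_ofReal_iff (by positivity)).1 h2
  have e4 : ENNReal.ofReal (e / 8) * (a : ℝ≥0∞) = ENNReal.ofReal (e / 8 * a) := by
    rw [ENNReal.ofReal_mul (by positivity), ENNReal.ofReal_coe_nnreal]
  have e5 : (x : ℝ≥0∞) + ENNReal.ofReal (e ^ 2 / 16) = ENNReal.ofReal ((x:ℝ) + e ^ 2 / 16) := by
    rw [ENNReal.ofReal_add x.coe_nonneg (by positivity), ENNReal.ofReal_coe_nnreal]
  rw [e4, e5]
  refine ENNReal.ofReal_le_ofReal ?_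
  nlinarith [sq_nonneg ((a:ℝ) - e / 4), sq_nonneg e]

end Vale.Agent.P106.G
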