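import Vale.Agent.P106.G.GeG

/-! # The two-point correlation -/

open MeasureTheory Set
open scoped ENNReal

set_option linter.all false

namespace Vale.Agent.P106.G

/-- rays of the cap `k` -/
noncomputable def lk (H : Hyp) (N : ℕ) (k : ℤ × ℤ) : E3 → ℝ → E4 := ln H ((k.1:ℝ) / N) ((k.2:ℝ) / N)
noncomputable def bkk (H : Hyp) (N : ℕ) (k : ℤ × ℤ) : E4 → E3 := H.bp ((k.1:ℝ) / N) ((k.2:ℝ) / N)

theorem rdk {H : Hyp} (hH : H.ok) {N : ℕ} {k : ℤ × ℤ} (hk : 0 ≤ (k.1:ℝ) / N ∧ 0 ≤ (k.2:ℝ) / N) :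
    RD (lk H N k) (bkk H N k) H.tm := by
  have := Hyp.m_ge hH hk.1 hk.2
  exact rd (by linarith)

theorem grd_pos {N : ℕ} {k : ℤ × ℤ} (hk : k ∈ grd N) : 0 ≤ (k.1:ℝ) / N ∧ 0 ≤ (k.2:ℝ) / N := by
  unfold grd at hk
  rw [Finset.mem_product, Finset.mem_Ico, Finset.mem_Ico] at hk
  obtain ⟨⟨h1, h2⟩, ⟨h3, h4⟩⟩ := hk
  have h1' : (0:ℝ) ≤ k.1 := by exact_mod_cast h1
  have h3' : (0:ℝ) ≤ k.2 := by exact_mod_cast h3
  exact ⟨by positivity, by positivity⟩

theorem mW {H : Hyp} (hH : H.ok) {N : ℕ} {ν : ℤ × ℤ → E3 → ℝ≥0∞} (hν : ∀ k, Measurable (ν k)) : Measurable (H.W N ν) := by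
  unfold Hyp.W
  exact Finset.measurable_sum _ fun k hk => (hν k).comp (rdk hH (grd_pos hk)).mb

/-- integral of the transported density over a set -/
theorem int_W {H : Hyp} (hH : H.ok) {N : ℕ} {ν : ℤ × ℤ → E3 → ℝ≥0∞} (hν : ∀ k, Measurable (ν k)) {X : Set E4}
    (mX : MeasurableSet X) : ∫⁻ z in X, H.W N ν z = ∑ k ∈ grd N, ∫⁻ y, ν k y * volume {t : ℝ | lk H N k y t ∈ X} := by
  unfold Hyp.W
  have mm : ∀ k ∈ grd N, Measurable fun z : E4 => ν k (H.bp ((k.1:ℝ) / N) ((k.2:ℝ) / N) z) := fun k hk =>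
    (hν k).comp (rdk hH (grd_pos hk)).mb
  rw [lintegral_finset_sum' _ (fun k hk => (mm k hk).aemeasurable)]
  refine Finset.sum_congr rfl fun k hk => ?_
  have R := rdk hH (grd_pos hk)
  have h := R.trans (hν k) (measurable_const.indicator mX : Measurable (X.indicator fun _ => (1 : ℝ≥0∞)))
  have e1 : ∫⁻ z in X, ν k (H.bp ((k.1:ℝ) / N) ((k.2:ℝ) / N) z) =
      ∫⁻ z, ν k (bkk H N k z) * X.indicator (fun _ => (1 : ℝ≥0∞)) z := by
    rw [← lintegral_indicator mX]
    refine lintegral_congr fun z => ?_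
    by_cases hz : z ∈ X
    · rw [indicator_of_mem hz, indicator_of_mem hz, mul_one]; rfl
    · rw [indicator_of_notMem hz, indicator_of_notMem hz, mul_zero]
  rw [e1, h]
  refine lintegral_congr fun y => ?_
  congr 1
  have mA : MeasurableSet {t : ℝ | lk H N k y t ∈ X} := mX.preimage (R.mL.comp measurable_prodMk_left)
  rw [← lintegral_indicator_one mA]
  rfl

theorem T1 {H : Hyp} (hH : H.ok) {N : ℕ} {ν1 ν2 : ℤ × ℤ → E3 → ℝ≥0∞} (hν1 : ∀ k, Measurable (ν1 k))
    (hν2 : ∀ k, Measurable (ν2 k)) (hE : Eng N ν1 < ⊤) {X : Set E4} (mX : MeasurableSet X) {T0 : ℝ} (hT : 1 ≤ T0)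
    (hX : ∀ z ∈ X, 1 ≤ H.tm z ∧ H.tm z ≤ T0) {μ1 μ2 e1 e2 : ℝ} (hμ1 : 0 < μ1) (hμ2 : 0 ≤ μ2) (he1 : 0 ≤ e1) (he2 : 0 ≤ e2)
    (hW1 : ∀ z ∈ X, ENNReal.ofReal μ1 ≤ H.W N ν1 z) (hW2 : ∀ z ∈ X, ENNReal.ofReal μ2 ≤ H.W N ν2 z)
    (h1 : ENNReal.ofReal e1 * Eng N ν1 ≤ ENNReal.ofReal μ1 * volume X)
    (h2 : ENNReal.ofReal e2 * Eng N ν2 ≤ ENNReal.ofReal μ2 * volume X) :
    ENNReal.ofReal (e1 * e2 / 16 * (μ1 * μ2)) * Eng N ν2 ≤
      ∑ k ∈ grd N, ∫⁻ z, X.indicator (H.W N ν2) z *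
        (ν1 k (bkk H N k z) * ∫⁻ t in {t : ℝ | t ≤ H.tm z - e1 / 8}, X.indicator (H.W N ν2) (lk H N k (bkk H N k z) t)) := by
  have mW2 : Measurable (X.indicator (H.W N ν2)) := (mW hH hν2).indicator mX
  set A : ℤ × ℤ → E3 → Set ℝ := fun k y => {t : ℝ | lk H N k y t ∈ X} with hA
  have mA : ∀ k ∈ grd N, ∀ y, MeasurableSet (A k y) := fun k hk y =>
    mX.preimage ((rdk hH (grd_pos hk)).mL.comp measurable_prodMk_left)
  have Asub : ∀ k ∈ grd N, ∀ y, A k y ⊆ Icc 1 T0 := by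
    intro k hk y t ht
    have := hX _ ht
    rw [(rdk hH (grd_pos hk)).τL] at this
    exact this
  have Avol : ∀ k ∈ grd N, ∀ y, volume (A k y) ≤ ENNReal.ofReal T0 := by
    intro k hk y
    refine (measure_mono (Asub k hk y)).trans ?_
    rw [Real.volume_Icc]
    exact ENNReal.ofReal_le_ofReal (by linarith)
  have mvol : ∀ k ∈ grd N, Measurable fun y => volume (A k y) := by
    intro k hk
    exact measurable_measure_prodMk_left (mX.preimage (rdk hH (grd_pos hk)).mL)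
  -- the pairs
  set pr : ℤ × ℤ → E3 → ℝ≥0∞ := fun k y => ∫⁻ t in A k y, volume {t' : ℝ | t' ∈ A k y ∧ t' ≤ t - e1 / 8} with hpr
  have mpr : ∀ k ∈ grd N, Measurable (pr k) := by
    intro k hk
    have R := rdk hH (grd_pos hk)
    have mS : MeasurableSet {p : E3 × ℝ | lk H N k p.1 p.2 ∈ X} := mX.preimage R.mL
    have mS2 : MeasurableSet {p : (E3 × ℝ) × ℝ | lk H N k p.1.1 p.2 ∈ X ∧ p.2 ≤ p.1.2 - e1 / 8} := by
      refine mand (mX.preimage (R.mL.comp ((measurable_fst.comp measurable_fst).prodMk measurable_snd))) ?_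
      exact measurableSet_le measurable_snd ((measurable_snd.comp measurable_fst).sub_const _)
    have mG : Measurable fun p : E3 × ℝ => volume {t' : ℝ | lk H N k p.1 t' ∈ X ∧ t' ≤ p.2 - e1 / 8} :=
      measurable_measure_prodMk_left mS2
    exact meas_setL mS mG
  have k1 : ∀ k ∈ grd N, ENNReal.ofReal (μ2 ^ 2) * ∫⁻ y, ν1 k y * pr k y ≤
      ∫⁻ z, X.indicator (H.W N ν2) z *
        (ν1 k (bkk H N k z) * ∫⁻ t in {t : ℝ | t ≤ H.tm z - e1 / 8}, X.indicator (H.W N ν2) (lk H N k (bkk H N k z) t)) := by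
    intro k hk
    have R := rdk hH (grd_pos hk)
    have mp1 : Measurable fun y => ν1 k y * pr k y := (hν1 k).mul (mpr k hk)
    rw [R.expand (hν1 k) mW2 mW2, ← lintegral_const_mul _ mp1]
    refine lintegral_mono fun y => ?_
    have low : ∀ t ∈ A k y, ENNReal.ofReal μ2 ≤ X.indicator (H.W N ν2) (lk H N k y t) := by
      intro t ht
      rw [indicator_of_mem (show lk H N k y t ∈ X from ht)]; exact hW2 _ ht
    have in1 : ∀ t, ENNReal.ofReal μ2 * volume {t' : ℝ | t' ∈ A k y ∧ t' ≤ t - e1 / 8} ≤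
        ∫⁻ t' in {t' : ℝ | t' ≤ t - e1 / 8}, X.indicator (H.W N ν2) (lk H N k y t') := by
      intro t
      have ms : MeasurableSet {t' : ℝ | t' ≤ t - e1 / 8} := measurableSet_le measurable_id measurable_const
      calc ENNReal.ofReal μ2 * volume {t' : ℝ | t' ∈ A k y ∧ t' ≤ t - e1 / 8}
          = ∫⁻ t' in {t' : ℝ | t' ≤ t - e1 / 8}, (A k y).indicator (fun _ => ENNReal.ofReal μ2) t' := by
            rw [lintegral_indicator (mA k hk y), setLIntegral_const, Measure.restrict_apply (mA k hk y)]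
            rfl
        _ ≤ _ := by
            refine lintegral_mono fun t' => ?_
            by_cases ht : t' ∈ A k y
            · rw [indicator_of_mem ht]; exact low t' ht
            · rw [indicator_of_notMem ht]; exact bot_le
    calc ENNReal.ofReal (μ2 ^ 2) * (ν1 k y * pr k y) = ν1 k y * (ENNReal.ofReal (μ2 ^ 2) * pr k y) := by ring
      _ ≤ _ := by
          refine mul_le_mul' le_rfl ?_
          rw [hpr]
          simp only
          have mS1 : MeasurableSet {p : ℝ × ℝ | p.2 ∈ A k y ∧ p.2 ≤ p.1 - e1 / 8} :=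
            mand ((mA k hk y).preimage measurable_snd) (measurableSet_le measurable_snd (measurable_fst.sub_const _))
          have mD1 : Measurable fun t : ℝ => volume {t' : ℝ | t' ∈ A k y ∧ t' ≤ t - e1 / 8} := measurable_measure_prodMk_left mS1
          rw [← lintegral_const_mul _ mD1, ← lintegral_indicator (mA k hk y)]
          refine lintegral_mono fun t => ?_
          by_cases ht : t ∈ A k y
          · rw [indicator_of_mem ht, pow_two, ENNReal.ofReal_mul hμ2, mul_assoc]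
            exact mul_le_mul' (low t ht) (in1 t)
          · rw [indicator_of_notMem ht]; exact bot_le
  set S := ∑ k ∈ grd N, ∫⁻ y, ν1 k y * pr k y with hS
  have k2 : ENNReal.ofReal (e1 / 8) * ∑ k ∈ grd N, ∫⁻ y, ν1 k y * volume (A k y) ≤
      S + ENNReal.ofReal (e1 ^ 2 / 16) * Eng N ν1 := by
    unfold Eng
    rw [hS, Finset.mul_sum, Finset.mul_sum, ← Finset.sum_add_distrib]
    refine Finset.sum_le_sum fun k hk => ?_
    have mp1 : Measurable fun y => ν1 k y * pr k y := (hν1 k).mul (mpr k hk)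
    have mp2 : Measurable fun y => ν1 k y * volume (A k y) := (hν1 k).mul (mvol k hk)
    rw [← lintegral_const_mul _ mp2, ← lintegral_const_mul _ (hν1 k), ← lintegral_add_left mp1]
    refine lintegral_mono fun y => ?_
    have hp := pairs (mA k hk y) (ne_top_of_le_ne_top ENNReal.ofReal_ne_top (Avol k hk y)) he1
    calc ENNReal.ofReal (e1 / 8) * (ν1 k y * volume (A k y)) = ν1 k y * (ENNReal.ofReal (e1 / 8) * volume (A k y)) := by ring
      _ ≤ ν1 k y * (pr k y + ENNReal.ofReal (e1 ^ 2 / 16)) := mul_le_mul' le_rfl hp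
      _ = _ := by ring
  have k3 : ENNReal.ofReal μ1 * volume X ≤ ∑ k ∈ grd N, ∫⁻ y, ν1 k y * volume (A k y) := by
    have e := int_W hH (N := N) hν1 mX
    rw [hA]
    simp only
    rw [← e, ← setLIntegral_const]
    exact setLIntegral_mono' mX hW1
  have k4 : ENNReal.ofReal μ1 * volume X ≠ ⊤ := by
    refine ne_top_of_le_ne_top (b := ENNReal.ofReal T0 * Eng N ν1) (ENNReal.mul_ne_top ENNReal.ofReal_ne_top hE.ne) (k3.trans ?_)
    unfold Eng
    rw [Finset.mul_sum]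
    refine Finset.sum_le_sum fun k hk => ?_
    rw [← lintegral_const_mul _ (hν1 k)]
    refine lintegral_mono fun y => ?_
    rw [mul_comm]
    exact mul_le_mul' (Avol k hk y) le_rfl
  have k5 : ENNReal.ofReal (e1 / 16) * (ENNReal.ofReal μ1 * volume X) ≤ S := by
    have a1 : ENNReal.ofReal (e1 / 8) * (ENNReal.ofReal μ1 * volume X) ≤
        S + ENNReal.ofReal (e1 / 16) * (ENNReal.ofReal μ1 * volume X) := by
      refine (mul_le_mul' le_rfl k3).trans (k2.trans (add_le_add le_rfl ?_))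
      have e : ENNReal.ofReal (e1 ^ 2 / 16) = ENNReal.ofReal (e1 / 16) * ENNReal.ofReal e1 := by
        rw [← ENNReal.ofReal_mul (by positivity)]; congr 1; ring
      rw [e, mul_assoc]
      exact mul_le_mul' le_rfl h1
    have e : ENNReal.ofReal (e1 / 8) = ENNReal.ofReal (e1 / 16) + ENNReal.ofReal (e1 / 16) := by
      rw [← ENNReal.ofReal_add (by positivity) (by positivity)]; congr 1; ring
    rw [e, add_mul] at a1
    exact ENNReal.le_of_add_le_add_right (ENNReal.mul_ne_top ENNReal.ofReal_ne_top k4) a1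
  calc ENNReal.ofReal (e1 * e2 / 16 * (μ1 * μ2)) * Eng N ν2
      = ENNReal.ofReal (e1 / 16 * μ1 * μ2) * (ENNReal.ofReal e2 * Eng N ν2) := by
        rw [← mul_assoc (ENNReal.ofReal (e1 / 16 * μ1 * μ2)), ← ENNReal.ofReal_mul (by positivity)]; congr 2; ring
    _ ≤ ENNReal.ofReal (e1 / 16 * μ1 * μ2) * (ENNReal.ofReal μ2 * volume X) := mul_le_mul' le_rfl h2
    _ = ENNReal.ofReal (μ2 ^ 2) * (ENNReal.ofReal (e1 / 16) * (ENNReal.ofReal μ1 * volume X)) := by
        have q1 : ENNReal.ofReal (e1 / 16 * μ1 * μ2) * ENNReal.ofReal μ2 =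
            ENNReal.ofReal (μ2 ^ 2) * ENNReal.ofReal (e1 / 16) * ENNReal.ofReal μ1 := by
          rw [← ENNReal.ofReal_mul (by positivity), ← ENNReal.ofReal_mul (by positivity), ← ENNReal.ofReal_mul (by positivity)]
          congr 1; ring
        calc ENNReal.ofReal (e1 / 16 * μ1 * μ2) * (ENNReal.ofReal μ2 * volume X)
            = (ENNReal.ofReal (e1 / 16 * μ1 * μ2) * ENNReal.ofReal μ2) * volume X := (mul_assoc _ _ _).symm
          _ = (ENNReal.ofReal (μ2 ^ 2) * ENNReal.ofReal (e1 / 16) * ENNReal.ofReal μ1) * volume X := by rw [q1]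
          _ = _ := by ring
    _ ≤ ENNReal.ofReal (μ2 ^ 2) * S := mul_le_mul' le_rfl k5
    _ ≤ _ := by
        rw [hS, Finset.mul_sum]
        exact Finset.sum_le_sum k1

end Vale.Agent.P106.G
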