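import Vale.Agent.P106.G.GeH

/-! # Selection of a tube and exchange of the roles -/

open MeasureTheory Set
open scoped ENNReal

set_option linter.all false

namespace Vale.Agent.P106.G

theorem vol_ballG {d : ℝ} (hd : 0 ≤ d) (y : E3) : ENNReal.ofReal (d ^ 3) ≤ volume (Metric.closedBall y d) ∧
    volume (Metric.closedBall y d) ≠ ⊤ := by
  refine ⟨?_, measure_closedBall_lt_top.ne⟩
  rw [EuclideanSpace.volume_closedBall_fin_three]
  rw [← ENNReal.ofReal_pow hd]
  rw [← ENNReal.ofReal_mul (by positivity)]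
  refine ENNReal.ofReal_le_ofReal ?_
  have := Real.pi_gt_three
  have h : 0 ≤ d ^ 3 := by positivity
  nlinarith

theorem avg {N : ℕ} {C1 d lam : ℝ} {ν : ℤ × ℤ → E3 → ℝ≥0∞} (mν : ∀ k, Measurable (ν k))
    (hs : ∀ k y y', ‖y - y'‖ ≤ d → ν k y ≤ ENNReal.ofReal C1 * ν k y') (hd : 0 < d)
    {Θ : ℤ × ℤ → E3 → ℝ≥0∞} (mΘ : ∀ k ∈ grd N, Measurable (Θ k)) (hE : Eng N ν ≠ ⊤) (hE0 : Eng N ν ≠ 0) (hlam : 0 < lam)
    (h : ENNReal.ofReal lam * Eng N ν ≤ ∑ k ∈ grd N, ∫⁻ y, ν k y * Θ k y) :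
    ∃ k ∈ grd N, ∃ y0, ν k y0 ≠ 0 ∧
      ENNReal.ofReal (lam / 2 * d ^ 3) ≤ ENNReal.ofReal C1 * ∫⁻ y in Metric.closedBall y0 d, Θ k y := by
  by_contra hcon
  push Not at hcon
  have mB : MeasurableSet {p : E3 × E3 | ‖p.1 - p.2‖ ≤ d} := measurableSet_le (by fun_prop) measurable_const
  set κ : E3 × E3 → ℝ≥0∞ := ({p : E3 × E3 | ‖p.1 - p.2‖ ≤ d}).indicator (fun _ => (1 : ℝ≥0∞)) with hκ
  have mκ : Measurable κ := measurable_const.indicator mB
  have ball : ∀ (y : E3) (f : E3 → ℝ≥0∞), ∫⁻ y' in Metric.closedBall y d, f y' = ∫⁻ y', κ (y, y') * f y' := by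
    intro y f
    rw [← lintegral_indicator measurableSet_closedBall]
    refine lintegral_congr fun y' => ?_
    by_cases hy : y' ∈ Metric.closedBall y d
    · have : (y, y') ∈ {p : E3 × E3 | ‖p.1 - p.2‖ ≤ d} := by
        rw [Metric.mem_closedBall, dist_comm, dist_eq_norm] at hy; exact hy
      rw [indicator_of_mem hy, hκ, indicator_of_mem this, one_mul]
    · have : (y, y') ∉ {p : E3 × E3 | ‖p.1 - p.2‖ ≤ d} := by
        intro hc; apply hy
        rw [Metric.mem_closedBall, dist_comm, dist_eq_norm]; exact hc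
      rw [indicator_of_notMem hy, hκ, indicator_of_notMem this, zero_mul]
  have sym : ∀ y y', κ (y, y') = κ (y', y) := by
    intro y y'
    by_cases hy : (y, y') ∈ {p : E3 × E3 | ‖p.1 - p.2‖ ≤ d}
    · have : (y', y) ∈ {p : E3 × E3 | ‖p.1 - p.2‖ ≤ d} := by
        have h1 : ‖y - y'‖ ≤ d := hy
        rw [norm_sub_rev] at h1; exact h1
      rw [hκ, indicator_of_mem hy, indicator_of_mem this]
    · have : (y', y) ∉ {p : E3 × E3 | ‖p.1 - p.2‖ ≤ d} := by
        intro hc; apply hy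
        have h1 : ‖y' - y‖ ≤ d := hc
        rw [norm_sub_rev] at h1; exact h1
      rw [hκ, indicator_of_notMem hy, indicator_of_notMem this]
  have step : ∀ k ∈ grd N, ENNReal.ofReal (d ^ 3) * ∫⁻ y, ν k y * Θ k y ≤ ENNReal.ofReal (lam / 2 * d ^ 3) * ∫⁻ y, ν k y := by
    intro k hk
    have m1 : Measurable fun y => ν k y * Θ k y := (mν k).mul (mΘ k hk)
    have m2 : ∀ y, Measurable fun y' => κ (y, y') * (ENNReal.ofReal C1 * ν k y') := fun y =>
      (mκ.comp measurable_prodMk_left).mul ((mν k).const_mul _)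
    have m3 : Measurable fun p : E3 × E3 => Θ k p.1 * (κ (p.1, p.2) * (ENNReal.ofReal C1 * ν k p.2)) :=
      ((mΘ k hk).comp measurable_fst).mul (mκ.mul (((mν k).comp measurable_snd).const_mul _))
    calc ENNReal.ofReal (d ^ 3) * ∫⁻ y, ν k y * Θ k y = ∫⁻ y, ENNReal.ofReal (d ^ 3) * (ν k y * Θ k y) :=
          (lintegral_const_mul _ m1).symm
      _ ≤ ∫⁻ y, ∫⁻ y', Θ k y * (κ (y, y') * (ENNReal.ofReal C1 * ν k y')) := by
          refine lintegral_mono fun y => ?_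
          rw [lintegral_const_mul _ (m2 y), ← ball y (fun y' => ENNReal.ofReal C1 * ν k y')]
          calc ENNReal.ofReal (d ^ 3) * (ν k y * Θ k y) = Θ k y * (ν k y * ENNReal.ofReal (d ^ 3)) := by ring
            _ ≤ Θ k y * (ν k y * volume (Metric.closedBall y d)) :=
                mul_le_mul' le_rfl (mul_le_mul' le_rfl (vol_ballG hd.le y).1)
            _ ≤ _ := by
                refine mul_le_mul' le_rfl ?_
                rw [← setLIntegral_const]
                refine setLIntegral_mono' measurableSet_closedBall fun y' hy' => hs k y y' ?_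
                rw [Metric.mem_closedBall, dist_comm, dist_eq_norm] at hy'; exact hy'
      _ = ∫⁻ y', ∫⁻ y, Θ k y * (κ (y, y') * (ENNReal.ofReal C1 * ν k y')) :=
          lintegral_lintegral_swap m3.aemeasurable
      _ ≤ ∫⁻ y', ENNReal.ofReal (lam / 2 * d ^ 3) * ν k y' := by
          refine lintegral_mono fun y' => ?_
          have e : ∀ y, Θ k y * (κ (y, y') * (ENNReal.ofReal C1 * ν k y')) =
              (ENNReal.ofReal C1 * ν k y') * (κ (y', y) * Θ k y) := by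
            intro y; rw [sym y y']; ring
          have m4 : Measurable fun y => κ (y', y) * Θ k y := (mκ.comp measurable_prodMk_left).mul (mΘ k hk)
          rw [lintegral_congr e, lintegral_const_mul _ m4, ← ball y' (Θ k)]
          by_cases h0 : ν k y' = 0
          · rw [h0, mul_zero, zero_mul, mul_zero]
          · have h5 := (hcon k hk y' h0).le
            calc ENNReal.ofReal C1 * ν k y' * ∫⁻ y in Metric.closedBall y' d, Θ k y
                = (ENNReal.ofReal C1 * ∫⁻ y in Metric.closedBall y' d, Θ k y) * ν k y' := by ring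
              _ ≤ ENNReal.ofReal (lam / 2 * d ^ 3) * ν k y' := mul_le_mul' h5 le_rfl
      _ = _ := lintegral_const_mul _ (mν k)
  have tot : ENNReal.ofReal (d ^ 3) * (ENNReal.ofReal lam * Eng N ν) ≤ ENNReal.ofReal (lam / 2 * d ^ 3) * Eng N ν := by
    refine (mul_le_mul' le_rfl h).trans ?_
    unfold Eng
    rw [Finset.mul_sum, Finset.mul_sum]
    exact Finset.sum_le_sum step
  rw [← mul_assoc, ← ENNReal.ofReal_mul (by positivity)] at tot
  have h6 := (ENNReal.mul_le_mul_iff_left hE0 hE).1 tot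
  rw [ENNReal.ofReal_le_ofReal_iff (by positivity)] at h6
  have : 0 < lam * d ^ 3 := by positivity
  nlinarith

/-- functions of the first point -/
noncomputable def GG (H : Hyp) (N : ℕ) (ν1 ν2 : ℤ × ℤ → E3 → ℝ≥0∞) (X : Set E4) (η : ℝ) (z : E4) : ℝ≥0∞ :=
  ∑ k ∈ grd N, ν1 k (bkk H N k z) * ∫⁻ t in {t : ℝ | t ≤ H.tm z - η}, X.indicator (H.W N ν2) (lk H N k (bkk H N k z) t)

noncomputable def RR (H : Hyp) (N : ℕ) (ν1 : ℤ × ℤ → E3 → ℝ≥0∞) (Y : Set E4) (η : ℝ) (z : E4) : ℝ≥0∞ :=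
  ∑ k ∈ grd N, ν1 k (bkk H N k z) * volume {t : ℝ | H.tm z ≤ t - η ∧ lk H N k (bkk H N k z) t ∈ Y}

variable {H : Hyp} {N : ℕ} {ν1 ν2 : ℤ × ℤ → E3 → ℝ≥0∞} {X Y : Set E4} {η : ℝ}

theorem mGGk (hH : H.ok) (hν1 : ∀ k, Measurable (ν1 k)) {Q : E4 → ℝ≥0∞} (mQ : Measurable Q) {k : ℤ × ℤ} (hk : k ∈ grd N) :
    Measurable fun z => ν1 k (bkk H N k z) * ∫⁻ t in {t : ℝ | t ≤ H.tm z - η}, Q (lk H N k (bkk H N k z) t) := by
  have R := rdk hH (grd_pos hk)
  have mS : MeasurableSet {p : E4 × ℝ | p.2 ≤ H.tm p.1 - η} :=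
    measurableSet_le measurable_snd ((R.mτ.comp measurable_fst).sub_const η)
  exact ((hν1 k).comp R.mb).mul (meas_setL mS (R.mLb mQ))

theorem mGG (hH : H.ok) (hν1 : ∀ k, Measurable (ν1 k)) (hν2 : ∀ k, Measurable (ν2 k)) (mX : MeasurableSet X) :
    Measurable (GG H N ν1 ν2 X η) := by
  unfold GG
  exact Finset.measurable_sum _ fun k hk => mGGk hH hν1 ((mW hH hν2).indicator mX) hk

theorem mRRk (hH : H.ok) (hν1 : ∀ k, Measurable (ν1 k)) (mY : MeasurableSet Y) {k : ℤ × ℤ} (hk : k ∈ grd N) :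
    Measurable fun z => ν1 k (bkk H N k z) * volume {t : ℝ | H.tm z ≤ t - η ∧ lk H N k (bkk H N k z) t ∈ Y} := by
  have R := rdk hH (grd_pos hk)
  have mS : MeasurableSet {p : E4 × ℝ | H.tm p.1 ≤ p.2 - η ∧ lk H N k (bkk H N k p.1) p.2 ∈ Y} := by
    refine mand (measurableSet_le (R.mτ.comp measurable_fst) (measurable_snd.sub_const η)) ?_
    exact mY.preimage (R.mL.comp ((R.mb.comp measurable_fst).prodMk measurable_snd))
  exact ((hν1 k).comp R.mb).mul (measurable_measure_prodMk_left mS)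

theorem mRR (hH : H.ok) (hν1 : ∀ k, Measurable (ν1 k)) (mY : MeasurableSet Y) : Measurable (RR H N ν1 Y η) := by
  unfold RR
  exact Finset.measurable_sum _ fun k hk => mRRk hH hν1 mY hk

/-- integral against a transported density -/
theorem int_WF (hH : H.ok) (hν2 : ∀ k, Measurable (ν2 k)) (mX : MeasurableSet X) {G : E4 → ℝ≥0∞} (mG : Measurable G) :
    ∫⁻ z, X.indicator (H.W N ν2) z * G z = ∑ k ∈ grd N, ∫⁻ y, ν2 k y * ∫⁻ t, X.indicator G (lk H N k y t) := by
  have e : ∀ z, X.indicator (H.W N ν2) z * G z = ∑ k ∈ grd N, ν2 k (bkk H N k z) * X.indicator G z := by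
    intro z
    by_cases hz : z ∈ X
    · rw [indicator_of_mem hz, indicator_of_mem hz, ← Finset.sum_mul]; rfl
    · rw [indicator_of_notMem hz, indicator_of_notMem hz]; simp
  rw [lintegral_congr e]
  have mm : ∀ k ∈ grd N, Measurable fun z : E4 => ν2 k (bkk H N k z) * X.indicator G z := fun k hk =>
    ((hν2 k).comp (rdk hH (grd_pos hk)).mb).mul (mG.indicator mX)
  rw [lintegral_finset_sum _ mm]
  refine Finset.sum_congr rfl fun k hk => ?_
  exact (rdk hH (grd_pos hk)).trans (hν2 k) (mG.indicator mX)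

theorem Phi_eq (hH : H.ok) (hν1 : ∀ k, Measurable (ν1 k)) (hν2 : ∀ k, Measurable (ν2 k)) (mX : MeasurableSet X) :
    ∑ k ∈ grd N, ∫⁻ z, X.indicator (H.W N ν2) z *
        (ν1 k (bkk H N k z) * ∫⁻ t in {t : ℝ | t ≤ H.tm z - η}, X.indicator (H.W N ν2) (lk H N k (bkk H N k z) t)) =
    ∑ k ∈ grd N, ∫⁻ y, ν2 k y * ∫⁻ t, X.indicator (GG H N ν1 ν2 X η) (lk H N k y t) := by
  rw [← int_WF hH hν2 mX (mGG hH hν1 hν2 mX)]
  have mI := (mW hH hν2 (N := N)).indicator mX
  have mm : ∀ k ∈ grd N, Measurable fun z : E4 => X.indicator (H.W N ν2) z *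
        (ν1 k (bkk H N k z) * ∫⁻ t in {t : ℝ | t ≤ H.tm z - η}, X.indicator (H.W N ν2) (lk H N k (bkk H N k z) t)) :=
    fun k hk => mI.mul (mGGk hH hν1 mI hk)
  rw [← lintegral_finset_sum _ mm]
  refine lintegral_congr fun z => ?_
  unfold GG
  rw [Finset.mul_sum]

/-- exchange of the roles of the two points -/
theorem T3 (hH : H.ok) (hν1 : ∀ k, Measurable (ν1 k)) (hν2 : ∀ k, Measurable (ν2 k)) (mX : MeasurableSet X) {ks : ℤ × ℤ}
    (hks : ks ∈ grd N) {B : Set E3} (mB : MeasurableSet B) :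
    ∫⁻ y in B, ∫⁻ t, X.indicator (GG H N ν1 ν2 X η) (lk H N ks y t) =
      ∑ k ∈ grd N, ∫⁻ y, ν2 k y * ∫⁻ t, X.indicator (RR H N ν1 {z | z ∈ X ∧ bkk H N ks z ∈ B} η) (lk H N k y t) := by
  have Rs := rdk hH (grd_pos hks)
  set Y : Set E4 := {z | z ∈ X ∧ bkk H N ks z ∈ B} with hY
  have mY : MeasurableSet Y := mand mX (mB.preimage Rs.mb)
  have mI := (mW hH hν2 (N := N)).indicator mX
  have mG := mGG hH hν1 hν2 mX (N := N) (η := η)
  have m1 : Measurable (B.indicator fun _ => (1 : ℝ≥0∞)) := measurable_const.indicator mB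
  have m2 : Measurable (Y.indicator fun _ => (1 : ℝ≥0∞)) := measurable_const.indicator mY
  have e1 : ∫⁻ y in B, ∫⁻ t, X.indicator (GG H N ν1 ν2 X η) (lk H N ks y t) =
      ∫⁻ z, Y.indicator (fun _ => (1 : ℝ≥0∞)) z * GG H N ν1 ν2 X η z := by
    have h := Rs.trans m1 (mG.indicator mX)
    have e2 : ∫⁻ y in B, ∫⁻ t, X.indicator (GG H N ν1 ν2 X η) (lk H N ks y t) =
        ∫⁻ y, B.indicator (fun _ => (1 : ℝ≥0∞)) y * ∫⁻ t, X.indicator (GG H N ν1 ν2 X η) (lk H N ks y t) := by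
      rw [← lintegral_indicator mB]
      refine lintegral_congr fun y => ?_
      by_cases hy : y ∈ B
      · rw [indicator_of_mem hy, indicator_of_mem hy, one_mul]
      · rw [indicator_of_notMem hy, indicator_of_notMem hy, zero_mul]
    rw [e2, ← h]
    refine lintegral_congr fun z => ?_
    by_cases hz : z ∈ X
    · by_cases hb : bkk H N ks z ∈ B
      · rw [indicator_of_mem hz, indicator_of_mem hb, indicator_of_mem (show z ∈ Y from ⟨hz, hb⟩)]
      · rw [indicator_of_notMem hb, indicator_of_notMem (show z ∉ Y from fun h => hb h.2), zero_mul, zero_mul]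
    · rw [indicator_of_notMem hz, indicator_of_notMem (show z ∉ Y from fun h => hz h.1), zero_mul, mul_zero]
  rw [e1, ← int_WF hH hν2 mX (mRR hH hν1 mY)]
  have mm : ∀ k ∈ grd N, Measurable fun z : E4 => Y.indicator (fun _ => (1 : ℝ≥0∞)) z *
        (ν1 k (bkk H N k z) * ∫⁻ t in {t : ℝ | t ≤ H.tm z - η}, X.indicator (H.W N ν2) (lk H N k (bkk H N k z) t)) :=
    fun k hk => m2.mul (mGGk hH hν1 mI hk)
  have mm2 : ∀ k ∈ grd N, Measurable fun z : E4 => X.indicator (H.W N ν2) z *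
        (ν1 k (bkk H N k z) * volume {t : ℝ | H.tm z ≤ t - η ∧ lk H N k (bkk H N k z) t ∈ Y}) :=
    fun k hk => mI.mul (mRRk hH hν1 mY hk)
  have e3 : ∀ z, Y.indicator (fun _ => (1 : ℝ≥0∞)) z * GG H N ν1 ν2 X η z = ∑ k ∈ grd N, Y.indicator (fun _ => (1 : ℝ≥0∞)) z *
        (ν1 k (bkk H N k z) * ∫⁻ t in {t : ℝ | t ≤ H.tm z - η}, X.indicator (H.W N ν2) (lk H N k (bkk H N k z) t)) := by
    intro z; unfold GG; rw [Finset.mul_sum]
  have e4 : ∀ z, X.indicator (H.W N ν2) z * RR H N ν1 Y η z = ∑ k ∈ grd N, X.indicator (H.W N ν2) z *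
        (ν1 k (bkk H N k z) * volume {t : ℝ | H.tm z ≤ t - η ∧ lk H N k (bkk H N k z) t ∈ Y}) := by
    intro z; unfold RR; rw [Finset.mul_sum]
  rw [lintegral_congr e3, lintegral_congr e4, lintegral_finset_sum _ mm, lintegral_finset_sum _ mm2]
  refine Finset.sum_congr rfl fun k hk => ?_
  have R := rdk hH (grd_pos hk)
  rw [R.swap (hν1 k) m2 mI]
  refine lintegral_congr fun z => ?_
  congr 2
  have mA : MeasurableSet {t : ℝ | lk H N k (bkk H N k z) t ∈ Y} := mY.preimage (R.mL.comp measurable_prodMk_left)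
  have e5 : ∀ t, Y.indicator (fun _ => (1 : ℝ≥0∞)) (lk H N k (bkk H N k z) t) =
      ({t : ℝ | lk H N k (bkk H N k z) t ∈ Y}).indicator (fun _ => (1 : ℝ≥0∞)) t := fun t => rfl
  simp_rw [e5]
  rw [lintegral_indicator mA, setLIntegral_const, one_mul, Measure.restrict_apply mA]
  congr 1
  ext t
  exact and_comm

end Vale.Agent.P106.G
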