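import Vale.Agent.P106.G.GeF
import Vale.Agent.P106.G.GeI

/-! # Transfer: points near the hairs of a tube -/

open MeasureTheory Set
open scoped ENNReal

set_option linter.all false

namespace Vale.Agent.P106.G

theorem slowM {ν : E3 → ℝ≥0∞} {C d : ℝ} (h : ∀ y y', ‖y - y'‖ ≤ d → ν y ≤ ENNReal.ofReal C * ν y') (M : ℕ) :
    ∀ y y', ‖y - y'‖ ≤ M * d → ν y ≤ ENNReal.ofReal C ^ M * ν y' := by
  induction M with
  | zero =>
    intro y y' hy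
    have : y = y' := by
      rw [Nat.cast_zero, zero_mul] at hy
      exact sub_eq_zero.1 (norm_le_zero_iff.1 hy)
    rw [this]; simp
  | succ M ih =>
    intro y y' hy
    have hM : (0:ℝ) < M + 1 := by positivity
    push_cast at hy
    set y'' : E3 := y' + ((M:ℝ) / (M + 1)) • (y - y') with hy''
    have e1 : y - y'' = (1 / ((M:ℝ) + 1)) • (y - y') := by
      have : (1 / ((M:ℝ) + 1)) = 1 - (M:ℝ) / (M + 1) := by field_simp; ring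
      rw [this, sub_smul, one_smul, hy'']; abel
    have h1 : ‖y - y''‖ ≤ d := by
      rw [e1, norm_smul, Real.norm_eq_abs, abs_of_pos (by positivity), one_div, inv_mul_le_iff₀ hM]
      exact hy
    have h2 : ‖y'' - y'‖ ≤ M * d := by
      have e2 : y'' - y' = ((M:ℝ) / (M + 1)) • (y - y') := by rw [hy'']; abel
      rw [e2, norm_smul, Real.norm_eq_abs, abs_of_nonneg (by positivity)]
      calc (M:ℝ) / (M + 1) * ‖y - y'‖ ≤ (M:ℝ) / (M + 1) * ((M + 1) * d) := by gcongr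
        _ = M * d := by field_simp
    calc ν y ≤ ENNReal.ofReal C * ν y'' := h _ _ h1
      _ ≤ ENNReal.ofReal C * (ENNReal.ofReal C ^ M * ν y') := mul_le_mul' le_rfl (ih _ _ h2)
      _ = _ := by rw [pow_succ]; ring

theorem norm3 (x : E3) : ‖x‖ ≤ |x 0| + |x 1| + |x 2| := by
  rw [EuclideanSpace.norm_eq, Fin.sum_univ_three, Real.norm_eq_abs, Real.norm_eq_abs, Real.norm_eq_abs]
  rw [Real.sqrt_le_left (by positivity)]
  nlinarith [abs_nonneg (x 0), abs_nonneg (x 1), abs_nonneg (x 2), mul_nonneg (abs_nonneg (x 0)) (abs_nonneg (x 1)),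
    mul_nonneg (abs_nonneg (x 0)) (abs_nonneg (x 2)), mul_nonneg (abs_nonneg (x 1)) (abs_nonneg (x 2))]

theorem coord3 (x : E3) (i : Fin 3) : |x i| ≤ ‖x‖ := by
  rw [← Real.norm_eq_abs]; exact PiLp.norm_apply_le x i

theorem lk_add (H : Hyp) (N : ℕ) (k : ℤ × ℤ) (y : E3) (t t' : ℝ) :
    lk H N k y t = lk H N k y t' + ((t - t') / H.m ((k.1:ℝ) / N) ((k.2:ℝ) / N)) • kap ((k.1:ℝ) / N) ((k.2:ℝ) / N) := by
  unfold lk ln Hyp.ray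
  rw [add_assoc, ← add_smul]
  congr 2
  ring

theorem lk_pt (H : Hyp) (N : ℕ) (k : ℤ × ℤ) (y : E3) (t : ℝ) :
    lk H N k y t = H.pt y + (t / H.m ((k.1:ℝ) / N) ((k.2:ℝ) / N)) • kap ((k.1:ℝ) / N) ((k.2:ℝ) / N) := rfl

/-- coordinates of the points of a tube -/
theorem tube {H : Hyp} (hH : H.ok) {v1 v2 d : ℝ} (h1 : 0 ≤ v1) (h1' : v1 ≤ 1) (h2 : 0 ≤ v2) (h2' : v2 ≤ 1) {ys y : E3}
    (hd : 0 ≤ d) (hy : ‖y - ys‖ ≤ d) :
    |g0 (H.pt ys) v1 v2 (H.pt y)| ≤ 5 * d ∧ |g1 (H.pt ys) v1 (H.pt y)| ≤ 2 * d ∧ |g2 (H.pt ys) v2 (H.pt y)| ≤ 2 * d ∧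
    |g3 (H.pt ys) (H.pt y)| ≤ d / 2 := by
  obtain ⟨s0, s1, q1a, q1b, q2a, q2b, _⟩ := Hyp.okb hH
  have c0 := (coord3 (y - ys) 0).trans hy
  have c1 := (coord3 (y - ys) 1).trans hy
  have c2 := (coord3 (y - ys) 2).trans hy
  rw [PiLp.sub_apply] at c0 c1 c2
  have hg3 : g3 (H.pt ys) (H.pt y) = -(H.s * (y 0 - ys 0) + H.q1 * (y 1 - ys 1) + H.q2 * (y 2 - ys 2)) := by
    unfold g3; rw [pt3, pt3]; ring
  have b3 : |g3 (H.pt ys) (H.pt y)| ≤ d / 5 := by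
    rw [hg3, abs_neg]
    have a0 : |H.s * (y 0 - ys 0)| ≤ 1/64 * d := by
      rw [abs_mul, abs_of_nonneg s0]; gcongr
    have a1 : |H.q1 * (y 1 - ys 1)| ≤ 1/16 * d := by
      rw [abs_mul]
      have : |H.q1| ≤ 1/16 := by rw [abs_le]; constructor <;> linarith
      gcongr
    have a2 : |H.q2 * (y 2 - ys 2)| ≤ 1/16 * d := by
      rw [abs_mul]
      have : |H.q2| ≤ 1/16 := by rw [abs_le]; constructor <;> linarith
      gcongr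
    refine (abs_add_three _ _ _).trans ?_
    linarith
  have hg0 : g0 (H.pt ys) v1 v2 (H.pt y) = (y 0 - ys 0) + v1 * (y 1 - ys 1) + v2 * (y 2 - ys 2) +
      (v1 ^ 2 + v2 ^ 2) * g3 (H.pt ys) (H.pt y) := rfl
  have hg1 : g1 (H.pt ys) v1 (H.pt y) = (y 1 - ys 1) + 2 * v1 * g3 (H.pt ys) (H.pt y) := rfl
  have hg2 : g2 (H.pt ys) v2 (H.pt y) = (y 2 - ys 2) + 2 * v2 * g3 (H.pt ys) (H.pt y) := rfl
  generalize g3 (H.pt ys) (H.pt y) = w3 at *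
  have m1 : |v1 * (y 1 - ys 1)| ≤ 1 * d := by rw [abs_mul, abs_of_nonneg h1]; gcongr
  have m2 : |v2 * (y 2 - ys 2)| ≤ 1 * d := by rw [abs_mul, abs_of_nonneg h2]; gcongr
  have m3 : |(v1 ^ 2 + v2 ^ 2) * w3| ≤ 2 * (d / 5) := by
    rw [abs_mul, abs_of_nonneg (by positivity)]
    gcongr
    nlinarith
  have m4 : |2 * v1 * w3| ≤ 2 * 1 * (d / 5) := by
    rw [abs_mul, abs_of_nonneg (by positivity)]; gcongr
  have m5 : |2 * v2 * w3| ≤ 2 * 1 * (d / 5) := by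
    rw [abs_mul, abs_of_nonneg (by positivity)]; gcongr
  refine ⟨?_, ?_, ?_, by linarith⟩
  · rw [hg0]
    refine (abs_add_le _ _).trans ?_
    have := abs_add_three (y 0 - ys 0) (v1 * (y 1 - ys 1)) (v2 * (y 2 - ys 2))
    linarith
  · rw [hg1]
    refine (abs_add_le _ _).trans ?_
    linarith
  · rw [hg2]
    refine (abs_add_le _ _).trans ?_
    linarith

/-- the same for a point of the tube at the time `t` -/
theorem tube_pt {H : Hyp} (hH : H.ok) {N : ℕ} {ks : ℤ × ℤ} (hks : ks ∈ grd N) {d : ℝ} (hd : 0 ≤ d) {ys : E3} {z : E4}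
    (hz : bkk H N ks z ∈ Metric.closedBall ys d) :
    |g0 (H.pt ys) ((ks.1:ℝ) / N) ((ks.2:ℝ) / N) z| ≤ 5 * d ∧ |g1 (H.pt ys) ((ks.1:ℝ) / N) z| ≤ 2 * d ∧
    |g2 (H.pt ys) ((ks.2:ℝ) / N) z| ≤ 2 * d ∧
    |g3 (H.pt ys) z - H.tm z / H.m ((ks.1:ℝ) / N) ((ks.2:ℝ) / N)| ≤ d / 2 := by
  have R := rdk hH (grd_pos hks)
  obtain ⟨⟨a1, a2⟩, ⟨a3, a4⟩⟩ := grd_range hks
  rw [Metric.mem_closedBall, dist_eq_norm] at hz
  have ht := tube hH a1 a2 a3 a4 hd hz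
  have e : z = H.pt (bkk H N ks z) + (H.tm z / H.m ((ks.1:ℝ) / N) ((ks.2:ℝ) / N)) • kap ((ks.1:ℝ) / N) ((ks.2:ℝ) / N) := by
    have := R.Lb z
    rw [lk_pt] at this
    exact this.symm
  have e0 : g0 (H.pt ys) ((ks.1:ℝ) / N) ((ks.2:ℝ) / N) z = g0 (H.pt ys) ((ks.1:ℝ) / N) ((ks.2:ℝ) / N) (H.pt (bkk H N ks z)) := by
    conv_lhs => rw [e]
    rw [g0_add]; ring
  have e1 : g1 (H.pt ys) ((ks.1:ℝ) / N) z = g1 (H.pt ys) ((ks.1:ℝ) / N) (H.pt (bkk H N ks z)) := by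
    conv_lhs => rw [e]
    rw [g1_add]; ring
  have e2 : g2 (H.pt ys) ((ks.2:ℝ) / N) z = g2 (H.pt ys) ((ks.2:ℝ) / N) (H.pt (bkk H N ks z)) := by
    conv_lhs => rw [e]
    rw [g2_add]; ring
  have e3 : g3 (H.pt ys) z = g3 (H.pt ys) (H.pt (bkk H N ks z)) + H.tm z / H.m ((ks.1:ℝ) / N) ((ks.2:ℝ) / N) := by
    conv_lhs => rw [e]
    rw [g3_add]
  rw [e0, e1, e2, e3, add_sub_cancel_right]
  exact ht

theorem close_num {B tz t ms mk α β d : ℝ} (hd : 0 ≤ d) (ht : |tz - t| ≤ d) (m1 : 1 ≤ ms) (m2 : 1 ≤ mk) (hB : |B| ≤ d)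
    (h1 : 0 ≤ α) (h2 : α ≤ 2) (h3 : 0 ≤ β) (h4 : β ≤ 2) : |B + (tz - t) * (1 / ms * α - 1 / mk * β)| ≤ 3 * d := by
  have i1 : 1 / ms ≤ 1 := by rw [div_le_one (by linarith)]; exact m1
  have i2 : 1 / mk ≤ 1 := by rw [div_le_one (by linarith)]; exact m2
  have i1' : 0 < 1 / ms := by positivity
  have i2' : 0 < 1 / mk := by positivity
  refine (abs_add_le _ _).trans ?_
  rw [abs_mul]
  have h5 : |1 / ms * α - 1 / mk * β| ≤ 2 := by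
    have x1 : 1 / ms * α ≤ 1 * 2 := by gcongr
    have x2 : 1 / mk * β ≤ 1 * 2 := by gcongr
    have x3 : 0 ≤ 1 / ms * α := by positivity
    have x4 : 0 ≤ 1 / mk * β := by positivity
    rw [abs_le]; constructor <;> linarith
  have : |tz - t| * |1 / ms * α - 1 / mk * β| ≤ d * 2 := by gcongr
  linarith

theorem bk0 (H : Hyp) (N : ℕ) (k : ℤ × ℤ) (z : E4) :
    bkk H N k z 0 = z 0 - H.tm z / H.m ((k.1:ℝ) / N) ((k.2:ℝ) / N) * (((k.1:ℝ) / N) ^ 2 + ((k.2:ℝ) / N) ^ 2) := rfl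
theorem bk1 (H : Hyp) (N : ℕ) (k : ℤ × ℤ) (z : E4) :
    bkk H N k z 1 = z 1 + 2 * (H.tm z / H.m ((k.1:ℝ) / N) ((k.2:ℝ) / N)) * ((k.1:ℝ) / N) := rfl
theorem bk2 (H : Hyp) (N : ℕ) (k : ℤ × ℤ) (z : E4) :
    bkk H N k z 2 = z 2 + 2 * (H.tm z / H.m ((k.1:ℝ) / N) ((k.2:ℝ) / N)) * ((k.2:ℝ) / N) := rfl
theorem lk0 (H : Hyp) (N : ℕ) (k : ℤ × ℤ) (y : E3) (t : ℝ) :
    lk H N k y t 0 = y 0 + t / H.m ((k.1:ℝ) / N) ((k.2:ℝ) / N) * (((k.1:ℝ) / N) ^ 2 + ((k.2:ℝ) / N) ^ 2) := rfl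
theorem lk1 (H : Hyp) (N : ℕ) (k : ℤ × ℤ) (y : E3) (t : ℝ) :
    lk H N k y t 1 = y 1 + t / H.m ((k.1:ℝ) / N) ((k.2:ℝ) / N) * (-2 * ((k.1:ℝ) / N)) := rfl
theorem lk2 (H : Hyp) (N : ℕ) (k : ℤ × ℤ) (y : E3) (t : ℝ) :
    lk H N k y t 2 = y 2 + t / H.m ((k.1:ℝ) / N) ((k.2:ℝ) / N) * (-2 * ((k.2:ℝ) / N)) := rfl

section close

variable {H : Hyp} (hH : H.ok) {N : ℕ} {ks k : ℤ × ℤ} (hks : ks ∈ grd N) (hk : k ∈ grd N) {d t : ℝ} (hd : 0 ≤ d)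
    {ys : E3} {z : E4} (hz : ‖bkk H N ks z - ys‖ ≤ d) (ht : |H.tm z - t| ≤ d)
include hH hks hk hd hz ht

theorem bk_close0 : |bkk H N k z 0 - bkk H N k (lk H N ks ys t) 0| ≤ 3 * d := by
  obtain ⟨⟨a1, a2⟩, ⟨a3, a4⟩⟩ := grd_range hks
  obtain ⟨⟨c1, c2⟩, ⟨c3, c4⟩⟩ := grd_range hk
  have m1 := Hyp.m_ge hH a1 a3
  have m2 := Hyp.m_ge hH c1 c3
  have tt : H.tm (lk H N ks ys t) = t := (rdk hH (grd_pos hks)).τL ys t
  have b0 := (coord3 (bkk H N ks z - ys) 0).trans hz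
  rw [PiLp.sub_apply, bk0] at b0
  rw [bk0, bk0, tt, lk0]
  have k0 := close_num hd ht m1 m2 b0 (by positivity : 0 ≤ ((ks.1:ℝ) / N) ^ 2 + ((ks.2:ℝ) / N) ^ 2) (by nlinarith)
    (by positivity : 0 ≤ ((k.1:ℝ) / N) ^ 2 + ((k.2:ℝ) / N) ^ 2) (by nlinarith)
  refine le_trans (le_of_eq ?_) k0
  congr 1; ring

theorem bk_close1 : |bkk H N k z 1 - bkk H N k (lk H N ks ys t) 1| ≤ 3 * d := by
  obtain ⟨⟨a1, a2⟩, ⟨a3, a4⟩⟩ := grd_range hks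
  obtain ⟨⟨c1, c2⟩, ⟨c3, c4⟩⟩ := grd_range hk
  have m1 := Hyp.m_ge hH a1 a3
  have m2 := Hyp.m_ge hH c1 c3
  have tt : H.tm (lk H N ks ys t) = t := (rdk hH (grd_pos hks)).τL ys t
  have b0 := (coord3 (bkk H N ks z - ys) 1).trans hz
  rw [PiLp.sub_apply, bk1, ← abs_neg] at b0
  rw [bk1, bk1, tt, lk1]
  have k0 := close_num hd ht m1 m2 b0 (by positivity : 0 ≤ 2 * ((ks.1:ℝ) / N)) (by linarith)
    (by positivity : 0 ≤ 2 * ((k.1:ℝ) / N)) (by linarith)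
  rw [← abs_neg] at k0
  refine le_trans (le_of_eq ?_) k0
  congr 1; ring

theorem bk_close2 : |bkk H N k z 2 - bkk H N k (lk H N ks ys t) 2| ≤ 3 * d := by
  obtain ⟨⟨a1, a2⟩, ⟨a3, a4⟩⟩ := grd_range hks
  obtain ⟨⟨c1, c2⟩, ⟨c3, c4⟩⟩ := grd_range hk
  have m1 := Hyp.m_ge hH a1 a3
  have m2 := Hyp.m_ge hH c1 c3
  have tt : H.tm (lk H N ks ys t) = t := (rdk hH (grd_pos hks)).τL ys t
  have b0 := (coord3 (bkk H N ks z - ys) 2).trans hz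
  rw [PiLp.sub_apply, bk2, ← abs_neg] at b0
  rw [bk2, bk2, tt, lk2]
  have k0 := close_num hd ht m1 m2 b0 (by positivity : 0 ≤ 2 * ((ks.2:ℝ) / N)) (by linarith)
    (by positivity : 0 ≤ 2 * ((k.2:ℝ) / N)) (by linarith)
  rw [← abs_neg] at k0
  refine le_trans (le_of_eq ?_) k0
  congr 1; ring

end close

/-- base points seen from a tube -/
theorem bk_close {H : Hyp} (hH : H.ok) {N : ℕ} {ks k : ℤ × ℤ} (hks : ks ∈ grd N) (hk : k ∈ grd N) {d t : ℝ} (hd : 0 ≤ d)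
    {ys : E3} {z : E4} (hz : bkk H N ks z ∈ Metric.closedBall ys d) (ht : |H.tm z - t| ≤ d) :
    ‖bkk H N k z - bkk H N k (lk H N ks ys t)‖ ≤ (9 : ℕ) * d := by
  rw [Metric.mem_closedBall, dist_eq_norm] at hz
  have n3 := norm3 (bkk H N k z - bkk H N k (lk H N ks ys t))
  rw [PiLp.sub_apply, PiLp.sub_apply, PiLp.sub_apply] at n3
  have k0 := bk_close0 hH hks hk hd hz ht
  have k1 := bk_close1 hH hks hk hd hz ht
  have k2 := bk_close2 hH hks hk hd hz ht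
  push_cast
  linarith

end Vale.Agent.P106.G
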