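import Vale.Agent.P106.G.GeJ

/-! # Transfer: the pointwise bound -/

open MeasureTheory Set
open scoped ENNReal

set_option linter.all false

namespace Vale.Agent.P106.G

/-- the frame of a tube -/
noncomputable def frm (H : Hyp) (N : ℕ) (ks : ℤ × ℤ) (ys : E3) : Fr := ⟨H, N, ys, (ks.1:ℝ) / N, (ks.2:ℝ) / N⟩

theorem frm_good {H : Hyp} (hH : H.ok) {N : ℕ} {ks : ℤ × ℤ} (hks : ks ∈ grd N) (ys : E3) : Fr.Good (frm H N ks ys) := by
  obtain ⟨⟨a1, a2⟩, ⟨a3, a4⟩⟩ := grd_range hks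
  exact ⟨hH, a1, a2, a3, a4⟩

section frame

variable (H : Hyp) (N : ℕ) (ks : ℤ × ℤ) (ys : E3) (x : Om) (t : ℝ)

theorem fw0 : (frm H N ks ys).w0 x t = g0 (H.pt ys) ((ks.1:ℝ) / N) ((ks.2:ℝ) / N) (lk H N x.1 x.2 t) := by
  rw [lk_pt, g0_add]; rfl
theorem fw1 : (frm H N ks ys).w1 x t = g1 (H.pt ys) ((ks.1:ℝ) / N) (lk H N x.1 x.2 t) := by
  rw [lk_pt, g1_add]; rfl
theorem fw2 : (frm H N ks ys).w2 x t = g2 (H.pt ys) ((ks.2:ℝ) / N) (lk H N x.1 x.2 t) := by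
  rw [lk_pt, g2_add]; rfl
theorem fw3 : (frm H N ks ys).w3 x t = g3 (H.pt ys) (lk H N x.1 x.2 t) := by
  rw [lk_pt, g3_add]; rfl

end frame

theorem Par.hdη {c C1 T0 η A d : ℝ} (P : Par c C1 T0 η A d) : 100 * d ≤ η * c ^ 2 := by
  have hA := P.hA
  have hA0 : 0 < A := by linarith
  have h1 := P.hAη
  have h2 : d ≤ 1 / A := by
    rw [le_div_iff₀ hA0]
    have h3 : d * A ≤ d * A ^ 6 := by
      have := P.hd
      gcongr
      exact le_self_pow₀ (by linarith) (by norm_num)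
    exact h3.trans P.hdA
  have h3 : 100 * (1 / A) ≤ η * c ^ 2 := by
    rw [mul_one_div, div_le_iff₀ hA0]; linarith [mul_comm A (η * c ^ 2)]
  linarith

variable {H : Hyp} {N : ℕ} {ks : ℤ × ℤ} {ys : E3} {c C1 T0 η A d : ℝ}

theorem transfer (hH : H.ok) (P : Par c C1 T0 η A d) (hks : ks ∈ grd N) {k1 k2 : ℤ × ℤ} (hk1 : k1 ∈ grd N) (hk2 : k2 ∈ grd N)
    {y2 : E3} {t1 t2 : ℝ} {i : ℤ} (ht2 : 1 ≤ t2) (ht1 : t1 ≤ T0) (h12 : t2 ≤ t1 - η)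
    (hc : c ^ 2 ≤ (frm H N ks ys).b1 k1 ^ 2 + (frm H N ks ys).b2 k1 ^ 2)
    (hz : bkk H N ks (lk H N k1 (bkk H N k1 (lk H N k2 y2 t2)) t1) ∈ Metric.closedBall ys d)
    (hi0 : 0 ≤ i) (hi1 : i * d ≤ t1) (hi2 : t1 ≤ (i + 1) * d) :
    (((k2, y2) : Om), t2) ∈ (frm H N ks ys).Z A d T0 (i, k1) := by
  set F := frm H N ks ys with hF
  have G : Fr.Good F := frm_good hH hks ys
  set z2 := lk H N k2 y2 t2 with hz2
  set z1 := lk H N k1 (bkk H N k1 z2) t1 with hz1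
  have R1 := rdk hH (grd_pos hk1)
  have R2 := rdk hH (grd_pos hk2)
  have tz2 : H.tm z2 = t2 := R2.τL y2 t2
  have tz1 : H.tm z1 = t1 := R1.τL _ t1
  have hη := P.hη
  have hd := P.hd
  have M1 : 1 ≤ H.m ((k1.1:ℝ) / N) ((k1.2:ℝ) / N) := G.M1 (k := k1) hk1
  have M2 : H.m ((k1.1:ℝ) / N) ((k1.2:ℝ) / N) ≤ 2 := G.M2 (k := k1) hk1
  have Ms : 1 ≤ H.m ((ks.1:ℝ) / N) ((ks.2:ℝ) / N) := G.M1 (k := ks) hks
  set r := (t1 - t2) / H.m ((k1.1:ℝ) / N) ((k1.2:ℝ) / N) with hr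
  have ez : z1 = z2 + r • kap ((k1.1:ℝ) / N) ((k1.2:ℝ) / N) := by
    rw [hz1, lk_add H N k1 (bkk H N k1 z2) t1 t2]
    congr 1
    have := R1.Lb z2
    rw [tz2] at this
    exact this
  obtain ⟨q0, q1, q2, q3⟩ := tube_pt hH hks hd.le hz
  rw [tz1] at q3
  have hrlow : η / 2 ≤ r := by
    rw [hr, le_div_iff₀ (by linarith)]
    nlinarith
  have hrup : r ≤ T0 := by
    rw [hr, div_le_iff₀ (by linarith)]
    have := P.hT
    nlinarith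
  have hid : 0 ≤ (i:ℝ) * d := by positivity
  have nh : NH (F.w0 (k2, y2) t2) (F.w1 (k2, y2) t2) (F.w2 (k2, y2) t2) (F.w3 (k2, y2) t2) r (F.b1 k1) (F.b2 k1)
      (i * d / H.m ((ks.1:ℝ) / N) ((ks.2:ℝ) / N)) η c T0 A d := by
    refine ⟨P.hc, P.hη, by linarith [P.hA], P.hAc, P.hAT, P.hT, P.hAη, P.hd, P.hdη, Fr.hd1 P, hrlow, hrup, hc, G.b1 hk1, G.b2 hk1,
      ?_, ?_, ?_, ?_, ?_⟩
    · rw [abs_of_nonneg (by positivity), div_le_iff₀ (by linarith)]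
      have := P.hT
      nlinarith
    · have : F.w0 (k2, y2) t2 + r * (F.b1 k1 ^ 2 + F.b2 k1 ^ 2) = g0 (H.pt ys) ((ks.1:ℝ) / N) ((ks.2:ℝ) / N) z1 := by
        rw [ez, g0_add, hF, fw0]; rfl
      rw [this]; exact q0
    · have : F.w1 (k2, y2) t2 - 2 * r * F.b1 k1 = g1 (H.pt ys) ((ks.1:ℝ) / N) z1 := by
        rw [ez, g1_add, hF, fw1]; rfl
      rw [this]; linarith
    · have : F.w2 (k2, y2) t2 - 2 * r * F.b2 k1 = g2 (H.pt ys) ((ks.2:ℝ) / N) z1 := by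
        rw [ez, g2_add, hF, fw2]; rfl
      rw [this]; linarith
    · have e : F.w3 (k2, y2) t2 + r = g3 (H.pt ys) z1 := by
        rw [ez, g3_add, hF, fw3]
      rw [e]
      have e2 : g3 (H.pt ys) z1 - i * d / H.m ((ks.1:ℝ) / N) ((ks.2:ℝ) / N) =
        (g3 (H.pt ys) z1 - t1 / H.m ((ks.1:ℝ) / N) ((ks.2:ℝ) / N)) + (t1 - i * d) / H.m ((ks.1:ℝ) / N) ((ks.2:ℝ) / N) := by ring
      rw [e2]
      refine (abs_add_le _ _).trans ?_
      have e3 : |(t1 - i * d) / H.m ((ks.1:ℝ) / N) ((ks.2:ℝ) / N)| ≤ d := by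
        rw [abs_of_nonneg (div_nonneg (by linarith) (by linarith)), div_le_iff₀ (by linarith)]
        nlinarith
      linarith
  obtain ⟨c0, c1, c2, c3, c4, c5, c6, c7⟩ := near_hair nh
  have hA2 : A ^ 2 * d / 2 ≤ A ^ 2 * d := by
    have : 0 ≤ A ^ 2 * d := by positivity
    linarith
  refine ⟨⟨ht2, ?_⟩, c0, c1, c2, c3, c4, c5, c6, c7.trans hA2⟩
  show t2 ≤ T0
  linarith

/-- the times at which a ray is in the tube -/
theorem hit_time (hH : H.ok) (hc : 0 < c) (hd : 0 ≤ d) (hks : ks ∈ grd N) {k1 : ℤ × ℤ} (hk1 : k1 ∈ grd N) {y : E3} {t t' : ℝ}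
    (hsep : c ≤ |(frm H N ks ys).b1 k1| ∨ c ≤ |(frm H N ks ys).b2 k1|)
    (h : bkk H N ks (lk H N k1 y t) ∈ Metric.closedBall ys d) (h' : bkk H N ks (lk H N k1 y t') ∈ Metric.closedBall ys d) :
    |t - t'| ≤ 4 * d / c := by
  set F := frm H N ks ys with hF
  have G : Fr.Good F := frm_good hH hks ys
  have M1 : 1 ≤ H.m ((k1.1:ℝ) / N) ((k1.2:ℝ) / N) := G.M1 (k := k1) hk1
  have M2 : H.m ((k1.1:ℝ) / N) ((k1.2:ℝ) / N) ≤ 2 := G.M2 (k := k1) hk1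
  obtain ⟨_, q1, q2, _⟩ := tube_pt hH hks hd h
  obtain ⟨_, r1, r2, _⟩ := tube_pt hH hks hd h'
  have e1 : g1 (H.pt ys) ((ks.1:ℝ) / N) (lk H N k1 y t) = g1 (H.pt ys) ((ks.1:ℝ) / N) (lk H N k1 y t') -
      2 * ((t - t') / H.m ((k1.1:ℝ) / N) ((k1.2:ℝ) / N)) * F.b1 k1 := by
    rw [lk_add H N k1 y t t', g1_add]; rfl
  have e2 : g2 (H.pt ys) ((ks.2:ℝ) / N) (lk H N k1 y t) = g2 (H.pt ys) ((ks.2:ℝ) / N) (lk H N k1 y t') -
      2 * ((t - t') / H.m ((k1.1:ℝ) / N) ((k1.2:ℝ) / N)) * F.b2 k1 := by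
    rw [lk_add H N k1 y t t', g2_add]; rfl
  rw [e1] at q1
  rw [e2] at q2
  generalize H.m ((k1.1:ℝ) / N) ((k1.2:ℝ) / N) = m at *
  have key : ∀ g b : ℝ, |g - 2 * ((t - t') / m) * b| ≤ 2 * d → |g| ≤ 2 * d → c ≤ |b| → |t - t'| ≤ 4 * d / c := by
    intro g b h1 h2 h3
    have h4 : |2 * ((t - t') / m) * b| ≤ 4 * d := by
      have e : 2 * ((t - t') / m) * b = g - (g - 2 * ((t - t') / m) * b) := by ring
      rw [e]
      refine (abs_sub _ _).trans (by linarith)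
    have h5 : |2 * ((t - t') / m) * b| = 2 * |t - t'| * |b| / m := by
      rw [abs_mul, abs_mul, abs_div, abs_two, abs_of_pos (by linarith : 0 < m)]; ring
    rw [h5, div_le_iff₀ (by linarith)] at h4
    rw [le_div_iff₀ hc]
    have h6 : |t - t'| * c ≤ |t - t'| * |b| := by gcongr
    nlinarith
  rcases hsep with hs | hs
  · exact key _ _ q1 r1 hs
  · exact key _ _ q2 r2 hs

/-- the cells -/
noncomputable def JJ (H : Hyp) (N : ℕ) (X : Set E4) (ks : ℤ × ℤ) (ys : E3) (d T0 : ℝ) (ν1 : ℤ × ℤ → E3 → ℝ≥0∞) :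
    Finset (ℤ × (ℤ × ℤ)) := by
  classical
  exact ((Finset.Icc 0 ⌊T0 / d⌋) ×ˢ grd N).filter fun j =>
    (∃ z ∈ X, bkk H N ks z ∈ Metric.closedBall ys d ∧ j.1 * d ≤ H.tm z ∧ H.tm z ≤ (j.1 + 1) * d) ∧ ∃ y, ν1 j.2 y ≠ 0

/-- the weights -/
noncomputable def nn (H : Hyp) (N : ℕ) (ks : ℤ × ℤ) (ys : E3) (d C1 : ℝ) (ν1 : ℤ × ℤ → E3 → ℝ≥0∞) (j : ℤ × (ℤ × ℤ)) : ℝ :=
  (ENNReal.ofReal C1 ^ 9 * ν1 j.2 (bkk H N j.2 (lk H N ks ys (j.1 * d)))).toReal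

variable {ν1 ν2 : ℤ × ℤ → E3 → ℝ≥0∞} {X : Set E4}

theorem nu_le {ν : ℤ × ℤ → E3 → ℝ≥0∞} (h : Dens N C1 d ν) {k : ℤ × ℤ} (hk : k ∈ grd N) (y : E3) : ν k y ≤ ENNReal.ofReal C1 :=
  (Finset.single_le_sum (f := fun k => ν k y) (fun _ _ => bot_le) hk).trans (h.sum y)

theorem nn_nonneg (j : ℤ × (ℤ × ℤ)) : 0 ≤ nn H N ks ys d C1 ν1 j := ENNReal.toReal_nonneg

theorem nn_eq (h : Dens N C1 d ν1) {j : ℤ × (ℤ × ℤ)} (hj : j.2 ∈ grd N) :
    ENNReal.ofReal (nn H N ks ys d C1 ν1 j) = ENNReal.ofReal C1 ^ 9 * ν1 j.2 (bkk H N j.2 (lk H N ks ys (j.1 * d))) := by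
  unfold nn
  rw [ENNReal.ofReal_toReal]
  exact ENNReal.mul_ne_top (ENNReal.pow_ne_top ENNReal.ofReal_ne_top)
    (ne_top_of_le_ne_top ENNReal.ofReal_ne_top (nu_le h hj _))

theorem nn_le (h : Dens N C1 d ν1) (hC1 : 0 ≤ C1) {j : ℤ × (ℤ × ℤ)} (hj : j.2 ∈ grd N) :
    nn H N ks ys d C1 ν1 j ≤ C1 ^ 10 := by
  unfold nn
  refine ENNReal.toReal_le_of_le_ofReal (by positivity) ?_
  calc ENNReal.ofReal C1 ^ 9 * ν1 j.2 (bkk H N j.2 (lk H N ks ys (j.1 * d))) ≤ ENNReal.ofReal C1 ^ 9 * ENNReal.ofReal C1 :=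
        mul_le_mul' le_rfl (nu_le h hj _)
    _ = ENNReal.ofReal (C1 ^ 10) := by rw [← pow_succ, ENNReal.ofReal_pow hC1]

theorem nn_sum (hH : H.ok) (h : Dens N C1 d ν1) (hC1 : 1 ≤ C1) (hd : 0 < d) (hd1 : d ≤ 1) (hT : 1 ≤ T0) (hks : ks ∈ grd N)
    {μ1 : ℝ} (hμ1 : 0 ≤ μ1) (hW : ∀ z ∈ X, H.W N ν1 z ≤ ENNReal.ofReal (C1 * μ1)) :
    ∑ j ∈ JJ H N X ks ys d T0 ν1, nn H N ks ys d C1 ν1 j ≤ 2 * T0 * C1 ^ 19 * μ1 / d := by
  classical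
  have hC0 : 0 ≤ C1 := by linarith
  have hTd : 1 ≤ T0 / d := by rw [le_div_iff₀ hd]; linarith
  set Ac : Finset ℤ := (Finset.Icc 0 ⌊T0 / d⌋).filter fun i => ∃ z ∈ X, bkk H N ks z ∈ Metric.closedBall ys d ∧
    i * d ≤ H.tm z ∧ H.tm z ≤ (i + 1) * d with hAc
  have hsub : JJ H N X ks ys d T0 ν1 ⊆ Ac ×ˢ grd N := by
    intro j hj
    unfold JJ at hj
    rw [Finset.mem_filter, Finset.mem_product] at hj
    rw [Finset.mem_product, hAc, Finset.mem_filter]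
    exact ⟨⟨hj.1.1, hj.2.1⟩, hj.1.2⟩
  have e1 : ENNReal.ofReal (∑ j ∈ JJ H N X ks ys d T0 ν1, nn H N ks ys d C1 ν1 j) ≤ ENNReal.ofReal (2 * T0 * C1 ^ 19 * μ1 / d) := by
    rw [ENNReal.ofReal_sum_of_nonneg (fun j _ => nn_nonneg j)]
    calc ∑ j ∈ JJ H N X ks ys d T0 ν1, ENNReal.ofReal (nn H N ks ys d C1 ν1 j)
        ≤ ∑ j ∈ Ac ×ˢ grd N, ENNReal.ofReal (nn H N ks ys d C1 ν1 j) := Finset.sum_le_sum_of_subset hsub
      _ = ∑ i ∈ Ac, ∑ k ∈ grd N, ENNReal.ofReal (nn H N ks ys d C1 ν1 (i, k)) := Finset.sum_product _ _ _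
      _ ≤ ∑ i ∈ Ac, ENNReal.ofReal (C1 ^ 19 * μ1) := by
          refine Finset.sum_le_sum fun i hi => ?_
          rw [hAc, Finset.mem_filter] at hi
          obtain ⟨_, z, hzX, hzb, hz1, hz2⟩ := hi
          calc ∑ k ∈ grd N, ENNReal.ofReal (nn H N ks ys d C1 ν1 (i, k))
              ≤ ∑ k ∈ grd N, ENNReal.ofReal C1 ^ 18 * ν1 k (bkk H N k z) := by
                refine Finset.sum_le_sum fun k hk => ?_
                rw [nn_eq h hk]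
                have hcl := bk_close hH hks hk hd.le hzb (t := i * d) (by rw [abs_le]; constructor <;> linarith)
                rw [norm_sub_rev] at hcl
                have := slowM (fun y y' => h.slow k y y') 9 _ _ hcl
                calc ENNReal.ofReal C1 ^ 9 * ν1 k (bkk H N k (lk H N ks ys (i * d)))
                    ≤ ENNReal.ofReal C1 ^ 9 * (ENNReal.ofReal C1 ^ 9 * ν1 k (bkk H N k z)) := mul_le_mul' le_rfl this
                  _ = _ := by rw [← mul_assoc, ← pow_add]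
            _ = ENNReal.ofReal C1 ^ 18 * H.W N ν1 z := by rw [← Finset.mul_sum]; rfl
            _ ≤ ENNReal.ofReal C1 ^ 18 * ENNReal.ofReal (C1 * μ1) := mul_le_mul' le_rfl (hW z hzX)
            _ = ENNReal.ofReal (C1 ^ 19 * μ1) := by
                rw [← ENNReal.ofReal_pow hC0, ← ENNReal.ofReal_mul (by positivity)]; congr 1; ring
      _ = (Ac.card : ℝ≥0∞) * ENNReal.ofReal (C1 ^ 19 * μ1) := by rw [Finset.sum_const, nsmul_eq_mul]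
      _ ≤ ENNReal.ofReal (2 * T0 / d) * ENNReal.ofReal (C1 ^ 19 * μ1) := by
          refine mul_le_mul' ?_ le_rfl
          rw [← ENNReal.ofReal_natCast]
          refine ENNReal.ofReal_le_ofReal ?_
          have h1 : Ac.card ≤ (Finset.Icc (0:ℤ) ⌊T0 / d⌋).card := Finset.card_le_card (Finset.filter_subset _ _)
          have h2 : ((Finset.Icc (0:ℤ) ⌊T0 / d⌋).card : ℝ) ≤ T0 / d + 1 := by
            rw [Int.card_Icc]
            have h3 : (0:ℤ) ≤ ⌊T0 / d⌋ := Int.floor_nonneg.2 (by linarith)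
            have h4 : (((⌊T0 / d⌋ + 1 - 0).toNat : ℤ) : ℝ) = (⌊T0 / d⌋:ℝ) + 1 := by
              rw [Int.toNat_of_nonneg (by linarith)]; push_cast; ring
            have h5 : (((⌊T0 / d⌋ + 1 - 0).toNat : ℕ) : ℝ) = (⌊T0 / d⌋:ℝ) + 1 := by exact_mod_cast h4
            rw [h5]
            linarith [Int.floor_le (T0 / d)]
          have h3 : (Ac.card : ℝ) ≤ ((Finset.Icc (0:ℤ) ⌊T0 / d⌋).card : ℝ) := by exact_mod_cast h1
          have e : 2 * T0 / d = T0 / d + T0 / d := by ring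
          rw [e]; linarith
      _ = _ := by rw [← ENNReal.ofReal_mul (by positivity)]; congr 1; ring
  exact (ENNReal.ofReal_le_ofReal_iff (by positivity)).1 e1

end Vale.Agent.P106.G
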