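import Vale.Agent.P106.G.GeK

/-! # The one-sided estimate -/

open MeasureTheory Set
open scoped ENNReal

set_option linter.all false

namespace Vale.Agent.P106.G

variable {H : Hyp} {N : ℕ} {ks : ℤ × ℤ} {ys : E3} {c C1 T0 η A d : ℝ} {ν1 ν2 : ℤ × ℤ → E3 → ℝ≥0∞} {X : Set E4}

theorem sq_sep {a b c : ℝ} (hc : 0 < c) (h : c ≤ |a| ∨ c ≤ |b|) : c ^ 2 ≤ a ^ 2 + b ^ 2 := by
  rcases h with h | h
  · have : c ^ 2 ≤ |a| ^ 2 := by gcongr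
    rw [sq_abs] at this
    nlinarith [sq_nonneg b]
  · have : c ^ 2 ≤ |b| ^ 2 := by gcongr
    rw [sq_abs] at this
    nlinarith [sq_nonneg a]

theorem JJ_mem {j : ℤ × (ℤ × ℤ)} (hj : j ∈ JJ H N X ks ys d T0 ν1) : j.2 ∈ grd N ∧ ∃ y, ν1 j.2 y ≠ 0 := by
  classical
  unfold JJ at hj
  rw [Finset.mem_filter, Finset.mem_product] at hj
  exact ⟨hj.1.2, hj.2.2⟩

theorem pw (hH : H.ok) (P : Par c C1 T0 η A d) (h1 : Dens N C1 d ν1) (hks : ks ∈ grd N) {k2 : ℤ × ℤ} (hk2 : k2 ∈ grd N)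
    (hX : ∀ z ∈ X, 1 ≤ H.tm z ∧ H.tm z ≤ T0)
    (hsep : ∀ k ∈ grd N, (∃ y, ν1 k y ≠ 0) → c ≤ |(frm H N ks ys).b1 k| ∨ c ≤ |(frm H N ks ys).b2 k|) (y2 : E3) (t2 : ℝ) :
    X.indicator (RR H N ν1 {z | z ∈ X ∧ bkk H N ks z ∈ Metric.closedBall ys d} η) (lk H N k2 y2 t2) ≤
      ENNReal.ofReal (8 * d / c) * ∑ j ∈ JJ H N X ks ys d T0 ν1, ENNReal.ofReal (nn H N ks ys d C1 ν1 j) *
        ((frm H N ks ys).Z A d T0 j).indicator (fun _ => (1 : ℝ≥0∞)) (((k2, y2) : Om), t2) := by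
  classical
  have hc := P.hc
  have hd := P.hd
  have hη := P.hη
  set F := frm H N ks ys with hF
  set z2 := lk H N k2 y2 t2 with hz2
  have R2 := rdk hH (grd_pos hk2)
  have tz2 : H.tm z2 = t2 := R2.τL y2 t2
  by_cases hzX : z2 ∈ X
  swap
  · rw [indicator_of_notMem hzX]; exact bot_le
  rw [indicator_of_mem hzX]
  have ht2 := hX z2 hzX
  rw [tz2] at ht2
  unfold JJ
  rw [Finset.sum_filter, Finset.sum_product_right, Finset.mul_sum]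
  unfold RR
  refine Finset.sum_le_sum fun k1 hk1 => ?_
  have R1 := rdk hH (grd_pos hk1)
  by_cases h0 : ν1 k1 (bkk H N k1 z2) = 0
  · rw [h0, zero_mul]; exact bot_le
  rcases Set.eq_empty_or_nonempty {t : ℝ | H.tm z2 ≤ t - η ∧ lk H N k1 (bkk H N k1 z2) t ∈
      {z | z ∈ X ∧ bkk H N ks z ∈ Metric.closedBall ys d}} with hV | ⟨t1, ht1, hz1X, hz1b⟩
  · rw [hV, measure_empty, mul_zero]; exact bot_le
  rw [tz2] at ht1
  have hs := hsep k1 hk1 ⟨_, h0⟩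
  have tz1 : H.tm (lk H N k1 (bkk H N k1 z2) t1) = t1 := R1.τL _ t1
  have hb1 : bkk H N k1 (lk H N k1 (bkk H N k1 z2) t1) = bkk H N k1 z2 := R1.bL _ t1
  have ht1T := (hX _ hz1X).2
  rw [tz1] at ht1T
  have ht1p : 0 < t1 := by linarith [ht2.1]
  set i := ⌊t1 / d⌋ with hi
  have hi0 : 0 ≤ i := Int.floor_nonneg.2 (by positivity)
  have hi1 : i * d ≤ t1 := by
    have := Int.floor_le (t1 / d)
    rwa [le_div_iff₀ hd] at this
  have hi2 : t1 ≤ (i + 1) * d := by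
    have := (Int.lt_floor_add_one (t1 / d)).le
    rwa [div_le_iff₀ hd] at this
  have hiI : i ∈ Finset.Icc (0:ℤ) ⌊T0 / d⌋ := by
    rw [Finset.mem_Icc]
    exact ⟨hi0, Int.floor_le_floor (by gcongr)⟩
  have hp : (∃ z ∈ X, bkk H N ks z ∈ Metric.closedBall ys d ∧ (i, k1).1 * d ≤ H.tm z ∧ H.tm z ≤ ((i, k1).1 + 1) * d) ∧
      ∃ y, ν1 (i, k1).2 y ≠ 0 := by
    refine ⟨⟨_, hz1X, hz1b, ?_, ?_⟩, ⟨_, h0⟩⟩
    · rw [tz1]; exact hi1
    · rw [tz1]; exact hi2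
  have hZ : (((k2, y2) : Om), t2) ∈ F.Z A d T0 (i, k1) :=
    transfer hH P hks hk1 hk2 ht2.1 ht1T ht1 (sq_sep hc hs) hz1b hi0 hi1 hi2
  have hvol : volume {t : ℝ | H.tm z2 ≤ t - η ∧ lk H N k1 (bkk H N k1 z2) t ∈
      {z | z ∈ X ∧ bkk H N ks z ∈ Metric.closedBall ys d}} ≤ ENNReal.ofReal (8 * d / c) := by
    have hsub : {t : ℝ | H.tm z2 ≤ t - η ∧ lk H N k1 (bkk H N k1 z2) t ∈
      {z | z ∈ X ∧ bkk H N ks z ∈ Metric.closedBall ys d}} ⊆ Metric.closedBall t1 (4 * d / c) := by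
      rintro t ⟨_, _, htb⟩
      rw [Metric.mem_closedBall, Real.dist_eq]
      exact hit_time hH hc hd.le hks hk1 hs htb hz1b
    refine (measure_mono hsub).trans ?_
    rw [Real.volume_closedBall]
    refine ENNReal.ofReal_le_ofReal (le_of_eq ?_)
    ring
  have hν : ν1 k1 (bkk H N k1 z2) ≤ ENNReal.ofReal (nn H N ks ys d C1 ν1 (i, k1)) := by
    rw [nn_eq h1 hk1, ← hb1]
    have hcl := bk_close hH hks hk1 hd.le hz1b (t := i * d) (by rw [tz1, abs_le]; constructor <;> linarith)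
    exact slowM (fun y y' => h1.slow k1 y y') 9 _ _ hcl
  calc ν1 k1 (bkk H N k1 z2) * volume {t : ℝ | H.tm z2 ≤ t - η ∧ lk H N k1 (bkk H N k1 z2) t ∈
      {z | z ∈ X ∧ bkk H N ks z ∈ Metric.closedBall ys d}}
      ≤ ENNReal.ofReal (nn H N ks ys d C1 ν1 (i, k1)) * ENNReal.ofReal (8 * d / c) := mul_le_mul' hν hvol
    _ = ENNReal.ofReal (8 * d / c) * (ENNReal.ofReal (nn H N ks ys d C1 ν1 (i, k1)) * (F.Z A d T0 (i, k1)).indicator (fun _ => (1 : ℝ≥0∞))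
          (((k2, y2) : Om), t2)) := by
        rw [indicator_of_mem hZ, mul_one, mul_comm]
    _ ≤ _ := by
        refine mul_le_mul' le_rfl ?_
        refine le_trans (le_of_eq ?_) (Finset.single_le_sum (f := fun i' : ℤ => if (∃ z ∈ X, bkk H N ks z ∈ Metric.closedBall ys d ∧
          (i', k1).1 * d ≤ H.tm z ∧ H.tm z ≤ ((i', k1).1 + 1) * d) ∧ ∃ y, ν1 (i', k1).2 y ≠ 0 then
          ENNReal.ofReal (nn H N ks ys d C1 ν1 (i', k1)) * (F.Z A d T0 (i', k1)).indicator (fun _ => (1 : ℝ≥0∞))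
          (((k2, y2) : Om), t2) else 0) (fun _ _ => bot_le) hiI)
        rw [if_pos hp]

theorem intg (hH : H.ok) (P : Par c C1 T0 η A d) (h1 : Dens N C1 d ν1) (h2 : Dens N C1 d ν2) (hks : ks ∈ grd N)
    (hX : ∀ z ∈ X, 1 ≤ H.tm z ∧ H.tm z ≤ T0)
    (hsep : ∀ k ∈ grd N, (∃ y, ν1 k y ≠ 0) → c ≤ |(frm H N ks ys).b1 k| ∨ c ≤ |(frm H N ks ys).b2 k|) :
    ∑ k ∈ grd N, ∫⁻ y, ν2 k y * ∫⁻ t, X.indicator (RR H N ν1 {z | z ∈ X ∧ bkk H N ks z ∈ Metric.closedBall ys d} η) (lk H N k y t) ≤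
      ENNReal.ofReal (8 * d / c) * ∫⁻ x, (frm H N ks ys).ff A d T0 (JJ H N X ks ys d T0 ν1) (nn H N ks ys d C1 ν1) x ∂(Lam N ν2) := by
  set F := frm H N ks ys with hF
  have mff := Fr.mff (F := F) A d T0 (JJ H N X ks ys d T0 ν1) (nn H N ks ys d C1 ν1)
  rw [lint_Lam h2.meas mff, Finset.mul_sum]
  refine Finset.sum_le_sum fun k hk => ?_
  have m1 : Measurable fun y => ν2 k y * F.ff A d T0 (JJ H N X ks ys d T0 ν1) (nn H N ks ys d C1 ν1) (k, y) :=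
    (h2.meas k).mul (mff.comp measurable_prodMk_left)
  rw [← lintegral_const_mul _ m1]
  refine lintegral_mono fun y => ?_
  rw [mul_left_comm]
  refine mul_le_mul' le_rfl ?_
  have mI : ∀ j, Measurable fun t : ℝ => (F.Z A d T0 j).indicator (fun _ => (1 : ℝ≥0∞)) (((k, y) : Om), t) := fun j =>
    (measurable_const.indicator (F.mZ A d T0 j)).comp measurable_prodMk_left
  calc ∫⁻ t, X.indicator (RR H N ν1 {z | z ∈ X ∧ bkk H N ks z ∈ Metric.closedBall ys d} η) (lk H N k y t)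
      ≤ ∫⁻ t, ENNReal.ofReal (8 * d / c) * ∑ j ∈ JJ H N X ks ys d T0 ν1, ENNReal.ofReal (nn H N ks ys d C1 ν1 j) *
        (F.Z A d T0 j).indicator (fun _ => (1 : ℝ≥0∞)) (((k, y) : Om), t) :=
        lintegral_mono fun t => pw hH P h1 hks hk hX hsep y t
    _ = ENNReal.ofReal (8 * d / c) * ∑ j ∈ JJ H N X ks ys d T0 ν1, ENNReal.ofReal (nn H N ks ys d C1 ν1 j) *
        ∫⁻ t, (F.Z A d T0 j).indicator (fun _ => (1 : ℝ≥0∞)) (((k, y) : Om), t) := by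
        rw [lintegral_const_mul' _ _ ENNReal.ofReal_ne_top, lintegral_finset_sum _ (fun j _ => (mI j).const_mul _)]
        congr 1
        refine Finset.sum_congr rfl fun j _ => ?_
        rw [lintegral_const_mul _ (mI j)]
    _ = _ := by
        unfold Fr.ff
        congr 1
        refine Finset.sum_congr rfl fun j _ => ?_
        congr 1
        have mA : MeasurableSet {t : ℝ | (((k, y) : Om), t) ∈ F.Z A d T0 j} := measurable_prodMk_left (F.mZ A d T0 j)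
        rw [← lintegral_indicator_one mA]
        rfl

/-- **one-sided estimate** -/
theorem one (hH : H.ok) (hN : 1 ≤ N) (hd : d = (N:ℝ)⁻¹) {e1 e2 μ1 μ2 : ℝ} (P : Par c C1 T0 (e1 / 8) A d) (hC1 : 1 ≤ C1)
    (h1 : Dens N C1 d ν1) (h2 : Dens N C1 d ν2) (hsep : Sepf N c ν1 ν2) (mX : MeasurableSet X)
    (hX : ∀ z ∈ X, 1 ≤ H.tm z ∧ H.tm z ≤ T0) (hμ1 : 0 < μ1) (hμ2 : 0 < μ2) (he1 : 0 < e1) (he2 : 0 < e2)
    (hW1 : ∀ z ∈ X, ENNReal.ofReal μ1 ≤ H.W N ν1 z ∧ H.W N ν1 z ≤ ENNReal.ofReal (C1 * μ1))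
    (hW2 : ∀ z ∈ X, ENNReal.ofReal μ2 ≤ H.W N ν2 z)
    (hE1 : ENNReal.ofReal e1 * Eng N ν1 ≤ ENNReal.ofReal μ1 * volume X)
    (hE2 : ENNReal.ofReal e2 * Eng N ν2 ≤ ENNReal.ofReal μ2 * volume X) (hE0 : Eng N ν2 ≠ 0)
    {lam : ℝ} (hlam : lam = c * (e1 * e2) * (μ1 * μ2) * d ^ 2 / (256 * C1)) {I : ℝ} (hI : I = 2 * T0 * C1 ^ 19 * μ1 / d)
    {ns : ℕ} (hns : 1 ≤ ns) (hn1 : 2 * A ^ 13 ≤ 2 ^ ns * d) (hn2 : 2 * A ^ 26 < lam * 4 ^ ns) :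
    (lam / (2 * ns)) ^ 2 ≤ 18432 * (A ^ 13) ^ 8 * (ns + 1) * I * d ^ 3 ∨
    (lam / (2 * ns)) ^ 3 ≤ 589824 * (A ^ 13) ^ 13 * (ns + 1) * I * d ^ 3 ∨
    (lam / (2 * ns)) ^ 9 ≤ 5898240 * 82944 * 2097152 * (ns + 1) ^ 3 * (A ^ 13) ^ 37 * I ^ 4 * d ^ 9 := by
  have hc := P.hc
  have hd0 := P.hd
  have hT := P.hT
  have hA := P.hA
  have hC0 : 0 < C1 := by linarith
  have t1 := T1 hH (N := N) h1.meas h2.meas h1.fin mX P.hT hX hμ1 hμ2.le he1.le he2.le (fun z hz => (hW1 z hz).1) hW2 hE1 hE2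
  rw [Phi_eq hH h1.meas h2.meas mX] at t1
  have mΘ : ∀ k ∈ grd N, Measurable fun y => ∫⁻ t, X.indicator (GG H N ν1 ν2 X (e1 / 8)) (lk H N k y t) := by
    intro k hk
    have R := rdk hH (grd_pos hk)
    exact (((mGG hH h1.meas h2.meas mX).indicator mX).comp R.mL).lintegral_prod_right'
  obtain ⟨ks, hks, ys, hys, hav⟩ := avg h2.meas h2.slow hd0 mΘ h2.fin.ne hE0 (by positivity) t1
  rw [T3 hH h1.meas h2.meas mX hks measurableSet_closedBall] at hav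
  set F := frm H N ks ys with hF
  have hsepF : ∀ k ∈ grd N, (∃ y, ν1 k y ≠ 0) → c ≤ |F.b1 k| ∨ c ≤ |F.b2 k| := by
    intro k hk hy
    have := hsep k hk ks hks hy ⟨ys, hys⟩
    have e1 : F.b1 k = ((k.1:ℝ) - ks.1) / N := by rw [sub_div]; rfl
    have e2 : F.b2 k = ((k.2:ℝ) - ks.2) / N := by rw [sub_div]; rfl
    rw [e1, e2]; exact this
  have hint := intg hH P h1 h2 hks hX hsepF (ys := ys)
  have hlow : ENNReal.ofReal lam ≤ ∫⁻ x, F.ff A d T0 (JJ H N X ks ys d T0 ν1) (nn H N ks ys d C1 ν1) x ∂(Lam N ν2) := by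
    have a1 : ENNReal.ofReal (e1 * e2 / 16 * (μ1 * μ2) / 2 * d ^ 3) ≤ ENNReal.ofReal (C1 * (8 * d / c)) *
        ∫⁻ x, F.ff A d T0 (JJ H N X ks ys d T0 ν1) (nn H N ks ys d C1 ν1) x ∂(Lam N ν2) := by
      refine hav.trans ((mul_le_mul' le_rfl hint).trans (le_of_eq ?_))
      rw [← mul_assoc, ← ENNReal.ofReal_mul hC0.le]
    have hp : 0 < C1 * (8 * d / c) := by positivity
    have a2 : ENNReal.ofReal (e1 * e2 / 16 * (μ1 * μ2) / 2 * d ^ 3) = ENNReal.ofReal (C1 * (8 * d / c)) * ENNReal.ofReal lam := by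
      rw [← ENNReal.ofReal_mul hp.le, hlam]
      congr 1
      field_simp
      ring
    rw [a2] at a1
    exact (ENNReal.mul_le_mul_iff_right (by simpa using hp) ENNReal.ofReal_ne_top).1 a1
  have hJ : ∀ j ∈ JJ H N X ks ys d T0 ν1, j.2 ∈ grd F.N ∧ c ^ 2 ≤ F.b1 j.2 ^ 2 + F.b2 j.2 ^ 2 := by
    intro j hj
    exact ⟨(JJ_mem hj).1, sq_sep hc (hsepF j.2 (JJ_mem hj).1 (JJ_mem hj).2)⟩
  have hrel : ∀ x : Om, x.1 ∈ grd F.N → ν2 x.1 x.2 ≠ 0 → ∀ j ∈ JJ H N X ks ys d T0 ν1, ∀ t, (x, t) ∈ F.Z A d T0 j → x ∈ F.Sb A := by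
    intro x hx hν j hj t hZ
    obtain ⟨hj1, hj2⟩ := hJ j hj
    refine Fr.rel (frm_good hH hks ys) P hx hZ hj1 hj2 ?_
    have := hsep j.2 hj1 x.1 hx (JJ_mem hj).2 ⟨_, hν⟩
    have e1 : F.b1 x.1 - F.b1 j.2 = -(((j.2.1:ℝ) - x.1.1) / N) := by
      show (x.1.1:ℝ) / N - ks.1 / N - ((j.2.1:ℝ) / N - ks.1 / N) = _
      ring
    have e2 : F.b2 x.1 - F.b2 j.2 = -(((j.2.2:ℝ) - x.1.2) / N) := by
      show (x.1.2:ℝ) / N - ks.2 / N - ((j.2.2:ℝ) / N - ks.2 / N) = _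
      ring
    rw [e1, e2, neg_sq, neg_sq]
    exact sq_sep hc this
  have hlam0 : 0 < lam := by rw [hlam]; positivity
  have hI0 : 0 < I := by rw [hI]; positivity
  refine Fr.shell_main (frm_good hH hks ys) P hN hd h2 hJ (fun j _ => nn_nonneg j) ?_ hI0 ?_ hlam0 hns hn1 hn2 hrel hlow
  · intro j hj
    refine (nn_le h1 hC0.le (hJ j hj).1).trans ?_
    calc C1 ^ 10 ≤ A ^ 10 := by have := P.hAC; gcongr
      _ ≤ A ^ 13 := pow_le_pow_right₀ (by linarith) (by norm_num)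
  · rw [hI]
    exact nn_sum hH h1 hC1 hd0 (Fr.hd1 P) hT hks hμ1.le (fun z hz => (hW1 z hz).2)

end Vale.Agent.P106.G
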