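import Vale.Agent.P106.G.GeL

/-! # Numerics of the geometric estimate -/

open MeasureTheory Set
open scoped ENNReal

set_option linter.all false

namespace Vale.Agent.P106.G

theorem fin1 {A T C S e μ1 μ2 d n x : ℝ} (hA : 0 < A) (hT : 0 < T) (hC : 0 < C) (hS : 0 < S) (hμ1 : 0 < μ1) (hd : 0 < d)
    (hn : 0 ≤ n) (hx : e * μ1 * μ2 * d ^ 2 = x * (S * n))
    (h : x ^ 2 ≤ 18432 * (A ^ 13) ^ 8 * (n + 1) * (2 * T * C ^ 19 * μ1 / d) * d ^ 3) :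
    e ^ 2 * μ1 * μ2 ^ 2 * d ^ 2 ≤ (18432 * (2 * T * C ^ 19) * S ^ 2) * A ^ 104 * (n + 1) ^ 3 := by
  have h1 : (e ^ 2 * μ1 * μ2 ^ 2 * d ^ 2) * (μ1 * d ^ 2) ≤
      ((18432 * (2 * T * C ^ 19) * S ^ 2) * A ^ 104 * (n + 1) ^ 3) * (μ1 * d ^ 2) := by
    calc (e ^ 2 * μ1 * μ2 ^ 2 * d ^ 2) * (μ1 * d ^ 2) = (e * μ1 * μ2 * d ^ 2) ^ 2 := by ring
      _ = x ^ 2 * (S * n) ^ 2 := by rw [hx]; ring
      _ ≤ (18432 * (A ^ 13) ^ 8 * (n + 1) * (2 * T * C ^ 19 * μ1 / d) * d ^ 3) * (S * (n + 1)) ^ 2 := by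
          gcongr
          linarith
      _ = _ := by field_simp
  exact le_of_mul_le_mul_right h1 (by positivity)

theorem fin2 {A T C S e μ1 μ2 d n x : ℝ} (hA : 0 < A) (hT : 0 < T) (hC : 0 < C) (hS : 0 < S) (hμ1 : 0 < μ1) (hd : 0 < d)
    (hn : 0 ≤ n) (hx0 : 0 ≤ x) (hx : e * μ1 * μ2 * d ^ 2 = x * (S * n))
    (h : x ^ 3 ≤ 589824 * (A ^ 13) ^ 13 * (n + 1) * (2 * T * C ^ 19 * μ1 / d) * d ^ 3) :
    e ^ 3 * μ1 ^ 2 * μ2 ^ 3 * d ^ 4 ≤ (589824 * (2 * T * C ^ 19) * S ^ 3) * A ^ 169 * (n + 1) ^ 4 := by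
  have h1 : (e ^ 3 * μ1 ^ 2 * μ2 ^ 3 * d ^ 4) * (μ1 * d ^ 2) ≤
      ((589824 * (2 * T * C ^ 19) * S ^ 3) * A ^ 169 * (n + 1) ^ 4) * (μ1 * d ^ 2) := by
    calc (e ^ 3 * μ1 ^ 2 * μ2 ^ 3 * d ^ 4) * (μ1 * d ^ 2) = (e * μ1 * μ2 * d ^ 2) ^ 3 := by ring
      _ = x ^ 3 * (S * n) ^ 3 := by rw [hx]; ring
      _ ≤ (589824 * (A ^ 13) ^ 13 * (n + 1) * (2 * T * C ^ 19 * μ1 / d) * d ^ 3) * (S * (n + 1)) ^ 3 := by
          gcongr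
          linarith
      _ = _ := by field_simp
  exact le_of_mul_le_mul_right h1 (by positivity)

theorem fin3 {A T C S e μ1 μ2 d n x : ℝ} (hA : 0 < A) (hT : 0 < T) (hC : 0 < C) (hS : 0 < S) (hμ1 : 0 < μ1) (hd : 0 < d)
    (hn : 0 ≤ n) (hx0 : 0 ≤ x) (hx : e * μ1 * μ2 * d ^ 2 = x * (S * n))
    (h : x ^ 9 ≤ 5898240 * 82944 * 2097152 * (n + 1) ^ 3 * (A ^ 13) ^ 37 * (2 * T * C ^ 19 * μ1 / d) ^ 4 * d ^ 9) :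
    e ^ 9 * μ1 ^ 5 * μ2 ^ 9 * d ^ 13 ≤ (5898240 * 82944 * 2097152 * (2 * T * C ^ 19) ^ 4 * S ^ 9) * A ^ 481 * (n + 1) ^ 12 := by
  have h1 : (e ^ 9 * μ1 ^ 5 * μ2 ^ 9 * d ^ 13) * (μ1 ^ 4 * d ^ 5) ≤
      ((5898240 * 82944 * 2097152 * (2 * T * C ^ 19) ^ 4 * S ^ 9) * A ^ 481 * (n + 1) ^ 12) * (μ1 ^ 4 * d ^ 5) := by
    calc (e ^ 9 * μ1 ^ 5 * μ2 ^ 9 * d ^ 13) * (μ1 ^ 4 * d ^ 5) = (e * μ1 * μ2 * d ^ 2) ^ 9 := by ring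
      _ = x ^ 9 * (S * n) ^ 9 := by rw [hx]; ring
      _ ≤ (5898240 * 82944 * 2097152 * (n + 1) ^ 3 * (A ^ 13) ^ 37 * (2 * T * C ^ 19 * μ1 / d) ^ 4 * d ^ 9) * (S * (n + 1)) ^ 9 := by
          gcongr
          linarith
      _ = _ := by field_simp
  exact le_of_mul_le_mul_right h1 (by positivity)

/-- the common conclusion of the three alternatives -/
theorem fin123 {A T C S e μ1 μ2 d n x : ℝ} (hA : 1 ≤ A) (hT : 0 < T) (hC : 1 ≤ C) (hS : 0 < S) (hμ1 : 0 < μ1) (hμ2 : 0 < μ2)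
    (he : 0 < e) (he1 : e ≤ 1) (hd : 0 < d) (hd1 : d ≤ 1) (hn : 0 ≤ n) (hx0 : 0 ≤ x) (hx : e * μ1 * μ2 * d ^ 2 = x * (S * n))
    (hm1 : μ1 * d ^ 2 ≤ C) (hm2 : μ2 * d ^ 2 ≤ C)
    (h : x ^ 2 ≤ 18432 * (A ^ 13) ^ 8 * (n + 1) * (2 * T * C ^ 19 * μ1 / d) * d ^ 3 ∨
      x ^ 3 ≤ 589824 * (A ^ 13) ^ 13 * (n + 1) * (2 * T * C ^ 19 * μ1 / d) * d ^ 3 ∨
      x ^ 9 ≤ 5898240 * 82944 * 2097152 * (n + 1) ^ 3 * (A ^ 13) ^ 37 * (2 * T * C ^ 19 * μ1 / d) ^ 4 * d ^ 9) :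
    (e ^ 9 * μ1 ^ 5 * μ2 ^ 9 * d ^ 13) ^ 2 ≤
      ((18432 * (2 * T * C ^ 19) * S ^ 2) ^ 9 * C + (589824 * (2 * T * C ^ 19) * S ^ 3) ^ 5 * C ^ 3 +
        (5898240 * 82944 * 2097152 * (2 * T * C ^ 19) ^ 4 * S ^ 9) ^ 2) * A ^ 962 * (n + 1) ^ 27 := by
  have hA0 : 0 < A := by linarith
  have hC0 : 0 < C := by linarith
  have hn1 : 1 ≤ n + 1 := by linarith
  set K1 := 18432 * (2 * T * C ^ 19) * S ^ 2 with hK1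
  set K2 := 589824 * (2 * T * C ^ 19) * S ^ 3 with hK2
  set K3 := 5898240 * 82944 * 2097152 * (2 * T * C ^ 19) ^ 4 * S ^ 9 with hK3
  have p1 : 0 < K1 := by rw [hK1]; positivity
  have p2 : 0 < K2 := by rw [hK2]; positivity
  have p3 : 0 < K3 := by rw [hK3]; positivity
  clear_value K1 K2 K3
  have q : ∀ B : ℝ, 0 ≤ B → B ≤ K1 ^ 9 * C + K2 ^ 5 * C ^ 3 + K3 ^ 2 → ∀ i j : ℕ, i ≤ 962 → j ≤ 27 →
      B * A ^ i * (n + 1) ^ j ≤ (K1 ^ 9 * C + K2 ^ 5 * C ^ 3 + K3 ^ 2) * A ^ 962 * (n + 1) ^ 27 := by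
    intro B hB hB2 i j hi hj
    gcongr
  have n1 : 0 ≤ K1 ^ 9 * C := by positivity
  have n2 : 0 ≤ K2 ^ 5 * C ^ 3 := by positivity
  have n3 : 0 ≤ K3 ^ 2 := by positivity
  rcases h with h | h | h
  · have h1 := fin1 hA0 hT hC0 hS hμ1 hd hn hx h
    rw [← hK1] at h1
    refine le_trans ?_ (q (K1 ^ 9 * C) n1 (by linarith) 936 27 (by norm_num) (by norm_num))
    calc (e ^ 9 * μ1 ^ 5 * μ2 ^ 9 * d ^ 13) ^ 2 = (e ^ 2 * μ1 * μ2 ^ 2 * d ^ 2) ^ 9 * (μ1 * d ^ 2) * d ^ 6 := by ring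
      _ ≤ (K1 * A ^ 104 * (n + 1) ^ 3) ^ 9 * C * 1 := by
          gcongr
          exact pow_le_one₀ hd.le hd1
      _ = _ := by ring
  · have h1 := fin2 hA0 hT hC0 hS hμ1 hd hn hx0 hx h
    rw [← hK2] at h1
    refine le_trans ?_ (q (K2 ^ 5 * C ^ 3) n2 (by linarith) 845 20 (by norm_num) (by norm_num))
    calc (e ^ 9 * μ1 ^ 5 * μ2 ^ 9 * d ^ 13) ^ 2 = (e ^ 3 * μ1 ^ 2 * μ2 ^ 3 * d ^ 4) ^ 5 * (μ2 * d ^ 2) ^ 3 * e ^ 3 := by ring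
      _ ≤ (K2 * A ^ 169 * (n + 1) ^ 4) ^ 5 * C ^ 3 * 1 := by
          gcongr
          exact pow_le_one₀ he.le he1
      _ = _ := by ring
  · have h1 := fin3 hA0 hT hC0 hS hμ1 hd hn hx0 hx h
    rw [← hK3] at h1
    refine le_trans ?_ (q (K3 ^ 2) n3 (by linarith) 962 24 (by norm_num) (by norm_num))
    calc (e ^ 9 * μ1 ^ 5 * μ2 ^ 9 * d ^ 13) ^ 2 ≤ (K3 * A ^ 481 * (n + 1) ^ 12) ^ 2 := by gcongr
      _ = _ := by ring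

/-- choice of the number of shells -/
theorem ns_ex {K : ℝ} (hK : 1 ≤ K) : ∃ L : ℝ, 1 ≤ L ∧ ∀ N : ℕ, 1 ≤ N → ∃ ns : ℕ, 1 ≤ ns ∧ K * (N:ℝ) ^ 6 ≤ 2 ^ ns ∧
    (ns:ℝ) + 1 ≤ L * (1 + Real.log N) := by
  refine ⟨2 * Real.log K + 15, by have := Real.log_nonneg hK; linarith, fun N hN => ?_⟩
  have hN1 : (1:ℝ) ≤ N := by exact_mod_cast hN
  have hR : 1 ≤ K * (N:ℝ) ^ 6 := by
    have : 1 ≤ (N:ℝ) ^ 6 := one_le_pow₀ hN1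
    nlinarith
  have hl2 : 1/2 < Real.log 2 := by have := Real.log_two_gt_d9; linarith
  have hlR : Real.log (K * (N:ℝ) ^ 6) = Real.log K + 6 * Real.log N := by
    rw [Real.log_mul (by linarith) (by positivity), Real.log_pow]; push_cast; ring
  have hlN : 0 ≤ Real.log N := Real.log_nonneg hN1
  have hlK : 0 ≤ Real.log K := Real.log_nonneg hK
  set u := Real.log (K * (N:ℝ) ^ 6) / Real.log 2 with hu
  have hu0 : 0 ≤ u := div_nonneg (by rw [hlR]; positivity) (by linarith)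
  refine ⟨⌈u⌉₊ + 1, by omega, ?_, ?_⟩
  · have h1 : u ≤ ((⌈u⌉₊ + 1 : ℕ) : ℝ) := by push_cast; linarith [Nat.le_ceil u]
    have h2 : K * (N:ℝ) ^ 6 = 2 ^ u := by
      rw [Real.rpow_def_of_pos (by norm_num), hu, mul_div_cancel₀ _ (by linarith), Real.exp_log (by linarith)]
    rw [h2, ← Real.rpow_natCast]
    exact Real.rpow_le_rpow_of_exponent_le (by norm_num) h1
  · have h1 : (⌈u⌉₊ : ℝ) < u + 1 := Nat.ceil_lt_add_one hu0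
    have h2 : u ≤ 2 * (Real.log K + 6 * Real.log N) := by
      rw [hu, hlR, div_le_iff₀ (by linarith)]
      nlinarith
    push_cast
    nlinarith

end Vale.Agent.P106.G
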