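import Vale.Agent.P106.A.Mode
import Vale.Agent.P106.G.DefsF

/-! # Interpolation of the frequency localized estimates -/

open MeasureTheory Complex Set Filter
open scoped ENNReal NNReal ContDiff FourierTransform SchwartzMap Topology

set_option linter.all false

namespace Vale.Agent.P106.G

open Vale.Agent.P117 Vale.Agent.P106

/-- measure of the time slab `[R, 2R]` -/
noncomputable def muR (R : ℝ) : Measure (ℝ × E3) := (volume.restrict (Icc R (2 * R))).prod volume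

instance (R : ℝ) : SigmaFinite (muR R) := by unfold muR; infer_instance

/-- the localized evolution as a function on space time -/
noncomputable def WW (X : E3 → ℂ) (f : E3 → ℂ) (z : ℝ × E3) : ℂ :=
  𝓕⁻ (fun ξ : E3 => cexp (2 * Real.pi * I * (z.1 * ‖ξ‖ : ℝ)) * (X ξ * 𝓕 f ξ)) z.2

section
variable {X : E3 → ℂ}

theorem int_Xf (hX : Continuous X) (hXc : HasCompactSupport X) {f : E3 → ℂ} (hf : Integrable f) :
    Integrable (fun ξ => X ξ * 𝓕 f ξ) := by
  have hXi : Integrable X := hX.integrable_of_hasCompactSupport hXc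
  apply hXi.mul_bdd (c := ∫ v, ‖f v‖) (continuous_fourier hf).aestronglyMeasurable
  filter_upwards with x
  exact norm_fourier_le f x

theorem int_eXf (hX : Continuous X) (hXc : HasCompactSupport X) {f : E3 → ℂ} (hf : Integrable f) (t : ℝ) :
    Integrable (fun ξ : E3 => cexp (2 * Real.pi * I * (t * ‖ξ‖ : ℝ)) * (X ξ * 𝓕 f ξ)) := by
  refine (int_Xf hX hXc hf).bdd_mul (c := 1) ?_ ?_
  · apply Continuous.aestronglyMeasurable; fun_prop
  · filter_upwards with ξ
    exact (norm_ex _).le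

theorem cont_WW (hX : Continuous X) (hXc : HasCompactSupport X) {f : E3 → ℂ} (hf : Integrable f) :
    Continuous (WW X f) := by
  apply cont_mt (int_Xf hX hXc hf) (m := fun t ξ => cexp (2 * Real.pi * I * (t * ‖ξ‖ : ℝ))) (B := 1)
  · intro t
    apply Continuous.measurable
    fun_prop
  · intro t ξ
    exact (norm_ex _).le
  · intro ξ
    fun_prop

theorem norm_WW_le (z : ℝ × E3) (f : E3 → ℂ) : ‖WW X f z‖ ≤ ∫ ξ, ‖X ξ * 𝓕 f ξ‖ := by
  unfold WW
  refine (norm_fourierInv_le _ _).trans (le_of_eq ?_)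
  congr 1
  ext ξ
  rw [norm_mul, norm_ex, one_mul]

theorem WW_add (hX : Continuous X) (hXc : HasCompactSupport X) {f g : E3 → ℂ} (hf : Integrable f)
    (hg : Integrable g) (z : ℝ × E3) : WW X (f + g) z = WW X f z + WW X g z := by
  unfold WW
  rw [← fi_add (int_eXf hX hXc hf _) (int_eXf hX hXc hg _)]
  refine congrArg (fun G : E3 → ℂ => 𝓕⁻ G z.2) (funext fun ξ => ?_)
  have h1 : 𝓕 (f + g) ξ = 𝓕 f ξ + 𝓕 g ξ := by
    rw [Real.fourier_eq, Real.fourier_eq, Real.fourier_eq, ← integral_add]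
    · congr 1
      ext v
      rw [Pi.add_apply, smul_add]
    · exact (Real.fourierIntegral_convergent_iff ξ).2 hf
    · exact (Real.fourierIntegral_convergent_iff ξ).2 hg
  rw [h1]
  ring

theorem WW_smul (c : ℂ) (f : E3 → ℂ) (z : ℝ × E3) : WW X (c • f) z = c * WW X f z := by
  unfold WW
  rw [← fi_const]
  refine congrArg (fun G : E3 → ℂ => 𝓕⁻ G z.2) (funext fun ξ => ?_)
  have h1 : 𝓕 (c • f) ξ = c * 𝓕 f ξ := by
    rw [Real.fourier_eq, Real.fourier_eq, ← integral_const_mul]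
    congr 1
    ext v
    rw [Pi.smul_apply, smul_eq_mul]
    simp only [Circle.smul_def, smul_eq_mul]
    ring
  rw [h1]
  ring

end

/-- the bilinear form of the localized evolution -/
noncomputable def BW (X : E3 → ℂ) (R : ℝ) (F : E3 → ℂ) (G : ℝ × E3 → ℂ) : ℂ :=
  ∫ z, WW X F z * G z ∂(muR R)

section
variable {X : E3 → ℂ}

theorem int_BW (hX : Continuous X) (hXc : HasCompactSupport X) (R : ℝ) {F : E3 → ℂ} (hF : Adm volume F)
    {G : ℝ × E3 → ℂ} (hG : Adm (muR R) G) : Integrable (fun z => WW X F z * G z) (muR R) := by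
  refine hG.int.bdd_mul (c := ∫ ξ, ‖X ξ * 𝓕 F ξ‖) (cont_WW hX hXc hF.int).aestronglyMeasurable ?_
  filter_upwards with z
  exact norm_WW_le z F

theorem bilAdm_BW (hX : Continuous X) (hXc : HasCompactSupport X) (R : ℝ) :
    BilAdm volume (muR R) (BW X R) := by
  refine ⟨?_, ?_, ?_, ?_⟩
  · intro F F' G hF hF' hG
    unfold BW
    rw [← integral_add (int_BW hX hXc R hF hG) (int_BW hX hXc R hF' hG)]
    congr 1
    ext z
    rw [WW_add hX hXc hF.int hF'.int]; ring
  · intro F G G' hF hG hG'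
    unfold BW
    rw [← integral_add (int_BW hX hXc R hF hG) (int_BW hX hXc R hF hG')]
    congr 1
    ext z
    rw [Pi.add_apply]; ring
  · intro c F G hF hG
    unfold BW
    rw [← integral_const_mul]
    congr 1
    ext z
    rw [WW_smul]; ring
  · intro c F G hF hG
    unfold BW
    rw [← integral_const_mul]
    congr 1
    ext z
    rw [Pi.smul_apply, smul_eq_mul]; ring

theorem BW_le (hX : Continuous X) (hXc : HasCompactSupport X) {R P : ℝ} (hP : 1 < P) {F : E3 → ℂ}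
    (hF : Adm volume F) {G : ℝ × E3 → ℂ} (hG : Adm (muR R) G) {D : ℝ} (hD : 0 ≤ D)
    (h : ∫⁻ z, ‖WW X F z‖ₑ ^ P ∂(muR R) ≤ ENNReal.ofReal (D ^ P)) :
    ‖BW X R F G‖ ≤ D * nrm (ENNReal.ofReal (P / (P - 1))) G (muR R) := by
  set Q := P / (P - 1) with hQ
  have hPQ : P.HolderConjugate Q := Real.HolderConjugate.conjExponent hP
  have hQ1 : 1 < Q := hPQ.symm.lt
  have hP0 : 0 < P := by linarith
  have hQ0 : 0 < Q := by linarith
  have hQ1' : 1 ≤ ENNReal.ofReal Q := by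
    rw [← ENNReal.ofReal_one]; exact ENNReal.ofReal_le_ofReal hQ1.le
  have n0 : 0 ≤ nrm (ENNReal.ofReal Q) G (muR R) := nrm_nonneg
  have hWm : Measurable (WW X F) := (cont_WW hX hXc hF.int).measurable
  have h1 : ‖BW X R F G‖ₑ ≤ ENNReal.ofReal D * ENNReal.ofReal (nrm (ENNReal.ofReal Q) G (muR R)) := by
    calc ‖BW X R F G‖ₑ ≤ ∫⁻ z, ‖WW X F z‖ₑ * ‖G z‖ₑ ∂(muR R) := by
          unfold BW
          refine (enorm_integral_le_lintegral_enorm _).trans (le_of_eq ?_)
          congr 1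
          ext z
          rw [enorm_mul]
      _ ≤ (∫⁻ z, ‖WW X F z‖ₑ ^ P ∂(muR R)) ^ (1 / P) * (∫⁻ z, ‖G z‖ₑ ^ Q ∂(muR R)) ^ (1 / Q) :=
          ENNReal.lintegral_mul_le_Lp_mul_Lq (muR R) hPQ hWm.enorm.aemeasurable hG.meas.enorm.aemeasurable
      _ ≤ _ := by
          gcongr
          · calc (∫⁻ z, ‖WW X F z‖ₑ ^ P ∂(muR R)) ^ (1 / P) ≤ (ENNReal.ofReal (D ^ P)) ^ (1 / P) := by gcongr
              _ = ENNReal.ofReal D := by
                rw [ENNReal.ofReal_rpow_of_nonneg (by positivity) (by positivity), ← Real.rpow_mul hD,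
                  mul_one_div_cancel hP0.ne', Real.rpow_one]
          · rw [hG.ofReal_nrm hQ1', eLpNorm_eq_lintegral_rpow_enorm_toReal (by simp; linarith) ENNReal.ofReal_ne_top,
              ENNReal.toReal_ofReal hQ0.le]
  rw [← ENNReal.ofReal_mul hD, ← ofReal_norm, ENNReal.ofReal_le_ofReal_iff (by positivity)] at h1
  exact h1

theorem lint_muR {P : ℝ} (hX : Continuous X) (hXc : HasCompactSupport X) (R : ℝ) {f : E3 → ℂ} (hf : Integrable f) :
    ∫⁻ z, ‖WW X f z‖ₑ ^ P ∂(muR R) = ∫⁻ t in Icc R (2 * R), ∫⁻ x : E3,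
      ‖𝓕⁻ (fun ξ : E3 => cexp (2 * Real.pi * I * (t * ‖ξ‖ : ℝ)) * (X ξ * 𝓕 f ξ)) x‖ₑ ^ P := by
  unfold muR
  have hm := (cont_WW hX hXc hf).measurable
  rw [lintegral_prod _ (by fun_prop)]
  rfl

/-- normalized form of the localized estimate -/
def GLn (P a : ℝ) (X : E3 → ℂ) : Prop := ∃ D : ℝ, 0 ≤ D ∧ ∀ (R : ℝ) (f : E3 → ℂ), 1 ≤ R → Adm volume f →
    ∫⁻ z, ‖WW X f z‖ₑ ^ P ∂(muR R) ≤ ENNReal.ofReal ((D * R ^ (a + 1 / P) * nrm (ENNReal.ofReal P) f volume) ^ P)

theorem GL_pow {C R a P n : ℝ} (hC : 0 ≤ C) (hR : 0 < R) (hP : 0 < P) (hn : 0 ≤ n) :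
    (C * R ^ (a + 1 / P) * n) ^ P = C ^ P * R ^ (a * P + 1) * n ^ P := by
  rw [Real.mul_rpow (by positivity) hn, Real.mul_rpow hC (by positivity), ← Real.rpow_mul hR.le]
  congr 3
  field_simp

theorem GLn_of (hX : Continuous X) (hXc : HasCompactSupport X) {P a : ℝ} (hP : 1 ≤ P) (h : StGL P a X) :
    GLn P a X := by
  obtain ⟨C, hC, h⟩ := h
  have hP0 : 0 < P := by linarith
  refine ⟨C ^ (1 / P), by positivity, ?_⟩
  intro R f hR hf
  have hR0 : 0 < R := by linarith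
  have n0 : 0 ≤ nrm (ENNReal.ofReal P) f volume := nrm_nonneg
  rw [lint_muR hX hXc R hf.int]
  refine (h R f hR hf).trans (le_of_eq ?_)
  rw [nrm_pow hP hf, ← ENNReal.ofReal_mul (by positivity), GL_pow (by positivity) hR0 hP0 n0,
    ← Real.rpow_mul hC, one_div_mul_cancel hP0.ne', Real.rpow_one]

theorem of_GLn (hX : Continuous X) (hXc : HasCompactSupport X) {P a : ℝ} (hP : 1 ≤ P) (h : GLn P a X) :
    StGL P a X := by
  obtain ⟨C, hC, h⟩ := h
  have hP0 : 0 < P := by linarith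
  refine ⟨C ^ P, by positivity, ?_⟩
  intro R f hR hf
  have hR0 : 0 < R := by linarith
  have n0 : 0 ≤ nrm (ENNReal.ofReal P) f volume := nrm_nonneg
  have h1 := h R f hR hf
  rw [lint_muR hX hXc R hf.int] at h1
  refine h1.trans (le_of_eq ?_)
  rw [nrm_pow hP hf, ← ENNReal.ofReal_mul (by positivity), GL_pow hC hR0 hP0 n0]

/-- **interpolation** of the localized estimates -/
theorem interp_GL (hX : Continuous X) (hXc : HasCompactSupport X) {P0 P1 P a0 a1 θ : ℝ} (h0 : 1 < P0) (h1 : 1 < P1)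
    (hθ0 : 0 < θ) (hθ1 : θ < 1) (hP : 1 / P = (1 - θ) / P0 + θ / P1) (H0 : StGL P0 a0 X) (H1 : StGL P1 a1 X) :
    StGL P ((1 - θ) * a0 + θ * a1) X := by
  have h1θ : 0 < 1 - θ := by linarith
  have hP00 : 0 < P0 := by linarith
  have hP10 : 0 < P1 := by linarith
  have hPi : 0 < 1 / P := by rw [hP]; positivity
  have hPi1 : 1 / P < 1 := by
    rw [hP]
    have e1 : (1 - θ) / P0 < 1 - θ := div_lt_self h1θ h0
    have e2 : θ / P1 < θ := div_lt_self hθ0 h1
    linarith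
  have hP0 : 0 < P := one_div_pos.1 hPi
  have hP1 : 1 < P := by
    rw [div_lt_one hP0] at hPi1
    exact hPi1
  obtain ⟨D0, hD0, G0⟩ := GLn_of hX hXc h0.le H0
  obtain ⟨D1, hD1, G1⟩ := GLn_of hX hXc h1.le H1
  apply of_GLn hX hXc hP1.le
  refine ⟨D0 ^ (1 - θ) * D1 ^ θ, by positivity, ?_⟩
  intro R f hR hf
  have hR0 : 0 < R := by linarith
  have n0 : 0 ≤ nrm (ENNReal.ofReal P) f volume := nrm_nonneg
  have hWm : Measurable (WW X f) := (cont_WW hX hXc hf.int).measurable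
  refine dual_gen (μ := muR R) hP1 hWm (C := ∫ ξ, ‖X ξ * 𝓕 f ξ‖) (integral_nonneg fun _ => norm_nonneg _)
    (fun z => norm_WW_le z f) (by positivity) ?_
  intro g hg
  have hQ : ∀ {p : ℝ}, 1 < p → 1 ≤ ENNReal.ofReal (p / (p - 1)) := by
    intro p hp
    rw [← ENNReal.ofReal_one]
    apply ENNReal.ofReal_le_ofReal
    rw [le_div_iff₀ (by linarith)]; linarith
  have hp' : ∀ {p : ℝ}, 1 < p → 1 ≤ ENNReal.ofReal p := by
    intro p hp
    rw [← ENNReal.ofReal_one]
    exact ENNReal.ofReal_le_ofReal hp.le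
  have hq' : ∀ {p : ℝ}, 1 < p → (1 / ENNReal.ofReal (p / (p - 1))).toReal = 1 - 1 / p := by
    intro p hp
    have : 0 < p / (p - 1) := div_pos (by linarith) (by linarith)
    rw [toReal_inv_ofReal this]
    have : p ≠ 0 := by linarith
    field_simp
  have hT := T01 (bilAdm_BW hX hXc R) (p0 := ENNReal.ofReal P0) (p1 := ENNReal.ofReal P1)
    (q0 := ENNReal.ofReal (P0 / (P0 - 1))) (q1 := ENNReal.ofReal (P1 / (P1 - 1)))
    (p := ENNReal.ofReal P) (q := ENNReal.ofReal (P / (P - 1)))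
    (hp' h0) ENNReal.ofReal_ne_top (hp' h1) (hQ h0) ENNReal.ofReal_ne_top (hQ h1) hθ0 hθ1
    (by
      rw [toReal_inv_ofReal hP0, toReal_inv_ofReal hP00, toReal_inv_ofReal hP10, hP]
      ring)
    (by
      rw [hq' hP1, hq' h0, hq' h1, hP]
      ring)
    (hp' hP1) (hQ hP1) (M0 := D0 * R ^ (a0 + 1 / P0)) (M1 := D1 * R ^ (a1 + 1 / P1)) (by positivity) (by positivity)
    (fun F G hF hG => by
      have m0 : 0 ≤ nrm (ENNReal.ofReal P0) F volume := nrm_nonneg
      exact BW_le hX hXc h0 hF hG (by positivity) (G0 R F hR hF))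
    (fun F G hF hG => by
      have m0 : 0 ≤ nrm (ENNReal.ofReal P1) F volume := nrm_nonneg
      exact BW_le hX hXc h1 hF hG (by positivity) (G1 R F hR hF))
    hf hg
  refine hT.trans (le_of_eq ?_)
  congr 2
  rw [Real.mul_rpow hD0 (by positivity), Real.mul_rpow hD1 (by positivity), ← Real.rpow_mul hR0.le,
    ← Real.rpow_mul hR0.le]
  have e1 : (1 - θ) * a0 + θ * a1 + 1 / P = (a0 + 1 / P0) * (1 - θ) + (a1 + 1 / P1) * θ := by
    rw [hP]; ring
  rw [e1, Real.rpow_add hR0]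
  ring

end

end Vale.Agent.P106.G
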