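import Vale.Agent.P106.G.IntA

/-! # Approximation by Schwartz functions -/

open MeasureTheory Complex Set Filter
open scoped ENNReal NNReal ContDiff FourierTransform SchwartzMap Topology Convolution

set_option linter.all false

namespace Vale.Agent.P106.G

open Vale.Agent.P117 Vale.Agent.P106

/-- small bumps -/
noncomputable def bpS (n : ℕ) : ContDiffBump (0 : E3) :=
  ⟨1 / ((n:ℝ) + 1), 2 / ((n:ℝ) + 1), by positivity, by
    apply div_lt_div_of_pos_right (by norm_num) (by positivity)⟩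

/-- large bumps -/
noncomputable def bpL (n : ℕ) : ContDiffBump (0 : E3) :=
  ⟨(n:ℝ) + 1, (n:ℝ) + 2, by positivity, by linarith⟩

/-- mollifier -/
noncomputable def kS (n : ℕ) (x : E3) : ℂ := (((bpS n).normed volume x : ℝ) : ℂ)

theorem kS_cont (n : ℕ) : Continuous (kS n) :=
  Complex.continuous_ofReal.comp (bpS n).continuous_normed

theorem kS_int (n : ℕ) : Integrable (kS n) := (bpS n).integrable_normed.ofReal

theorem kS_L1 (n : ℕ) : ∫⁻ x, ‖kS n x‖ₑ ≤ ENNReal.ofReal 1 := by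
  have h1 : ∀ x, ‖kS n x‖ₑ = ENNReal.ofReal ((bpS n).normed volume x) := by
    intro x
    unfold kS
    rw [← ofReal_norm, Complex.norm_real, Real.norm_of_nonneg ((bpS n).nonneg_normed x)]
  simp_rw [h1]
  rw [← ofReal_integral_eq_lintegral_ofReal (bpS n).integrable_normed
    (Filter.Eventually.of_forall fun x => (bpS n).nonneg_normed x), (bpS n).integral_normed]

theorem cv_kS (n : ℕ) (f : E3 → ℂ) (x : E3) :
    cv (kS n) f x = ((bpS n).normed volume ⋆[ContinuousLinearMap.lsmul ℝ ℝ, volume] f) x := by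
  rw [convolution_eq_swap]
  unfold cv kS
  congr 1

theorem norm_cv_kS_le (n : ℕ) {f : E3 → ℂ} (hf : Measurable f) {M : ℝ} (hM : ∀ x, ‖f x‖ ≤ M) (x : E3) :
    ‖cv (kS n) f x‖ ≤ M := by
  have hM0 : 0 ≤ M := (norm_nonneg _).trans (hM 0)
  have h1 := linf_cv (kS_cont n).measurable hf x
  have h2 : eLpNorm f ⊤ volume ≤ ENNReal.ofReal M := by
    rw [eLpNorm_exponent_top]
    apply eLpNormEssSup_le_of_ae_bound
    filter_upwards with x using hM x
  have h3 : ‖cv (kS n) f x‖ₑ ≤ ENNReal.ofReal M := by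
    calc _ ≤ (∫⁻ y, ‖kS n y‖ₑ) * eLpNorm f ⊤ volume := h1
      _ ≤ ENNReal.ofReal 1 * ENNReal.ofReal M := by
          gcongr
          exact kS_L1 n
      _ = _ := by rw [ENNReal.ofReal_one, one_mul]
  rw [← ofReal_norm, ENNReal.ofReal_le_ofReal_iff hM0] at h3
  exact h3

theorem kS_bdd (n : ℕ) : ∃ C : ℝ, ∀ x, ‖kS n x‖ ≤ C :=
  ((bpS n).hasCompactSupport_normed.comp_left (g := fun r : ℝ => (r : ℂ)) (by simp)).exists_bound_of_continuous
    (kS_cont n)

theorem exists_schwartz_approx {f : E3 → ℂ} (hf : Adm volume f) :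
    ∃ (F : ℕ → 𝓢(E3, ℂ)) (M : ℝ), (∀ n x, ‖F n x‖ ≤ M) ∧ (∀ᵐ x, Tendsto (fun n => F n x) atTop (𝓝 (f x))) ∧
      ∀ p : ℝ≥0∞, 1 ≤ p → ∀ n, nrm p (F n) volume ≤ nrm p f volume := by
  obtain ⟨M, hM⟩ := hf.bdd
  have hM0 : 0 ≤ M := (norm_nonneg _).trans (hM 0)
  have hcd : ∀ n, ContDiff ℝ ∞ (fun x => ((bpL n x : ℝ) : ℂ) * cv (kS n) f x) := by
    intro n
    apply ContDiff.mul
    · exact Complex.ofRealCLM.contDiff.comp (bpL n).contDiff
    · have : cv (kS n) f = ((bpS n).normed volume ⋆[ContinuousLinearMap.lsmul ℝ ℝ, volume] f) := by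
        ext x; exact cv_kS n f x
      rw [this]
      exact (bpS n).hasCompactSupport_normed.contDiff_convolution_left (n := ⊤) _ (bpS n).contDiff_normed
        hf.int.locallyIntegrable
  have hcc : ∀ n, HasCompactSupport (fun x => ((bpL n x : ℝ) : ℂ) * cv (kS n) f x) := by
    intro n
    apply HasCompactSupport.mul_right
    exact (bpL n).hasCompactSupport.comp_left (g := fun r : ℝ => (r : ℂ)) (by simp)
  have hle : ∀ n x, ‖((bpL n x : ℝ) : ℂ) * cv (kS n) f x‖ ≤ ‖cv (kS n) f x‖ := by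
    intro n x
    rw [norm_mul, Complex.norm_real, Real.norm_of_nonneg (bpL n).nonneg]
    have h1 := (bpL n).le_one (x := x)
    have h2 := norm_nonneg (cv (kS n) f x)
    nlinarith
  refine ⟨fun n => (hcc n).toSchwartzMap (hcd n), M, ?_, ?_, ?_⟩
  · intro n x
    exact (hle n x).trans (norm_cv_kS_le n hf.meas hM x)
  · have h1 := ContDiffBump.ae_convolution_tendsto_right_of_locallyIntegrable (μ := (volume : Measure E3))
      (φ := bpS) (l := atTop) (K := 2) (g := f) (by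
        have : Tendsto (fun n : ℕ => 2 * (1 / ((n:ℝ) + 1))) atTop (𝓝 (2 * 0)) :=
          tendsto_one_div_add_atTop_nhds_zero_nat.const_mul 2
        rw [mul_zero] at this
        refine this.congr (fun n => ?_)
        show 2 * (1 / ((n:ℝ) + 1)) = 2 / ((n:ℝ) + 1)
        ring) (by
        filter_upwards with n
        show 2 / ((n:ℝ) + 1) ≤ 2 * (1 / ((n:ℝ) + 1))
        apply le_of_eq
        ring) hf.int.locallyIntegrable
    filter_upwards [h1] with x hx
    have h2 : Tendsto (fun n => cv (kS n) f x) atTop (𝓝 (f x)) := by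
      refine hx.congr (fun n => ?_)
      rw [cv_kS]
    have h3 : ∀ᶠ n : ℕ in atTop, ‖x‖ ≤ (n:ℝ) + 1 := by
      obtain ⟨N, hN⟩ := exists_nat_ge ‖x‖
      filter_upwards [eventually_ge_atTop N] with n hn
      have : (N:ℝ) ≤ n := by exact_mod_cast hn
      linarith
    refine h2.congr' ?_
    filter_upwards [h3] with n hn
    show cv (kS n) f x = ((bpL n x : ℝ) : ℂ) * cv (kS n) f x
    have h4 : bpL n x = 1 := (bpL n).one_of_mem_closedBall (by
      rw [mem_closedBall_zero_iff]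
      exact hn)
    rw [h4]
    simp
  · intro p hp n
    obtain ⟨C, hC⟩ := kS_bdd n
    have ha : Adm volume (cv (kS n) f) :=
      ⟨(continuous_cv (kS_cont n) hC hf.int).measurable,
        integrable_cv (kS_int n) hf.int, M, norm_cv_kS_le n hf.meas hM⟩
    have h1 : nrm p (cv (kS n) f) volume ≤ 1 * nrm p f volume :=
      nrm_cv_le (kS_cont n) (kS_int n) zero_le_one (kS_L1 n) hf hp
    rw [one_mul] at h1
    refine le_trans ?_ h1
    unfold nrm
    apply ENNReal.toReal_mono (ha.eLpNorm_ne_top hp)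
    exact eLpNorm_mono (fun x => hle n x)

/-- kernel form of the localized evolution -/
theorem WW_cv {f : E3 → ℂ} (hf : Integrable f) (t : ℝ) (x : E3) :
    WW X0 f (t, x) = cv (𝓕⁻ (wm1 X0 t)) f x := by
  have hc : Continuous X0 := contDiff_X0.continuous
  have hi : Integrable (wm1 X0 t) := by
    have h1 : Continuous (wm1 X0 t) := by
      unfold wm1
      fun_prop
    exact h1.integrable_of_hasCompactSupport (by unfold wm1; exact compact_X0.mul_left)
  rw [cv_inv_eq hi hf]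
  unfold WW
  refine congrArg (fun G : E3 → ℂ => 𝓕⁻ G x) (funext fun ξ => ?_)
  unfold wm1
  ring

theorem int_K (t : ℝ) : Integrable (𝓕⁻ (wm1 X0 t)) ∧ Continuous (𝓕⁻ (wm1 X0 t)) := by
  have h1 := (wm1_DB X0 contDiff_X0 compact_X0 (by norm_num : (0:ℝ) < 3/8) (fun ξ h => X0_supp h) 0).1 t
  have h2 : HasCompactSupport (wm1 X0 t) := by unfold wm1; exact compact_X0.mul_left
  set MS : 𝓢(E3, ℂ) := h2.toSchwartzMap h1 with hMS
  have hKe : ((𝓕⁻ MS : 𝓢(E3, ℂ)) : E3 → ℂ) = 𝓕⁻ (wm1 X0 t) := by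
    rw [SchwartzMap.fourierInv_coe]
    rfl
  rw [← hKe]
  exact ⟨(𝓕⁻ MS : 𝓢(E3, ℂ)).integrable, (𝓕⁻ MS : 𝓢(E3, ℂ)).continuous⟩

theorem tendsto_WW {f : E3 → ℂ} (hf : Integrable f) {F : ℕ → 𝓢(E3, ℂ)} {M : ℝ} (hM : ∀ n x, ‖F n x‖ ≤ M)
    (h : ∀ᵐ x, Tendsto (fun n => F n x) atTop (𝓝 (f x))) (z : ℝ × E3) :
    Tendsto (fun n => WW X0 (F n) z) atTop (𝓝 (WW X0 f z)) := by
  obtain ⟨t, x⟩ := z
  obtain ⟨hK, hKc⟩ := int_K t
  rw [WW_cv hf]
  have e1 : (fun n => WW X0 (F n) (t, x)) = fun n => cv (𝓕⁻ (wm1 X0 t)) (F n) x := by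
    ext n
    exact WW_cv (F n).integrable t x
  rw [e1]
  unfold cv
  apply tendsto_integral_of_dominated_convergence (fun y => ‖𝓕⁻ (wm1 X0 t) (x - y)‖ * M)
  · intro n
    exact ((hKc.comp (by fun_prop : Continuous fun y => x - y)).mul (F n).continuous).aestronglyMeasurable
  · exact (hK.comp_sub_left x).norm.mul_const M
  · intro n
    filter_upwards with y
    rw [norm_mul]
    gcongr
    exact hM n y
  · filter_upwards [h] with y hy
    exact hy.const_mul _

/-- the localized estimate for Schwartz functions implies the one for bounded integrable functions -/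
theorem GLn_of_schwartz {P a D : ℝ} (hP : 1 ≤ P) (hD : 0 ≤ D)
    (h : ∀ (R : ℝ) (f : 𝓢(E3, ℂ)), 1 ≤ R → ∫⁻ z, ‖WW X0 f z‖ₑ ^ P ∂(muR R) ≤
      ENNReal.ofReal ((D * R ^ (a + 1 / P) * nrm (ENNReal.ofReal P) f volume) ^ P)) : GLn P a X0 := by
  have hc : Continuous X0 := contDiff_X0.continuous
  have hP0 : 0 < P := by linarith
  have hP1 : (1:ℝ≥0∞) ≤ ENNReal.ofReal P := by
    rw [← ENNReal.ofReal_one]; exact ENNReal.ofReal_le_ofReal hP
  refine ⟨D, hD, ?_⟩
  intro R f hR hf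
  have hR0 : 0 < R := by linarith
  obtain ⟨F, M, hM, ht, hn⟩ := exists_schwartz_approx hf
  have hm : ∀ n, Measurable (fun z => ‖WW X0 (F n) z‖ₑ ^ P) := fun n =>
    (cont_WW hc compact_X0 (F n).integrable).measurable.enorm.pow_const P
  calc ∫⁻ z, ‖WW X0 f z‖ₑ ^ P ∂(muR R) = ∫⁻ z, liminf (fun n => ‖WW X0 (F n) z‖ₑ ^ P) atTop ∂(muR R) := by
        congr 1
        ext z
        have h1 : Tendsto (fun n => ‖WW X0 (F n) z‖ₑ ^ P) atTop (𝓝 (‖WW X0 f z‖ₑ ^ P)) :=
          ((ENNReal.continuous_rpow_const (y := P)).tendsto _).comp (tendsto_WW hf.int hM ht z).enorm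
        exact h1.liminf_eq.symm
    _ ≤ liminf (fun n => ∫⁻ z, ‖WW X0 (F n) z‖ₑ ^ P ∂(muR R)) atTop := lintegral_liminf_le hm
    _ ≤ _ := by
        have hb : ∀ n, ∫⁻ z, ‖WW X0 (F n) z‖ₑ ^ P ∂(muR R) ≤
            ENNReal.ofReal ((D * R ^ (a + 1 / P) * nrm (ENNReal.ofReal P) f volume) ^ P) := by
          intro n
          refine (h R (F n) hR).trans (ENNReal.ofReal_le_ofReal (Real.rpow_le_rpow ?_ ?_ hP0.le))
          · have n0 : 0 ≤ nrm (ENNReal.ofReal P) (F n) volume := nrm_nonneg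
            positivity
          · have := hn (ENNReal.ofReal P) hP1 n
            gcongr
        exact (Filter.liminf_le_liminf (Filter.Eventually.of_forall hb)).trans (by simp)

end Vale.Agent.P106.G
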