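import Vale.Agent.P106.G.IntB
import Vale.Agent.P106.A.Fin

/-! # The localized estimates from the local smoothing estimate -/

open MeasureTheory Complex Set Filter
open scoped ENNReal NNReal ContDiff FourierTransform SchwartzMap Topology

set_option linter.all false

namespace Vale.Agent.P106.G

open Vale.Agent.P117 Vale.Agent.P106

/-- dilation of a Schwartz function -/
noncomputable def dilS (Λ : ℝ) (hΛ : Λ ≠ 0) (F : 𝓢(E3, ℂ)) : 𝓢(E3, ℂ) :=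
  SchwartzMap.compCLMOfContinuousLinearEquiv ℂ (ContinuousLinearEquiv.smulLeft (Units.mk0 Λ hΛ)) F

theorem dilS_apply (Λ : ℝ) (hΛ : Λ ≠ 0) (F : 𝓢(E3, ℂ)) (x : E3) : dilS Λ hΛ F x = F (Λ • x) := rfl

/-- frequency cut-off of a Schwartz function -/
noncomputable def cutS (f : 𝓢(E3, ℂ)) : 𝓢(E3, ℂ) :=
  𝓕⁻ ((compact_X0.mul_right (f' := 𝓕 (f : E3 → ℂ))).toSchwartzMap (f := fun ξ => X0 ξ * 𝓕 (f : E3 → ℂ) ξ) (by
    have h1 : ContDiff ℝ ∞ (𝓕 (f : E3 → ℂ)) := by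
      rw [← SchwartzMap.fourier_coe]
      exact (𝓕 f : 𝓢(E3, ℂ)).smooth ⊤
    exact contDiff_X0.mul h1) : 𝓢(E3, ℂ))

theorem cutS_eq (f : 𝓢(E3, ℂ)) : (cutS f : E3 → ℂ) = 𝓕⁻ (fun ξ => X0 ξ * 𝓕 (f : E3 → ℂ) ξ) := by
  unfold cutS
  rw [SchwartzMap.fourierInv_coe]
  rfl

theorem fourier_cutS (f : 𝓢(E3, ℂ)) (ξ : E3) : 𝓕 (cutS f : E3 → ℂ) ξ = X0 ξ * 𝓕 (f : E3 → ℂ) ξ := by
  rw [cutS_eq]
  exact (smop_props contDiff_X0 compact_X0 (adm_sch f)).2.1 ξ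

theorem dil_dilS {Λ : ℝ} (hΛ : 0 < Λ) (F : 𝓢(E3, ℂ)) : dil Λ (dilS Λ hΛ.ne' F) = (F : E3 → ℂ) := by
  ext y
  unfold dil
  rw [dilS_apply, smul_smul, mul_inv_cancel₀ hΛ.ne', one_smul]

theorem evo_dilS {Λ : ℝ} (hΛ : 0 < Λ) (α : ℝ) (f : 𝓢(E3, ℂ)) (t : ℝ) (x : E3) :
    uu α (jS α (dilS Λ hΛ.ne' (cutS f))) t x = WW X0 f (Λ * t, Λ • x) := by
  rw [uu_jS, scal hΛ, dil_dilS hΛ]
  unfold WW
  refine congrArg (fun G : E3 → ℂ => 𝓕⁻ G (Λ • x)) (funext fun ξ => ?_)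
  rw [fourier_cutS, norm_smulE hΛ]
  have : t * (Λ * ‖ξ‖) = Λ * t * ‖ξ‖ := by ring
  rw [this]

theorem jw_scale {Λ : ℝ} (hΛ : 0 < Λ) (α : ℝ) (η : E3) :
    jw α (Λ • η) * X0 η = ((Λ ^ α : ℝ) : ℂ) * (symB (-α) (η, Λ⁻¹) * X0 η) := by
  unfold X0 q0
  by_cases h : chd (4 * ‖η‖ / 3) = 0
  · rw [h]; ring
  · have h1 : 3/8 ≤ ‖η‖ ∧ ‖η‖ ≤ 3/2 := q0_supp (r := ‖η‖) h
    unfold symB jw
    simp only
    rw [q2_one h1.1 h1.2, norm_smulE hΛ]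
    have hpi := Real.pi_pos
    have hη : 0 < ‖η‖ := by linarith [h1.1]
    have e2 : (((1 + 4 * Real.pi ^ 2 * (Λ * ‖η‖) ^ 2) ^ (α / 2) : ℝ) : ℂ) =
        ((Λ ^ α : ℝ) : ℂ) * (((Λ⁻¹ ^ 2 + 4 * Real.pi ^ 2 * ‖η‖ ^ 2) ^ (- -α / 2) : ℝ) : ℂ) := by
      rw [← Complex.ofReal_mul]
      congr 1
      have e3 : 1 + 4 * Real.pi ^ 2 * (Λ * ‖η‖) ^ 2 = Λ ^ 2 * (Λ⁻¹ ^ 2 + 4 * Real.pi ^ 2 * ‖η‖ ^ 2) := by
        field_simp
      rw [e3, Real.mul_rpow (by positivity) (by positivity), neg_neg]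
      congr 1
      have : Λ ^ 2 = Λ ^ (2:ℝ) := by exact_mod_cast (Real.rpow_natCast Λ 2).symm
      rw [this, ← Real.rpow_mul hΛ.le]
      congr 1; ring
    rw [e2]
    ring

theorem jS_dilS {Λ : ℝ} (hΛ : 0 < Λ) (α : ℝ) (f : 𝓢(E3, ℂ)) (x : E3) :
    jS α (dilS Λ hΛ.ne' (cutS f)) x = ((Λ ^ α : ℝ) : ℂ) *
      𝓕⁻ (fun η => (fun η => symB (-α) (η, Λ⁻¹)) η * 𝓕 (cutS f : E3 → ℂ) η) (Λ • x) := by
  rw [jS_eq, scal hΛ, dil_dilS hΛ, ← fi_const]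
  refine congrArg (fun G : E3 → ℂ => 𝓕⁻ G (Λ • x)) (funext fun η => ?_)
  rw [fourier_cutS]
  have h := jw_scale hΛ α η
  simp only
  linear_combination (𝓕 (f : E3 → ℂ) η) * h

/-- the local smoothing estimate for Schwartz functions -/
def LSs (P α : ℝ) : Prop := ∃ C : ℝ, 0 ≤ C ∧ ∀ f : 𝓢(E3, ℂ),
  eLpNorm (fun z : ℝ × E3 => uu α (jS α f) z.1 z.2) (ENNReal.ofReal P) muS ≤
    ENNReal.ofReal C * eLpNorm (jS α f) (ENNReal.ofReal P) volume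

theorem nrm_jS_dilS {P : ℝ} (hP : 1 ≤ P) (α : ℝ) : ∃ B : ℝ, 0 ≤ B ∧ ∀ (Λ : ℝ) (hΛ : 1 ≤ Λ) (f : 𝓢(E3, ℂ)),
    nrm (ENNReal.ofReal P) (jS α (dilS Λ (by positivity) (cutS f))) volume ≤
      B * Λ ^ (α - 3 / P) * nrm (ENNReal.ofReal P) f volume := by
  obtain ⟨B, hB, hL⟩ := paramL1 (contDiff_symB (-α)) 2 (fun η κ h => symB_supp h)
  have hP0 : 0 < P := by linarith
  have hP1 : (1:ℝ≥0∞) ≤ ENNReal.ofReal P := by
    rw [← ENNReal.ofReal_one]; exact ENNReal.ofReal_le_ofReal hP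
  obtain ⟨B0, hB0, hL0⟩ : ∃ B0 : ℝ, 0 ≤ B0 ∧ ∫⁻ w, ‖𝓕⁻ X0 w‖ₑ ≤ ENNReal.ofReal B0 := by
    have e : 𝓕⁻ X0 = 𝓕⁻ (wm1 X0 0) := by
      refine congrArg (fun G : E3 → ℂ => 𝓕⁻ G) (funext fun ξ => ?_)
      unfold wm1
      simp
    refine ⟨∫ w, ‖𝓕⁻ X0 w‖, integral_nonneg fun _ => norm_nonneg _, ?_⟩
    rw [ofReal_integral_norm_eq_lintegral_enorm]
    rw [e]
    exact (int_K 0).1
  refine ⟨B * B0, by positivity, ?_⟩
  intro Λ hΛ1 f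
  have hΛ : 0 < Λ := by linarith
  have hinv : Λ⁻¹ ∈ Icc (0:ℝ) 1 := ⟨by positivity, inv_le_one_of_one_le₀ hΛ1⟩
  obtain ⟨s1, s2, s3, s4⟩ := smop_props (M := fun η => symB (-α) (η, Λ⁻¹)) ((contDiff_symB (-α)).comp (by fun_prop))
    (compact_of_supp (fun η h => symB_supp h)) (adm_sch (cutS f))
  set h' := 𝓕⁻ (fun ξ => (fun η => symB (-α) (η, Λ⁻¹)) ξ * 𝓕 (cutS f : E3 → ℂ) ξ) with hh'
  have hn := s3 B hB (hL Λ⁻¹ hinv) (ENNReal.ofReal P) hP1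
  obtain ⟨r1, r2, r3, r4⟩ := smop_props contDiff_X0 compact_X0 (adm_sch f)
  have hn0 := r3 B0 hB0 hL0 (ENNReal.ofReal P) hP1
  rw [← cutS_eq] at hn0
  have hd := nrm_dil (P := P) (inv_pos.2 hΛ) hP s1
  have e1 : (jS α (dilS Λ (by positivity) (cutS f)) : E3 → ℂ) = ((Λ ^ α : ℝ) : ℂ) • dil Λ⁻¹ h' := by
    ext x
    rw [jS_dilS hΛ]
    unfold dil
    rw [Pi.smul_apply, smul_eq_mul, inv_inv]
  have e2 : nrm (ENNReal.ofReal P) (jS α (dilS Λ (by positivity) (cutS f))) volume =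
      Λ ^ α * nrm (ENNReal.ofReal P) (dil Λ⁻¹ h') volume := by
    rw [e1]
    unfold nrm
    rw [eLpNorm_const_smul, ENNReal.toReal_mul]
    congr 1
    rw [← ofReal_norm, Complex.norm_real, Real.norm_of_nonneg (by positivity), ENNReal.toReal_ofReal (by positivity)]
  rw [e2, hd]
  have n0 : 0 ≤ nrm (ENNReal.ofReal P) f volume := nrm_nonneg
  have n1 : 0 ≤ nrm (ENNReal.ofReal P) (cutS f) volume := nrm_nonneg
  have n2 : 0 ≤ nrm (ENNReal.ofReal P) h' volume := nrm_nonneg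
  have e3 : Λ ^ α * (Λ⁻¹) ^ (3 / P) = Λ ^ (α - 3 / P) := by
    rw [Real.rpow_sub hΛ, Real.inv_rpow hΛ.le]
    rfl
  calc Λ ^ α * ((Λ⁻¹) ^ (3 / P) * nrm (ENNReal.ofReal P) h' volume) =
        Λ ^ (α - 3 / P) * nrm (ENNReal.ofReal P) h' volume := by rw [← mul_assoc, e3]
    _ ≤ Λ ^ (α - 3 / P) * (B * (B0 * nrm (ENNReal.ofReal P) f volume)) := by
        gcongr
        exact hn.trans (by gcongr)
    _ = _ := by ring

theorem GLn_of_LS {P α : ℝ} (hP : 1 ≤ P) (h : LSs P α) : GLn P α X0 := by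
  obtain ⟨C, hC, h⟩ := h
  obtain ⟨B, hB, hJ⟩ := nrm_jS_dilS hP α
  have hP0 : 0 < P := by linarith
  have hP1 : (1:ℝ≥0∞) ≤ ENNReal.ofReal P := by
    rw [← ENNReal.ofReal_one]; exact ENNReal.ofReal_le_ofReal hP
  have hc : Continuous X0 := contDiff_X0.continuous
  refine GLn_of_schwartz hP (D := C * B) (by positivity) ?_
  intro Λ f hΛ1
  have hΛ : 0 < Λ := by linarith
  have n0 : 0 ≤ nrm (ENNReal.ofReal P) f volume := nrm_nonneg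
  set g : 𝓢(E3, ℂ) := dilS Λ hΛ.ne' (cutS f) with hg
  have h1 := h g
  have h2 := hJ Λ hΛ1 f
  have hF : Continuous (fun z : ℝ × E3 => WW X0 f (Λ * z.1, Λ • z.2)) :=
    (cont_WW hc compact_X0 f.integrable).comp (by fun_prop)
  have e1 : (fun z : ℝ × E3 => uu α (jS α g) z.1 z.2) = fun z : ℝ × E3 => WW X0 f (Λ * z.1, Λ • z.2) := by
    ext z
    exact evo_dilS hΛ α f z.1 z.2
  rw [e1, eLpNorm_eq_lintegral_rpow_enorm_toReal (by simp; linarith) ENNReal.ofReal_ne_top,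
    ENNReal.toReal_ofReal (by linarith)] at h1
  have e2 : ∫⁻ z, ‖WW X0 f (Λ * z.1, Λ • z.2)‖ₑ ^ P ∂muS =
      ENNReal.ofReal ((Λ ^ 3)⁻¹ * Λ⁻¹) * ∫⁻ z, ‖WW X0 f z‖ₑ ^ P ∂(muR Λ) := by
    have hWm := (cont_WW hc compact_X0 f.integrable).measurable
    unfold muS muR
    rw [lintegral_prod _ (by
      have := hF.measurable
      fun_prop), lintegral_prod _ (by fun_prop)]
    have e3 : ∀ t : ℝ, ∫⁻ x : E3, ‖WW X0 f (Λ * t, Λ • x)‖ₑ ^ P =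
        ENNReal.ofReal ((Λ ^ 3)⁻¹) * ∫⁻ x : E3, ‖WW X0 f (Λ * t, x)‖ₑ ^ P := fun t =>
      lintegral_smul3 hΛ (fun x => ‖WW X0 f (Λ * t, x)‖ₑ ^ P)
    simp_rw [e3]
    rw [lintegral_const_mul' _ _ ENNReal.ofReal_ne_top,
      lintegral_scaleT hΛ (fun T => ∫⁻ x : E3, ‖WW X0 f (T, x)‖ₑ ^ P), ← mul_assoc,
      ← ENNReal.ofReal_mul (by positivity)]
  rw [e2] at h1
  set E := ∫⁻ z, ‖WW X0 f z‖ₑ ^ P ∂(muR Λ) with hE
  have h3 : ENNReal.ofReal ((Λ ^ 3)⁻¹ * Λ⁻¹) * E ≤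
      ENNReal.ofReal ((C * (B * Λ ^ (α - 3 / P) * nrm (ENNReal.ofReal P) f volume)) ^ P) := by
    have h4 : (ENNReal.ofReal ((Λ ^ 3)⁻¹ * Λ⁻¹) * E) ^ (1 / P) ≤
        ENNReal.ofReal (C * (B * Λ ^ (α - 3 / P) * nrm (ENNReal.ofReal P) f volume)) := by
      refine h1.trans ?_
      rw [← (adm_sch (jS α g)).ofReal_nrm hP1, ENNReal.ofReal_mul hC]
      gcongr
    have h5 := ENNReal.rpow_le_rpow h4 hP0.le
    rw [← ENNReal.rpow_mul, one_div_mul_cancel hP0.ne', ENNReal.rpow_one,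
      ENNReal.ofReal_rpow_of_nonneg (by positivity) hP0.le] at h5
    exact h5
  have h6 : E = ENNReal.ofReal (Λ ^ 3 * Λ) * (ENNReal.ofReal ((Λ ^ 3)⁻¹ * Λ⁻¹) * E) := by
    rw [← mul_assoc, ← ENNReal.ofReal_mul (by positivity)]
    have : Λ ^ 3 * Λ * ((Λ ^ 3)⁻¹ * Λ⁻¹) = 1 := by field_simp
    rw [this, ENNReal.ofReal_one, one_mul]
  rw [h6]
  calc ENNReal.ofReal (Λ ^ 3 * Λ) * (ENNReal.ofReal ((Λ ^ 3)⁻¹ * Λ⁻¹) * E) ≤
      ENNReal.ofReal (Λ ^ 3 * Λ) * ENNReal.ofReal ((C * (B * Λ ^ (α - 3 / P) * nrm (ENNReal.ofReal P) f volume)) ^ P) := by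
        gcongr
    _ = _ := by
        rw [← ENNReal.ofReal_mul (by positivity)]
        congr 1
        have e4 : Λ ^ 3 * Λ = (Λ ^ (4 / P)) ^ P := by
          rw [← Real.rpow_mul hΛ.le, div_mul_cancel₀ _ hP0.ne']
          have : Λ ^ (4:ℝ) = Λ ^ 4 := by exact_mod_cast Real.rpow_natCast Λ 4
          rw [this]; ring
        rw [e4, ← Real.mul_rpow (by positivity) (by positivity)]
        congr 1
        have e5 : Λ ^ (α + 1 / P) = Λ ^ (4 / P) * Λ ^ (α - 3 / P) := by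
          rw [← Real.rpow_add hΛ]
          congr 1
          ring
        rw [e5]
        ring

end Vale.Agent.P106.G
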