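import Vale.Agent.P106.G.Resc

/-! # Real interpolation between `2` and `∞` at a general exponent -/

open MeasureTheory Complex Set Filter
open scoped ENNReal NNReal ContDiff FourierTransform Topology

set_option linter.all false

namespace Vale.Agent.P106.G

open Vale.Agent.P117 (Adm)

theorem lint_rpow {p a : ℝ} (hp : 2 < p) (ha : 0 ≤ a) :
    ∫⁻ t in Ioo (0:ℝ) a, ENNReal.ofReal (t ^ (p - 3)) = ENNReal.ofReal (a ^ (p - 2) / (p - 2)) := by
  have hI : IntegrableOn (fun t : ℝ => t ^ (p - 3)) (Ioc 0 a) :=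
    (intervalIntegral.intervalIntegrable_rpow' (by linarith : -1 < p - 3)).1
  have hI2 : IntegrableOn (fun t : ℝ => t ^ (p - 3)) (Ioo 0 a) := hI.mono_set Ioo_subset_Ioc_self
  rw [← ofReal_integral_eq_lintegral_ofReal hI2]
  · congr 1
    rw [← integral_Ioc_eq_integral_Ioo, ← intervalIntegral.integral_of_le ha,
      integral_rpow (Or.inl (by linarith)), Real.zero_rpow (by linarith), sub_zero]
    congr 1
    · congr 1; ring
    · ring
  · filter_upwards [ae_restrict_mem measurableSet_Ioo] with t ht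
    exact Real.rpow_nonneg ht.1.le _

theorem interp_gen {X Y : Type*} [MeasurableSpace X] [MeasurableSpace Y] (μ : Measure X)
    [SFinite μ] (ν : Measure Y) (T : (X → ℂ) → Y → ℝ≥0∞) {A B p : ℝ} (hA : 0 ≤ A) (hB : 0 < B) (hp : 2 < p)
    (hm : ∀ f, Adm μ f → Measurable (T f))
    (hsub : ∀ f g, Adm μ f → Adm μ g → ∀ y, T (fun x => f x + g x) y ≤ T f y + T g y)
    (h2 : ∀ f, Adm μ f → ∫⁻ y, T f y ^ 2 ∂ν ≤ ENNReal.ofReal A * ∫⁻ x, ‖f x‖ₑ ^ 2 ∂μ)
    (hinf : ∀ f, Adm μ f → ∀ M : ℝ, (∀ x, ‖f x‖ ≤ M) → ∀ y, T f y ≤ ENNReal.ofReal (B * M))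
    {f : X → ℂ} (hf : Adm μ f) :
    ∫⁻ y, T f y ^ p ∂ν ≤ ENNReal.ofReal (4 * p * A * (2 * B) ^ (p - 2) / (p - 2)) * ∫⁻ x, ‖f x‖ₑ ^ p ∂μ := by
  obtain ⟨M, hM⟩ := hf.bdd
  have hp0 : 0 < p := by linarith
  have hp2 : 0 < p - 2 := by linarith
  have hfin : ∀ y, T f y ≠ ⊤ := fun y => ne_top_of_le_ne_top ENNReal.ofReal_ne_top (hinf f hf M hM y)
  set φ : Y → ℝ := fun y => (T f y).toReal with hφ
  have hφm : Measurable φ := (hm f hf).ennreal_toReal
  have e1 : ∫⁻ y, T f y ^ p ∂ν = ∫⁻ y, ENNReal.ofReal (φ y ^ p) ∂ν := by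
    refine lintegral_congr fun y => ?_
    rw [hφ]
    simp only
    rw [← ENNReal.ofReal_rpow_of_nonneg ENNReal.toReal_nonneg hp0.le, ENNReal.ofReal_toReal (hfin y)]
  rw [e1, MeasureTheory.lintegral_rpow_eq_lintegral_meas_lt_mul ν (Filter.Eventually.of_forall fun y =>
    ENNReal.toReal_nonneg) hφm.aemeasurable hp0]
  -- truncations
  set fh : ℝ → X → ℂ := fun t => {x | t < 2 * B * ‖f x‖}.indicator f with hfh
  set fl : ℝ → X → ℂ := fun t => {x | t < 2 * B * ‖f x‖}ᶜ.indicator f with hfl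
  have hset : ∀ t : ℝ, MeasurableSet {x | t < 2 * B * ‖f x‖} := fun t =>
    measurableSet_lt measurable_const (hf.meas.norm.const_mul _)
  have hadm : ∀ s : Set X, MeasurableSet s → Adm μ (s.indicator f) := by
    intro s hs
    refine ⟨hf.meas.indicator hs, hf.int.indicator hs, M, fun x => ?_⟩
    exact (norm_indicator_le_norm_self f x).trans (hM x)
  have key : ∀ t ∈ Ioi (0:ℝ), ν {y | t < φ y} * ENNReal.ofReal (t ^ (p - 1)) ≤
      4 * (ENNReal.ofReal A * ∫⁻ x, ENNReal.ofReal (t ^ (p - 3)) * ‖fh t x‖ₑ ^ 2 ∂μ) := by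
    intro t ht
    have ht' : (0:ℝ) < t := ht
    have hsubset : {y | t < φ y} ⊆ {y | ENNReal.ofReal ((t/2)^2) ≤ T (fh t) y ^ 2} := by
      intro y hy
      rw [mem_setOf_eq] at hy ⊢
      have h1 : T f y ≤ T (fh t) y + T (fl t) y := by
        have := hsub (fh t) (fl t) (hadm _ (hset t)) (hadm _ (hset t).compl) y
        have e : (fun x => fh t x + fl t x) = f := by
          ext x
          exact congrFun (indicator_self_add_compl _ f) x
        rwa [e] at this
      have h3 : T (fl t) y ≤ ENNReal.ofReal (t / 2) := by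
        have := hinf (fl t) (hadm _ (hset t).compl) (t / (2 * B)) (by
          intro x
          simp only [hfl, indicator]
          split_ifs with hx
          · simp only [mem_compl_iff, mem_setOf_eq, not_lt] at hx
            rw [le_div_iff₀ (by positivity)]
            linarith
          · rw [norm_zero]; positivity) y
        refine this.trans (le_of_eq ?_)
        congr 1
        field_simp
      have h4 : ENNReal.ofReal t < T f y := by
        rw [← ENNReal.ofReal_toReal (hfin y)]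
        exact (ENNReal.ofReal_lt_ofReal_iff (ht'.trans hy)).2 hy
      have h5 : ENNReal.ofReal (t/2) ≤ T (fh t) y := by
        by_contra hcon
        push Not at hcon
        have : T f y < ENNReal.ofReal t := by
          calc T f y ≤ T (fh t) y + T (fl t) y := h1
            _ < ENNReal.ofReal (t/2) + ENNReal.ofReal (t/2) :=
              ENNReal.add_lt_add_of_lt_of_le (ne_top_of_le_ne_top ENNReal.ofReal_ne_top h3) hcon h3
            _ = ENNReal.ofReal t := by
              rw [← ENNReal.ofReal_add (by positivity) (by positivity)]; congr 1; ring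
        exact absurd this (not_lt.2 h4.le)
      rw [ENNReal.ofReal_pow (by positivity)]
      gcongr
    have hmk := mul_meas_ge_le_lintegral (μ := ν) ((hm (fh t) (hadm _ (hset t))).pow_const 2)
      (ENNReal.ofReal ((t/2)^2))
    calc ν {y | t < φ y} * ENNReal.ofReal (t ^ (p - 1)) =
        4 * (ENNReal.ofReal (t ^ (p - 3)) * (ENNReal.ofReal ((t/2)^2) * ν {y | t < φ y})) := by
          have : ENNReal.ofReal (t ^ (p - 1)) = 4 * (ENNReal.ofReal (t ^ (p - 3)) * ENNReal.ofReal ((t/2)^2)) := by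
            rw [show (4 : ℝ≥0∞) = ENNReal.ofReal 4 by norm_num, ← ENNReal.ofReal_mul (Real.rpow_nonneg ht'.le _),
              ← ENNReal.ofReal_mul (by norm_num)]
            congr 1
            have e5 : t ^ (p - 1) = t ^ (p - 3) * t ^ 2 := by
              rw [← Real.rpow_natCast t 2, ← Real.rpow_add ht']; congr 1; push_cast; ring
            rw [e5]; ring
          rw [this]; ring
      _ ≤ 4 * (ENNReal.ofReal (t ^ (p - 3)) * (ENNReal.ofReal ((t/2)^2) * ν {y | ENNReal.ofReal ((t/2)^2) ≤ T (fh t) y ^ 2})) := by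
          gcongr
      _ ≤ 4 * (ENNReal.ofReal (t ^ (p - 3)) * ∫⁻ y, T (fh t) y ^ 2 ∂ν) := by gcongr
      _ ≤ 4 * (ENNReal.ofReal (t ^ (p - 3)) * (ENNReal.ofReal A * ∫⁻ x, ‖fh t x‖ₑ ^ 2 ∂μ)) := by
          gcongr
          exact h2 _ (hadm _ (hset t))
      _ = _ := by
          rw [lintegral_const_mul' _ _ ENNReal.ofReal_ne_top]; ring
  have mF : Measurable (fun q : ℝ × X => ENNReal.ofReal (q.1 ^ (p - 3)) * ‖fh q.1 q.2‖ₑ ^ 2) := by
    have hs : MeasurableSet {p : ℝ × X | p.1 < 2 * B * ‖f p.2‖} :=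
      measurableSet_lt measurable_fst ((hf.meas.comp measurable_snd).norm.const_mul _)
    have : (fun p : ℝ × X => fh p.1 p.2) = {p : ℝ × X | p.1 < 2 * B * ‖f p.2‖}.indicator (fun p => f p.2) := by
      ext p
      simp only [hfh, indicator, mem_setOf_eq]
    have h6 : Measurable (fun p : ℝ × X => fh p.1 p.2) := by
      rw [this]
      exact (hf.meas.comp measurable_snd).indicator hs
    exact (measurable_fst.pow_const _).ennreal_ofReal.mul (h6.enorm.pow_const 2)
  calc ENNReal.ofReal p * ∫⁻ t in Ioi (0:ℝ), ν {y | t < φ y} * ENNReal.ofReal (t ^ (p - 1)) ≤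
      ENNReal.ofReal p * ∫⁻ t in Ioi (0:ℝ), 4 * (ENNReal.ofReal A * ∫⁻ x, ENNReal.ofReal (t ^ (p - 3)) * ‖fh t x‖ₑ ^ 2 ∂μ) := by
        exact mul_le_mul' le_rfl (setLIntegral_mono' measurableSet_Ioi key)
    _ = ENNReal.ofReal p * (4 * (ENNReal.ofReal A * ∫⁻ t in Ioi (0:ℝ), ∫⁻ x, ENNReal.ofReal (t ^ (p - 3)) * ‖fh t x‖ₑ ^ 2 ∂μ)) := by
        rw [lintegral_const_mul' _ _ (by norm_num), lintegral_const_mul' _ _ ENNReal.ofReal_ne_top]
    _ = ENNReal.ofReal p * (4 * (ENNReal.ofReal A * ∫⁻ x, (∫⁻ t in Ioi (0:ℝ), ENNReal.ofReal (t ^ (p - 3)) * ‖fh t x‖ₑ ^ 2) ∂μ)) := by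
        rw [lintegral_lintegral_swap]
        exact mF.aemeasurable
    _ = ENNReal.ofReal p * (4 * (ENNReal.ofReal A * ∫⁻ x, ENNReal.ofReal ((2 * B) ^ (p - 2) / (p - 2)) * ‖f x‖ₑ ^ p ∂μ)) := by
        congr 3
        refine lintegral_congr fun x => ?_
        have e : ∀ t : ℝ, ENNReal.ofReal (t ^ (p - 3)) * ‖fh t x‖ₑ ^ 2 =
            (Iio (2 * B * ‖f x‖)).indicator (fun t => ENNReal.ofReal (t ^ (p - 3)) * ‖f x‖ₑ ^ 2) t := by
          intro t
          simp only [hfh, indicator, mem_setOf_eq, mem_Iio]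
          split_ifs <;> simp
        simp_rw [e]
        rw [lintegral_indicator measurableSet_Iio, Measure.restrict_restrict measurableSet_Iio,
          Iio_inter_Ioi, lintegral_mul_const' _ _ (by simp), lint_rpow hp (by positivity),
          Real.mul_rpow (by positivity) (norm_nonneg _)]
        have e6 : ‖f x‖ₑ ^ p = ‖f x‖ₑ ^ (p - 2) * ‖f x‖ₑ ^ 2 := by
          rw [← ENNReal.rpow_natCast ‖f x‖ₑ 2, ← ENNReal.rpow_add_of_nonneg _ _ hp2.le (by norm_num)]
          congr 1; push_cast; ring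
        have e7 : ‖f x‖ₑ ^ (p - 2) = ENNReal.ofReal (‖f x‖ ^ (p - 2)) := by
          rw [← ofReal_norm, ENNReal.ofReal_rpow_of_nonneg (norm_nonneg _) hp2.le]
        rw [e6, e7, ← mul_assoc, ← ENNReal.ofReal_mul (by positivity)]
        congr 2
        ring
    _ = _ := by
        rw [lintegral_const_mul' _ _ ENNReal.ofReal_ne_top, show (4:ℝ≥0∞) = ENNReal.ofReal 4 by norm_num]
        rw [← mul_assoc, ← mul_assoc, ← mul_assoc, ← ENNReal.ofReal_mul (by positivity),
          ← ENNReal.ofReal_mul (by positivity), ← ENNReal.ofReal_mul (by positivity)]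
        congr 2
        ring

end Vale.Agent.P106.G
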