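import Vale.Agent.P106.G.Cone
import Vale.Agent.P106.A.LPk

/-! # Smoothness of the multipliers and uniform kernel bounds -/

open MeasureTheory Complex Set Filter
open scoped ENNReal NNReal ContDiff FourierTransform Topology

set_option linter.all false

namespace Vale.Agent.P106.G

open Vale.Agent.P117 (Adm DB fourier_decay contDiff_st)

/-- admissible radial cut-offs -/
structure Rcut (χ : ℝ → ℂ) : Prop where
  smooth : ContDiff ℝ ∞ χ
  supp : ∀ t, χ t ≠ 0 → 1/2 ≤ t ∧ t ≤ 3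

/-- smooth velocity cut-offs with a larger support -/
structure Vc (φ : ℝ → ℂ) : Prop where
  smooth : ContDiff ℝ ∞ φ
  supp : ∀ t, φ t ≠ 0 → |t| ≤ 5/4

theorem Vcut.vc {φ : ℝ → ℂ} (h : Vcut φ) : Vc φ := ⟨h.smooth, fun t ht => by
  obtain ⟨h1, h2⟩ := h.supp t ht
  rw [abs_le]; constructor <;> linarith⟩

/-- the cut-off in the cone variable -/
noncomputable def cutw (χ φ1 φ2 : ℝ → ℂ) (w : E3) : ℂ := χ (w 0) * (φ1 (w 1 / w 0) * φ2 (w 2 / w 0))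

theorem contDiff_coord (i : Fin 3) : ContDiff ℝ ∞ (fun w : E3 => w i) := by fun_prop

theorem contDiff_cutw {χ φ1 φ2 : ℝ → ℂ} (hχ : Rcut χ) (h1 : Vc φ1) (h2 : Vc φ2) : ContDiff ℝ ∞ (cutw χ φ1 φ2) := by
  rw [contDiff_iff_contDiffAt]
  intro w
  by_cases hw : w 0 < 1/2
  · have : cutw χ φ1 φ2 =ᶠ[𝓝 w] fun _ => 0 := by
      have ho : IsOpen {w : E3 | w 0 < 1/2} := isOpen_lt (by fun_prop) continuous_const
      filter_upwards [ho.mem_nhds hw] with x hx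
      unfold cutw
      have : χ (x 0) = 0 := by
        by_contra hc
        exact absurd (hχ.supp _ hc).1 (not_le.2 hx)
      rw [this, zero_mul]
    exact contDiffAt_const.congr_of_eventuallyEq this
  · have h0 : w 0 ≠ 0 := by
      push Not at hw; linarith
    unfold cutw
    have c0 : ContDiffAt ℝ ∞ (fun w : E3 => w 0) w := (contDiff_coord 0).contDiffAt
    have c1 : ContDiffAt ℝ ∞ (fun w : E3 => w 1 / w 0) w := (contDiff_coord 1).contDiffAt.div c0 h0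
    have c2 : ContDiffAt ℝ ∞ (fun w : E3 => w 2 / w 0) w := (contDiff_coord 2).contDiffAt.div c0 h0
    exact (hχ.smooth.contDiffAt.comp w c0).mul ((h1.smooth.contDiffAt.comp w c1).mul (h2.smooth.contDiffAt.comp w c2))

/-- parameter space -/
abbrev Pm := ℝ × ℝ × ℝ

noncomputable def hypP (p : Pm) : Hyp := hyp p.1 p.2.1 p.2.2

theorem contDiff_den : ContDiff ℝ ∞ (fun z : E3 × Pm => 1 + z.2.2.1 ^ 2 + z.2.2.2 ^ 2) := by fun_prop

theorem contDiff_s : ContDiff ℝ ∞ (fun z : E3 × Pm => (hypP z.2).s) := by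
  unfold hypP hyp
  exact ContDiff.div (by fun_prop) contDiff_den (fun z => by positivity)

theorem contDiff_q1 : ContDiff ℝ ∞ (fun z : E3 × Pm => (hypP z.2).q1) := by
  unfold hypP hyp
  exact ContDiff.div (by fun_prop) contDiff_den (fun z => by positivity)

theorem contDiff_q2 : ContDiff ℝ ∞ (fun z : E3 × Pm => (hypP z.2).q2) := by
  unfold hypP hyp
  exact ContDiff.div (by fun_prop) contDiff_den (fun z => by positivity)

theorem contDiff_c (i : Fin 3) : ContDiff ℝ ∞ (fun z : E3 × Pm => z.1 i) := by fun_prop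

theorem contDiff_B : ContDiff ℝ ∞ (fun z : E3 × Pm => (hypP z.2).B z.1) := by
  unfold Hyp.B
  exact (contDiff_c 0).sub (contDiff_const.mul ((contDiff_q1.mul (contDiff_c 1)).add (contDiff_q2.mul (contDiff_c 2))))

theorem contDiff_D : ContDiff ℝ ∞ (fun z : E3 × Pm => (hypP z.2).D) := by
  unfold Hyp.D
  exact (contDiff_s.sub (contDiff_q1.pow 2)).sub (contDiff_q2.pow 2)

theorem contDiffAt_om {z : E3 × Pm} (hz : 0 < (hypP z.2).B z.1) :
    ContDiffAt ℝ ∞ (fun z : E3 × Pm => (hypP z.2).om z.1) z := by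
  unfold Hyp.om
  have hD := hyp_D_nonneg z.2.1 z.2.2.1 z.2.2.2
  have hD' : 0 ≤ (hypP z.2).D := hD
  have ca : ContDiff ℝ ∞ (fun z : E3 × Pm => z.1 1 ^ 2 + z.1 2 ^ 2) := ((contDiff_c 1).pow 2).add ((contDiff_c 2).pow 2)
  have hr : 0 < (hypP z.2).B z.1 ^ 2 + 4 * (hypP z.2).D * (z.1 1 ^ 2 + z.1 2 ^ 2) := by positivity
  have cs : ContDiffAt ℝ ∞ (fun z : E3 × Pm => Real.sqrt ((hypP z.2).B z.1 ^ 2 + 4 * (hypP z.2).D * (z.1 1 ^ 2 + z.1 2 ^ 2))) z := by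
    have c3 : ContDiffAt ℝ ∞ (fun z : E3 × Pm => (hypP z.2).B z.1 ^ 2 + 4 * (hypP z.2).D * (z.1 1 ^ 2 + z.1 2 ^ 2)) z :=
      ((contDiff_B.pow 2).add ((contDiff_const.mul contDiff_D).mul ca)).contDiffAt
    exact c3.sqrt hr.ne'
  have hne : (hypP z.2).B z.1 + Real.sqrt ((hypP z.2).B z.1 ^ 2 + 4 * (hypP z.2).D * (z.1 1 ^ 2 + z.1 2 ^ 2)) ≠ 0 := by
    have := Real.sqrt_nonneg ((hypP z.2).B z.1 ^ 2 + 4 * (hypP z.2).D * (z.1 1 ^ 2 + z.1 2 ^ 2))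
    positivity
  exact ((contDiff_const.mul ca).contDiffAt).div (contDiff_B.contDiffAt.add cs) hne

/-- the step in `B` -/
noncomputable def stB (x : ℝ) : ℂ := (Real.smoothTransition (4 * x - 1) : ℂ)

theorem contDiff_stB : ContDiff ℝ ∞ stB := by
  unfold stB
  exact Complex.ofRealCLM.contDiff.comp (contDiff_st.comp (by fun_prop))

theorem stB_zero {x : ℝ} (h : x ≤ 1/4) : stB x = 0 := by
  unfold stB; rw [Real.smoothTransition.zero_of_nonpos (by linarith)]; simp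

theorem stB_one {x : ℝ} (h : 1/2 ≤ x) : stB x = 1 := by
  unfold stB; rw [Real.smoothTransition.one_of_one_le (by linarith)]; simp

theorem mu_eq (H : Hyp) (χ φ1 φ2 : ℝ → ℂ) (ξ : E3) : H.mu χ φ1 φ2 ξ = stB (H.B ξ) * cutw χ φ1 φ2 (H.Om ξ) := rfl

theorem contDiff_mu {χ φ1 φ2 : ℝ → ℂ} (hχ : Rcut χ) (h1 : Vc φ1) (h2 : Vc φ2) :
    ContDiff ℝ ∞ (fun z : E3 × Pm => (hypP z.2).mu χ φ1 φ2 z.1) := by
  rw [contDiff_iff_contDiffAt]
  intro z
  by_cases hz : (hypP z.2).B z.1 < 1/4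
  · have : (fun z : E3 × Pm => (hypP z.2).mu χ φ1 φ2 z.1) =ᶠ[𝓝 z] fun _ => 0 := by
      have ho : IsOpen {z : E3 × Pm | (hypP z.2).B z.1 < 1/4} := isOpen_lt contDiff_B.continuous continuous_const
      filter_upwards [ho.mem_nhds hz] with x hx
      have hx' : (hypP x.2).B x.1 < 1/4 := hx
      rw [mu_eq, stB_zero hx'.le, zero_mul]
    exact contDiffAt_const.congr_of_eventuallyEq this
  · push Not at hz
    have hB : 0 < (hypP z.2).B z.1 := by linarith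
    have com := contDiffAt_om hB
    have cOm : ContDiffAt ℝ ∞ (fun z : E3 × Pm => (hypP z.2).Om z.1) z := by
      rw [contDiffAt_piLp]
      intro i
      fin_cases i
      · exact (contDiff_c 0).contDiffAt.add (contDiff_s.contDiffAt.mul com)
      · exact (contDiff_c 1).contDiffAt.add (contDiff_q1.contDiffAt.mul com)
      · exact (contDiff_c 2).contDiffAt.add (contDiff_q2.contDiffAt.mul com)
    have : (fun z : E3 × Pm => (hypP z.2).mu χ φ1 φ2 z.1) =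
        fun z => stB ((hypP z.2).B z.1) * cutw χ φ1 φ2 ((hypP z.2).Om z.1) := by
      ext z; rw [mu_eq]
    rw [this]
    exact (contDiff_stB.contDiffAt.comp z contDiff_B.contDiffAt).mul
      ((contDiff_cutw hχ h1 h2).contDiffAt.comp z cOm)

/-- support of the multiplier -/
theorem mu_supp {H : Hyp} (hb : H.Bd) {χ φ1 φ2 : ℝ → ℂ} (hχ : Rcut χ) (h1 : Vc φ1) (h2 : Vc φ2) {ξ : E3}
    (h : H.mu χ φ1 φ2 ξ ≠ 0) : 1/4 ≤ H.B ξ ∧ (1/2 ≤ H.Om ξ 0 ∧ H.Om ξ 0 ≤ 3) ∧ |H.Om ξ 1 / H.Om ξ 0| ≤ 5/4 ∧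
      |H.Om ξ 2 / H.Om ξ 0| ≤ 5/4 := by
  rw [mu_eq] at h
  have hB := left_ne_zero_of_mul h
  have hc := right_ne_zero_of_mul h
  unfold cutw at hc
  refine ⟨?_, hχ.supp _ (left_ne_zero_of_mul hc), h1.supp _ (left_ne_zero_of_mul (right_ne_zero_of_mul hc)),
    h2.supp _ (right_ne_zero_of_mul (right_ne_zero_of_mul hc))⟩
  by_contra hh
  push Not at hh
  exact hB (stB_zero hh.le)

theorem norm_E3_le {x : E3} {a : ℝ} (h0 : |x 0| ≤ a) (h1 : |x 1| ≤ a) (h2 : |x 2| ≤ a) : ‖x‖ ≤ 2 * a := by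
  have ha : 0 ≤ a := (abs_nonneg _).trans h0
  rw [EuclideanSpace.norm_eq]
  apply Real.sqrt_le_iff.2
  refine ⟨by positivity, ?_⟩
  simp only [Fin.sum_univ_three, Real.norm_eq_abs]
  have e0 := pow_le_pow_left₀ (abs_nonneg _) h0 2
  have e1 := pow_le_pow_left₀ (abs_nonneg _) h1 2
  have e2 := pow_le_pow_left₀ (abs_nonneg _) h2 2
  nlinarith

theorem mu_bound {H : Hyp} (hb : H.Bd) {χ φ1 φ2 : ℝ → ℂ} (hχ : Rcut χ) (h1 : Vc φ1) (h2 : Vc φ2) {ξ : E3}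
    (h : H.mu χ φ1 φ2 ξ ≠ 0) : ‖ξ‖ ≤ 10 := by
  obtain ⟨hB, ⟨hw0, hw0'⟩, hv1, hv2⟩ := mu_supp hb hχ h1 h2 h
  have hwne : H.Om ξ 0 ≠ 0 := by linarith
  have hB0 : 0 < H.B ξ := by linarith
  have hPh := Hyp.Ph_Om hb.D0 hB0 hwne
  set w := H.Om ξ with hw
  have e1 : |w 1| ≤ 15/4 := by
    have : w 1 = (w 1 / w 0) * w 0 := by field_simp
    rw [this, abs_mul, abs_of_pos (show 0 < w 0 by linarith)]
    calc |w 1 / w 0| * w 0 ≤ 5/4 * 3 := by gcongr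
      _ = 15/4 := by norm_num
  have e2 : |w 2| ≤ 15/4 := by
    have : w 2 = (w 2 / w 0) * w 0 := by field_simp
    rw [this, abs_mul, abs_of_pos (show 0 < w 0 by linarith)]
    calc |w 2 / w 0| * w 0 ≤ 5/4 * 3 := by gcongr
      _ = 15/4 := by norm_num
  have eh : |hc w| ≤ 10 := by
    have e3 : hc w = ((w 1 / w 0) ^ 2 + (w 2 / w 0) ^ 2) * w 0 := by
      unfold hc; field_simp
    have a1 : (w 1 / w 0) ^ 2 ≤ 25/16 := by rw [← sq_abs]; nlinarith [abs_nonneg (w 1 / w 0)]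
    have a2 : (w 2 / w 0) ^ 2 ≤ 25/16 := by rw [← sq_abs]; nlinarith [abs_nonneg (w 2 / w 0)]
    have hp : 0 < w 0 := by linarith
    rw [e3, abs_of_nonneg (by positivity)]
    calc ((w 1 / w 0) ^ 2 + (w 2 / w 0) ^ 2) * w 0 ≤ (25/16 + 25/16) * 3 := by gcongr
      _ ≤ 10 := by norm_num
  obtain ⟨s0, s1, q1, q2, D0, D1⟩ := hb
  rw [← hPh]
  have : ‖H.Ph w‖ ≤ 2 * 5 := by
    apply norm_E3_le
    · have e : H.Ph w 0 = w 0 - H.s * hc w := rfl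
      rw [e]
      calc |w 0 - H.s * hc w| ≤ |w 0| + |H.s * hc w| := abs_sub _ _
        _ ≤ 3 + 1/64 * 10 := by
          rw [abs_mul, abs_of_pos (show 0 < w 0 by linarith), abs_of_pos s0]
          gcongr
        _ ≤ 5 := by norm_num
    · have e : H.Ph w 1 = w 1 - H.q1 * hc w := rfl
      rw [e]
      calc |w 1 - H.q1 * hc w| ≤ |w 1| + |H.q1 * hc w| := abs_sub _ _
        _ ≤ 15/4 + 1/16 * 10 := by
          rw [abs_mul]
          gcongr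
        _ ≤ 5 := by norm_num
    · have e : H.Ph w 2 = w 2 - H.q2 * hc w := rfl
      rw [e]
      calc |w 2 - H.q2 * hc w| ≤ |w 2| + |H.q2 * hc w| := abs_sub _ _
        _ ≤ 15/4 + 1/16 * 10 := by
          rw [abs_mul]
          gcongr
        _ ≤ 5 := by norm_num
  linarith

/-- globally smooth modification of the dispersion relation -/
noncomputable def omS (z : E3 × Pm) : ℝ := Real.smoothTransition (8 * (hypP z.2).B z.1 - 1) * (hypP z.2).om z.1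

theorem contDiff_omS : ContDiff ℝ ∞ omS := by
  rw [contDiff_iff_contDiffAt]
  intro z
  by_cases hz : (hypP z.2).B z.1 < 1/8
  · have : omS =ᶠ[𝓝 z] fun _ => 0 := by
      have ho : IsOpen {z : E3 × Pm | (hypP z.2).B z.1 < 1/8} := isOpen_lt contDiff_B.continuous continuous_const
      filter_upwards [ho.mem_nhds hz] with x hx
      have hx' : (hypP x.2).B x.1 < 1/8 := hx
      unfold omS
      rw [Real.smoothTransition.zero_of_nonpos (by linarith), zero_mul]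
    exact contDiffAt_const.congr_of_eventuallyEq this
  · push Not at hz
    have com := contDiffAt_om (z := z) (by linarith)
    unfold omS
    have h1 : ContDiff ℝ ∞ (fun z : E3 × Pm => Real.smoothTransition (8 * (hypP z.2).B z.1 - 1)) :=
      contDiff_st.comp ((contDiff_const.mul contDiff_B).sub contDiff_const)
    exact h1.contDiffAt.mul com

theorem omS_eq {z : E3 × Pm} (h : 1/4 ≤ (hypP z.2).B z.1) : omS z = (hypP z.2).om z.1 := by
  unfold omS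
  rw [Real.smoothTransition.one_of_one_le (by linarith), one_mul]

/-- compact set of parameters -/
def PK : Set Pm := Icc (0:ℝ) (1/8) ×ˢ (Icc (0:ℝ) (1/2) ×ˢ Icc (0:ℝ) (1/2))

theorem isCompact_PK : IsCompact PK := isCompact_Icc.prod (isCompact_Icc.prod isCompact_Icc)

theorem ok_param {H : Hyp} (h : H.ok) : ∃ p ∈ PK, H = hypP p := by
  obtain ⟨σ, b1, b2, h1, h2, h3, h4, h5, h6, rfl⟩ := (H.ok_iff).1 h
  exact ⟨(σ, b1, b2), ⟨⟨h1.le, h2⟩, ⟨h3, h4⟩, ⟨h5, h6⟩⟩, rfl⟩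

theorem contDiff_muH {H : Hyp} (h : H.ok) {χ φ1 φ2 : ℝ → ℂ} (hχ : Rcut χ) (h1 : Vc φ1) (h2 : Vc φ2) :
    ContDiff ℝ ∞ (H.mu χ φ1 φ2) := by
  obtain ⟨p, hp, rfl⟩ := ok_param h
  have h3 : ContDiff ℝ ∞ (fun ξ : E3 => (ξ, p)) := by fun_prop
  have h4 := (contDiff_mu hχ h1 h2).comp h3
  simp only [Function.comp_def] at h4
  exact h4

theorem compact_muH {H : Hyp} (h : H.ok) {χ φ1 φ2 : ℝ → ℂ} (hχ : Rcut χ) (h1 : Vc φ1) (h2 : Vc φ2) :
    HasCompactSupport (H.mu χ φ1 φ2) :=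
  compact_of_supp (fun ξ hξ => mu_bound h.bd hχ h1 h2 hξ)

/-- the evolution factor times the multiplier -/
noncomputable def Hyp.em (H : Hyp) (τ : ℝ) (M : E3 → ℂ) (ξ : E3) : ℂ := cexp (2 * Real.pi * I * (τ * H.om ξ : ℝ)) * M ξ

theorem em_DB {χ φ1 φ2 : ℝ → ℂ} (hχ : Rcut χ) (h1 : Vc φ1) (h2 : Vc φ2) (n : ℕ) :
    ∃ C : ℝ, 0 ≤ C ∧ ∀ (H : Hyp), H.ok → ∀ τ : ℝ, ContDiff ℝ ∞ (H.em τ (H.mu χ φ1 φ2)) ∧
      ∀ ξ, ‖ξ‖ ≤ 10 → DB n (C * (1 + |τ|) ^ n) (H.em τ (H.mu χ φ1 φ2)) ξ := by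
  obtain ⟨D, hD, hDS⟩ := DB.of_param (K := Metric.closedBall (0:E3) 10 ×ˢ PK)
    ((isCompact_closedBall _ _).prod isCompact_PK) contDiff_omS n
  obtain ⟨B, hB, hBX⟩ := DB.of_param (K := Metric.closedBall (0:E3) 10 ×ˢ PK)
    ((isCompact_closedBall _ _).prod isCompact_PK) (contDiff_mu hχ h1 h2) n
  have hpi := Real.pi_pos
  refine ⟨2 ^ n * (n.factorial * (2 * Real.pi + 1) ^ n * D ^ n) * B, by positivity, ?_⟩
  intro H hH τ
  obtain ⟨p, hp, rfl⟩ := ok_param hH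
  have hg : ContDiff ℝ ∞ (fun t : ℝ => cexp ((2 * Real.pi * I * τ) * (t : ℂ))) := by
    have h4 : ContDiff ℝ ∞ (fun t : ℝ => (t : ℂ)) := Complex.ofRealCLM.contDiff
    fun_prop
  have heq : (hypP p).em τ ((hypP p).mu χ φ1 φ2) =
      fun ξ : E3 => cexp ((2 * Real.pi * I * τ) * (omS (ξ, p) : ℝ)) * (hypP p).mu χ φ1 φ2 ξ := by
    ext ξ
    unfold Hyp.em
    by_cases h : (hypP p).mu χ φ1 φ2 ξ = 0
    · rw [h]; ring
    · have h3 := (mu_supp hH.bd hχ h1 h2 h).1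
      rw [omS_eq (z := (ξ, p)) h3]
      congr 2
      push_cast; ring
  have hS : ContDiff ℝ ∞ (fun ξ : E3 => omS (ξ, p)) := contDiff_omS.comp (by fun_prop)
  have hM : ContDiff ℝ ∞ ((hypP p).mu χ φ1 φ2) := contDiff_muH hH hχ h1 h2
  have hgS : ContDiff ℝ ∞ (fun ξ : E3 => cexp ((2 * Real.pi * I * τ) * (omS (ξ, p) : ℝ))) := hg.comp hS
  rw [heq]
  refine ⟨hgS.mul hM, ?_⟩
  intro ξ hξ
  have hmem : (ξ, p) ∈ Metric.closedBall (0:E3) 10 ×ˢ PK := ⟨by simpa using hξ, hp⟩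
  have hA : DB n ((2 * Real.pi + 1) ^ n * (1 + |τ|) ^ n) (fun t : ℝ => cexp ((2 * Real.pi * I * τ) * (t : ℂ))) (omS (ξ, p)) := by
    intro i hi
    rw [norm_iteratedFDeriv_eq_norm_iteratedDeriv, iteratedDeriv_cexp_lin, norm_mul, norm_pow]
    have e1 : ‖(2 * Real.pi * I * τ : ℂ)‖ = 2 * Real.pi * |τ| := by
      rw [norm_mul, norm_mul, norm_mul]; simp [abs_of_pos hpi]
    have e2 : ‖cexp ((2 * Real.pi * I * τ) * ((omS (ξ, p) : ℝ) : ℂ))‖ = 1 := by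
      have : ((2 * Real.pi * I * τ) * ((omS (ξ, p) : ℝ) : ℂ)) = ((2 * Real.pi * τ * omS (ξ, p) : ℝ) : ℂ) * I := by
        push_cast; ring
      rw [this, Complex.norm_exp_ofReal_mul_I]
    rw [e1, e2, mul_one, ← mul_pow]
    have h0 := abs_nonneg τ
    calc (2 * Real.pi * |τ|) ^ i ≤ ((2 * Real.pi + 1) * (1 + |τ|)) ^ i := by
          apply pow_le_pow_left₀ (by positivity)
          nlinarith
      _ ≤ ((2 * Real.pi + 1) * (1 + |τ|)) ^ n := pow_le_pow_right₀ (by nlinarith) hi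
  have h3 := DB.comp hg hS hA (hDS ξ p hmem) hD
  have h4 := DB.mul hgS hM h3 (hBX ξ p hmem)
  refine h4.mono (le_of_eq ?_)
  ring

/-- **uniform kernel bound** -/
theorem ker_bound {χ φ1 φ2 : ℝ → ℂ} (hχ : Rcut χ) (h1 : Vc φ1) (h2 : Vc φ2) (n : ℕ) :
    ∃ C : ℝ, 0 ≤ C ∧ ∀ (H : Hyp), H.ok → ∀ (τ : ℝ) (y : E3),
      (1 + ‖y‖) ^ n * ‖𝓕⁻ (H.em τ (H.mu χ φ1 φ2)) y‖ ≤ C * (1 + |τ|) ^ n := by
  obtain ⟨C1, hC1, h3⟩ := em_DB hχ h1 h2 n
  obtain ⟨C2, hC2, h4⟩ := fourier_decay (V := E3) n 10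
  refine ⟨C2 * C1, by positivity, ?_⟩
  intro H hH τ y
  obtain ⟨hc, hd⟩ := h3 H hH τ
  have h5 := h4 (H.em τ (H.mu χ φ1 φ2)) (C1 * (1 + |τ|) ^ n) hc
    (fun ξ hξ => mu_bound hH.bd hχ h1 h2 (right_ne_zero_of_mul hξ)) hd (by positivity) (-y)
  rw [norm_neg] at h5
  rw [Real.fourierInv_eq_fourier_neg, mul_assoc]
  exact h5

/-- uniform `L¹` bound -/
theorem ker_L1 {χ φ1 φ2 : ℝ → ℂ} (hχ : Rcut χ) (h1 : Vc φ1) (h2 : Vc φ2) :
    ∃ C : ℝ, 0 ≤ C ∧ ∀ (H : Hyp), H.ok → ∀ (τ : ℝ),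
      ∫⁻ y, ‖𝓕⁻ (H.em τ (H.mu χ φ1 φ2)) y‖ₑ ≤ ENNReal.ofReal (C * (1 + |τ|) ^ 4) := by
  obtain ⟨C0, hC0, h0⟩ := L1_of_decay
  obtain ⟨C1, hC1, h3⟩ := ker_bound hχ h1 h2 4
  refine ⟨C0 * C1, by positivity, ?_⟩
  intro H hH τ
  rw [mul_assoc]
  exact h0 _ _ (by positivity) (h3 H hH τ)

end Vale.Agent.P106.G
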