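import Vale.Agent.P106.G.RecA
import Vale.Agent.P106.G.DefsK
import Vale.Agent.P106.G.SlabA

/-! # Linear algebra for the kinetic densities -/

open MeasureTheory Complex Set Filter
open scoped ENNReal NNReal ContDiff FourierTransform Topology SchwartzMap

set_option linter.all false

namespace Vale.Agent.P106.G

open Vale.Agent.P117 (Adm contDiff_st)

/-- the plank map of the cap `(β, τ)` -/
noncomputable def Pb (β1 β2 τ : ℝ) (u : E4) : E3 :=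
  !₂[u 0 + β1 * u 1 + β2 * u 2 + (β1 ^ 2 + β2 ^ 2) * u 3, τ * (u 1 + 2 * β1 * u 3), τ * (u 2 + 2 * β2 * u 3)]

section
variable (β1 β2 τ : ℝ) (u : E4)
@[simp] theorem Pb0 : Pb β1 β2 τ u 0 = u 0 + β1 * u 1 + β2 * u 2 + (β1 ^ 2 + β2 ^ 2) * u 3 := rfl
@[simp] theorem Pb1 : Pb β1 β2 τ u 1 = τ * (u 1 + 2 * β1 * u 3) := rfl
@[simp] theorem Pb2 : Pb β1 β2 τ u 2 = τ * (u 2 + 2 * β2 * u 3) := rfl
end

theorem ext3 {x y : E3} (h0 : x 0 = y 0) (h1 : x 1 = y 1) (h2 : x 2 = y 2) : x = y := by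
  ext i
  fin_cases i
  · exact h0
  · exact h1
  · exact h2

section
variable (b1 b2 : ℝ) (z : E4)
@[simp] theorem shT0 : shT b1 b2 z 0 = z 0 + b1 * z 1 + b2 * z 2 + (b1 ^ 2 + b2 ^ 2) * z 3 := rfl
@[simp] theorem shT1 : shT b1 b2 z 1 = z 1 + 2 * b1 * z 3 := rfl
@[simp] theorem shT2 : shT b1 b2 z 2 = z 2 + 2 * b2 * z 3 := rfl
@[simp] theorem shT3 : shT b1 b2 z 3 = z 3 := rfl
end

theorem shT_add (a1 a2 b1 b2 : ℝ) (z : E4) : shT a1 a2 (shT b1 b2 z) = shT (a1 + b1) (a2 + b2) z := by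
  apply ext4
  · simp only [shT0, shT1, shT2, shT3]; ring
  · simp only [shT1, shT3]; ring
  · simp only [shT2, shT3]; ring
  · simp only [shT3]

theorem shT_zero (z : E4) : shT 0 0 z = z := by
  apply ext4
  · simp only [shT0]; ring
  · simp only [shT1]; ring
  · simp only [shT2]; ring
  · simp only [shT3]

theorem shT_neg (b1 b2 : ℝ) (z : E4) : shT (-b1) (-b2) (shT b1 b2 z) = z := by
  rw [shT_add]; simp only [neg_add_cancel]; exact shT_zero z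

theorem shT_neg' (b1 b2 : ℝ) (z : E4) : shT b1 b2 (shT (-b1) (-b2) z) = z := by
  rw [shT_add]; simp only [add_neg_cancel]; exact shT_zero z

theorem shT_sub (b1 b2 : ℝ) (z w : E4) : shT b1 b2 (z - w) = shT b1 b2 z - shT b1 b2 w := by
  apply ext4
  · simp only [PiLp.sub_apply, shT0]; ring
  · simp only [PiLp.sub_apply, shT1]; ring
  · simp only [PiLp.sub_apply, shT2]; ring
  · simp only [PiLp.sub_apply, shT3]

/-- matrix of the shear -/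
noncomputable def Bs (b1 b2 : ℝ) : Matrix (Fin 4) (Fin 4) ℝ :=
  !![1, b1, b2, b1 ^ 2 + b2 ^ 2; 0, 1, 0, 2 * b1; 0, 0, 1, 2 * b2; 0, 0, 0, 1]

theorem Bs_det (b1 b2 : ℝ) : (Bs b1 b2).det = 1 := by
  unfold Bs
  rw [Matrix.det_succ_row_zero]
  simp [Fin.sum_univ_four, Matrix.det_fin_three, Fin.succAbove, Matrix.submatrix]

theorem shT_eq (b1 b2 : ℝ) : shT b1 b2 = mat4 (Bs b1 b2) := by
  ext z i
  rw [mat4_apply]
  fin_cases i
  · simp [Bs, shT]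
  · simp [Bs, shT]
  · simp [Bs, shT]
  · simp [Bs, shT]

theorem continuous_shT (b1 b2 : ℝ) : Continuous (shT b1 b2) := by
  rw [shT_eq]; exact (mat4 _).continuous_of_finiteDimensional

theorem lint_shT (b1 b2 : ℝ) (F : E4 → ℝ≥0∞) : ∫⁻ z, F (shT b1 b2 z) = ∫⁻ z, F z := by
  rw [shT_eq, lintegral_mat4 (by rw [Bs_det]; norm_num), Bs_det]
  simp

theorem norm_shT_le {b1 b2 : ℝ} (h1 : |b1| ≤ 1/8) (h2 : |b2| ≤ 1/8) (z : E4) : ‖shT b1 b2 z‖ ≤ 2 * ‖z‖ := by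
  have e : shT b1 b2 z = z + !₂[b1 * z 1 + b2 * z 2 + (b1 ^ 2 + b2 ^ 2) * z 3, 2 * b1 * z 3, 2 * b2 * z 3, 0] := by
    apply ext4
    · rw [PiLp.add_apply, shT0]; simp; ring
    · rw [PiLp.add_apply, shT1]; simp
    · rw [PiLp.add_apply, shT2]; simp
    · rw [PiLp.add_apply, shT3]; simp
  have z1 := abs_coord_le z 1
  have z2 := abs_coord_le z 2
  have z3 := abs_coord_le z 3
  have hn := norm_nonneg z
  have c1 : |b1 * z 1| ≤ 1/8 * ‖z‖ := by rw [abs_mul]; exact mul_le_mul h1 z1 (abs_nonneg _) (by norm_num)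
  have c2 : |b2 * z 2| ≤ 1/8 * ‖z‖ := by rw [abs_mul]; exact mul_le_mul h2 z2 (abs_nonneg _) (by norm_num)
  have q1 : b1 ^ 2 ≤ 1/64 := by rw [← sq_abs]; nlinarith [abs_nonneg b1]
  have q2 : b2 ^ 2 ≤ 1/64 := by rw [← sq_abs]; nlinarith [abs_nonneg b2]
  have c3 : |(b1 ^ 2 + b2 ^ 2) * z 3| ≤ 1/32 * ‖z‖ := by
    rw [abs_mul, abs_of_nonneg (by positivity)]
    exact mul_le_mul (by linarith) z3 (abs_nonneg _) (by norm_num)
  have c4 : |2 * b1 * z 3| ≤ 1/4 * ‖z‖ := by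
    rw [abs_mul, abs_mul, abs_of_pos (by norm_num : (0:ℝ) < 2)]
    exact mul_le_mul (by linarith) z3 (abs_nonneg _) (by norm_num)
  have c5 : |2 * b2 * z 3| ≤ 1/4 * ‖z‖ := by
    rw [abs_mul, abs_mul, abs_of_pos (by norm_num : (0:ℝ) < 2)]
    exact mul_le_mul (by linarith) z3 (abs_nonneg _) (by norm_num)
  have hb : ‖(!₂[b1 * z 1 + b2 * z 2 + (b1 ^ 2 + b2 ^ 2) * z 3, 2 * b1 * z 3, 2 * b2 * z 3, 0] : E4)‖ ≤ 2 * (1/2 * ‖z‖) := by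
    apply norm4_le _ (by positivity)
    intro i
    fin_cases i
    · simp only [Fin.zero_eta, PiLp.toLp_apply, Matrix.cons_val_zero]
      calc _ ≤ |b1 * z 1| + |b2 * z 2| + |(b1 ^ 2 + b2 ^ 2) * z 3| := abs_add_three _ _ _
        _ ≤ _ := by linarith
    · simp only [Fin.mk_one, PiLp.toLp_apply, Matrix.cons_val_one, Matrix.cons_val_zero]; linarith
    · simp only [Fin.reduceFinMk, PiLp.toLp_apply, Matrix.cons_val]; linarith
    · simp only [Fin.reduceFinMk, PiLp.toLp_apply, Matrix.cons_val, abs_zero]; positivity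
  rw [e]
  calc _ ≤ ‖z‖ + 2 * (1/2 * ‖z‖) := (norm_add_le _ _).trans (by linarith)
    _ = _ := by ring

/-! ### planks and tubes -/

theorem LT_shT (N : ℕ) (k : ℤ × ℤ) (b1 b2 : ℝ) (u : E4) : LT N k (shT b1 b2 u) =
    !₂[Pb (k.1 / N + b1) (k.2 / N + b2) (1 / N) u 0, Pb (k.1 / N + b1) (k.2 / N + b2) (1 / N) u 1,
      Pb (k.1 / N + b1) (k.2 / N + b2) (1 / N) u 2, u 3 / N ^ 2] := by
  apply ext4
  · rw [LT0]
    simp only [shT0, shT1, shT2, shT3, PiLp.toLp_apply, Matrix.cons_val_zero, Pb0]; ring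
  · rw [LT1]
    simp only [shT1, shT3, PiLp.toLp_apply, Matrix.cons_val_one, Matrix.cons_val_zero, Pb1]; ring
  · rw [LT2]
    simp only [shT2, shT3, PiLp.toLp_apply, Matrix.cons_val, Pb2]; ring
  · rw [LT3]
    simp only [shT3, PiLp.toLp_apply, Matrix.cons_val]

theorem pt_zt (H : Hyp) (y : E3) : H.pt y = H.zt 0 y := by
  unfold Hyp.pt Hyp.zt
  apply ext4
  · rfl
  · rfl
  · rfl
  · simp

/-- the rescaled space point -/
theorem AT_Pb (H : Hyp) (β1 β2 τ t : ℝ) (y y' : E3) :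
    mat3 (H.AT β1 β2 τ).transpose y + t • !₂[β1 ^ 2 + β2 ^ 2, 2 * τ * β1, 2 * τ * β2] - mat3 (H.AT β1 β2 τ).transpose y' =
      Pb β1 β2 τ (H.zt t y - H.pt y') := by
  apply ext3
  · rw [PiLp.sub_apply, PiLp.add_apply, PiLp.smul_apply, mat3_apply, mat3_apply, Pb0]
    simp only [Matrix.transpose_apply, Hyp.AT, Matrix.of_apply, Matrix.cons_val', Matrix.cons_val_zero, Matrix.cons_val_one,
      Matrix.cons_val, PiLp.toLp_apply, PiLp.sub_apply, Hyp.zt, Hyp.pt, smul_eq_mul]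
    ring
  · rw [PiLp.sub_apply, PiLp.add_apply, PiLp.smul_apply, mat3_apply, mat3_apply, Pb1]
    simp only [Matrix.transpose_apply, Hyp.AT, Matrix.of_apply, Matrix.cons_val', Matrix.cons_val_zero, Matrix.cons_val_one,
      Matrix.cons_val, PiLp.toLp_apply, PiLp.sub_apply, Hyp.zt, Hyp.pt, smul_eq_mul]
    ring
  · rw [PiLp.sub_apply, PiLp.add_apply, PiLp.smul_apply, mat3_apply, mat3_apply, Pb2]
    simp only [Matrix.transpose_apply, Hyp.AT, Matrix.of_apply, Matrix.cons_val', Matrix.cons_val_zero, Matrix.cons_val_one,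
      Matrix.cons_val, PiLp.toLp_apply, PiLp.sub_apply, Hyp.zt, Hyp.pt, smul_eq_mul]
    ring

theorem tm_pt (H : Hyp) (y : E3) : H.tm (H.pt y) = 0 := by
  unfold Hyp.tm Hyp.pt
  simp only [PiLp.toLp_apply, Matrix.cons_val_zero, Matrix.cons_val_one, Matrix.cons_val]
  ring

theorem tm_zt (H : Hyp) (t : ℝ) (y : E3) : H.tm (H.zt t y) = t := by
  unfold Hyp.tm Hyp.zt
  simp only [PiLp.toLp_apply, Matrix.cons_val_zero, Matrix.cons_val_one, Matrix.cons_val]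
  ring

theorem tm_sub (H : Hyp) (z w : E4) : H.tm (z - w) = H.tm z - H.tm w := by
  unfold Hyp.tm
  simp only [PiLp.sub_apply]
  ring

/-- first three coordinates -/
noncomputable def sp3 (z : E4) : E3 := !₂[z 0, z 1, z 2]

theorem zt_tm (H : Hyp) (z : E4) : H.zt (H.tm z) (sp3 z) = z := by
  unfold Hyp.zt sp3 Hyp.tm
  apply ext4
  · rfl
  · rfl
  · rfl
  · simp

theorem bp_pt (H : Hyp) (v1 v2 : ℝ) (y : E3) : H.bp v1 v2 (H.pt y) = y := by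
  unfold Hyp.bp
  rw [tm_pt]
  apply ext3
  · simp [Hyp.pt]
  · simp [Hyp.pt]
  · simp [Hyp.pt]

theorem bp_sub (H : Hyp) (v1 v2 : ℝ) (z w : E4) : H.bp v1 v2 (z - w) = H.bp v1 v2 z - H.bp v1 v2 w := by
  unfold Hyp.bp
  rw [tm_sub]
  apply ext3
  · simp only [PiLp.sub_apply, PiLp.toLp_apply, Matrix.cons_val_zero]; ring
  · simp only [PiLp.sub_apply, PiLp.toLp_apply, Matrix.cons_val_one, Matrix.cons_val_zero]; ring
  · simp only [PiLp.sub_apply, PiLp.toLp_apply, Matrix.cons_val]; ring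

theorem norm3_le1 (x : E3) : ‖x‖ ≤ |x 0| + |x 1| + |x 2| := by
  have h : x = !₂[x 0, 0, 0] + !₂[0, x 1, 0] + !₂[0, 0, x 2] := by
    apply ext3 <;> simp
  have n0 : ‖(!₂[x 0, 0, 0] : E3)‖ = |x 0| := by
    rw [EuclideanSpace.norm_eq]; simp [Fin.sum_univ_three, Real.sqrt_sq_eq_abs]
  have n1 : ‖(!₂[0, x 1, 0] : E3)‖ = |x 1| := by
    rw [EuclideanSpace.norm_eq]; simp [Fin.sum_univ_three, Real.sqrt_sq_eq_abs]
  have n2 : ‖(!₂[0, 0, x 2] : E3)‖ = |x 2| := by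
    rw [EuclideanSpace.norm_eq]; simp [Fin.sum_univ_three, Real.sqrt_sq_eq_abs]
  calc ‖x‖ = ‖(!₂[x 0, 0, 0] : E3) + !₂[0, x 1, 0] + !₂[0, 0, x 2]‖ := by rw [← h]
    _ ≤ ‖(!₂[x 0, 0, 0] : E3)‖ + ‖(!₂[0, x 1, 0] : E3)‖ + ‖(!₂[0, 0, x 2] : E3)‖ := norm_add₃_le
    _ = _ := by rw [n0, n1, n2]

theorem abs_coord3 (x : E3) (i : Fin 3) : |x i| ≤ ‖x‖ := by
  have := PiLp.norm_apply_le x i
  simpa using this

theorem e_bd {s q1 q2 β1 β2 m x0 x1 x2 : ℝ} (s0 : 0 < s) (s1 : s ≤ 1/64) (hq1 : |q1| ≤ 1/16) (hq2 : |q2| ≤ 1/16)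
    (hm : 1 ≤ m) (h1 : 0 ≤ β1) (h1' : β1 ≤ 1) (h2 : 0 ≤ β2) (h2' : β2 ≤ 1) :
    |(s * (x0 - β1 * x1 - β2 * x2) + q1 * x1 + q2 * x2) / m| ≤ 1/64 * |x0| + 5/64 * |x1| + 5/64 * |x2| := by
  have hm0 : 0 < m := by linarith
  rw [abs_div, abs_of_pos hm0]
  refine (div_le_self (abs_nonneg _) hm).trans ?_
  have n0 := abs_nonneg x0
  have n1 := abs_nonneg x1
  have n2 := abs_nonneg x2
  have a0 : |s * x0| ≤ 1/64 * |x0| := by
    rw [abs_mul, abs_of_pos s0]; exact mul_le_mul_of_nonneg_right s1 n0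
  have a1 : |s * (β1 * x1)| ≤ 1/64 * |x1| := by
    rw [abs_mul, abs_of_pos s0, abs_mul, abs_of_nonneg h1]
    calc s * (β1 * |x1|) ≤ 1/64 * (1 * |x1|) := by gcongr
      _ = _ := by ring
  have a2 : |s * (β2 * x2)| ≤ 1/64 * |x2| := by
    rw [abs_mul, abs_of_pos s0, abs_mul, abs_of_nonneg h2]
    calc s * (β2 * |x2|) ≤ 1/64 * (1 * |x2|) := by gcongr
      _ = _ := by ring
  have a3 : |q1 * x1| ≤ 1/16 * |x1| := by rw [abs_mul]; exact mul_le_mul_of_nonneg_right hq1 n1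
  have a4 : |q2 * x2| ≤ 1/16 * |x2| := by rw [abs_mul]; exact mul_le_mul_of_nonneg_right hq2 n2
  have e5 : s * (x0 - β1 * x1 - β2 * x2) + q1 * x1 + q2 * x2 =
      s * x0 - s * (β1 * x1) - s * (β2 * x2) + q1 * x1 + q2 * x2 := by ring
  rw [e5]
  calc _ ≤ |s * x0| + |s * (β1 * x1)| + |s * (β2 * x2)| + |q1 * x1| + |q2 * x2| := by
        refine (abs_add_le _ _).trans (add_le_add ((abs_add_le _ _).trans (add_le_add ((abs_sub _ _).trans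
          (add_le_add (abs_sub _ _) le_rfl)) le_rfl)) le_rfl)
    _ ≤ _ := by linarith

theorem bp_coords (H : Hyp) {β1 β2 : ℝ} (hm : 0 < H.m β1 β2) (u : E4) (x0 x1 x2 e : ℝ)
    (hx0 : x0 = u 0 + β1 * u 1 + β2 * u 2 + (β1 ^ 2 + β2 ^ 2) * u 3) (hx1 : x1 = u 1 + 2 * β1 * u 3)
    (hx2 : x2 = u 2 + 2 * β2 * u 3) (he : e = (H.s * (x0 - β1 * x1 - β2 * x2) + H.q1 * x1 + H.q2 * x2) / H.m β1 β2) :
    H.bp β1 β2 u 0 = x0 - β1 * x1 - β2 * x2 - (β1 ^ 2 + β2 ^ 2) * e ∧ H.bp β1 β2 u 1 = x1 + 2 * β1 * e ∧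
      H.bp β1 β2 u 2 = x2 + 2 * β2 * e := by
  have em : H.m β1 β2 = H.s * (β1 ^ 2 + β2 ^ 2) - 2 * (H.q1 * β1 + H.q2 * β2) + 1 := rfl
  have ht : H.tm u / H.m β1 β2 = u 3 + e := by
    rw [he, div_eq_iff hm.ne', add_mul, div_mul_cancel₀ _ hm.ne']
    unfold Hyp.tm
    rw [hx0, hx1, hx2, em]
    ring
  refine ⟨?_, ?_, ?_⟩
  · show u 0 - H.tm u / H.m β1 β2 * (β1 ^ 2 + β2 ^ 2) = _
    rw [ht, hx0, hx1, hx2]; ring
  · show u 1 + 2 * (H.tm u / H.m β1 β2) * β1 = _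
    rw [ht, hx1]; ring
  · show u 2 + 2 * (H.tm u / H.m β1 β2) * β2 = _
    rw [ht, hx2]; ring

theorem coord_bd {β1 β2 x0 x1 x2 e c0 c1 c2 : ℝ} (h1 : 0 ≤ β1) (h1' : β1 ≤ 1) (h2 : 0 ≤ β2) (h2' : β2 ≤ 1)
    (b0 : c0 = x0 - β1 * x1 - β2 * x2 - (β1 ^ 2 + β2 ^ 2) * e) (b1 : c1 = x1 + 2 * β1 * e) (b2 : c2 = x2 + 2 * β2 * e) :
    |c0| + |c1| + |c2| ≤ |x0| + 2 * |x1| + 2 * |x2| + 6 * |e| := by
  have hx1' := abs_nonneg x1
  have hx2' := abs_nonneg x2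
  have he' := abs_nonneg e
  have c0' : |c0| ≤ |x0| + |x1| + |x2| + 2 * |e| := by
    rw [b0]
    have a1 : |β1 * x1| ≤ |x1| := by rw [abs_mul, abs_of_nonneg h1]; nlinarith
    have a2 : |β2 * x2| ≤ |x2| := by rw [abs_mul, abs_of_nonneg h2]; nlinarith
    have a3 : |(β1 ^ 2 + β2 ^ 2) * e| ≤ 2 * |e| := by
      rw [abs_mul, abs_of_nonneg (by positivity)]
      have : β1 ^ 2 + β2 ^ 2 ≤ 2 := by nlinarith
      exact mul_le_mul_of_nonneg_right this he'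
    calc _ ≤ |x0| + |β1 * x1| + |β2 * x2| + |(β1 ^ 2 + β2 ^ 2) * e| :=
          (abs_sub _ _).trans (add_le_add ((abs_sub _ _).trans (add_le_add (abs_sub _ _) le_rfl)) le_rfl)
      _ ≤ _ := by linarith
  have c1' : |c1| ≤ |x1| + 2 * |e| := by
    rw [b1]
    have : |2 * β1 * e| ≤ 2 * |e| := by
      rw [abs_mul, abs_of_nonneg (by positivity : 0 ≤ 2 * β1)]
      exact mul_le_mul_of_nonneg_right (by linarith) he'
    exact (abs_add_le _ _).trans (by linarith)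
  have c2' : |c2| ≤ |x2| + 2 * |e| := by
    rw [b2]
    have : |2 * β2 * e| ≤ 2 * |e| := by
      rw [abs_mul, abs_of_nonneg (by positivity : 0 ≤ 2 * β2)]
      exact mul_le_mul_of_nonneg_right (by linarith) he'
    exact (abs_add_le _ _).trans (by linarith)
  linarith

/-- the basic estimate: the base point is controlled by the plank coordinates -/
theorem bp_le {H : Hyp} (hb : H.Bd) {β1 β2 : ℝ} (hm : 1 ≤ H.m β1 β2) (h1 : 0 ≤ β1) (h1' : β1 ≤ 1) (h2 : 0 ≤ β2) (h2' : β2 ≤ 1)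
    {τ : ℝ} (hτ : 0 < τ) (u : E4) : ‖H.bp β1 β2 u‖ ≤ 3 * (|Pb β1 β2 τ u 0| + τ⁻¹ * (|Pb β1 β2 τ u 1| + |Pb β1 β2 τ u 2|)) := by
  have e1 : τ⁻¹ * |Pb β1 β2 τ u 1| = |u 1 + 2 * β1 * u 3| := by
    rw [Pb1, abs_mul, abs_of_pos hτ, ← mul_assoc, inv_mul_cancel₀ hτ.ne', one_mul]
  have e2 : τ⁻¹ * |Pb β1 β2 τ u 2| = |u 2 + 2 * β2 * u 3| := by
    rw [Pb2, abs_mul, abs_of_pos hτ, ← mul_assoc, inv_mul_cancel₀ hτ.ne', one_mul]
  rw [mul_add (τ⁻¹), e1, e2, Pb0]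
  have hc := bp_coords H (by linarith : 0 < H.m β1 β2) u _ _ _ _ rfl rfl rfl rfl
  have he := e_bd (β1 := β1) (β2 := β2) (m := H.m β1 β2) (x0 := u 0 + β1 * u 1 + β2 * u 2 + (β1 ^ 2 + β2 ^ 2) * u 3)
    (x1 := u 1 + 2 * β1 * u 3) (x2 := u 2 + 2 * β2 * u 3) hb.s0 hb.s1 hb.q1a hb.q2a hm h1 h1' h2 h2'
  have hf := coord_bd h1 h1' h2 h2' hc.1 hc.2.1 hc.2.2
  have n0 := abs_nonneg (u 0 + β1 * u 1 + β2 * u 2 + (β1 ^ 2 + β2 ^ 2) * u 3)
  have n1 := abs_nonneg (u 1 + 2 * β1 * u 3)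
  have n2 := abs_nonneg (u 2 + 2 * β2 * u 3)
  refine (norm3_le1 _).trans (hf.trans ?_)
  linarith

/-- dependence of the base point on the velocity -/
theorem bp_vel {H : Hyp} (hb : H.Bd) {v1 v2 w1 w2 δ : ℝ} (hm : 1 ≤ H.m v1 v2) (hm' : 1 ≤ H.m w1 w2) (h1 : 0 ≤ v1) (h1' : v1 ≤ 1)
    (h2 : 0 ≤ v2) (h2' : v2 ≤ 1) (g1 : 0 ≤ w1) (g1' : w1 ≤ 1) (g2 : 0 ≤ w2) (g2' : w2 ≤ 1) (d1 : |v1 - w1| ≤ δ)
    (d2 : |v2 - w2| ≤ δ) (z : E4) : ‖H.bp v1 v2 z - H.bp w1 w2 z‖ ≤ 16 * (|H.tm z| * δ) := by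
  obtain ⟨s0, s1, q1, q2, D0, D1⟩ := hb
  have hδ : 0 ≤ δ := (abs_nonneg _).trans d1
  have hm0 : 0 < H.m v1 v2 := by linarith
  have hm0' : 0 < H.m w1 w2 := by linarith
  set T := H.tm z with hT
  set g := T / H.m v1 v2 with hg
  set g' := T / H.m w1 w2 with hg'
  have sq1 : |v1 ^ 2 - w1 ^ 2| ≤ 2 * δ := by
    have : v1 ^ 2 - w1 ^ 2 = (v1 + w1) * (v1 - w1) := by ring
    rw [this, abs_mul, abs_of_nonneg (by positivity)]
    exact mul_le_mul (by linarith) d1 (abs_nonneg _) (by norm_num)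
  have sq2 : |v2 ^ 2 - w2 ^ 2| ≤ 2 * δ := by
    have : v2 ^ 2 - w2 ^ 2 = (v2 + w2) * (v2 - w2) := by ring
    rw [this, abs_mul, abs_of_nonneg (by positivity)]
    exact mul_le_mul (by linarith) d2 (abs_nonneg _) (by norm_num)
  have hdm : |H.m w1 w2 - H.m v1 v2| ≤ δ := by
    unfold Hyp.m
    have e : H.s * (w1 ^ 2 + w2 ^ 2) - 2 * (H.q1 * w1 + H.q2 * w2) + 1 - (H.s * (v1 ^ 2 + v2 ^ 2) - 2 * (H.q1 * v1 + H.q2 * v2) + 1) =
        2 * (H.q1 * (v1 - w1)) + 2 * (H.q2 * (v2 - w2)) - H.s * (v1 ^ 2 - w1 ^ 2) - H.s * (v2 ^ 2 - w2 ^ 2) := by ring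
    rw [e]
    have a1 : |2 * (H.q1 * (v1 - w1))| ≤ 2 * (1/16 * δ) := by
      rw [abs_mul, abs_mul, abs_of_pos (by norm_num : (0:ℝ) < 2)]; gcongr
    have a2 : |2 * (H.q2 * (v2 - w2))| ≤ 2 * (1/16 * δ) := by
      rw [abs_mul, abs_mul, abs_of_pos (by norm_num : (0:ℝ) < 2)]; gcongr
    have a3 : |H.s * (v1 ^ 2 - w1 ^ 2)| ≤ 1/64 * (2 * δ) := by
      rw [abs_mul, abs_of_pos s0]; gcongr
    have a4 : |H.s * (v2 ^ 2 - w2 ^ 2)| ≤ 1/64 * (2 * δ) := by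
      rw [abs_mul, abs_of_pos s0]; gcongr
    calc _ ≤ |2 * (H.q1 * (v1 - w1))| + |2 * (H.q2 * (v2 - w2))| + |H.s * (v1 ^ 2 - w1 ^ 2)| + |H.s * (v2 ^ 2 - w2 ^ 2)| :=
          (abs_sub _ _).trans (add_le_add ((abs_sub _ _).trans (add_le_add (abs_add_le _ _) le_rfl)) le_rfl)
      _ ≤ δ := by linarith
  have hT0 := abs_nonneg T
  have hgg : |g - g'| ≤ |T| * δ := by
    have e : g - g' = T * (H.m w1 w2 - H.m v1 v2) / (H.m v1 v2 * H.m w1 w2) := by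
      rw [hg, hg']; field_simp
    rw [e, abs_div, abs_mul, abs_of_pos (by positivity : 0 < H.m v1 v2 * H.m w1 w2)]
    refine (div_le_self (by positivity) ?_).trans ?_
    · nlinarith
    · gcongr
  have hg1 : |g'| ≤ |T| := by
    rw [hg', abs_div, abs_of_pos hm0']; exact div_le_self hT0 hm'
  have c0 : |(H.bp v1 v2 z - H.bp w1 w2 z) 0| ≤ 6 * (|T| * δ) := by
    have e : (H.bp v1 v2 z - H.bp w1 w2 z) 0 = -((g - g') * (v1 ^ 2 + v2 ^ 2)) - g' * ((v1 ^ 2 - w1 ^ 2) + (v2 ^ 2 - w2 ^ 2)) := by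
      rw [PiLp.sub_apply]
      show z 0 - g * (v1 ^ 2 + v2 ^ 2) - (z 0 - g' * (w1 ^ 2 + w2 ^ 2)) = _
      ring
    rw [e]
    have a1 : |(g - g') * (v1 ^ 2 + v2 ^ 2)| ≤ |T| * δ * 2 := by
      rw [abs_mul, abs_of_nonneg (by positivity : 0 ≤ v1 ^ 2 + v2 ^ 2)]
      have : v1 ^ 2 + v2 ^ 2 ≤ 2 := by nlinarith
      gcongr
    have a2 : |g' * ((v1 ^ 2 - w1 ^ 2) + (v2 ^ 2 - w2 ^ 2))| ≤ |T| * (2 * δ + 2 * δ) := by
      rw [abs_mul]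
      gcongr
      exact (abs_add_le _ _).trans (by linarith)
    calc _ ≤ |-((g - g') * (v1 ^ 2 + v2 ^ 2))| + |g' * ((v1 ^ 2 - w1 ^ 2) + (v2 ^ 2 - w2 ^ 2))| := abs_sub _ _
      _ ≤ _ := by rw [abs_neg]; linarith
  have key : ∀ (a b : ℝ), 0 ≤ a → a ≤ 1 → |a - b| ≤ δ → |2 * g * a - 2 * g' * b| ≤ 4 * (|T| * δ) := by
    intro a b ha ha' hab
    have e : 2 * g * a - 2 * g' * b = 2 * ((g - g') * a) + 2 * (g' * (a - b)) := by ring
    rw [e]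
    have a1 : |2 * ((g - g') * a)| ≤ 2 * (|T| * δ * 1) := by
      rw [abs_mul, abs_mul, abs_of_pos (by norm_num : (0:ℝ) < 2), abs_of_nonneg ha]; gcongr
    have a2 : |2 * (g' * (a - b))| ≤ 2 * (|T| * δ) := by
      rw [abs_mul, abs_mul, abs_of_pos (by norm_num : (0:ℝ) < 2)]; gcongr
    calc _ ≤ |2 * ((g - g') * a)| + |2 * (g' * (a - b))| := abs_add_le _ _
      _ ≤ _ := by linarith
  have c1 : |(H.bp v1 v2 z - H.bp w1 w2 z) 1| ≤ 4 * (|T| * δ) := by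
    rw [PiLp.sub_apply]
    show |z 1 + 2 * g * v1 - (z 1 + 2 * g' * w1)| ≤ _
    have := key v1 w1 h1 h1' d1
    convert this using 2
    ring
  have c2 : |(H.bp v1 v2 z - H.bp w1 w2 z) 2| ≤ 4 * (|T| * δ) := by
    rw [PiLp.sub_apply]
    show |z 2 + 2 * g * v2 - (z 2 + 2 * g' * w2)| ≤ _
    have := key v2 w2 h2 h2' d2
    convert this using 2
    ring
  refine (norm3_le1 _).trans ?_
  have : 0 ≤ |T| * δ := by positivity
  linarith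

end Vale.Agent.P106.G
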