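import Vale.Agent.P106.G.KinA

/-! # Pointwise bounds for the cap pieces -/

open MeasureTheory Complex Set Filter
open scoped ENNReal NNReal ContDiff FourierTransform Topology SchwartzMap

set_option linter.all false

namespace Vale.Agent.P106.G

open Vale.Agent.P117 (Adm contDiff_st cv cv_schwartz_eq)

/-- weighted Cauchy-Schwarz -/
theorem cs_w {α : Type*} [MeasurableSpace α] {μ : Measure α} {u v : α → ℝ≥0∞} (hu : AEMeasurable u μ) (hv : AEMeasurable v μ) :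
    (∫⁻ x, u x * v x ∂μ) ^ 2 ≤ (∫⁻ x, u x ∂μ) * ∫⁻ x, u x * v x ^ 2 ∂μ := by
  have h := ENNReal.lintegral_mul_le_Lp_mul_Lq μ (p := 2) (q := 2) (by constructor <;> norm_num)
    (f := fun x => u x ^ (1/2:ℝ)) (g := fun x => u x ^ (1/2:ℝ) * v x)
    (hu.pow_const _) ((hu.pow_const _).mul hv)
  have e1 : ∀ x, u x ^ (1/2:ℝ) * (u x ^ (1/2:ℝ) * v x) = u x * v x := by
    intro x
    rw [← mul_assoc, ← ENNReal.rpow_add_of_nonneg _ _ (by norm_num) (by norm_num)]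
    norm_num
  have e2 : ∀ x, (u x ^ (1/2:ℝ)) ^ (2:ℝ) = u x := by
    intro x
    rw [← ENNReal.rpow_mul]; norm_num
  have e3 : ∀ x, (u x ^ (1/2:ℝ) * v x) ^ (2:ℝ) = u x * v x ^ 2 := by
    intro x
    rw [ENNReal.mul_rpow_of_nonneg _ _ (by norm_num), ← ENNReal.rpow_mul]
    norm_num
  simp only [Pi.mul_apply] at h
  simp only [e1, e2, e3] at h
  have h2 := pow_le_pow_left₀ (zero_le) h 2
  refine h2.trans (le_of_eq ?_)
  rw [mul_pow, ← ENNReal.rpow_natCast, ← ENNReal.rpow_natCast, ← ENNReal.rpow_mul, ← ENNReal.rpow_mul]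
  norm_num

/-- cap cut-offs -/
noncomputable def capc (β τ v : ℝ) : ℂ := psv ((v - β) / τ)
noncomputable def capP (β τ v : ℝ) : ℂ := psvP ((v - β) / τ)

theorem capc_resc {τ : ℝ} (hτ : 0 < τ) (β : ℝ) : (fun t => capc β τ (β + τ * t)) = psv := by
  ext t; unfold capc; congr 1; field_simp; ring

theorem capP_resc {τ : ℝ} (hτ : 0 < τ) (β : ℝ) : (fun t => capP β τ (β + τ * t)) = psvP := by
  ext t; unfold capP; congr 1; field_simp; ring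

theorem psvP_supp {t : ℝ} (h : psvP t ≠ 0) : 1/8 ≤ t ∧ t ≤ 7/8 := vcut_psvP.supp t h

theorem capc_supp {β τ v : ℝ} (hτ : 0 < τ) (h : capc β τ v ≠ 0) : β + 3/16 * τ ≤ v ∧ v ≤ β + 13/16 * τ := by
  obtain ⟨h1, h2⟩ := psv_supp h
  rw [le_div_iff₀ hτ] at h1
  rw [div_le_iff₀ hτ] at h2
  constructor <;> linarith

theorem capP_supp {β τ v : ℝ} (hτ : 0 < τ) (h : capP β τ v ≠ 0) : β + 1/8 * τ ≤ v ∧ v ≤ β + 7/8 * τ := by
  obtain ⟨h1, h2⟩ := psvP_supp h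
  rw [le_div_iff₀ hτ] at h1
  rw [div_le_iff₀ hτ] at h2
  constructor <;> linarith

theorem capc_mul_capP (β τ v : ℝ) : capc β τ v * capP β τ v = capc β τ v := psi_mul_psiP _

/-- admissible caps -/
structure Cap (β1 β2 τ : ℝ) : Prop where
  pos : 0 < τ
  l1 : 0 ≤ β1
  r1 : β1 + τ ≤ 1
  l2 : 0 ≤ β2
  r2 : β2 + τ ≤ 1

theorem vc_capP {β τ : ℝ} (hτ : 0 < τ) (h1 : 0 ≤ β) (h2 : β + τ ≤ 1) : Vc (capP β τ) := by
  refine ⟨vcut_psvP.smooth.comp (by fun_prop), fun v hv => ?_⟩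
  obtain ⟨h3, h4⟩ := capP_supp hτ hv
  rw [abs_le]; constructor <;> nlinarith

theorem vc_capc {β τ : ℝ} (hτ : 0 < τ) (h1 : 0 ≤ β) (h2 : β + τ ≤ 1) : Vc (capc β τ) := by
  refine ⟨contDiff_psv.comp (by fun_prop), fun v hv => ?_⟩
  obtain ⟨h3, h4⟩ := capc_supp hτ hv
  rw [abs_le]; constructor <;> nlinarith

section
variable {H : Hyp} (hH : H.ok2) {β1 β2 τ : ℝ} (hC : Cap β1 β2 τ)
include hH hC

theorem cap_m : 1 ≤ H.m β1 β2 ∧ H.m β1 β2 ≤ 2 :=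
  hH.m_bd hC.l1 (by linarith [hC.pos, hC.r1]) hC.l2 (by linarith [hC.pos, hC.r2])

theorem cap_ok : (H.sub β1 β2 τ).ok2 := hH.sub hC.pos hC.l1 hC.r1 hC.l2 hC.r2

theorem kn_cap {c : ℝ} (hc : 0 < c) (hc1 : c ≤ 1) (ξ : E3) : H.mu (chiP c) (capP β1 τ) (capP β2 τ) (mat3 (H.AT β1 β2 τ) ξ) =
    (H.sub β1 β2 τ).mu (chiP c) psvP psvP ξ := by
  have hm := cap_m hH hC
  have hm0 : 0 < H.m β1 β2 := by linarith [hm.1]
  have := (mu_AT (hH.ok.bd) ((cap_ok hH hC).ok.bd) hm0 hC.pos (r1_chiP hc hc1) (vc_capP hC.pos hC.l1 hC.r1)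
    (vc_capP hC.pos hC.l2 hC.r2) (by rw [capP_resc hC.pos]; exact vcut_psvP.vc)
    (by rw [capP_resc hC.pos]; exact vcut_psvP.vc) ξ).1
  rw [this, capP_resc hC.pos, capP_resc hC.pos]

end

theorem ennn {x : E3} (n : ℕ) {C : ℝ} {K : ℂ} (h : (1 + ‖x‖) ^ n * ‖K‖ ≤ C) :
    ‖K‖ₑ ≤ ENNReal.ofReal (C * ((1 + ‖x‖) ^ n)⁻¹) := by
  rw [← ofReal_norm]
  apply ENNReal.ofReal_le_ofReal
  rw [← div_eq_mul_inv, le_div_iff₀ (by positivity)]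
  linarith

/-- **pointwise bound for the cap pieces** -/
theorem Fk_bd {c : ℝ} (hc : 0 < c) (hc1 : c ≤ 1) (n : ℕ) : ∃ C : ℝ, 0 ≤ C ∧ ∀ (H : Hyp) (β1 β2 τ : ℝ) (g : E3 → ℂ) (t : ℝ) (y : E3),
    H.ok2 → Cap β1 β2 τ → Adm volume g →
    ‖H.U (H.mu (chi0 c) (capc β1 τ) (capc β2 τ)) g t y‖ₑ ^ 2 ≤
      ENNReal.ofReal (C * (1 + |τ ^ 2 * t|) ^ (n + 4)) *
        ∫⁻ y', ENNReal.ofReal (τ ^ 2 * ((1 + ‖Pb β1 β2 τ (H.zt t y - H.pt y')‖) ^ n)⁻¹) * ‖g y'‖ₑ ^ 2 := by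
  obtain ⟨C1, hC1, hk⟩ := ker_bound (r1_chi0 hc hc1).toRcut vcut_psv.vc vcut_psv.vc n
  obtain ⟨C2, hC2, hk2⟩ := ker_L1 (r1_chi0 hc hc1).toRcut vcut_psv.vc vcut_psv.vc
  refine ⟨2 * C1 * C2, by positivity, ?_⟩
  intro H β1 β2 τ g t y hH hC hg
  have hm := cap_m hH hC
  have hm0 : 0 < H.m β1 β2 := by linarith [hm.1]
  have hτ := hC.pos
  have hok := (cap_ok hH hC).ok
  have hdp := AT_det_pos (H := H) (β1 := β1) (β2 := β2) hm0 hτ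
  set A := H.AT β1 β2 τ with hA
  have hAt : A.transpose.det ≠ 0 := by rw [Matrix.det_transpose]; exact hdp.ne'
  have hAi : (A.transpose)⁻¹.det ≠ 0 := by
    rw [Matrix.det_nonsing_inv, Ring.inverse_eq_inv']
    exact inv_ne_zero hAt
  rw [U_resc hH.ok.bd hok.bd hm0 hτ (r1_chi0 hc hc1) (vc_capc hτ hC.l1 hC.r1) (vc_capc hτ hC.l2 hC.r2)
    (by rw [capc_resc hτ]; exact vcut_psv.vc) (by rw [capc_resc hτ]; exact vcut_psv.vc) g t y, capc_resc hτ, capc_resc hτ]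
  set t' := τ ^ 2 / H.m β1 β2 * t with ht'
  set x := mat3 A.transpose y + t • !₂[β1 ^ 2 + β2 ^ 2, 2 * τ * β1, 2 * τ * β2] with hx
  set gt : E3 → ℂ := fun x => g (mat3 (A.transpose)⁻¹ x) with hgt
  have hgta : Adm volume gt := adm_mat3 hAi hg
  set M := (H.sub β1 β2 τ).em t' ((H.sub β1 β2 τ).mu (chi0 c) psv psv) with hM
  have hsm : Sm M := sm_em hok (r1_chi0 hc hc1).toRcut vcut_psv.vc vcut_psv.vc t'
  have ht1 : |t'| ≤ |τ ^ 2 * t| := by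
    rw [ht', div_mul_eq_mul_div, abs_div, abs_of_pos hm0]
    exact div_le_self (abs_nonneg _) hm.1
  have hKb : ∀ u : E3, ‖𝓕⁻ M u‖ₑ ≤ ENNReal.ofReal (C1 * (1 + |τ ^ 2 * t|) ^ n * ((1 + ‖u‖) ^ n)⁻¹) := by
    intro u
    apply ennn n
    refine (hk _ hok t' u).trans ?_
    gcongr
  have hKi : kn M ≤ ENNReal.ofReal (C2 * (1 + |τ ^ 2 * t|) ^ 4) := by
    refine (hk2 _ hok t').trans (ENNReal.ofReal_le_ofReal ?_)
    gcongr
  have hKc : Continuous (𝓕⁻ M) := by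
    have h1 := hsm.supp.toSchwartzMap hsm.smooth
    have h2 : 𝓕⁻ M = ((𝓕⁻ (hsm.supp.toSchwartzMap hsm.smooth) : 𝓢(E3, ℂ)) : E3 → ℂ) := by
      rw [SchwartzMap.fourierInv_coe]; rfl
    rw [h2]
    exact SchwartzMap.continuous _
  rw [U_eq]
  have e1 : cv ((𝓕⁻ (hsm.supp.toSchwartzMap hsm.smooth) : 𝓢(E3, ℂ)) : E3 → ℂ) gt = mop M gt := cv_schwartz_eq _ hgta.int
  have hKe : ((𝓕⁻ (hsm.supp.toSchwartzMap hsm.smooth) : 𝓢(E3, ℂ)) : E3 → ℂ) = 𝓕⁻ M := by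
    rw [SchwartzMap.fourierInv_coe]; rfl
  rw [← e1, hKe]
  have e2 : ∀ y' : E3, x - mat3 A.transpose y' = Pb β1 β2 τ (H.zt t y - H.pt y') := fun y' => AT_Pb H β1 β2 τ t y y'
  have e3 : ∀ Φ : E3 → ℝ≥0∞, ∫⁻ x', Φ x' = ENNReal.ofReal A.det * ∫⁻ y', Φ (mat3 A.transpose y') := by
    intro Φ
    rw [lintegral_mat3 hAt Φ, Matrix.det_transpose, ← mul_assoc, ← ENNReal.ofReal_mul hdp.le, abs_of_pos (inv_pos.2 hdp),
      mul_inv_cancel₀ hdp.ne', ENNReal.ofReal_one, one_mul]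
  have hdet : A.det ≤ 2 * τ ^ 2 := by
    rw [hA, AT_det]; nlinarith [sq_nonneg τ, hm.2]
  unfold cv
  have hmeas1 : Measurable (fun x' : E3 => ‖𝓕⁻ M (x - x')‖ₑ) := (hKc.comp (by fun_prop)).measurable.enorm
  calc ‖∫ x', 𝓕⁻ M (x - x') * gt x'‖ₑ ^ 2 ≤ (∫⁻ x', ‖𝓕⁻ M (x - x')‖ₑ * ‖gt x'‖ₑ) ^ 2 := by
        gcongr
        refine (enorm_integral_le_lintegral_enorm _).trans (le_of_eq ?_)
        simp_rw [enorm_mul]
    _ ≤ (∫⁻ x', ‖𝓕⁻ M (x - x')‖ₑ) * ∫⁻ x', ‖𝓕⁻ M (x - x')‖ₑ * ‖gt x'‖ₑ ^ 2 :=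
        cs_w hmeas1.aemeasurable hgta.meas.enorm.aemeasurable
    _ = kn M * ∫⁻ x', ‖𝓕⁻ M (x - x')‖ₑ * ‖gt x'‖ₑ ^ 2 := by
        congr 1
        exact lintegral_sub_left_eq_self (fun y => ‖𝓕⁻ M y‖ₑ) x
    _ ≤ ENNReal.ofReal (C2 * (1 + |τ ^ 2 * t|) ^ 4) * (ENNReal.ofReal (2 * τ ^ 2) *
          ∫⁻ y', ENNReal.ofReal (C1 * (1 + |τ ^ 2 * t|) ^ n * ((1 + ‖Pb β1 β2 τ (H.zt t y - H.pt y')‖) ^ n)⁻¹) * ‖g y'‖ₑ ^ 2) := by
        gcongr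
        rw [e3]
        refine mul_le_mul' (ENNReal.ofReal_le_ofReal hdet) (lintegral_mono fun y' => ?_)
        rw [e2 y']
        simp only [hgt]
        rw [mat3_inv_left hAt]
        exact mul_le_mul' (hKb _) le_rfl
    _ = _ := by
        rw [← lintegral_const_mul' _ _ ENNReal.ofReal_ne_top, ← lintegral_const_mul' _ _ ENNReal.ofReal_ne_top,
          ← lintegral_const_mul' _ _ ENNReal.ofReal_ne_top]
        refine lintegral_congr fun y' => ?_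
        rw [← mul_assoc, ← mul_assoc, ← mul_assoc, ← ENNReal.ofReal_mul (by positivity), ← ENNReal.ofReal_mul (by positivity),
          ← ENNReal.ofReal_mul (by positivity)]
        congr 2
        rw [pow_add]
        ring

end Vale.Agent.P106.G
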