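import Vale.Agent.P106.G.KinB

/-! # Amplitudes of the cap pieces -/

open MeasureTheory Complex Set Filter
open scoped ENNReal NNReal ContDiff FourierTransform Topology SchwartzMap

set_option linter.all false

namespace Vale.Agent.P106.G

open Vale.Agent.P117 (Adm contDiff_st cv cv_schwartz_eq)
open Tri (ec norm_ec enorm_ec ec_add ec_zero continuous_ec)

/-- sheared cone point over the data frequency `ξ` -/
noncomputable def Ga (H : Hyp) (b1 b2 : ℝ) (ξ : E3) : E4 :=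
  !₂[H.Om ξ 0, H.Om ξ 1 - b1 * H.Om ξ 0, H.Om ξ 2 - b2 * H.Om ξ 0,
    H.om ξ - 2 * (b1 * H.Om ξ 1 + b2 * H.Om ξ 2) + (b1 ^ 2 + b2 ^ 2) * H.Om ξ 0]

section
variable (H : Hyp) (b1 b2 : ℝ) (ξ : E3)
theorem Ga0 : Ga H b1 b2 ξ 0 = H.Om ξ 0 := rfl
theorem Ga1 : Ga H b1 b2 ξ 1 = H.Om ξ 1 - b1 * H.Om ξ 0 := rfl
theorem Ga2 : Ga H b1 b2 ξ 2 = H.Om ξ 2 - b2 * H.Om ξ 0 := rfl
theorem Ga3 : Ga H b1 b2 ξ 3 = H.om ξ - 2 * (b1 * H.Om ξ 1 + b2 * H.Om ξ 2) + (b1 ^ 2 + b2 ^ 2) * H.Om ξ 0 := rfl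
theorem Om0 : H.Om ξ 0 = ξ 0 + H.s * H.om ξ := rfl
theorem Om1 : H.Om ξ 1 = ξ 1 + H.q1 * H.om ξ := rfl
theorem Om2 : H.Om ξ 2 = ξ 2 + H.q2 * H.om ξ := rfl
end

theorem inner_Ga (H : Hyp) (b1 b2 : ℝ) (ξ : E3) (z : E4) :
    inner ℝ (Ga H b1 b2 ξ) (shT b1 b2 z) = inner ℝ ξ (sp3 z) + H.tm z * H.om ξ := by
  rw [inner4, inner3, Ga0, Ga1, Ga2, Ga3, shT0, shT1, shT2, shT3, Om0, Om1, Om2]
  unfold Hyp.tm sp3
  simp only [PiLp.toLp_apply, Matrix.cons_val_zero, Matrix.cons_val_one, Matrix.cons_val]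
  ring

theorem measurable_Ga (H : Hyp) (b1 b2 : ℝ) : Measurable (Ga H b1 b2) := by
  have hom := measurable_om H
  have h0 : Measurable (fun ξ => H.Om ξ 0) := by simp only [Om0]; fun_prop
  have h1 : Measurable (fun ξ => H.Om ξ 1) := by simp only [Om1]; fun_prop
  have h2 : Measurable (fun ξ => H.Om ξ 2) := by simp only [Om2]; fun_prop
  have h : Measurable (fun ξ => (MeasurableEquiv.toLp 2 (Fin 4 → ℝ)).symm (Ga H b1 b2 ξ)) := by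
    apply measurable_pi_lambda
    intro i
    fin_cases i
    · exact h0
    · exact h1.sub (h0.const_mul b1)
    · exact h2.sub (h0.const_mul b2)
    · exact (hom.sub (((h1.const_mul b1).add (h2.const_mul b2)).const_mul 2)).add (h0.const_mul _)
  have h3 := (MeasurableEquiv.toLp 2 (Fin 4 → ℝ)).measurable.comp h
  simpa [Function.comp_def] using h3

/-- the data frequency is controlled by the cone point -/
theorem Ga_inj {H : Hyp} (hb : H.Bd) {b1 b2 : ℝ} (h1 : |b1| ≤ 1/8) (h2 : |b2| ≤ 1/8) (ξ ξ' : E3) :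
    ‖ξ - ξ'‖ ≤ 6 * ‖Ga H b1 b2 ξ - Ga H b1 b2 ξ'‖ := by
  set D := Ga H b1 b2 ξ - Ga H b1 b2 ξ' with hD
  have d0 : D 0 = H.Om ξ 0 - H.Om ξ' 0 := by rw [hD, PiLp.sub_apply, Ga0, Ga0]
  have d1 : D 1 + b1 * D 0 = H.Om ξ 1 - H.Om ξ' 1 := by rw [d0, hD, PiLp.sub_apply, Ga1, Ga1]; ring
  have d2 : D 2 + b2 * D 0 = H.Om ξ 2 - H.Om ξ' 2 := by rw [d0, hD, PiLp.sub_apply, Ga2, Ga2]; ring
  have d3 : D 3 + 2 * (b1 * (D 1 + b1 * D 0) + b2 * (D 2 + b2 * D 0)) - (b1 ^ 2 + b2 ^ 2) * D 0 = H.om ξ - H.om ξ' := by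
    rw [d1, d2, d0, hD, PiLp.sub_apply, Ga3, Ga3]; ring
  have n0 := abs_coord_le D 0
  have n1 := abs_coord_le D 1
  have n2 := abs_coord_le D 2
  have n3 := abs_coord_le D 3
  have hn := norm_nonneg D
  obtain ⟨s0, s1, q1, q2, D0, D1⟩ := hb
  have a0 := abs_nonneg (D 0)
  have m1 : |b1 * D 0| ≤ 1/8 * ‖D‖ := by rw [abs_mul]; exact mul_le_mul h1 n0 a0 (by norm_num)
  have m2 : |b2 * D 0| ≤ 1/8 * ‖D‖ := by rw [abs_mul]; exact mul_le_mul h2 n0 a0 (by norm_num)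
  have e1 : |D 1 + b1 * D 0| ≤ 9/8 * ‖D‖ := (abs_add_le _ _).trans (by linarith)
  have e2 : |D 2 + b2 * D 0| ≤ 9/8 * ‖D‖ := (abs_add_le _ _).trans (by linarith)
  have f1 : |b1 * (D 1 + b1 * D 0)| ≤ 1/8 * (9/8 * ‖D‖) := by rw [abs_mul]; exact mul_le_mul h1 e1 (abs_nonneg _) (by norm_num)
  have f2 : |b2 * (D 2 + b2 * D 0)| ≤ 1/8 * (9/8 * ‖D‖) := by rw [abs_mul]; exact mul_le_mul h2 e2 (abs_nonneg _) (by norm_num)
  have g1 : b1 ^ 2 ≤ 1/64 := by rw [← sq_abs]; nlinarith [abs_nonneg b1]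
  have g2 : b2 ^ 2 ≤ 1/64 := by rw [← sq_abs]; nlinarith [abs_nonneg b2]
  have f3 : |(b1 ^ 2 + b2 ^ 2) * D 0| ≤ 1/32 * ‖D‖ := by
    rw [abs_mul, abs_of_nonneg (by positivity)]; exact mul_le_mul (by linarith) n0 a0 (by norm_num)
  have e3 : |H.om ξ - H.om ξ'| ≤ 2 * ‖D‖ := by
    rw [← d3]
    have t1 := abs_le.1 n3
    have t2 := abs_le.1 f1
    have t3 := abs_le.1 f2
    have t4 := abs_le.1 f3
    rw [abs_le]
    constructor <;> linarith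
  have hom0 := abs_nonneg (H.om ξ - H.om ξ')
  have x0 : |(ξ - ξ') 0| ≤ 3/2 * ‖D‖ := by
    have e : (ξ - ξ') 0 = D 0 - H.s * (H.om ξ - H.om ξ') := by rw [d0, PiLp.sub_apply, Om0, Om0]; ring
    rw [e]
    have : |H.s * (H.om ξ - H.om ξ')| ≤ 1/64 * (2 * ‖D‖) := by
      rw [abs_mul, abs_of_pos s0]; exact mul_le_mul s1 e3 hom0 (by norm_num)
    exact (abs_sub _ _).trans (by linarith)
  have x1 : |(ξ - ξ') 1| ≤ 3/2 * ‖D‖ := by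
    have e : (ξ - ξ') 1 = (D 1 + b1 * D 0) - H.q1 * (H.om ξ - H.om ξ') := by rw [d1, PiLp.sub_apply, Om1, Om1]; ring
    rw [e]
    have : |H.q1 * (H.om ξ - H.om ξ')| ≤ 1/16 * (2 * ‖D‖) := by
      rw [abs_mul]; exact mul_le_mul q1 e3 hom0 (by norm_num)
    exact (abs_sub _ _).trans (by linarith)
  have x2 : |(ξ - ξ') 2| ≤ 3/2 * ‖D‖ := by
    have e : (ξ - ξ') 2 = (D 2 + b2 * D 0) - H.q2 * (H.om ξ - H.om ξ') := by rw [d2, PiLp.sub_apply, Om2, Om2]; ring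
    rw [e]
    have : |H.q2 * (H.om ξ - H.om ξ')| ≤ 1/16 * (2 * ‖D‖) := by
      rw [abs_mul]; exact mul_le_mul q2 e3 hom0 (by norm_num)
    exact (abs_sub _ _).trans (by linarith)
  exact (norm3_le1 _).trans (by linarith)

/-- amplitude of a piece -/
noncomputable def aP (H : Hyp) (b1 b2 κ : ℝ) (f : E3 → ℂ) (ζ : E4) : ℂ := ∫ ξ : E3, 2 * Kk κ (ζ - Ga H b1 b2 ξ) * f ξ

theorem aP_cont (H : Hyp) (b1 b2 κ : ℝ) {f : E3 → ℂ} (hf : Integrable f) : Continuous (aP H b1 b2 κ f) := by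
  obtain ⟨C, hC⟩ := Kk_bdd κ
  unfold aP
  have hg := measurable_Ga H b1 b2
  apply continuous_of_dominated (bound := fun ξ => 2 * C * ‖f ξ‖)
  · intro ζ
    have h1 : Measurable (fun ξ : E3 => 2 * Kk κ (ζ - Ga H b1 b2 ξ)) :=
      ((continuous_Kk κ).measurable.comp (measurable_const.sub hg)).const_mul 2
    exact h1.aestronglyMeasurable.mul hf.1
  · intro ζ
    filter_upwards with ξ
    rw [norm_mul, norm_mul]
    have := hC (ζ - Ga H b1 b2 ξ)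
    simp only [Complex.norm_ofNat]
    gcongr
  · exact hf.norm.const_mul _
  · filter_upwards with ξ
    exact (continuous_const.mul ((continuous_Kk κ).comp (by fun_prop))).mul continuous_const

theorem aP_supp {H : Hyp} {b1 b2 κ : ℝ} (hκ : 0 < κ) {f : E3 → ℂ} {ζ : E4} (h : aP H b1 b2 κ f ζ ≠ 0) :
    ∃ ξ, f ξ ≠ 0 ∧ ‖ζ - Ga H b1 b2 ξ‖ ≤ κ := by
  by_contra hcon
  push Not at hcon
  apply h
  unfold aP
  rw [integral_eq_zero_of_ae]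
  filter_upwards with ξ
  by_cases hξ : f ξ = 0
  · simp [hξ]
  · have h3 := hcon ξ hξ
    have h2 : Kk κ (ζ - Ga H b1 b2 ξ) = 0 := by
      by_contra h4
      exact absurd (Kk_supp hκ h4) (not_le.2 h3)
    simp [h2]

theorem prod_int (H : Hyp) (b1 b2 : ℝ) {κ : ℝ} (hκ : 0 < κ) {f : E3 → ℂ} (hf : Integrable f) (w : E4) :
    Integrable (fun q : E4 × E3 => ec (inner ℝ q.1 w) * (2 * Kk κ (q.1 - Ga H b1 b2 q.2) * f q.2)) ((volume : Measure E4).prod volume) := by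
  have hg := measurable_Ga H b1 b2
  have hm : AEStronglyMeasurable (fun q : E4 × E3 => ec (inner ℝ q.1 w) * (2 * Kk κ (q.1 - Ga H b1 b2 q.2) * f q.2))
      ((volume : Measure E4).prod volume) := by
    have h1 : Measurable (fun q : E4 × E3 => 2 * Kk κ (q.1 - Ga H b1 b2 q.2)) :=
      ((continuous_Kk κ).measurable.comp (measurable_fst.sub (hg.comp measurable_snd))).const_mul 2
    have h2 : AEStronglyMeasurable (fun q : E4 × E3 => f q.2) ((volume : Measure E4).prod volume) := hf.1.comp_snd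
    have h3 : Continuous (fun q : E4 × E3 => ec (inner ℝ q.1 w)) := continuous_ec.comp (by fun_prop)
    exact h3.aestronglyMeasurable.mul (h1.aestronglyMeasurable.mul h2)
  rw [integrable_prod_iff' hm]
  have hK := integrable_Kk hκ
  constructor
  · filter_upwards with ξ
    have h1 : Integrable (fun ζ : E4 => 2 * Kk κ (ζ - Ga H b1 b2 ξ) * f ξ) :=
      ((hK.comp_sub_right (Ga H b1 b2 ξ)).const_mul 2).mul_const _
    apply h1.bdd_mul (c := 1)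
    · exact (continuous_ec.comp (by fun_prop)).aestronglyMeasurable
    · exact Eventually.of_forall fun ζ => (norm_ec _).le
  · have e : ∀ ξ : E3, ∫ ζ : E4, ‖ec (inner ℝ ζ w) * (2 * Kk κ (ζ - Ga H b1 b2 ξ) * f ξ)‖ = (2 * ∫ ζ, ‖Kk κ ζ‖) * ‖f ξ‖ := by
      intro ξ
      simp_rw [norm_mul, norm_ec, one_mul]
      rw [integral_mul_const, integral_const_mul]
      congr 2
      · simp
      · exact integral_sub_right_eq_self (fun ζ => ‖Kk κ ζ‖) (Ga H b1 b2 ξ)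
    simp_rw [e]
    exact hf.norm.const_mul _

theorem aP_integrable (H : Hyp) (b1 b2 : ℝ) {κ : ℝ} (hκ : 0 < κ) {f : E3 → ℂ} (hf : Integrable f) :
    Integrable (aP H b1 b2 κ f) := by
  have h := (prod_int H b1 b2 hκ hf 0).integral_prod_left
  refine h.congr ?_
  filter_upwards with ζ
  unfold aP
  simp only [inner_zero_right, ec_zero, one_mul]

/-- Fourier inversion of the amplitude -/
theorem inv_aP (H : Hyp) (b1 b2 : ℝ) {κ : ℝ} (hκ : 0 < κ) {M g : E3 → ℂ} (hM : Integrable M) (hg : Integrable g) (z : E4) :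
    𝓕⁻ (aP H b1 b2 κ (fun ξ => M ξ * 𝓕 g ξ)) (shT b1 b2 z) = 2 * Psi (κ • shT b1 b2 z) * H.U M g (H.tm z) (sp3 z) := by
  have hf := mint hM hg
  set f : E3 → ℂ := fun ξ => M ξ * 𝓕 g ξ with hfd
  set w := shT b1 b2 z with hw
  rw [inv_eq]
  have h1 : ∀ ζ : E4, ec (inner ℝ ζ w) * aP H b1 b2 κ f ζ = ∫ ξ : E3, ec (inner ℝ ζ w) * (2 * Kk κ (ζ - Ga H b1 b2 ξ) * f ξ) := by
    intro ζ
    unfold aP
    rw [integral_const_mul]
  simp_rw [h1]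
  rw [integral_integral_swap (prod_int H b1 b2 hκ hf w)]
  have h2 : ∀ ξ : E3, ∫ ζ : E4, ec (inner ℝ ζ w) * (2 * Kk κ (ζ - Ga H b1 b2 ξ) * f ξ) =
      2 * Psi (κ • w) * (ec (inner ℝ (Ga H b1 b2 ξ) w) * f ξ) := by
    intro ξ
    have h3 : ∫ ζ : E4, ec (inner ℝ ζ w) * (2 * Kk κ (ζ - Ga H b1 b2 ξ) * f ξ) =
        ∫ ζ : E4, ec (inner ℝ (ζ + Ga H b1 b2 ξ) w) * (2 * Kk κ ζ * f ξ) := by
      rw [← integral_add_right_eq_self (fun ζ : E4 => ec (inner ℝ ζ w) * (2 * Kk κ (ζ - Ga H b1 b2 ξ) * f ξ)) (Ga H b1 b2 ξ)]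
      simp only [add_sub_cancel_right]
    rw [h3]
    have h4 : ∀ ζ : E4, ec (inner ℝ (ζ + Ga H b1 b2 ξ) w) * (2 * Kk κ ζ * f ξ) =
        (2 * (ec (inner ℝ (Ga H b1 b2 ξ) w) * f ξ)) * (ec (inner ℝ ζ w) * Kk κ ζ) := by
      intro ζ
      rw [inner_add_left, ec_add]; ring
    simp_rw [h4]
    rw [integral_const_mul, ← inv_eq, inv_Kk hκ]
    ring
  simp_rw [h2]
  rw [integral_const_mul]
  congr 1
  unfold Hyp.U
  rw [Real.fourierInv_eq']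
  congr 1
  ext ξ
  rw [hw, inner_Ga, ec_add, smul_eq_mul, mul_assoc]
  have e1 : ec (H.tm z * H.om ξ) = cexp (2 * Real.pi * I * (H.tm z * H.om ξ : ℝ)) := by
    unfold ec; congr 1; push_cast; ring
  rw [e1]
  rfl

/-- uniform constants of the bump -/
theorem Kk_const : ∃ C : ℝ, 0 ≤ C ∧ ∀ κ : ℝ, 0 < κ → (∫⁻ η, ‖Kk κ η‖ₑ ≤ ENNReal.ofReal C) ∧
    ∀ η, ‖Kk κ η‖ₑ ≤ ENNReal.ofReal (C * (κ ^ 4)⁻¹) := by
  obtain ⟨C0, hC0⟩ := KS.decay 0 0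
  have hi : ∫⁻ η : E4, ‖KS η‖ₑ ≠ ⊤ := KS.integrable.2.ne
  have hC00 : 0 ≤ C0 := hC0.1.le
  refine ⟨C0 + (∫⁻ η : E4, ‖KS η‖ₑ).toReal, add_nonneg hC00 ENNReal.toReal_nonneg, ?_⟩
  intro κ hκ
  have e0 : ‖(((κ ^ 4)⁻¹ : ℝ) : ℂ)‖ₑ = ENNReal.ofReal ((κ ^ 4)⁻¹) := by
    rw [← ofReal_norm, Complex.norm_real, Real.norm_of_nonneg (by positivity)]
  constructor
  · unfold Kk
    simp_rw [enorm_mul]
    rw [lintegral_const_mul' _ _ (by simp), lintegral_smul4 (inv_pos.2 hκ) (fun x => ‖KS x‖ₑ), e0, ← mul_assoc,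
      ← ENNReal.ofReal_mul (by positivity)]
    have : (κ ^ 4)⁻¹ * (κ⁻¹ ^ 4)⁻¹ = 1 := by field_simp
    rw [this, ENNReal.ofReal_one, one_mul]
    rw [ENNReal.ofReal_add hC00 ENNReal.toReal_nonneg, ENNReal.ofReal_toReal hi]
    exact le_add_self
  · intro η
    unfold Kk
    rw [enorm_mul, e0, mul_comm, ENNReal.ofReal_mul (add_nonneg hC00 ENNReal.toReal_nonneg)]
    gcongr
    rw [← ofReal_norm]
    apply ENNReal.ofReal_le_ofReal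
    have h := hC0.2 (κ⁻¹ • η)
    rw [pow_zero, one_mul, norm_iteratedFDeriv_zero] at h
    have := ENNReal.toReal_nonneg (a := ∫⁻ η : E4, ‖KS η‖ₑ)
    linarith

theorem measurable_KGa (H : Hyp) (b1 b2 κ : ℝ) : Measurable (fun q : E4 × E3 => ‖Kk κ (q.1 - Ga H b1 b2 q.2)‖ₑ) :=
  ((continuous_Kk κ).measurable.comp (measurable_fst.sub ((measurable_Ga H b1 b2).comp measurable_snd))).enorm

theorem measurable_KGa' (H : Hyp) (b1 b2 κ : ℝ) (ζ : E4) : Measurable (fun ξ : E3 => ‖Kk κ (ζ - Ga H b1 b2 ξ)‖ₑ) :=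
  ((continuous_Kk κ).measurable.comp (measurable_const.sub (measurable_Ga H b1 b2))).enorm

theorem sup_KGa : ∃ C : ℝ, 0 ≤ C ∧ ∀ (H : Hyp) (b1 b2 κ : ℝ) (ζ : E4), H.Bd → |b1| ≤ 1/8 → |b2| ≤ 1/8 → 0 < κ →
    ∫⁻ ξ, ‖Kk κ (ζ - Ga H b1 b2 ξ)‖ₑ ≤ ENNReal.ofReal (C * κ⁻¹) := by
  obtain ⟨C0, hC0, hK⟩ := Kk_const
  have hv : volume (Metric.ball (0:E3) 1) ≠ ⊤ := measure_ball_lt_top.ne
  set v := (volume (Metric.ball (0:E3) 1)).toReal with hvd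
  have hv0 : 0 ≤ v := ENNReal.toReal_nonneg
  refine ⟨C0 * (12 ^ 3 * v), by positivity, ?_⟩
  intro H b1 b2 κ ζ hb h1 h2 hκ
  obtain ⟨k1, k2⟩ := hK κ hκ
  by_cases hex : ∃ ξ0, ‖ζ - Ga H b1 b2 ξ0‖ ≤ κ
  · obtain ⟨ξ0, hξ0⟩ := hex
    calc ∫⁻ ξ, ‖Kk κ (ζ - Ga H b1 b2 ξ)‖ₑ ≤
        ∫⁻ ξ, (Metric.closedBall ξ0 (12 * κ)).indicator (fun _ => ENNReal.ofReal (C0 * (κ ^ 4)⁻¹)) ξ := by
          refine lintegral_mono fun ξ => ?_
          by_cases hξ : Kk κ (ζ - Ga H b1 b2 ξ) = 0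
          · rw [hξ]; simp
          · have h3 := Kk_supp hκ hξ
            have hmem : ξ ∈ Metric.closedBall ξ0 (12 * κ) := by
              rw [Metric.mem_closedBall, dist_eq_norm]
              refine (Ga_inj hb h1 h2 ξ ξ0).trans ?_
              have : Ga H b1 b2 ξ - Ga H b1 b2 ξ0 = (ζ - Ga H b1 b2 ξ0) - (ζ - Ga H b1 b2 ξ) := by abel
              rw [this]
              have := norm_sub_le (ζ - Ga H b1 b2 ξ0) (ζ - Ga H b1 b2 ξ)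
              linarith
            rw [indicator_of_mem hmem]
            exact k2 _
      _ = ENNReal.ofReal (C0 * (κ ^ 4)⁻¹) * volume (Metric.closedBall ξ0 (12 * κ)) := by
          rw [lintegral_indicator Metric.isClosed_closedBall.measurableSet, setLIntegral_const]
      _ = ENNReal.ofReal (C0 * (κ ^ 4)⁻¹) * (ENNReal.ofReal ((12 * κ) ^ 3) * ENNReal.ofReal v) := by
          rw [Measure.addHaar_closedBall _ _ (by positivity), finrank_euclideanSpace_fin, hvd, ENNReal.ofReal_toReal hv]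
      _ ≤ _ := by
          rw [← ENNReal.ofReal_mul (by positivity), ← ENNReal.ofReal_mul (by positivity)]
          apply ENNReal.ofReal_le_ofReal
          apply le_of_eq
          field_simp
  · push Not at hex
    have : ∀ ξ, ‖Kk κ (ζ - Ga H b1 b2 ξ)‖ₑ = 0 := by
      intro ξ
      have : Kk κ (ζ - Ga H b1 b2 ξ) = 0 := by
        by_contra h4
        exact absurd (Kk_supp hκ h4) (not_le.2 (hex ξ))
      rw [this]; simp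
    simp [this]

theorem aP_pw (H : Hyp) (b1 b2 κ : ℝ) {f : E3 → ℂ} (hfm : Measurable f) (ζ : E4) :
    ‖aP H b1 b2 κ f ζ‖ₑ ^ 2 ≤ 4 * ((∫⁻ ξ, ‖Kk κ (ζ - Ga H b1 b2 ξ)‖ₑ) * ∫⁻ ξ, ‖Kk κ (ζ - Ga H b1 b2 ξ)‖ₑ * ‖f ξ‖ₑ ^ 2) := by
  calc ‖aP H b1 b2 κ f ζ‖ₑ ^ 2 ≤ (∫⁻ ξ, ‖2 * Kk κ (ζ - Ga H b1 b2 ξ) * f ξ‖ₑ) ^ 2 := by
        unfold aP
        gcongr
        exact enorm_integral_le_lintegral_enorm _
    _ = (2 * ∫⁻ ξ, ‖Kk κ (ζ - Ga H b1 b2 ξ)‖ₑ * ‖f ξ‖ₑ) ^ 2 := by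
        congr 1
        rw [← lintegral_const_mul' _ _ (by norm_num)]
        refine lintegral_congr fun ξ => ?_
        rw [enorm_mul, enorm_mul, mul_assoc]
        congr 1
        rw [← ofReal_norm]; simp
    _ = 4 * (∫⁻ ξ, ‖Kk κ (ζ - Ga H b1 b2 ξ)‖ₑ * ‖f ξ‖ₑ) ^ 2 := by rw [mul_pow]; norm_num
    _ ≤ _ := by
        gcongr
        exact cs_w (measurable_KGa' H b1 b2 κ ζ).aemeasurable hfm.enorm.aemeasurable

/-- energy of the amplitude -/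
theorem aP_L2 : ∃ C : ℝ, 0 ≤ C ∧ ∀ (H : Hyp) (b1 b2 κ : ℝ) (f : E3 → ℂ), H.Bd → |b1| ≤ 1/8 → |b2| ≤ 1/8 → 0 < κ →
    Measurable f → ∫⁻ ζ, ‖aP H b1 b2 κ f ζ‖ₑ ^ 2 ≤ ENNReal.ofReal (C * κ⁻¹) * ∫⁻ ξ, ‖f ξ‖ₑ ^ 2 := by
  obtain ⟨C0, hC0, hK⟩ := Kk_const
  obtain ⟨C1, hC1, hS⟩ := sup_KGa
  refine ⟨4 * C1 * C0, by positivity, ?_⟩
  intro H b1 b2 κ f hb h1 h2 hκ hfm
  obtain ⟨k1, k2⟩ := hK κ hκ
  have hin : ∀ ξ : E3, ∫⁻ ζ, ‖Kk κ (ζ - Ga H b1 b2 ξ)‖ₑ ≤ ENNReal.ofReal C0 := by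
    intro ξ
    rw [lintegral_sub_right_eq_self (fun ζ => ‖Kk κ ζ‖ₑ) (Ga H b1 b2 ξ)]
    exact k1
  have hsw : ∫⁻ ζ, ∫⁻ ξ, ‖Kk κ (ζ - Ga H b1 b2 ξ)‖ₑ * ‖f ξ‖ₑ ^ 2 ≤ ENNReal.ofReal C0 * ∫⁻ ξ, ‖f ξ‖ₑ ^ 2 := by
    rw [lintegral_lintegral_swap ((measurable_KGa H b1 b2 κ).mul ((hfm.comp measurable_snd).enorm.pow_const 2)).aemeasurable,
      ← lintegral_const_mul' _ _ ENNReal.ofReal_ne_top]
    refine lintegral_mono fun ξ => ?_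
    rw [lintegral_mul_const' _ _ (by simp)]
    exact mul_le_mul' (hin ξ) le_rfl
  calc ∫⁻ ζ, ‖aP H b1 b2 κ f ζ‖ₑ ^ 2 ≤ ∫⁻ ζ, 4 * (ENNReal.ofReal (C1 * κ⁻¹) *
      ∫⁻ ξ, ‖Kk κ (ζ - Ga H b1 b2 ξ)‖ₑ * ‖f ξ‖ₑ ^ 2) := by
        refine lintegral_mono fun ζ => (aP_pw H b1 b2 κ hfm ζ).trans ?_
        exact mul_le_mul' le_rfl (mul_le_mul' (hS H b1 b2 κ ζ hb h1 h2 hκ) le_rfl)
    _ = 4 * (ENNReal.ofReal (C1 * κ⁻¹) * ∫⁻ ζ, ∫⁻ ξ, ‖Kk κ (ζ - Ga H b1 b2 ξ)‖ₑ * ‖f ξ‖ₑ ^ 2) := by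
        rw [lintegral_const_mul' _ _ (by norm_num), lintegral_const_mul' _ _ ENNReal.ofReal_ne_top]
    _ ≤ 4 * (ENNReal.ofReal (C1 * κ⁻¹) * (ENNReal.ofReal C0 * ∫⁻ ξ, ‖f ξ‖ₑ ^ 2)) := by gcongr
    _ = _ := by
        rw [show (4:ℝ≥0∞) = ENNReal.ofReal 4 by norm_num, ← mul_assoc, ← mul_assoc,
          ← ENNReal.ofReal_mul (by norm_num), ← ENNReal.ofReal_mul (by positivity)]
        congr 2
        ring

end Vale.Agent.P106.G
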