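import Vale.Agent.P106.G.KinC

/-! # Tube averages of the cap pieces -/

open MeasureTheory Complex Set Filter
open scoped ENNReal NNReal ContDiff FourierTransform Topology SchwartzMap

set_option linter.all false

namespace Vale.Agent.P106.G

open Vale.Agent.P117 (Adm contDiff_st cv cv_schwartz_eq)
open Tri (ec norm_ec enorm_ec ec_add ec_zero continuous_ec)

/-- weight of the density -/
noncomputable def wN (M' N : ℕ) (u : E3) : ℝ≥0∞ := ENNReal.ofReal (((N:ℝ) ^ 3)⁻¹ * ((1 + ‖u‖ / N) ^ M')⁻¹)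

/-- density of a piece -/
noncomputable def nu (M' N : ℕ) (g : E3 → ℂ) (y : E3) : ℝ≥0∞ := ∫⁻ y', wN M' N (y - y') * ‖g y'‖ₑ ^ 2

theorem norm3_sq (x : E3) : ‖x‖ ^ 2 = x 0 ^ 2 + x 1 ^ 2 + x 2 ^ 2 := by
  rw [EuclideanSpace.norm_sq_eq]
  simp [Fin.sum_univ_three]

theorem prof_le (x : E3) (s : ℝ) (T : ℝ) (hT : |s| ≤ T) :
    ENNReal.ofReal (((1 + ‖x‖) ^ 6)⁻¹ * ((1 + T) ^ 2)⁻¹) ≤ fj 1 (x 0) * fj 1 (x 1) * fj 1 (x 2) * fj 1 s := by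
  unfold fj
  simp only [div_one]
  rw [← ENNReal.ofReal_mul (by positivity), ← ENNReal.ofReal_mul (by positivity), ← ENNReal.ofReal_mul (by positivity)]
  apply ENNReal.ofReal_le_ofReal
  have h0 := abs_coord3 x 0
  have h1 := abs_coord3 x 1
  have h2 := abs_coord3 x 2
  have hs := abs_nonneg s
  have e : ((1 + |x 0|) ^ 2)⁻¹ * ((1 + |x 1|) ^ 2)⁻¹ * ((1 + |x 2|) ^ 2)⁻¹ * ((1 + |s|) ^ 2)⁻¹ =
      ((1 + |x 0|) ^ 2 * (1 + |x 1|) ^ 2 * (1 + |x 2|) ^ 2 * (1 + |s|) ^ 2)⁻¹ := by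
    simp only [mul_inv]
  rw [e, ← mul_inv]
  apply inv_anti₀ (by positivity)
  calc (1 + |x 0|) ^ 2 * (1 + |x 1|) ^ 2 * (1 + |x 2|) ^ 2 * (1 + |s|) ^ 2 ≤
      (1 + ‖x‖) ^ 2 * (1 + ‖x‖) ^ 2 * (1 + ‖x‖) ^ 2 * (1 + T) ^ 2 := by gcongr
    _ = _ := by ring

/-- the geometric inequality behind the weights -/
theorem peetre_bp {H : Hyp} (hb : H.Bd) {N : ℕ} (hN : 1 ≤ N) {k : ℤ × ℤ} {b1 b2 : ℝ} (hm : 1 ≤ H.m (k.1 / N + b1) (k.2 / N + b2))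
    (h1 : 0 ≤ k.1 / N + b1) (h1' : k.1 / N + b1 ≤ 1) (h2 : 0 ≤ k.2 / N + b2) (h2' : k.2 / N + b2 ≤ 1) (z z1 : E4) (y' : E3) :
    1 + ‖H.bp (k.1 / N + b1) (k.2 / N + b2) z - y'‖ / N ≤
      9 * ((1 + ‖Pb (k.1 / N + b1) (k.2 / N + b2) (1 / N) (z1 - H.pt y')‖) * (1 + ‖TT N k (shT b1 b2 (z - z1))‖)) := by
  have hN0 : (0:ℝ) < N := by exact_mod_cast hN
  have hN1 : (1:ℝ) ≤ N := by exact_mod_cast hN
  set β1 := k.1 / N + b1 with hβ1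
  set β2 := k.2 / N + b2 with hβ2
  have e : H.bp β1 β2 z - y' = H.bp β1 β2 (z - z1) + H.bp β1 β2 (z1 - H.pt y') := by
    rw [bp_sub, bp_sub, bp_pt]; abel
  have g1 := bp_le hb hm h1 h1' h2 h2' (τ := 1 / N) (by positivity) (z - z1)
  have g2 := bp_le hb hm h1 h1' h2 h2' (τ := 1 / N) (by positivity) (z1 - H.pt y')
  have t0 : TT N k (shT b1 b2 (z - z1)) 0 = Pb β1 β2 (1 / N) (z - z1) 0 / N := by rw [TT0, LT_shT]; rfl
  have t1 : TT N k (shT b1 b2 (z - z1)) 1 = Pb β1 β2 (1 / N) (z - z1) 1 := by rw [TT1, LT_shT]; rfl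
  have t2 : TT N k (shT b1 b2 (z - z1)) 2 = Pb β1 β2 (1 / N) (z - z1) 2 := by rw [TT2, LT_shT]; rfl
  set T := ‖TT N k (shT b1 b2 (z - z1))‖ with hT
  set P := ‖Pb β1 β2 (1 / N) (z1 - H.pt y')‖ with hP
  have n0 : |Pb β1 β2 (1 / N) (z - z1) 0| ≤ N * T := by
    have := abs_coord_le (TT N k (shT b1 b2 (z - z1))) 0
    rw [t0, abs_div, abs_of_pos hN0, div_le_iff₀ hN0] at this
    linarith
  have n1 : |Pb β1 β2 (1 / N) (z - z1) 1| ≤ T := by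
    have := abs_coord_le (TT N k (shT b1 b2 (z - z1))) 1
    rwa [t1] at this
  have n2 : |Pb β1 β2 (1 / N) (z - z1) 2| ≤ T := by
    have := abs_coord_le (TT N k (shT b1 b2 (z - z1))) 2
    rwa [t2] at this
  have p0 := abs_coord3 (Pb β1 β2 (1 / N) (z1 - H.pt y')) 0
  have p1 := abs_coord3 (Pb β1 β2 (1 / N) (z1 - H.pt y')) 1
  have p2 := abs_coord3 (Pb β1 β2 (1 / N) (z1 - H.pt y')) 2
  have hinv : ((1:ℝ) / N)⁻¹ = N := by field_simp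
  rw [hinv] at g1 g2
  have hT0 : 0 ≤ T := norm_nonneg _
  have hP0 : 0 ≤ P := norm_nonneg _
  have f1 : ‖H.bp β1 β2 (z - z1)‖ ≤ 9 * (N * T) := by
    refine g1.trans ?_
    have : N * (|Pb β1 β2 (1 / N) (z - z1) 1| + |Pb β1 β2 (1 / N) (z - z1) 2|) ≤ N * (T + T) := by gcongr
    linarith
  have f2 : ‖H.bp β1 β2 (z1 - H.pt y')‖ ≤ 9 * (N * P) := by
    refine g2.trans ?_
    have a1 : N * (|Pb β1 β2 (1 / N) (z1 - H.pt y') 1| + |Pb β1 β2 (1 / N) (z1 - H.pt y') 2|) ≤ N * (P + P) := by gcongr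
    have a2 : |Pb β1 β2 (1 / N) (z1 - H.pt y') 0| ≤ N * P := p0.trans (by nlinarith)
    linarith
  have f3 : ‖H.bp β1 β2 z - y'‖ / N ≤ 9 * T + 9 * P := by
    rw [div_le_iff₀ hN0, e]
    refine (norm_add_le _ _).trans ?_
    linarith
  nlinarith [mul_nonneg hT0 hP0]

/-- inner integral -/
theorem inner_I (M' : ℕ) : ∃ C : ℝ, 0 ≤ C ∧ ∀ (H : Hyp) (N M : ℕ) (k : ℤ × ℤ) (b1 b2 : ℝ) (z : E4) (y' : E3), H.Bd → 1 ≤ N → M' + 2 ≤ M →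
    1 ≤ H.m (k.1 / N + b1) (k.2 / N + b2) → 0 ≤ k.1 / N + b1 → k.1 / N + b1 ≤ 1 → 0 ≤ k.2 / N + b2 → k.2 / N + b2 ≤ 1 →
    ∫⁻ z1 : E4, ENNReal.ofReal (((1 + ‖Pb (k.1 / N + b1) (k.2 / N + b2) (1 / N) (z1 - H.pt y')‖) ^ (M' + 6))⁻¹) *
      Phk M N k (shT b1 b2 (z - z1)) ≤
    ENNReal.ofReal (C * (N:ℝ)⁻¹ * ((1 + ‖H.bp (k.1 / N + b1) (k.2 / N + b2) z - y'‖ / N) ^ M')⁻¹) := by
  set c := (∫⁻ s, fj 1 s).toReal with hc
  have hcf : ∫⁻ s, fj 1 s = ENNReal.ofReal c := (ENNReal.ofReal_toReal (lint_fj le_rfl)).symm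
  have hc0 : 0 ≤ c := ENNReal.toReal_nonneg
  refine ⟨9 ^ M' * (c * c * c * c), by positivity, ?_⟩
  intro H N M k b1 b2 z y' hb hN hM hm h1 h1' h2 h2'
  have hN0 : (0:ℝ) < N := by exact_mod_cast hN
  set β1 := k.1 / N + b1 with hβ1
  set β2 := k.2 / N + b2 with hβ2
  set A := 1 + ‖H.bp β1 β2 z - y'‖ / N with hA
  have hA1 : 1 ≤ A := by rw [hA]; have := norm_nonneg (H.bp β1 β2 z - y'); have : 0 ≤ ‖H.bp β1 β2 z - y'‖ / N := by positivity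
                         linarith
  have hpw : ∀ z1 : E4, ENNReal.ofReal (((1 + ‖Pb β1 β2 (1 / N) (z1 - H.pt y')‖) ^ (M' + 6))⁻¹) * Phk M N k (shT b1 b2 (z - z1)) ≤
      ENNReal.ofReal (9 ^ M' * ((N:ℝ) ^ 5)⁻¹ * (A ^ M')⁻¹) *
        (fj 1 (LT N k (shT b1 b2 z1) 0 - LT N k (shT b1 b2 (H.pt y')) 0) * fj 1 (LT N k (shT b1 b2 z1) 1 - LT N k (shT b1 b2 (H.pt y')) 1) *
         fj 1 (LT N k (shT b1 b2 z1) 2 - LT N k (shT b1 b2 (H.pt y')) 2) * fj 1 (LT N k (shT b1 b2 z1) 3 - LT N k (shT b1 b2 z) 3)) := by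
    intro z1
    have hpe := peetre_bp hb hN hm h1 h1' h2 h2' z z1 y'
    rw [← hβ1, ← hβ2, ← hA] at hpe
    set P := ‖Pb β1 β2 (1 / N) (z1 - H.pt y')‖ with hP
    set T := ‖TT N k (shT b1 b2 (z - z1))‖ with hT
    have hP0 : 0 ≤ P := norm_nonneg _
    have hT0 : 0 ≤ T := norm_nonneg _
    have e0 : LT N k (shT b1 b2 z1) - LT N k (shT b1 b2 (H.pt y')) = LT N k (shT b1 b2 (z1 - H.pt y')) := by rw [shT_sub, LT_sub]
    have e1 : LT N k (shT b1 b2 z1) 0 - LT N k (shT b1 b2 (H.pt y')) 0 = Pb β1 β2 (1 / N) (z1 - H.pt y') 0 := by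
      rw [← PiLp.sub_apply, e0, LT_shT]; rfl
    have e2 : LT N k (shT b1 b2 z1) 1 - LT N k (shT b1 b2 (H.pt y')) 1 = Pb β1 β2 (1 / N) (z1 - H.pt y') 1 := by
      rw [← PiLp.sub_apply, e0, LT_shT]; rfl
    have e3 : LT N k (shT b1 b2 z1) 2 - LT N k (shT b1 b2 (H.pt y')) 2 = Pb β1 β2 (1 / N) (z1 - H.pt y') 2 := by
      rw [← PiLp.sub_apply, e0, LT_shT]; rfl
    have e4 : |LT N k (shT b1 b2 z1) 3 - LT N k (shT b1 b2 z) 3| ≤ T := by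
      have e5 : TT N k (shT b1 b2 (z - z1)) 3 = LT N k (shT b1 b2 z) 3 - LT N k (shT b1 b2 z1) 3 := by
        rw [TT3, shT_sub, LT_sub, PiLp.sub_apply]
      have := abs_coord_le (TT N k (shT b1 b2 (z - z1))) 3
      rw [e5, abs_sub_comm] at this
      exact this
    rw [e1, e2, e3]
    refine le_trans ?_ (mul_le_mul' le_rfl (prof_le _ _ T e4))
    unfold Phk
    rw [← ENNReal.ofReal_mul (by positivity), ← ENNReal.ofReal_mul (by positivity)]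
    apply ENNReal.ofReal_le_ofReal
    rw [← hP, ← hT]
    have k1 : A ^ M' ≤ 9 ^ M' * ((1 + P) ^ M' * (1 + T) ^ M') := by
      calc A ^ M' ≤ (9 * ((1 + P) * (1 + T))) ^ M' := pow_le_pow_left₀ (by linarith) hpe _
        _ = _ := by rw [mul_pow, mul_pow]
    have k2 : (1 + T) ^ (M' + 2) ≤ (1 + T) ^ M := pow_le_pow_right₀ (by linarith) hM
    have hAp : 0 < A ^ M' := by positivity
    have k3 : ((1 + T) ^ M)⁻¹ ≤ ((1 + T) ^ (M' + 2))⁻¹ := inv_anti₀ (by positivity) k2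
    calc ((1 + P) ^ (M' + 6))⁻¹ * (((N:ℝ) ^ 5)⁻¹ * ((1 + T) ^ M)⁻¹) ≤
        ((1 + P) ^ (M' + 6))⁻¹ * (((N:ℝ) ^ 5)⁻¹ * ((1 + T) ^ (M' + 2))⁻¹) := by gcongr
      _ = ((N:ℝ) ^ 5)⁻¹ * (((1 + P) ^ M' * (1 + T) ^ M')⁻¹) * (((1 + P) ^ 6)⁻¹ * ((1 + T) ^ 2)⁻¹) := by
          rw [pow_add, pow_add]; simp only [mul_inv]; ring
      _ ≤ ((N:ℝ) ^ 5)⁻¹ * (9 ^ M' * (A ^ M')⁻¹) * (((1 + P) ^ 6)⁻¹ * ((1 + T) ^ 2)⁻¹) := by
          gcongr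
          rw [inv_eq_one_div, ← div_eq_mul_inv, div_le_div_iff₀ (by positivity) hAp]
          linarith
      _ = _ := by ring
  have hfm := measurable_fj 1
  calc _ ≤ ∫⁻ z1 : E4, ENNReal.ofReal (9 ^ M' * ((N:ℝ) ^ 5)⁻¹ * (A ^ M')⁻¹) *
        (fj 1 (LT N k (shT b1 b2 z1) 0 - LT N k (shT b1 b2 (H.pt y')) 0) * fj 1 (LT N k (shT b1 b2 z1) 1 - LT N k (shT b1 b2 (H.pt y')) 1) *
         fj 1 (LT N k (shT b1 b2 z1) 2 - LT N k (shT b1 b2 (H.pt y')) 2) * fj 1 (LT N k (shT b1 b2 z1) 3 - LT N k (shT b1 b2 z) 3)) :=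
        lintegral_mono hpw
    _ = ENNReal.ofReal (9 ^ M' * ((N:ℝ) ^ 5)⁻¹ * (A ^ M')⁻¹) * (ENNReal.ofReal ((N:ℝ) ^ 4) *
        ((∫⁻ s, fj 1 s) * (∫⁻ s, fj 1 s) * (∫⁻ s, fj 1 s) * (∫⁻ s, fj 1 s))) := by
        rw [lintegral_const_mul' _ _ ENNReal.ofReal_ne_top,
          lint_shT b1 b2 (fun w => fj 1 (LT N k w 0 - LT N k (shT b1 b2 (H.pt y')) 0) * fj 1 (LT N k w 1 - LT N k (shT b1 b2 (H.pt y')) 1) *
         fj 1 (LT N k w 2 - LT N k (shT b1 b2 (H.pt y')) 2) * fj 1 (LT N k w 3 - LT N k (shT b1 b2 z) 3)),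
          lint_LT hN k (fun X => fj 1 (X 0 - LT N k (shT b1 b2 (H.pt y')) 0) * fj 1 (X 1 - LT N k (shT b1 b2 (H.pt y')) 1) *
         fj 1 (X 2 - LT N k (shT b1 b2 (H.pt y')) 2) * fj 1 (X 3 - LT N k (shT b1 b2 z) 3))]
        congr 2
        rw [prod4 (f0 := fun s => fj 1 (s - LT N k (shT b1 b2 (H.pt y')) 0)) (f1 := fun s => fj 1 (s - LT N k (shT b1 b2 (H.pt y')) 1))
          (f2 := fun s => fj 1 (s - LT N k (shT b1 b2 (H.pt y')) 2)) (f3 := fun s => fj 1 (s - LT N k (shT b1 b2 z) 3))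
          (hfm.comp (by fun_prop)) (hfm.comp (by fun_prop)) (hfm.comp (by fun_prop)) (hfm.comp (by fun_prop)),
          lintegral_sub_right_eq_self (fun s => fj 1 s), lintegral_sub_right_eq_self (fun s => fj 1 s),
          lintegral_sub_right_eq_self (fun s => fj 1 s), lintegral_sub_right_eq_self (fun s => fj 1 s)]
    _ = _ := by
        rw [hcf, ← ENNReal.ofReal_mul hc0, ← ENNReal.ofReal_mul (by positivity), ← ENNReal.ofReal_mul (by positivity),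
          ← ENNReal.ofReal_mul (by positivity), ← ENNReal.ofReal_mul (by positivity)]
        congr 1
        field_simp

end Vale.Agent.P106.G
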