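import Vale.Agent.P106.G.KinD

/-! # Tube averages of the cap pieces, conclusion -/

open MeasureTheory Complex Set Filter
open scoped ENNReal NNReal ContDiff FourierTransform Topology SchwartzMap

set_option linter.all false

namespace Vale.Agent.P106.G

open Vale.Agent.P117 (Adm contDiff_st cv cv_schwartz_eq)
open Tri (ec norm_ec enorm_ec ec_add ec_zero continuous_ec)

theorem continuous_vec3 {α : Type*} [TopologicalSpace α] {f g h : α → ℝ} (hf : Continuous f) (hg : Continuous g) (hh : Continuous h) :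
    Continuous (fun a => (!₂[f a, g a, h a] : E3)) := by
  have h1 : Continuous (fun a => ![f a, g a, h a]) := by
    refine continuous_pi fun i => ?_
    fin_cases i
    · exact hf
    · exact hg
    · exact hh
  exact (PiLp.continuous_toLp 2 _).comp h1

theorem continuous_vec4 {α : Type*} [TopologicalSpace α] {f g h l : α → ℝ} (hf : Continuous f) (hg : Continuous g) (hh : Continuous h)
    (hl : Continuous l) : Continuous (fun a => (!₂[f a, g a, h a, l a] : E4)) := by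
  have h1 : Continuous (fun a => ![f a, g a, h a, l a]) := by
    refine continuous_pi fun i => ?_
    fin_cases i
    · exact hf
    · exact hg
    · exact hh
    · exact hl
  exact (PiLp.continuous_toLp 2 _).comp h1

theorem continuous_Pb (β1 β2 τ : ℝ) : Continuous (Pb β1 β2 τ) := by
  unfold Pb
  exact continuous_vec3 (by fun_prop) (by fun_prop) (by fun_prop)

theorem continuous_pt (H : Hyp) : Continuous H.pt := by
  unfold Hyp.pt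
  exact continuous_vec4 (by fun_prop) (by fun_prop) (by fun_prop) (by fun_prop)

theorem continuous_sp3 : Continuous sp3 := by
  unfold sp3
  exact continuous_vec3 (by fun_prop) (by fun_prop) (by fun_prop)

theorem continuous_bp (H : Hyp) (v1 v2 : ℝ) : Continuous (H.bp v1 v2) := by
  unfold Hyp.bp Hyp.tm
  exact continuous_vec3 (by fun_prop) (by fun_prop) (by fun_prop)

theorem tm_le {H : Hyp} (hb : H.Bd) (z : E4) : |H.tm z| ≤ 2 * ‖z‖ := by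
  obtain ⟨s0, s1, q1, q2, D0, D1⟩ := hb
  have n0 := abs_coord_le z 0
  have n1 := abs_coord_le z 1
  have n2 := abs_coord_le z 2
  have n3 := abs_coord_le z 3
  have hz := norm_nonneg z
  have a0 : |H.s * z 0| ≤ 1/64 * ‖z‖ := by rw [abs_mul, abs_of_pos s0]; exact mul_le_mul s1 n0 (abs_nonneg _) (by norm_num)
  have a1 : |H.q1 * z 1| ≤ 1/16 * ‖z‖ := by rw [abs_mul]; exact mul_le_mul q1 n1 (abs_nonneg _) (by norm_num)
  have a2 : |H.q2 * z 2| ≤ 1/16 * ‖z‖ := by rw [abs_mul]; exact mul_le_mul q2 n2 (abs_nonneg _) (by norm_num)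
  unfold Hyp.tm
  calc |H.s * z 0 + H.q1 * z 1 + H.q2 * z 2 + z 3| ≤ |H.s * z 0| + |H.q1 * z 1| + |H.q2 * z 2| + |z 3| :=
        (abs_add_le _ _).trans (add_le_add ((abs_add_le _ _).trans (add_le_add (abs_add_le _ _) le_rfl)) le_rfl)
    _ ≤ _ := by linarith

/-- the time growth is absorbed by the localization -/
theorem time_abs {H : Hyp} (hb : H.Bd) {b1 b2 B r1 R : ℝ} {N : ℕ} (h1 : |b1| ≤ 1/8) (h2 : |b2| ≤ 1/8) (hB : 1 ≤ B) (hr : 0 < r1)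
    (hR : 0 < R) (hN : 1 ≤ N) (hRN : R ≤ B * (N:ℝ) ^ 2) (z : E4) :
    1 + |(1 / (N:ℝ)) ^ 2 * H.tm z| ≤ (1 + 4 * B / r1) * (1 + ‖(r1 / R) • shT b1 b2 z‖) := by
  have hN0 : (0:ℝ) < N := by exact_mod_cast hN
  have e1 : ‖z‖ ≤ 2 * ‖shT b1 b2 z‖ := by
    have := norm_shT_le (b1 := -b1) (b2 := -b2) (by rwa [abs_neg]) (by rwa [abs_neg]) (shT b1 b2 z)
    rwa [shT_neg] at this
  have e2 := tm_le hb z
  set S := ‖shT b1 b2 z‖ with hS
  have hS0 : 0 ≤ S := norm_nonneg _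
  have e3 : ‖(r1 / R) • shT b1 b2 z‖ = r1 / R * S := by rw [norm_smul, Real.norm_of_nonneg (by positivity)]
  rw [e3]
  have e4 : |(1 / (N:ℝ)) ^ 2 * H.tm z| ≤ 4 * B / r1 * (r1 / R * S) := by
    rw [abs_mul, abs_of_nonneg (by positivity)]
    have e5 : (1 / (N:ℝ)) ^ 2 ≤ B / R := by
      rw [div_pow, one_pow, div_le_div_iff₀ (by positivity) hR]
      linarith
    calc (1 / (N:ℝ)) ^ 2 * |H.tm z| ≤ B / R * (4 * S) := by
          apply mul_le_mul e5 (by linarith) (abs_nonneg _) (by positivity)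
      _ = _ := by field_simp
  have hB0 : 0 ≤ 4 * B / r1 := by positivity
  have hx : 0 ≤ r1 / R * S := by positivity
  nlinarith

/-- **tube average of one piece** -/
theorem mu_piece {c : ℝ} (hc : 0 < c) (hc1 : c ≤ 1) (M' : ℕ) {B r1 : ℝ} (hB : 1 ≤ B) (hr : 0 < r1) : ∃ C : ℝ, 0 ≤ C ∧
    ∀ (H : Hyp) (N M : ℕ) (k : ℤ × ℤ) (b1 b2 R : ℝ) (g : E3 → ℂ) (z : E4), H.ok2 → 1 ≤ N → M' + 2 ≤ M →
    |b1| ≤ 1/8 → |b2| ≤ 1/8 → Cap (k.1 / N + b1) (k.2 / N + b2) (1 / N) → 0 < R → R ≤ B * (N:ℝ) ^ 2 → Adm volume g →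
    ∫⁻ w, ‖𝓕⁻ (aP H b1 b2 (r1 / R) (fun ξ => H.mu (chi0 c) (capc (k.1 / N + b1) (1 / N)) (capc (k.2 / N + b2) (1 / N)) ξ * 𝓕 g ξ)) w‖ₑ ^ 2 *
      Phk M N k (shT b1 b2 z - w) ≤
    ENNReal.ofReal C * nu M' N g (H.bp (k.1 / N + b1) (k.2 / N + b2) z) := by
  obtain ⟨C1, hC1, hF⟩ := Fk_bd hc hc1 (M' + 6)
  obtain ⟨C2, hC2, hP⟩ := Psi_decay (M' + 6 + 4)
  obtain ⟨C3, hC3, hI⟩ := inner_I M'
  set L := 1 + 4 * B / r1 with hL
  have hL0 : 0 ≤ L := by positivity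
  refine ⟨4 * C2 ^ 2 * (C1 * L ^ (M' + 6 + 4)) * C3, by positivity, ?_⟩
  intro H N M k b1 b2 R g z hH hN hM h1 h2 hC hR hRN hg
  have hN0 : (0:ℝ) < N := by exact_mod_cast hN
  have hb := hH.ok.bd
  have hm := cap_m hH hC
  set β1 := k.1 / N + b1 with hβ1
  set β2 := k.2 / N + b2 with hβ2
  have hκ : 0 < r1 / R := by positivity
  have hsm : Sm (H.mu (chi0 c) (capc β1 (1 / N)) (capc β2 (1 / N))) :=
    sm_mu hH.ok (r1_chi0 hc hc1).toRcut (vc_capc hC.pos hC.l1 hC.r1) (vc_capc hC.pos hC.l2 hC.r2)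
  rw [← lint_shT b1 b2 (fun w => ‖𝓕⁻ (aP H b1 b2 (r1 / R) (fun ξ => H.mu (chi0 c) (capc β1 (1 / N)) (capc β2 (1 / N)) ξ * 𝓕 g ξ)) w‖ₑ ^ 2 *
      Phk M N k (shT b1 b2 z - w))]
  simp_rw [← shT_sub]
  set D := 4 * C2 ^ 2 * (C1 * L ^ (M' + 6 + 4)) with hD
  have hD0 : 0 ≤ D := by positivity
  have hpw : ∀ z1 : E4, ‖𝓕⁻ (aP H b1 b2 (r1 / R) (fun ξ => H.mu (chi0 c) (capc β1 (1 / N)) (capc β2 (1 / N)) ξ * 𝓕 g ξ)) (shT b1 b2 z1)‖ₑ ^ 2 ≤
      ENNReal.ofReal D * ∫⁻ y', ENNReal.ofReal ((1 / (N:ℝ)) ^ 2 * ((1 + ‖Pb β1 β2 (1 / N) (z1 - H.pt y')‖) ^ (M' + 6))⁻¹) * ‖g y'‖ₑ ^ 2 := by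
    intro z1
    rw [inv_aP H b1 b2 hκ hsm.int hg.int, enorm_mul, mul_pow]
    have hF1 := hF H β1 β2 (1 / N) g (H.tm z1) (sp3 z1) hH hC hg
    rw [zt_tm] at hF1
    have hX := time_abs hb h1 h2 hB hr hR hN hRN z1
    set X := ‖(r1 / R) • shT b1 b2 z1‖ with hXd
    have hX0 : 0 ≤ X := norm_nonneg _
    have hPs : ‖(2 * Psi ((r1 / R) • shT b1 b2 z1) : ℂ)‖ₑ ^ 2 ≤ ENNReal.ofReal (4 * C2 ^ 2 * ((1 + X) ^ (M' + 6 + 4))⁻¹) := by
      have h3 := hP ((r1 / R) • shT b1 b2 z1)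
      rw [← ofReal_norm, ← ENNReal.ofReal_pow (norm_nonneg _)]
      apply ENNReal.ofReal_le_ofReal
      rw [norm_mul, mul_pow]
      simp only [Complex.norm_ofNat]
      have h4 : ((1 + X) ^ (M' + 6 + 4))⁻¹ ≤ 1 := inv_le_one_of_one_le₀ (one_le_pow₀ (by linarith))
      have h5 : 0 ≤ ((1 + X) ^ (M' + 6 + 4))⁻¹ := by positivity
      calc (2:ℝ) ^ 2 * ‖Psi ((r1 / R) • shT b1 b2 z1)‖ ^ 2 ≤ 2 ^ 2 * (C2 * ((1 + X) ^ (M' + 6 + 4))⁻¹) ^ 2 := by gcongr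
        _ = 4 * C2 ^ 2 * (((1 + X) ^ (M' + 6 + 4))⁻¹ * ((1 + X) ^ (M' + 6 + 4))⁻¹) := by ring
        _ ≤ 4 * C2 ^ 2 * (1 * ((1 + X) ^ (M' + 6 + 4))⁻¹) := by gcongr
        _ = _ := by ring
    refine (mul_le_mul' hPs hF1).trans ?_
    rw [← mul_assoc, ← ENNReal.ofReal_mul (by positivity)]
    refine mul_le_mul' (ENNReal.ofReal_le_ofReal ?_) le_rfl
    have h6 : (1 + |(1 / (N:ℝ)) ^ 2 * H.tm z1|) ^ (M' + 6 + 4) ≤ L ^ (M' + 6 + 4) * (1 + X) ^ (M' + 6 + 4) := by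
      rw [← mul_pow]
      exact pow_le_pow_left₀ (by positivity) hX _
    calc 4 * C2 ^ 2 * ((1 + X) ^ (M' + 6 + 4))⁻¹ * (C1 * (1 + |(1 / (N:ℝ)) ^ 2 * H.tm z1|) ^ (M' + 6 + 4)) ≤
        4 * C2 ^ 2 * ((1 + X) ^ (M' + 6 + 4))⁻¹ * (C1 * (L ^ (M' + 6 + 4) * (1 + X) ^ (M' + 6 + 4))) := by gcongr
      _ = D := by
          rw [hD]; field_simp
  have hPbc := continuous_Pb β1 β2 (1 / N)
  have hptc := continuous_pt H
  have hPhm := measurable_Phk M N k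
  have hshc := continuous_shT b1 b2
  have hmeas : Measurable (fun q : E4 × E3 => ENNReal.ofReal ((1 / (N:ℝ)) ^ 2 * ((1 + ‖Pb β1 β2 (1 / N) (q.1 - H.pt q.2)‖) ^ (M' + 6))⁻¹) *
      ‖g q.2‖ₑ ^ 2 * Phk M N k (shT b1 b2 (z - q.1))) := by
    have a1 : Continuous (fun q : E4 × E3 => Pb β1 β2 (1 / N) (q.1 - H.pt q.2)) := hPbc.comp (continuous_fst.sub (hptc.comp continuous_snd))
    have a2 : Measurable (fun q : E4 × E3 => ENNReal.ofReal ((1 / (N:ℝ)) ^ 2 * ((1 + ‖Pb β1 β2 (1 / N) (q.1 - H.pt q.2)‖) ^ (M' + 6))⁻¹)) :=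
      ((((a1.norm.measurable.const_add 1).pow_const _).inv).const_mul _).ennreal_ofReal
    have a3 : Measurable (fun q : E4 × E3 => ‖g q.2‖ₑ ^ 2) := (hg.meas.comp measurable_snd).enorm.pow_const 2
    have a4 : Measurable (fun q : E4 × E3 => Phk M N k (shT b1 b2 (z - q.1))) :=
      hPhm.comp (hshc.measurable.comp (measurable_const.sub measurable_fst))
    exact (a2.mul a3).mul a4
  calc _ ≤ ∫⁻ z1, ENNReal.ofReal D * ∫⁻ y', ENNReal.ofReal ((1 / (N:ℝ)) ^ 2 * ((1 + ‖Pb β1 β2 (1 / N) (z1 - H.pt y')‖) ^ (M' + 6))⁻¹) * ‖g y'‖ₑ ^ 2 *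
        Phk M N k (shT b1 b2 (z - z1)) := by
        refine lintegral_mono fun z1 => ?_
        rw [lintegral_mul_const' _ _ (by unfold Phk; exact ENNReal.ofReal_ne_top), ← mul_assoc]
        exact mul_le_mul' (hpw z1) le_rfl
    _ = ENNReal.ofReal D * ∫⁻ y', ∫⁻ z1, ENNReal.ofReal ((1 / (N:ℝ)) ^ 2 * ((1 + ‖Pb β1 β2 (1 / N) (z1 - H.pt y')‖) ^ (M' + 6))⁻¹) * ‖g y'‖ₑ ^ 2 *
        Phk M N k (shT b1 b2 (z - z1)) := by
        rw [lintegral_const_mul' _ _ ENNReal.ofReal_ne_top, lintegral_lintegral_swap hmeas.aemeasurable]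
    _ ≤ ENNReal.ofReal D * ∫⁻ y', ENNReal.ofReal C3 * (wN M' N (H.bp β1 β2 z - y') * ‖g y'‖ₑ ^ 2) := by
        gcongr with y'
        calc ∫⁻ z1, ENNReal.ofReal ((1 / (N:ℝ)) ^ 2 * ((1 + ‖Pb β1 β2 (1 / N) (z1 - H.pt y')‖) ^ (M' + 6))⁻¹) * ‖g y'‖ₑ ^ 2 *
            Phk M N k (shT b1 b2 (z - z1)) =
            ENNReal.ofReal ((1 / (N:ℝ)) ^ 2) * ‖g y'‖ₑ ^ 2 * ∫⁻ z1, ENNReal.ofReal (((1 + ‖Pb β1 β2 (1 / N) (z1 - H.pt y')‖) ^ (M' + 6))⁻¹) *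
              Phk M N k (shT b1 b2 (z - z1)) := by
              rw [← lintegral_const_mul' _ _ (ENNReal.mul_ne_top ENNReal.ofReal_ne_top (by simp))]
              refine lintegral_congr fun z1 => ?_
              rw [ENNReal.ofReal_mul (by positivity)]
              ring
          _ ≤ ENNReal.ofReal ((1 / (N:ℝ)) ^ 2) * ‖g y'‖ₑ ^ 2 *
              ENNReal.ofReal (C3 * (N:ℝ)⁻¹ * ((1 + ‖H.bp β1 β2 z - y'‖ / N) ^ M')⁻¹) := by
              gcongr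
              exact hI H N M k b1 b2 z y' hb hN hM hm.1 hC.l1 (by linarith [hC.r1, hC.pos]) hC.l2 (by linarith [hC.r2, hC.pos])
          _ = _ := by
              unfold wN
              have e : C3 * (N:ℝ)⁻¹ * ((1 + ‖H.bp β1 β2 z - y'‖ / N) ^ M')⁻¹ * ((1 / (N:ℝ)) ^ 2) =
                  C3 * (((N:ℝ) ^ 3)⁻¹ * ((1 + ‖H.bp β1 β2 z - y'‖ / N) ^ M')⁻¹) := by field_simp
              have e2 : ENNReal.ofReal ((1 / (N:ℝ)) ^ 2) * ‖g y'‖ₑ ^ 2 *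
                  ENNReal.ofReal (C3 * (N:ℝ)⁻¹ * ((1 + ‖H.bp β1 β2 z - y'‖ / N) ^ M')⁻¹) =
                  (ENNReal.ofReal (C3 * (N:ℝ)⁻¹ * ((1 + ‖H.bp β1 β2 z - y'‖ / N) ^ M')⁻¹) * ENNReal.ofReal ((1 / (N:ℝ)) ^ 2)) * ‖g y'‖ₑ ^ 2 := by ring
              rw [e2, ← ENNReal.ofReal_mul (by positivity), e, ENNReal.ofReal_mul hC3, mul_assoc]
    _ = _ := by
        rw [lintegral_const_mul' _ _ ENNReal.ofReal_ne_top, ← mul_assoc, ← ENNReal.ofReal_mul hD0]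
        rfl

end Vale.Agent.P106.G
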