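import Vale.Agent.P106.G.KinE

/-! # The densities -/

open MeasureTheory Complex Set Filter
open scoped ENNReal NNReal ContDiff FourierTransform Topology SchwartzMap

set_option linter.all false

namespace Vale.Agent.P106.G

open Vale.Agent.P117 (Adm contDiff_st cv cv_schwartz_eq)

theorem measurable_wN (M' N : ℕ) : Measurable (wN M' N) := by unfold wN; fun_prop

theorem measurable_nu (M' N : ℕ) {g : E3 → ℂ} (hg : Measurable g) : Measurable (nu M' N g) := by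
  have h : Measurable (fun q : E3 × E3 => wN M' N (q.1 - q.2) * ‖g q.2‖ₑ ^ 2) :=
    ((measurable_wN M' N).comp (measurable_fst.sub measurable_snd)).mul ((hg.comp measurable_snd).enorm.pow_const 2)
  exact Measurable.lintegral_prod_right' (f := fun q : E3 × E3 => wN M' N (q.1 - q.2) * ‖g q.2‖ₑ ^ 2) h

theorem wN_shift (M' : ℕ) {N : ℕ} (hN : 1 ≤ N) (y y' u : E3) :
    wN M' N (y - u) ≤ ENNReal.ofReal ((1 + ‖y - y'‖ / N) ^ M') * wN M' N (y' - u) := by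
  have hN0 : (0:ℝ) < N := by exact_mod_cast hN
  unfold wN
  rw [← ENNReal.ofReal_mul (by positivity)]
  apply ENNReal.ofReal_le_ofReal
  have h1 : ‖y' - u‖ ≤ ‖y - y'‖ + ‖y - u‖ := by
    have : y' - u = (y - u) - (y - y') := by abel
    rw [this]
    have := norm_sub_le (y - u) (y - y')
    linarith
  have h2 : 1 + ‖y' - u‖ / N ≤ (1 + ‖y - y'‖ / N) * (1 + ‖y - u‖ / N) := by
    have e1 : ‖y' - u‖ / N ≤ ‖y - y'‖ / N + ‖y - u‖ / N := by rw [← add_div]; gcongr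
    have e2 : 0 ≤ ‖y - y'‖ / N * (‖y - u‖ / N) := by positivity
    nlinarith
  have h3 := pow_le_pow_left₀ (by positivity) h2 M'
  rw [mul_pow] at h3
  have h4 : ((1 + ‖y - u‖ / N) ^ M')⁻¹ ≤ (1 + ‖y - y'‖ / N) ^ M' * ((1 + ‖y' - u‖ / N) ^ M')⁻¹ := by
    rw [inv_eq_one_div, ← div_eq_mul_inv, div_le_div_iff₀ (by positivity) (by positivity)]
    linarith
  calc ((N:ℝ) ^ 3)⁻¹ * ((1 + ‖y - u‖ / N) ^ M')⁻¹ ≤ ((N:ℝ) ^ 3)⁻¹ * ((1 + ‖y - y'‖ / N) ^ M' * ((1 + ‖y' - u‖ / N) ^ M')⁻¹) := by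
        gcongr
    _ = _ := by ring

/-- slow variation -/
theorem nu_slow (M' : ℕ) {N : ℕ} (hN : 1 ≤ N) (g : E3 → ℂ) (y y' : E3) {L : ℝ} (h : ‖y - y'‖ / N ≤ L) :
    nu M' N g y ≤ ENNReal.ofReal ((1 + L) ^ M') * nu M' N g y' := by
  unfold nu
  rw [← lintegral_const_mul' _ _ ENNReal.ofReal_ne_top]
  refine lintegral_mono fun u => ?_
  have hL : 0 ≤ ‖y - y'‖ / N := by positivity
  rw [← mul_assoc]
  refine mul_le_mul' ((wN_shift M' hN y y' u).trans (mul_le_mul' (ENNReal.ofReal_le_ofReal ?_) le_rfl)) le_rfl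
  exact pow_le_pow_left₀ (by positivity) (by linarith) _

/-- mass of the weight -/
noncomputable def cW (M' : ℕ) : ℝ≥0∞ := ∫⁻ u : E3, ENNReal.ofReal (((1 + ‖u‖) ^ M')⁻¹)

theorem lint_smul3 {l : ℝ} (hl : 0 < l) (F : E3 → ℝ≥0∞) :
    ∫⁻ x : E3, F (l • x) = ENNReal.ofReal ((l ^ 3)⁻¹) * ∫⁻ x, F x := by
  have h1 := Measure.map_addHaar_smul (volume : Measure E3) hl.ne'
  simp only [finrank_euclideanSpace, Fintype.card_fin] at h1
  have h2 : ∫⁻ x : E3, F (l • x) = ∫⁻ x, F x ∂(Measure.map (l • ·) (volume : Measure E3)) :=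
    (MeasureTheory.lintegral_map_equiv F (Homeomorph.smulOfNeZero l hl.ne').toMeasurableEquiv).symm
  rw [h2, h1, lintegral_smul_measure, abs_of_pos (by positivity)]
  rfl

theorem wN_scale (M' : ℕ) {N : ℕ} (hN : 1 ≤ N) (u : E3) : wN M' N u =
    ENNReal.ofReal (((N:ℝ) ^ 3)⁻¹) * ENNReal.ofReal (((1 + ‖((N:ℝ)⁻¹) • u‖) ^ M')⁻¹) := by
  unfold wN
  rw [← ENNReal.ofReal_mul (by positivity), norm_smul, norm_inv, Real.norm_of_nonneg (by positivity : (0:ℝ) ≤ N)]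
  congr 5
  rw [div_eq_inv_mul]

theorem lint_wN (M' : ℕ) {N : ℕ} (hN : 1 ≤ N) : ∫⁻ u, wN M' N u = cW M' := by
  have hN0 : (0:ℝ) < N := by exact_mod_cast hN
  simp_rw [wN_scale M' hN]
  rw [lintegral_const_mul' _ _ ENNReal.ofReal_ne_top,
    lint_smul3 (inv_pos.2 hN0) (fun u : E3 => ENNReal.ofReal (((1 + ‖u‖) ^ M')⁻¹)), ← mul_assoc, ← ENNReal.ofReal_mul (by positivity)]
  have : ((N:ℝ) ^ 3)⁻¹ * (((N:ℝ)⁻¹) ^ 3)⁻¹ = 1 := by field_simp
  rw [this, ENNReal.ofReal_one, one_mul]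
  rfl

theorem cW4 : cW 4 < ⊤ := by
  have h1 := finite_integral_one_add_norm (E := E3) (μ := (volume : Measure E3)) (r := 4) (by simp; norm_num)
  refine lt_of_le_of_lt (le_of_eq ?_) h1
  unfold cW
  refine lintegral_congr fun u => ?_
  congr 1
  rw [Real.rpow_neg (by positivity)]
  congr 1
  exact_mod_cast (Real.rpow_natCast (1 + ‖u‖) 4).symm

theorem cW_lt {M' : ℕ} (hM : 4 ≤ M') : cW M' < ⊤ := by
  refine lt_of_le_of_lt ?_ cW4
  unfold cW
  refine lintegral_mono fun u => ENNReal.ofReal_le_ofReal (inv_anti₀ (by positivity) (pow_le_pow_right₀ ?_ hM))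
  have := norm_nonneg u
  linarith

theorem cW_pos (M' : ℕ) : 0 < cW M' := by
  unfold cW
  rw [lintegral_pos_iff_support (by fun_prop)]
  have : Function.support (fun u : E3 => ENNReal.ofReal (((1 + ‖u‖) ^ M')⁻¹)) = univ := by
    ext u
    simp only [Function.mem_support, mem_univ, iff_true]
    have : 0 < ((1 + ‖u‖) ^ M')⁻¹ := by positivity
    exact (ENNReal.ofReal_pos.2 this).ne'
  rw [this]
  exact Measure.measure_univ_pos.2 (NeZero.ne _)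

/-- mass of the density -/
theorem lint_nu (M' : ℕ) {N : ℕ} (hN : 1 ≤ N) {g : E3 → ℂ} (hg : Measurable g) :
    ∫⁻ y, nu M' N g y = cW M' * ∫⁻ u, ‖g u‖ₑ ^ 2 := by
  unfold nu
  have h : Measurable (fun q : E3 × E3 => wN M' N (q.1 - q.2) * ‖g q.2‖ₑ ^ 2) :=
    ((measurable_wN M' N).comp (measurable_fst.sub measurable_snd)).mul ((hg.comp measurable_snd).enorm.pow_const 2)
  rw [lintegral_lintegral_swap h.aemeasurable]
  have e : ∀ u : E3, ∫⁻ y, wN M' N (y - u) * ‖g u‖ₑ ^ 2 = cW M' * ‖g u‖ₑ ^ 2 := by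
    intro u
    rw [lintegral_mul_const' _ _ (by simp), lintegral_sub_right_eq_self (fun y => wN M' N y) u, lint_wN M' hN]
  simp_rw [e]
  rw [lintegral_const_mul _ (hg.enorm.pow_const 2)]

/-- pointwise bound for multiplier operators -/
theorem mop_pw {M : E3 → ℂ} (hM : Sm M) {f : E3 → ℂ} (hf : Integrable f) (x : E3) :
    ‖mop M f x‖ₑ ≤ ∫⁻ u, ‖𝓕⁻ M (x - u)‖ₑ * ‖f u‖ₑ := by
  have e1 : cv ((𝓕⁻ (hM.supp.toSchwartzMap hM.smooth) : 𝓢(E3, ℂ)) : E3 → ℂ) f = mop M f := cv_schwartz_eq _ hf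
  have hKe : ((𝓕⁻ (hM.supp.toSchwartzMap hM.smooth) : 𝓢(E3, ℂ)) : E3 → ℂ) = 𝓕⁻ M := by
    rw [SchwartzMap.fourierInv_coe]; rfl
  rw [← e1, hKe]
  unfold cv
  refine (enorm_integral_le_lintegral_enorm _).trans (le_of_eq ?_)
  simp_rw [enorm_mul]

/-- tail of the kernels of the cap projections -/
theorem tailK {c : ℝ} (hc : 0 < c) (hc1 : c ≤ 1) (n : ℕ) : ∃ C : ℝ, 0 ≤ C ∧ ∀ (H : Hyp) (β1 β2 : ℝ) (N : ℕ) (ρ : ℝ), H.ok2 → 1 ≤ N →
    Cap β1 β2 (1 / N) → 0 < ρ →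
    ∫⁻ u : E3, {u : E3 | ρ * N ≤ ‖u‖}.indicator (fun u => ‖𝓕⁻ (H.mu (chiP c) (capP β1 (1 / N)) (capP β2 (1 / N))) u‖ₑ) u ≤
      ENNReal.ofReal (C * (ρ ^ n)⁻¹) := by
  obtain ⟨C1, hC1, hk⟩ := ker_bound (r1_chiP hc hc1).toRcut vcut_psvP.vc vcut_psvP.vc (n + 4)
  set w := (cW 4).toReal with hw
  have hwe : cW 4 = ENNReal.ofReal w := (ENNReal.ofReal_toReal cW4.ne).symm
  have hw0 : 0 ≤ w := ENNReal.toReal_nonneg
  refine ⟨9 ^ n * C1 * w, by positivity, ?_⟩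
  intro H β1 β2 N ρ hH hN hC hρ
  have hN0 : (0:ℝ) < N := by exact_mod_cast hN
  have hm := cap_m hH hC
  have hm0 : 0 < H.m β1 β2 := by linarith [hm.1]
  have hok := (cap_ok hH hC).ok
  have hdp := AT_det_pos (H := H) (β1 := β1) (β2 := β2) hm0 hC.pos
  set A := H.AT β1 β2 (1 / N) with hA
  have hAt : A.transpose.det ≠ 0 := by rw [Matrix.det_transpose]; exact hdp.ne'
  have hinv : ((1:ℝ) / N)⁻¹ = N := by field_simp
  have hpw : ∀ u : E3, {u : E3 | ρ * N ≤ ‖u‖}.indicator (fun u => ‖𝓕⁻ (H.mu (chiP c) (capP β1 (1 / N)) (capP β2 (1 / N))) u‖ₑ) u ≤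
      ENNReal.ofReal A.det * (ENNReal.ofReal (9 ^ n * C1 * (ρ ^ n)⁻¹) * ENNReal.ofReal (((1 + ‖mat3 A.transpose u‖) ^ 4)⁻¹)) := by
    intro u
    by_cases hu : ρ * N ≤ ‖u‖
    · rw [indicator_of_mem (show u ∈ {u : E3 | ρ * N ≤ ‖u‖} from hu), inv_AT hdp.ne', enorm_smul]
      have e0 : ‖|A.det|‖ₑ = ENNReal.ofReal A.det := by rw [← ofReal_norm, norm_abs_eq_norm, Real.norm_of_nonneg hdp.le]
      rw [e0]
      refine mul_le_mul' le_rfl ?_
      have e1 : (fun ξ => H.mu (chiP c) (capP β1 (1 / N)) (capP β2 (1 / N)) (mat3 A ξ)) = (H.sub β1 β2 (1 / N)).mu (chiP c) psvP psvP := by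
        ext ξ; exact kn_cap hH hC hc hc1 ξ
      rw [e1]
      have hkb := hk _ hok 0 (mat3 A.transpose u)
      rw [em_zero] at hkb
      simp only [abs_zero, add_zero, one_pow, mul_one] at hkb
      set x := mat3 A.transpose u with hx
      have e2 : x = Pb β1 β2 (1 / N) (H.pt u) := by
        have h := AT_Pb H β1 β2 (1 / N) 0 u 0
        have h0 : H.pt 0 = 0 := by apply ext4 <;> simp [Hyp.pt]
        rw [zero_smul, add_zero, map_zero, sub_zero, ← pt_zt, h0, sub_zero] at h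
        exact h
      have e3 : ‖u‖ ≤ 9 * N * ‖x‖ := by
        have h := bp_le hH.ok.bd hm.1 hC.l1 (by linarith [hC.r1, hC.pos]) hC.l2 (by linarith [hC.r2, hC.pos]) hC.pos (H.pt u)
        rw [bp_pt, hinv, ← e2] at h
        have h0 := abs_coord3 x 0
        have h1 := abs_coord3 x 1
        have h2 := abs_coord3 x 2
        have hN1 : (1:ℝ) ≤ N := by exact_mod_cast hN
        have hx0 := norm_nonneg x
        have h3 : N * (|x 1| + |x 2|) ≤ N * (‖x‖ + ‖x‖) := by gcongr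
        nlinarith
      have e4 : ρ ≤ 9 * (1 + ‖x‖) := by
        have : ρ * N ≤ (9 * ‖x‖) * N := by linarith
        have := le_of_mul_le_mul_right this hN0
        linarith
      have e5 : ((1 + ‖x‖) ^ n)⁻¹ ≤ 9 ^ n * (ρ ^ n)⁻¹ := by
        have := pow_le_pow_left₀ hρ.le e4 n
        rw [mul_pow] at this
        rw [inv_eq_one_div, ← div_eq_mul_inv, div_le_div_iff₀ (by positivity) (by positivity)]
        linarith
      rw [← ofReal_norm, ← ENNReal.ofReal_mul (by positivity)]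
      apply ENNReal.ofReal_le_ofReal
      have e6 : ‖𝓕⁻ ((H.sub β1 β2 (1 / N)).mu (chiP c) psvP psvP) x‖ ≤ C1 * ((1 + ‖x‖) ^ (n + 4))⁻¹ := by
        rw [← div_eq_mul_inv, le_div_iff₀ (by positivity)]
        linarith
      calc _ ≤ C1 * ((1 + ‖x‖) ^ (n + 4))⁻¹ := e6
        _ = C1 * ((1 + ‖x‖) ^ n)⁻¹ * ((1 + ‖x‖) ^ 4)⁻¹ := by rw [pow_add, mul_inv]; ring
        _ ≤ C1 * (9 ^ n * (ρ ^ n)⁻¹) * ((1 + ‖x‖) ^ 4)⁻¹ := by gcongr
        _ = _ := by ring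
    · rw [indicator_of_notMem (show u ∉ {u : E3 | ρ * N ≤ ‖u‖} from hu)]
      exact zero_le
  calc _ ≤ ∫⁻ u : E3, ENNReal.ofReal A.det * (ENNReal.ofReal (9 ^ n * C1 * (ρ ^ n)⁻¹) * ENNReal.ofReal (((1 + ‖mat3 A.transpose u‖) ^ 4)⁻¹)) :=
        lintegral_mono hpw
    _ = ENNReal.ofReal A.det * (ENNReal.ofReal (9 ^ n * C1 * (ρ ^ n)⁻¹) * (ENNReal.ofReal A.det⁻¹ * cW 4)) := by
        rw [lintegral_const_mul' _ _ ENNReal.ofReal_ne_top, lintegral_const_mul' _ _ ENNReal.ofReal_ne_top,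
          lintegral_mat3 hAt (fun x => ENNReal.ofReal (((1 + ‖x‖) ^ 4)⁻¹)), Matrix.det_transpose, abs_of_pos (inv_pos.2 hdp)]
        rfl
    _ = _ := by
        rw [hwe, ← ENNReal.ofReal_mul (by positivity), ← ENNReal.ofReal_mul (by positivity), ← ENNReal.ofReal_mul hdp.le]
        congr 1
        field_simp

end Vale.Agent.P106.G
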