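import Vale.Agent.P106.G.KinF

/-! # The sum of the densities is bounded -/

open MeasureTheory Complex Set Filter
open scoped ENNReal NNReal ContDiff FourierTransform Topology SchwartzMap

set_option linter.all false

namespace Vale.Agent.P106.G

open Vale.Agent.P117 (Adm contDiff_st cv cv_schwartz_eq)

/-- fattened cap multiplier -/
noncomputable def MP (H : Hyp) (c : ℝ) (N : ℕ) (b1 b2 : ℝ) (k : ℤ × ℤ) : E3 → ℂ :=
  H.mu (chiP c) (capP (k.1 / N + b1) (1 / N)) (capP (k.2 / N + b2) (1 / N))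

theorem sm_MP {H : Hyp} (hH : H.ok2) {c : ℝ} (hc : 0 < c) (hc1 : c ≤ 1) {N : ℕ} {b1 b2 : ℝ} {k : ℤ × ℤ}
    (hC : Cap (k.1 / N + b1) (k.2 / N + b2) (1 / N)) : Sm (MP H c N b1 b2 k) :=
  sm_mu hH.ok (r1_chiP hc hc1).toRcut (vc_capP hC.pos hC.l1 hC.r1) (vc_capP hC.pos hC.l2 hC.r2)

theorem norm_capP_le (β τ v : ℝ) : ‖capP β τ v‖ₑ ≤ 1 := by
  rw [← ofReal_norm, ← ENNReal.ofReal_one]
  exact ENNReal.ofReal_le_ofReal (norm_psiP_le _)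

/-- the fattened caps of a shifted grid are disjoint -/
theorem capP_idx {N : ℕ} (hN : 1 ≤ N) {b v : ℝ} {k : ℤ} (h : capP (k / N + b) (1 / N) v ≠ 0) : k = ⌊(N:ℝ) * (v - b)⌋ := by
  have hN0 : (0:ℝ) < N := by exact_mod_cast hN
  obtain ⟨h1, h2⟩ := capP_supp (τ := 1 / (N:ℝ)) (by positivity) h
  symm
  rw [Int.floor_eq_iff]
  have e1 : (N:ℝ) * ((k:ℝ) / N + b + 1/8 * (1 / N) - b) = k + 1/8 := by field_simp; ring
  have e2 : (N:ℝ) * ((k:ℝ) / N + b + 7/8 * (1 / N) - b) = k + 7/8 := by field_simp; ring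
  constructor
  · have : (N:ℝ) * ((k:ℝ) / N + b + 1/8 * (1 / N) - b) ≤ N * (v - b) := by gcongr
    linarith
  · have : (N:ℝ) * (v - b) ≤ N * ((k:ℝ) / N + b + 7/8 * (1 / N) - b) := by gcongr
    linarith

theorem sum_capP {N : ℕ} (hN : 1 ≤ N) (b v : ℝ) (s : Finset ℤ) : ∑ k ∈ s, ‖capP (k / N + b) (1 / N) v‖ₑ ^ 2 ≤ 1 := by
  classical
  calc ∑ k ∈ s, ‖capP (k / N + b) (1 / N) v‖ₑ ^ 2 ≤ ∑ k ∈ s, if k = ⌊(N:ℝ) * (v - b)⌋ then (1:ℝ≥0∞) else 0 := by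
        apply Finset.sum_le_sum
        intro k _
        split_ifs with h
        · calc _ ≤ (1:ℝ≥0∞) ^ 2 := by gcongr; exact norm_capP_le _ _ _
            _ = 1 := by norm_num
        · have : capP (k / N + b) (1 / N) v = 0 := by
            by_contra hc
            exact h (capP_idx hN hc)
          rw [this]; simp
    _ ≤ 1 := by
        rw [Finset.sum_ite_eq']
        split_ifs <;> simp

theorem sum_MP_sq {H : Hyp} {c : ℝ} {N : ℕ} (hN : 1 ≤ N) {b1 b2 : ℝ} {s : Finset (ℤ × ℤ)} (hs : s ⊆ grd N) (ξ : E3) :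
    ∑ k ∈ s, ‖MP H c N b1 b2 k ξ‖ₑ ^ 2 ≤ 1 := by
  set v1 := H.Om ξ 1 / H.Om ξ 0
  set v2 := H.Om ξ 2 / H.Om ξ 0
  calc ∑ k ∈ s, ‖MP H c N b1 b2 k ξ‖ₑ ^ 2 ≤ ∑ k ∈ grd N, ‖capP (k.1 / N + b1) (1 / N) v1‖ₑ ^ 2 * ‖capP (k.2 / N + b2) (1 / N) v2‖ₑ ^ 2 := by
        refine (Finset.sum_le_sum fun k _ => ?_).trans (Finset.sum_le_sum_of_subset hs)
        rw [← mul_pow]
        gcongr
        exact norm_mu_le (norm_chiP_le c) ξ
    _ = (∑ k ∈ Finset.Ico (0:ℤ) N, ‖capP (k / N + b1) (1 / N) v1‖ₑ ^ 2) * ∑ k ∈ Finset.Ico (0:ℤ) N, ‖capP (k / N + b2) (1 / N) v2‖ₑ ^ 2 := by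
        unfold grd
        rw [Finset.sum_mul_sum, Finset.sum_product]
    _ ≤ 1 * 1 := mul_le_mul' (sum_capP hN _ _ _) (sum_capP hN _ _ _)
    _ = 1 := one_mul 1

/-- orthogonality -/
theorem sum_MP_L2 {H : Hyp} (hH : H.ok2) {c : ℝ} (hc : 0 < c) (hc1 : c ≤ 1) {N : ℕ} (hN : 1 ≤ N) {b1 b2 : ℝ} {s : Finset (ℤ × ℤ)}
    (hs : s ⊆ grd N) (hC : ∀ k ∈ s, Cap (k.1 / N + b1) (k.2 / N + b2) (1 / N)) {f : E3 → ℂ} (hf : Adm volume f) :
    ∑ k ∈ s, ∫⁻ x, ‖mop (MP H c N b1 b2 k) f x‖ₑ ^ 2 ≤ ∫⁻ x, ‖f x‖ₑ ^ 2 := by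
  calc ∑ k ∈ s, ∫⁻ x, ‖mop (MP H c N b1 b2 k) f x‖ₑ ^ 2 ≤ ∑ k ∈ s, ∫⁻ ξ, ‖MP H c N b1 b2 k ξ‖ₑ ^ 2 * ‖𝓕 f ξ‖ₑ ^ 2 :=
        Finset.sum_le_sum fun k hk => mop_L2 (sm_MP hH hc hc1 (hC k hk)) hf
    _ = ∫⁻ ξ, (∑ k ∈ s, ‖MP H c N b1 b2 k ξ‖ₑ ^ 2) * ‖𝓕 f ξ‖ₑ ^ 2 := by
        rw [← lintegral_finset_sum']
        · refine lintegral_congr fun ξ => ?_
          rw [Finset.sum_mul]
        · intro k hk
          exact (((sm_MP hH hc hc1 (hC k hk)).smooth.continuous.measurable.enorm.pow_const 2).mul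
            ((Vale.Agent.P117.continuous_fourier hf.int).measurable.enorm.pow_const 2)).aemeasurable
    _ ≤ ∫⁻ ξ, 1 * ‖𝓕 f ξ‖ₑ ^ 2 := by
        refine lintegral_mono fun ξ => ?_
        gcongr
        exact sum_MP_sq hN hs ξ
    _ ≤ ∫⁻ x, ‖f x‖ₑ ^ 2 := by
        simp_rw [one_mul]
        exact Vale.Agent.P117.lintegral_sq_fourier_le hf.int hf.meas

theorem adm_ind {f : E3 → ℂ} (hf : Adm volume f) {s : Set E3} (hs : MeasurableSet s) : Adm volume (s.indicator f) := by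
  obtain ⟨M, hM⟩ := hf.bdd
  exact ⟨hf.meas.indicator hs, hf.int.indicator hs, M, fun x => (norm_indicator_le_norm_self f x).trans (hM x)⟩

theorem wN_le (M' : ℕ) {N : ℕ} (hN : 1 ≤ N) (u : E3) : wN M' N u ≤ ENNReal.ofReal (((N:ℝ) ^ 3)⁻¹) := by
  unfold wN
  apply ENNReal.ofReal_le_ofReal
  have h : ((1 + ‖u‖ / N) ^ M')⁻¹ ≤ 1 := inv_le_one_of_one_le₀ (one_le_pow₀ (by
    have : 0 ≤ ‖u‖ / N := by positivity
    linarith))
  have h2 : 0 ≤ ((N:ℝ) ^ 3)⁻¹ := by positivity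
  nlinarith

/-- tail of the weight -/
theorem wN_tail {M' : ℕ} (hM : 4 ≤ M') {N : ℕ} (hN : 1 ≤ N) {ρ : ℝ} (hρ : 0 < ρ) (y : E3) :
    ∫⁻ u, (Metric.closedBall y (ρ * N))ᶜ.indicator (fun u => wN M' N (y - u)) u ≤ ENNReal.ofReal ((ρ ^ (M' - 4))⁻¹) * cW 4 := by
  have hN0 : (0:ℝ) < N := by exact_mod_cast hN
  calc _ ≤ ∫⁻ u, ENNReal.ofReal ((ρ ^ (M' - 4))⁻¹) * wN 4 N (y - u) := by
        refine lintegral_mono fun u => ?_
        by_cases hu : u ∈ (Metric.closedBall y (ρ * N))ᶜ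
        · rw [indicator_of_mem hu]
          rw [mem_compl_iff, Metric.mem_closedBall, dist_comm, dist_eq_norm, not_le] at hu
          unfold wN
          rw [← ENNReal.ofReal_mul (by positivity)]
          apply ENNReal.ofReal_le_ofReal
          have h1 : ρ ≤ 1 + ‖y - u‖ / N := by
            have : ρ ≤ ‖y - u‖ / N := by rw [le_div_iff₀ hN0]; exact hu.le
            linarith
          have h2 : ρ ^ (M' - 4) ≤ (1 + ‖y - u‖ / N) ^ (M' - 4) := pow_le_pow_left₀ hρ.le h1 _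
          have h3 : (1 + ‖y - u‖ / N) ^ M' = (1 + ‖y - u‖ / N) ^ (M' - 4) * (1 + ‖y - u‖ / N) ^ 4 := by
            rw [← pow_add]; congr 1; omega
          have h4 : ((1 + ‖y - u‖ / N) ^ (M' - 4))⁻¹ ≤ (ρ ^ (M' - 4))⁻¹ := inv_anti₀ (by positivity) h2
          rw [h3, mul_inv]
          calc ((N:ℝ) ^ 3)⁻¹ * (((1 + ‖y - u‖ / N) ^ (M' - 4))⁻¹ * ((1 + ‖y - u‖ / N) ^ 4)⁻¹) ≤
              ((N:ℝ) ^ 3)⁻¹ * ((ρ ^ (M' - 4))⁻¹ * ((1 + ‖y - u‖ / N) ^ 4)⁻¹) := by gcongr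
            _ = _ := by ring
        · rw [indicator_of_notMem hu]; exact zero_le
    _ = _ := by
        rw [lintegral_const_mul' _ _ ENNReal.ofReal_ne_top, lintegral_sub_left_eq_self (fun u => wN 4 N u) y, lint_wN 4 hN]

/-- far part -/
theorem far_bd {H : Hyp} {c : ℝ} {N : ℕ} {b1 b2 : ℝ} {k : ℤ × ℤ} (hsm : Sm (MP H c N b1 b2 k)) {ρ : ℝ} {T A0 : ℝ}
    (hT : ∫⁻ u : E3, {u : E3 | ρ * N ≤ ‖u‖}.indicator (fun u => ‖𝓕⁻ (MP H c N b1 b2 k) u‖ₑ) u ≤ ENNReal.ofReal T) {f : E3 → ℂ}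
    (hf : Adm volume f) (hA : ∀ x, ‖f x‖ ≤ A0) {y u : E3} (hu : u ∈ Metric.closedBall y (ρ * N)) :
    ‖mop (MP H c N b1 b2 k) ((Metric.closedBall y (2 * (ρ * N)))ᶜ.indicator f) u‖ₑ ≤ ENNReal.ofReal (T * A0) := by
  have hA0 : 0 ≤ A0 := (norm_nonneg _).trans (hA 0)
  have hms : MeasurableSet (Metric.closedBall y (2 * (ρ * N)))ᶜ := Metric.isClosed_closedBall.measurableSet.compl
  rw [Metric.mem_closedBall, dist_eq_norm] at hu
  refine (mop_pw hsm (hf.int.indicator hms) u).trans ?_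
  calc ∫⁻ x, ‖𝓕⁻ (MP H c N b1 b2 k) (u - x)‖ₑ * ‖(Metric.closedBall y (2 * (ρ * N)))ᶜ.indicator f x‖ₑ ≤
      ∫⁻ x, {u : E3 | ρ * N ≤ ‖u‖}.indicator (fun u => ‖𝓕⁻ (MP H c N b1 b2 k) u‖ₑ) (u - x) * ENNReal.ofReal A0 := by
        refine lintegral_mono fun x => ?_
        by_cases hx : x ∈ (Metric.closedBall y (2 * (ρ * N)))ᶜ
        · have hmem : u - x ∈ {u : E3 | ρ * N ≤ ‖u‖} := by
            rw [mem_compl_iff, Metric.mem_closedBall, dist_eq_norm, not_le] at hx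
            rw [mem_setOf_eq]
            have : x - y = (u - y) - (u - x) := by abel
            rw [this] at hx
            have := norm_sub_le (u - y) (u - x)
            linarith
          rw [indicator_of_mem hmem, indicator_of_mem hx]
          gcongr
          rw [← ofReal_norm]
          exact ENNReal.ofReal_le_ofReal (hA x)
        · rw [indicator_of_notMem hx]; simp
    _ = (∫⁻ x, {u : E3 | ρ * N ≤ ‖u‖}.indicator (fun u => ‖𝓕⁻ (MP H c N b1 b2 k) u‖ₑ) (u - x)) * ENNReal.ofReal A0 :=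
        lintegral_mul_const' _ _ ENNReal.ofReal_ne_top
    _ = (∫⁻ x, {u : E3 | ρ * N ≤ ‖u‖}.indicator (fun u => ‖𝓕⁻ (MP H c N b1 b2 k) u‖ₑ) x) * ENNReal.ofReal A0 := by
        congr 1
        exact lintegral_sub_left_eq_self (fun x => {u : E3 | ρ * N ≤ ‖u‖}.indicator (fun u => ‖𝓕⁻ (MP H c N b1 b2 k) u‖ₑ) x) u
    _ ≤ ENNReal.ofReal T * ENNReal.ofReal A0 := by gcongr
    _ = _ := by rw [ENNReal.ofReal_mul' hA0]

end Vale.Agent.P106.G
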