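import Vale.Agent.P106.G.KinG

/-! # The sum of the densities is bounded, conclusion -/

open MeasureTheory Complex Set Filter
open scoped ENNReal NNReal ContDiff FourierTransform Topology SchwartzMap

set_option linter.all false

namespace Vale.Agent.P106.G

open Vale.Agent.P117 (Adm contDiff_st cv cv_schwartz_eq)

theorem two_sq (a b : ℂ) : ‖a + b‖ₑ ^ 2 ≤ 2 * ‖a‖ₑ ^ 2 + 2 * ‖b‖ₑ ^ 2 := by
  rw [← ofReal_norm, ← ofReal_norm a, ← ofReal_norm b, ← ENNReal.ofReal_pow (norm_nonneg _), ← ENNReal.ofReal_pow (norm_nonneg _),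
    ← ENNReal.ofReal_pow (norm_nonneg _), show (2:ℝ≥0∞) = ENNReal.ofReal 2 by norm_num, ← ENNReal.ofReal_mul (by norm_num),
    ← ENNReal.ofReal_mul (by norm_num), ← ENNReal.ofReal_add (by positivity) (by positivity)]
  apply ENNReal.ofReal_le_ofReal
  have h := norm_add_le a b
  have h0 := norm_nonneg (a + b)
  nlinarith [sq_nonneg (‖a‖ - ‖b‖)]

theorem rho_pow {N : ℕ} (hN : 1 ≤ N) {ε : ℝ} (hε : 0 < ε) {m : ℕ} (hm : 6 / ε ≤ m) : (N:ℝ) ^ 2 ≤ ((N:ℝ) ^ (ε / 3)) ^ m := by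
  have hN1 : (1:ℝ) ≤ N := by exact_mod_cast hN
  rw [← Real.rpow_natCast, ← Real.rpow_natCast, ← Real.rpow_mul (by linarith)]
  apply Real.rpow_le_rpow_of_exponent_le hN1
  rw [div_le_iff₀ hε] at hm
  push_cast
  linarith

theorem rho_cube {N : ℕ} (ε : ℝ) : ((N:ℝ) ^ (ε / 3)) ^ 3 = (N:ℝ) ^ ε := by
  rw [← Real.rpow_natCast, ← Real.rpow_mul (by positivity)]
  congr 1
  push_cast
  ring

/-- one density -/
theorem nu_split {H : Hyp} {c : ℝ} {N : ℕ} (hN : 1 ≤ N) {b1 b2 : ℝ} {k : ℤ × ℤ} (hsm : Sm (MP H c N b1 b2 k)) {ρ T A0 A1 : ℝ} (hρ : 0 < ρ)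
    (hT0 : 0 ≤ T) (hA10 : 0 ≤ A1)
    (hT : ∫⁻ u : E3, {u : E3 | ρ * N ≤ ‖u‖}.indicator (fun u => ‖𝓕⁻ (MP H c N b1 b2 k) u‖ₑ) u ≤ ENNReal.ofReal T) {f : E3 → ℂ}
    (hf : Adm volume f) (hA : ∀ x, ‖f x‖ ≤ A0) (hA1 : ∀ x, ‖mop (MP H c N b1 b2 k) f x‖ₑ ≤ ENNReal.ofReal A1) {M' : ℕ} (hM : 4 ≤ M') (y : E3) :
    nu M' N (mop (MP H c N b1 b2 k) f) y ≤ ENNReal.ofReal (2 * ((N:ℝ) ^ 3)⁻¹) *
        (∫⁻ u, ‖mop (MP H c N b1 b2 k) ((Metric.closedBall y (2 * (ρ * N))).indicator f) u‖ₑ ^ 2) +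
      (ENNReal.ofReal (2 * ((N:ℝ) ^ 3)⁻¹ * (T * A0) ^ 2) * volume (Metric.closedBall y (ρ * N)) +
        ENNReal.ofReal (A1 ^ 2) * (ENNReal.ofReal ((ρ ^ (M' - 4))⁻¹) * cW 4)) := by
  have hA0 : 0 ≤ A0 := (norm_nonneg _).trans (hA 0)
  have hms : MeasurableSet (Metric.closedBall y (2 * (ρ * N))) := Metric.isClosed_closedBall.measurableSet
  have hms1 : MeasurableSet (Metric.closedBall y (ρ * N)) := Metric.isClosed_closedBall.measurableSet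
  set fn := (Metric.closedBall y (2 * (ρ * N))).indicator f with hfn
  set ff := (Metric.closedBall y (2 * (ρ * N)))ᶜ.indicator f with hff
  have hfna : Adm volume fn := adm_ind hf hms
  have hffa : Adm volume ff := adm_ind hf hms.compl
  have hsum : f = fun x => fn x + ff x := by
    ext x
    have := congrFun (indicator_self_add_compl (Metric.closedBall y (2 * (ρ * N))) f) x
    rw [hfn, hff]
    simpa using this.symm
  have hadd : ∀ u, mop (MP H c N b1 b2 k) f u = mop (MP H c N b1 b2 k) fn u + mop (MP H c N b1 b2 k) ff u := by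
    intro u
    rw [← mop_add hsm hfna hffa, ← hsum]
  have hpw : ∀ u, wN M' N (y - u) * ‖mop (MP H c N b1 b2 k) f u‖ₑ ^ 2 ≤
      ENNReal.ofReal (2 * ((N:ℝ) ^ 3)⁻¹) * ‖mop (MP H c N b1 b2 k) fn u‖ₑ ^ 2 +
      ((Metric.closedBall y (ρ * N)).indicator (fun _ => ENNReal.ofReal (2 * ((N:ℝ) ^ 3)⁻¹ * (T * A0) ^ 2)) u +
        ENNReal.ofReal (A1 ^ 2) * (Metric.closedBall y (ρ * N))ᶜ.indicator (fun u => wN M' N (y - u)) u) := by
    intro u
    by_cases hu : u ∈ Metric.closedBall y (ρ * N)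
    · rw [indicator_of_mem hu, indicator_of_notMem (show u ∉ (Metric.closedBall y (ρ * N))ᶜ from fun h => h hu), mul_zero, add_zero]
      have hfar := far_bd hsm hT hf hA hu
      rw [← hff] at hfar
      calc wN M' N (y - u) * ‖mop (MP H c N b1 b2 k) f u‖ₑ ^ 2 ≤
          ENNReal.ofReal (((N:ℝ) ^ 3)⁻¹) * (2 * ‖mop (MP H c N b1 b2 k) fn u‖ₑ ^ 2 + 2 * ENNReal.ofReal (T * A0) ^ 2) := by
            refine mul_le_mul' (wN_le M' hN _) ?_
            rw [hadd u]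
            refine (two_sq _ _).trans ?_
            gcongr
        _ = _ := by
            have e1 : ENNReal.ofReal (2 * ((N:ℝ) ^ 3)⁻¹) = ENNReal.ofReal (((N:ℝ) ^ 3)⁻¹) * 2 := by
              rw [mul_comm 2, ENNReal.ofReal_mul (by positivity)]; norm_num
            rw [ENNReal.ofReal_mul (q := (T * A0) ^ 2) (by positivity), e1, ENNReal.ofReal_pow (by positivity)]
            ring
    · rw [indicator_of_notMem hu, indicator_of_mem (show u ∈ (Metric.closedBall y (ρ * N))ᶜ from hu), zero_add]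
      refine le_trans ?_ (le_add_left le_rfl)
      rw [mul_comm]
      refine mul_le_mul' ?_ le_rfl
      rw [ENNReal.ofReal_pow hA10]
      exact pow_le_pow_left₀ (zero_le) (hA1 u) 2
  have hwm : Measurable (fun u : E3 => wN M' N (y - u)) := (measurable_wN M' N).comp (measurable_const.sub measurable_id)
  unfold nu
  calc ∫⁻ u, wN M' N (y - u) * ‖mop (MP H c N b1 b2 k) f u‖ₑ ^ 2 ≤
      ∫⁻ u, (ENNReal.ofReal (2 * ((N:ℝ) ^ 3)⁻¹) * ‖mop (MP H c N b1 b2 k) fn u‖ₑ ^ 2 +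
      ((Metric.closedBall y (ρ * N)).indicator (fun _ => ENNReal.ofReal (2 * ((N:ℝ) ^ 3)⁻¹ * (T * A0) ^ 2)) u +
        ENNReal.ofReal (A1 ^ 2) * (Metric.closedBall y (ρ * N))ᶜ.indicator (fun u => wN M' N (y - u)) u)) := lintegral_mono hpw
    _ = ENNReal.ofReal (2 * ((N:ℝ) ^ 3)⁻¹) * (∫⁻ u, ‖mop (MP H c N b1 b2 k) fn u‖ₑ ^ 2) +
        (ENNReal.ofReal (2 * ((N:ℝ) ^ 3)⁻¹ * (T * A0) ^ 2) * volume (Metric.closedBall y (ρ * N)) +
        ENNReal.ofReal (A1 ^ 2) * ∫⁻ u, (Metric.closedBall y (ρ * N))ᶜ.indicator (fun u => wN M' N (y - u)) u) := by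
        rw [lintegral_add_left (((mop_cont hsm hfna).measurable.enorm.pow_const 2).const_mul _),
          lintegral_const_mul' _ _ ENNReal.ofReal_ne_top, lintegral_add_left (measurable_const.indicator hms1),
          lintegral_const_mul' _ _ ENNReal.ofReal_ne_top, lintegral_indicator hms1, setLIntegral_const]
    _ ≤ _ := by
        gcongr
        exact wN_tail hM hN hρ y

/-- the sum of the densities -/
theorem sum_nu {c : ℝ} (hc : 0 < c) (hc1 : c ≤ 1) {ε : ℝ} (hε : 0 < ε) {M' : ℕ} (hM' : 6 / ε + 4 ≤ M') : ∃ C : ℝ, 0 ≤ C ∧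
    ∀ (H : Hyp) (N : ℕ) (b1 b2 : ℝ) (s : Finset (ℤ × ℤ)) (f : E3 → ℂ) (A0 : ℝ) (y : E3), H.ok2 → 1 ≤ N → s ⊆ grd N →
    (∀ k ∈ s, Cap (k.1 / N + b1) (k.2 / N + b2) (1 / N)) → Adm volume f → (∀ x, ‖f x‖ ≤ A0) →
    ∑ k ∈ s, nu M' N (mop (MP H c N b1 b2 k) f) y ≤ ENNReal.ofReal (C * A0 ^ 2 * (N:ℝ) ^ ε) := by
  obtain ⟨n, hn⟩ := exists_nat_ge (6 / ε)
  obtain ⟨C1, hC1, hT⟩ := tailK hc hc1 (n + 2)
  obtain ⟨BK, hBK, hBk⟩ := ker_L1 (r1_chiP hc hc1).toRcut vcut_psvP.vc vcut_psvP.vc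
  have hv : volume (Metric.ball (0:E3) 1) ≠ ⊤ := measure_ball_lt_top.ne
  set v := (volume (Metric.ball (0:E3) 1)).toReal with hvd
  have hv0 : 0 ≤ v := ENNReal.toReal_nonneg
  set w := (cW 4).toReal with hw
  have hwe : cW 4 = ENNReal.ofReal w := (ENNReal.ofReal_toReal cW4.ne).symm
  have hw0 : 0 ≤ w := ENNReal.toReal_nonneg
  refine ⟨16 * v + 2 * C1 ^ 2 * v + (BK + 1) ^ 2 * w, by positivity, ?_⟩
  intro H N b1 b2 s f A0 y hH hN hs hC hf hA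
  have hA0 : 0 ≤ A0 := (norm_nonneg _).trans (hA 0)
  have hN0 : (0:ℝ) < N := by exact_mod_cast hN
  have hN1 : (1:ℝ) ≤ N := by exact_mod_cast hN
  set ρ := (N:ℝ) ^ (ε / 3) with hρd
  have hρ1 : 1 ≤ ρ := Real.one_le_rpow hN1 (by positivity)
  have hρ : 0 < ρ := by linarith
  have hρ3 : ρ ^ 3 = (N:ℝ) ^ ε := rho_cube ε
  have hM4 : 4 ≤ M' := by
    have : (4:ℝ) ≤ M' := by have : 0 < 6 / ε := by positivity
                            linarith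
    exact_mod_cast this
  have hM : (N:ℝ) ^ 2 ≤ ρ ^ (M' - 4) := by
    apply rho_pow hN hε
    rw [Nat.cast_sub hM4]; push_cast; linarith
  have hsmk : ∀ k ∈ s, Sm (MP H c N b1 b2 k) := fun k hk => sm_MP hH hc hc1 (hC k hk)
  have hkn : ∀ k ∈ s, kn (MP H c N b1 b2 k) ≤ ENNReal.ofReal (BK + 1) := by
    intro k hk
    have hCk := hC k hk
    have hm := cap_m hH hCk
    have hm0 : 0 < H.m (k.1 / N + b1) (k.2 / N + b2) := by linarith [hm.1]
    unfold MP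
    rw [kn_AT (AT_det_ne (H := H) (β1 := k.1 / N + b1) (β2 := k.2 / N + b2) (τ := 1 / N) hm0 hCk.pos)]
    have e1 : (fun ξ => H.mu (chiP c) (capP (k.1 / N + b1) (1 / N)) (capP (k.2 / N + b2) (1 / N)) (mat3 (H.AT (k.1 / N + b1) (k.2 / N + b2) (1 / N)) ξ)) =
        (H.sub (k.1 / N + b1) (k.2 / N + b2) (1 / N)).mu (chiP c) psvP psvP := by
      ext ξ; exact kn_cap hH hCk hc hc1 ξ
    rw [e1]
    have := hBk _ (cap_ok hH hCk).ok 0
    rw [em_zero] at this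
    refine this.trans (ENNReal.ofReal_le_ofReal ?_)
    simp
  set T := C1 * (ρ ^ (n + 2))⁻¹ with hTd
  have hT0 : 0 ≤ T := by positivity
  set A1 := (BK + 1) * A0 with hA1d
  have hA10 : 0 ≤ A1 := by positivity
  have hb2 : volume (Metric.closedBall y (2 * (ρ * N))) = ENNReal.ofReal (8 * ρ ^ 3 * (N:ℝ) ^ 3 * v) := by
    rw [Measure.addHaar_closedBall _ _ (by positivity), finrank_euclideanSpace_fin, ENNReal.ofReal_mul' hv0, hvd, ENNReal.ofReal_toReal hv]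
    congr 2; ring
  have hb1 : volume (Metric.closedBall y (ρ * N)) = ENNReal.ofReal (ρ ^ 3 * (N:ℝ) ^ 3 * v) := by
    rw [Measure.addHaar_closedBall _ _ (by positivity), finrank_euclideanSpace_fin, ENNReal.ofReal_mul' hv0, hvd, ENNReal.ofReal_toReal hv]
    congr 2; ring
  have hms : MeasurableSet (Metric.closedBall y (2 * (ρ * N))) := Metric.isClosed_closedBall.measurableSet
  have hnear : ∫⁻ u, ‖(Metric.closedBall y (2 * (ρ * N))).indicator f u‖ₑ ^ 2 ≤ ENNReal.ofReal (A0 ^ 2 * (8 * ρ ^ 3 * (N:ℝ) ^ 3 * v)) := by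
    calc ∫⁻ u, ‖(Metric.closedBall y (2 * (ρ * N))).indicator f u‖ₑ ^ 2 ≤
        ∫⁻ u, (Metric.closedBall y (2 * (ρ * N))).indicator (fun _ => ENNReal.ofReal (A0 ^ 2)) u := by
          refine lintegral_mono fun u => ?_
          by_cases hu : u ∈ Metric.closedBall y (2 * (ρ * N))
          · rw [indicator_of_mem hu, indicator_of_mem hu, ← ofReal_norm, ← ENNReal.ofReal_pow (norm_nonneg _)]
            apply ENNReal.ofReal_le_ofReal
            exact pow_le_pow_left₀ (norm_nonneg _) (hA u) 2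
          · rw [indicator_of_notMem hu]; simp
      _ = _ := by
          rw [lintegral_indicator hms, setLIntegral_const, hb2, ← ENNReal.ofReal_mul (by positivity)]
  have hcard : (s.card : ℝ) ≤ (N:ℝ) ^ 2 := by
    have h1 := Finset.card_le_card hs
    have h2 : (grd N).card = N * N := by
      unfold grd
      rw [Finset.card_product]
      simp
    rw [h2] at h1
    have : (s.card : ℝ) ≤ ((N * N : ℕ) : ℝ) := by exact_mod_cast h1
    push_cast at this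
    nlinarith
  calc ∑ k ∈ s, nu M' N (mop (MP H c N b1 b2 k) f) y ≤
      ∑ k ∈ s, (ENNReal.ofReal (2 * ((N:ℝ) ^ 3)⁻¹) *
        (∫⁻ u, ‖mop (MP H c N b1 b2 k) ((Metric.closedBall y (2 * (ρ * N))).indicator f) u‖ₑ ^ 2) +
      (ENNReal.ofReal (2 * ((N:ℝ) ^ 3)⁻¹ * (T * A0) ^ 2) * volume (Metric.closedBall y (ρ * N)) +
        ENNReal.ofReal (A1 ^ 2) * (ENNReal.ofReal ((ρ ^ (M' - 4))⁻¹) * cW 4))) := by
        refine Finset.sum_le_sum fun k hk => ?_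
        refine nu_split hN (hsmk k hk) hρ hT0 hA10 ?_ hf hA ?_ hM4 y
        · exact hT H _ _ N ρ hH hN (hC k hk) hρ
        · intro x
          exact mop_sup (hsmk k hk) hf (hkn k hk) hA x
    _ = ENNReal.ofReal (2 * ((N:ℝ) ^ 3)⁻¹) *
        (∑ k ∈ s, ∫⁻ u, ‖mop (MP H c N b1 b2 k) ((Metric.closedBall y (2 * (ρ * N))).indicator f) u‖ₑ ^ 2) +
        s.card * (ENNReal.ofReal (2 * ((N:ℝ) ^ 3)⁻¹ * (T * A0) ^ 2) * volume (Metric.closedBall y (ρ * N)) +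
        ENNReal.ofReal (A1 ^ 2) * (ENNReal.ofReal ((ρ ^ (M' - 4))⁻¹) * cW 4)) := by
        rw [Finset.sum_add_distrib, Finset.mul_sum, Finset.sum_const, nsmul_eq_mul]
    _ ≤ ENNReal.ofReal (2 * ((N:ℝ) ^ 3)⁻¹) * ENNReal.ofReal (A0 ^ 2 * (8 * ρ ^ 3 * (N:ℝ) ^ 3 * v)) +
        ENNReal.ofReal ((N:ℝ) ^ 2) * (ENNReal.ofReal (2 * ((N:ℝ) ^ 3)⁻¹ * (T * A0) ^ 2) * ENNReal.ofReal (ρ ^ 3 * (N:ℝ) ^ 3 * v) +
        ENNReal.ofReal (A1 ^ 2) * (ENNReal.ofReal ((ρ ^ (M' - 4))⁻¹) * ENNReal.ofReal w)) := by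
        rw [hb1, hwe]
        gcongr
        · exact (sum_MP_L2 hH hc hc1 hN hs hC (adm_ind hf hms)).trans hnear
        · rw [← ENNReal.ofReal_natCast]
          exact ENNReal.ofReal_le_ofReal hcard
    _ ≤ _ := by
        rw [← ENNReal.ofReal_mul (by positivity), ← ENNReal.ofReal_mul (by positivity), ← ENNReal.ofReal_mul (by positivity),
          ← ENNReal.ofReal_mul (by positivity), ← ENNReal.ofReal_add (by positivity) (by positivity),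
          ← ENNReal.ofReal_mul (by positivity), ← ENNReal.ofReal_add (by positivity) (by positivity)]
        apply ENNReal.ofReal_le_ofReal
        rw [← hρ3]
        have e1 : 2 * ((N:ℝ) ^ 3)⁻¹ * (A0 ^ 2 * (8 * ρ ^ 3 * (N:ℝ) ^ 3 * v)) = 16 * v * A0 ^ 2 * ρ ^ 3 := by
          field_simp; ring
        have hρp : (N:ℝ) ^ 2 ≤ ρ ^ n := rho_pow hN hε hn
        have e2 : (N:ℝ) ^ 2 * (2 * ((N:ℝ) ^ 3)⁻¹ * (T * A0) ^ 2 * (ρ ^ 3 * (N:ℝ) ^ 3 * v)) ≤ 2 * C1 ^ 2 * v * A0 ^ 2 * ρ ^ 3 := by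
          have e3 : (N:ℝ) ^ 2 * (2 * ((N:ℝ) ^ 3)⁻¹ * (T * A0) ^ 2 * (ρ ^ 3 * (N:ℝ) ^ 3 * v)) =
              (N:ℝ) ^ 2 * ((ρ ^ (n + 2))⁻¹) ^ 2 * (2 * C1 ^ 2 * v * A0 ^ 2 * ρ ^ 3) := by
            rw [hTd]; field_simp
          rw [e3]
          have e4 : (N:ℝ) ^ 2 * ((ρ ^ (n + 2))⁻¹) ^ 2 ≤ 1 := by
            have h1 : ρ ^ n ≤ (ρ ^ (n + 2)) ^ 2 := by
              rw [← pow_mul]
              exact pow_le_pow_right₀ hρ1 (by omega)
            rw [inv_pow, ← div_eq_mul_inv, div_le_one (by positivity)]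
            exact hρp.trans h1
          exact mul_le_of_le_one_left (by positivity) e4
        have e5 : (N:ℝ) ^ 2 * (A1 ^ 2 * ((ρ ^ (M' - 4))⁻¹ * w)) ≤ (BK + 1) ^ 2 * w * A0 ^ 2 * ρ ^ 3 := by
          have e6 : (N:ℝ) ^ 2 * (A1 ^ 2 * ((ρ ^ (M' - 4))⁻¹ * w)) = ((N:ℝ) ^ 2 * (ρ ^ (M' - 4))⁻¹) * ((BK + 1) ^ 2 * w * A0 ^ 2) := by
            rw [hA1d]; ring
          rw [e6]
          have e7 : (N:ℝ) ^ 2 * (ρ ^ (M' - 4))⁻¹ ≤ 1 := by
            rw [← div_eq_mul_inv, div_le_one (by positivity)]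
            exact hM
          have e8 : (1:ℝ) ≤ ρ ^ 3 := one_le_pow₀ hρ1
          calc _ ≤ 1 * ((BK + 1) ^ 2 * w * A0 ^ 2) := mul_le_mul_of_nonneg_right e7 (by positivity)
            _ = (BK + 1) ^ 2 * w * A0 ^ 2 * 1 := by ring
            _ ≤ _ := mul_le_mul_of_nonneg_left e8 (by positivity)
        calc _ = 2 * ((N:ℝ) ^ 3)⁻¹ * (A0 ^ 2 * (8 * ρ ^ 3 * (N:ℝ) ^ 3 * v)) +
            ((N:ℝ) ^ 2 * (2 * ((N:ℝ) ^ 3)⁻¹ * (T * A0) ^ 2 * (ρ ^ 3 * (N:ℝ) ^ 3 * v)) + (N:ℝ) ^ 2 * (A1 ^ 2 * ((ρ ^ (M' - 4))⁻¹ * w))) := by ring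
          _ ≤ 16 * v * A0 ^ 2 * ρ ^ 3 + (2 * C1 ^ 2 * v * A0 ^ 2 * ρ ^ 3 + (BK + 1) ^ 2 * w * A0 ^ 2 * ρ ^ 3) := by
              rw [e1]
              exact add_le_add le_rfl (add_le_add e2 e5)
          _ = _ := by ring

end Vale.Agent.P106.G
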