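import Vale.Agent.P106.G.KinH

/-! # Decomposition into cap pieces over four shifted grids -/

open MeasureTheory Complex Set Filter
open scoped ENNReal NNReal ContDiff FourierTransform Topology SchwartzMap

set_option linter.all false

namespace Vale.Agent.P106.G

open Vale.Agent.P117 (Adm contDiff_st cv cv_schwartz_eq)

/-- shifts of the grids -/
noncomputable def sf (N : ℕ) (j : Fin 2) : ℝ := (((j : ℕ) : ℝ) / 2 - 1/4) / N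

theorem sf_le {N : ℕ} (hN : 1 ≤ N) (j : Fin 2) : |sf N j| ≤ 1/4 / N := by
  have hN0 : (0:ℝ) < N := by exact_mod_cast hN
  unfold sf
  rw [abs_div, abs_of_pos hN0]
  apply div_le_div_of_nonneg_right _ hN0.le
  fin_cases j <;> norm_num [abs_le]

theorem capc_eq {N : ℕ} (hN : 1 ≤ N) (k : ℤ) (j : Fin 2) (v : ℝ) :
    capc (k / N + sf N j) (1 / N) v = psi (2 * N * v - (2 * k + ((j : ℕ) : ℝ))) := by
  have hN0 : (0:ℝ) < N := by exact_mod_cast hN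
  unfold capc psv sf
  congr 1
  field_simp
  ring

theorem psi_pair (t : ℝ) (k : ℤ) : psi (t - (2 * k + ((0:ℕ) : ℝ))) + psi (t - (2 * k + ((1:ℕ) : ℝ))) =
    stp (t - 2 * k) - stp (t - 2 * (k + 1)) := by
  unfold psi
  have e1 : t - (2 * (k:ℝ) + ((0:ℕ) : ℝ)) = t - 2 * k := by push_cast; ring
  have e2 : t - (2 * (k:ℝ) + ((0:ℕ) : ℝ)) - 1 = t - (2 * k + ((1:ℕ) : ℝ)) := by push_cast; ring
  have e3 : t - (2 * (k:ℝ) + ((1:ℕ) : ℝ)) - 1 = t - 2 * (k + 1) := by push_cast; ring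
  rw [e2, e1, e3]
  ring

theorem sum_psi2 (t : ℝ) (n : ℕ) : ∑ k ∈ Finset.Ico (0:ℤ) n, (psi (t - (2 * k + ((0:ℕ) : ℝ))) + psi (t - (2 * k + ((1:ℕ) : ℝ)))) =
    stp t - stp (t - 2 * n) := by
  induction n with
  | zero => simp
  | succ n ih =>
    have e : Finset.Ico (0:ℤ) ((n + 1 : ℕ) : ℤ) = insert (n:ℤ) (Finset.Ico (0:ℤ) n) := by
      ext x
      simp only [Finset.mem_Ico, Finset.mem_insert]
      push_cast
      omega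
    rw [e, Finset.sum_insert (by simp), ih, psi_pair]
    push_cast
    ring

theorem sum_capc {N : ℕ} (hN : 1 ≤ N) {v : ℝ} (h1 : 1/8 ≤ v) (h2 : v ≤ 7/8) :
    ∑ k ∈ Finset.Ico (0:ℤ) N, ∑ j : Fin 2, capc (k / N + sf N j) (1 / N) v = 1 := by
  have hN1 : (1:ℝ) ≤ N := by exact_mod_cast hN
  have e : ∀ k ∈ Finset.Ico (0:ℤ) N, ∑ j : Fin 2, capc (k / N + sf N j) (1 / N) v =
      psi (2 * N * v - (2 * k + ((0:ℕ) : ℝ))) + psi (2 * N * v - (2 * k + ((1:ℕ) : ℝ))) := by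
    intro k _
    rw [Fin.sum_univ_two, capc_eq hN, capc_eq hN]
    rfl
  rw [Finset.sum_congr rfl e, sum_psi2, stp_one (by nlinarith), stp_zero (by nlinarith), sub_zero]

/-- relevant caps -/
noncomputable def sK (φ1 φ2 : ℝ → ℂ) (N : ℕ) : Finset (ℤ × ℤ) := by
  classical exact (grd N).filter (fun k => (∃ v, φ1 v ≠ 0 ∧ |(k.1:ℝ) / N - v| ≤ 2 / N) ∧ (∃ v, φ2 v ≠ 0 ∧ |(k.2:ℝ) / N - v| ≤ 2 / N))

theorem mem_sK {φ1 φ2 : ℝ → ℂ} {N : ℕ} {k : ℤ × ℤ} : k ∈ sK φ1 φ2 N ↔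
    k ∈ grd N ∧ (∃ v, φ1 v ≠ 0 ∧ |(k.1:ℝ) / N - v| ≤ 2 / N) ∧ (∃ v, φ2 v ≠ 0 ∧ |(k.2:ℝ) / N - v| ≤ 2 / N) := by
  classical
  unfold sK
  rw [Finset.mem_filter]

theorem sK_sub (φ1 φ2 : ℝ → ℂ) (N : ℕ) : sK φ1 φ2 N ⊆ grd N := fun k hk => (mem_sK.1 hk).1

theorem cap_aux {N : ℕ} (hN : 32 ≤ N) {x v : ℝ} {j : Fin 2} (h1 : 1/8 ≤ v) (h2 : v ≤ 7/8) (h3 : |x - v| ≤ 2 / N) :
    0 ≤ x ∧ x + 1 / N ≤ 1 ∧ 0 ≤ x + sf N j ∧ x + sf N j + 1 / N ≤ 1 := by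
  have hN0 : (0:ℝ) < N := by
    have : 0 < N := by omega
    exact_mod_cast this
  have hN32 : (32:ℝ) ≤ N := by exact_mod_cast hN
  have h4 : 1 / (N:ℝ) ≤ 1 / 32 := one_div_le_one_div_of_le (by norm_num) hN32
  have h5 := abs_le.1 (sf_le (by omega : 1 ≤ N) j)
  have h6 := abs_le.1 h3
  have e1 : 2 / (N:ℝ) = 2 * (1 / N) := by ring
  have e2 : 1/4 / (N:ℝ) = 1/4 * (1 / N) := by ring
  rw [e1] at h6
  rw [e2] at h5
  refine ⟨?_, ?_, ?_, ?_⟩ <;> linarith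

theorem cap_sK {φ1 φ2 : ℝ → ℂ} (h1 : Vcut φ1) (h2 : Vcut φ2) {N : ℕ} (hN : 32 ≤ N) {k : ℤ × ℤ} (hk : k ∈ sK φ1 φ2 N) (j1 j2 : Fin 2) :
    Cap (k.1 / N + sf N j1) (k.2 / N + sf N j2) (1 / N) ∧ (0 ≤ (k.1:ℝ) / N ∧ (k.1:ℝ) / N + 1 / N ≤ 1) ∧
      (0 ≤ (k.2:ℝ) / N ∧ (k.2:ℝ) / N + 1 / N ≤ 1) := by
  have hN0 : (0:ℝ) < N := by
    have : 0 < N := by omega
    exact_mod_cast this
  obtain ⟨_, ⟨v1, g1, g2⟩, v2, g3, g4⟩ := mem_sK.1 hk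
  obtain ⟨a1, a2⟩ := h1.supp v1 g1
  obtain ⟨a3, a4⟩ := h2.supp v2 g3
  obtain ⟨b1, b2, b3, b4⟩ := cap_aux (j := j1) hN a1 a2 g2
  obtain ⟨b5, b6, b7, b8⟩ := cap_aux (j := j2) hN a3 a4 g4
  exact ⟨⟨by positivity, b3, b4, b7, b8⟩, ⟨b1, b2⟩, b5, b6⟩

/-- a cap which meets the support of the cut-offs is relevant -/
theorem rel_cap {N : ℕ} (hN : 1 ≤ N) {φ : ℝ → ℂ} {k : ℤ} {j : Fin 2} {v : ℝ} (h : φ v ≠ 0) (h2 : capc (k / N + sf N j) (1 / N) v ≠ 0) :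
    |(k:ℝ) / N - v| ≤ 2 / N := by
  have hN0 : (0:ℝ) < N := by exact_mod_cast hN
  obtain ⟨h3, h4⟩ := capc_supp (by positivity) h2
  have h5 := abs_le.1 (sf_le hN j)
  have e1 : 2 / (N:ℝ) = 2 * (1 / N) := by ring
  have e2 : 1/4 / (N:ℝ) = 1/4 * (1 / N) := by ring
  have h6 : 0 < 1 / (N:ℝ) := by positivity
  rw [e1, abs_le]
  rw [e2] at h5
  constructor <;> linarith

/-- multiplier of the pieces -/
noncomputable def Mc (H : Hyp) (c : ℝ) (N : ℕ) (o : Fin 2 × Fin 2) (k : ℤ × ℤ) : E3 → ℂ :=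
  H.mu (chi0 c) (capc (k.1 / N + sf N o.1) (1 / N)) (capc (k.2 / N + sf N o.2) (1 / N))

theorem prod_sum_aux (a b : ℂ) (F G : ℤ → Fin 2 → ℂ) (s : Finset ℤ) :
    ∑ o : Fin 2 × Fin 2, ∑ k ∈ s ×ˢ s, a * (b * (F k.1 o.1 * G k.2 o.2)) =
      a * (b * ((∑ k ∈ s, ∑ j : Fin 2, F k j) * (∑ k ∈ s, ∑ j : Fin 2, G k j))) := by
  simp_rw [← Finset.mul_sum]
  congr 2
  rw [Finset.sum_comm (s := s) (t := Finset.univ) (f := fun k j => F k j), Finset.sum_comm (s := s) (t := Finset.univ) (f := fun k j => G k j),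
    Finset.sum_mul_sum, Fintype.sum_prod_type]
  refine Finset.sum_congr rfl fun o1 _ => Finset.sum_congr rfl fun o2 _ => ?_
  rw [Finset.sum_mul_sum, Finset.sum_product]

/-- decomposition of the multiplier -/
theorem mu_dec {H : Hyp} (hH : H.ok2) {c : ℝ} (hc : 0 < c) (hc1 : c ≤ 1) {N : ℕ} (hN : 1 ≤ N) {φ1 φ2 : ℝ → ℂ} (h1 : Vcut φ1)
    (h2 : Vcut φ2) (ξ : E3) :
    H.mu (chi0 c) φ1 φ2 ξ = ∑ o : Fin 2 × Fin 2, ∑ k ∈ sK φ1 φ2 N, Mc H c N o k ξ * H.mu (chiP c) φ1 φ2 ξ := by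
  set v1 := H.Om ξ 1 / H.Om ξ 0 with hv1
  set v2 := H.Om ξ 2 / H.Om ξ 0 with hv2
  have e0 : ∀ (o : Fin 2 × Fin 2) (k : ℤ × ℤ), Mc H c N o k ξ * H.mu (chiP c) φ1 φ2 ξ =
      (Real.smoothTransition (4 * H.B ξ - 1) : ℂ) * (chi0 c (H.Om ξ 0) *
        ((φ1 v1 * capc (k.1 / N + sf N o.1) (1 / N) v1) * (φ2 v2 * capc (k.2 / N + sf N o.2) (1 / N) v2))) := by
    intro o k
    unfold Mc
    rw [mul_comm, mu_mul hH.ok.bd (r1_chiP hc hc1) h1.vc h2.vc]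
    unfold Hyp.mu
    have e : chiP c (H.Om ξ 0) * chi0 c (H.Om ξ 0) = chi0 c (H.Om ξ 0) := by rw [mul_comm, chi0_mul_chiP hc]
    beta_reduce
    rw [e]
  have e1 : ∀ o : Fin 2 × Fin 2, ∑ k ∈ sK φ1 φ2 N, Mc H c N o k ξ * H.mu (chiP c) φ1 φ2 ξ =
      ∑ k ∈ grd N, Mc H c N o k ξ * H.mu (chiP c) φ1 φ2 ξ := by
    intro o
    apply Finset.sum_subset (sK_sub φ1 φ2 N)
    intro k hk hks
    rw [e0]
    by_contra hne
    apply hks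
    have g1 := right_ne_zero_of_mul (right_ne_zero_of_mul hne)
    have g2 := left_ne_zero_of_mul g1
    have g3 := right_ne_zero_of_mul g1
    exact mem_sK.2 ⟨hk, ⟨v1, left_ne_zero_of_mul g2, rel_cap hN (left_ne_zero_of_mul g2) (right_ne_zero_of_mul g2)⟩,
      ⟨v2, left_ne_zero_of_mul g3, rel_cap hN (left_ne_zero_of_mul g3) (right_ne_zero_of_mul g3)⟩⟩
  simp_rw [e1]
  have e2 : ∑ o : Fin 2 × Fin 2, ∑ k ∈ grd N, Mc H c N o k ξ * H.mu (chiP c) φ1 φ2 ξ =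
      (Real.smoothTransition (4 * H.B ξ - 1) : ℂ) * (chi0 c (H.Om ξ 0) *
        ((φ1 v1 * ∑ k ∈ Finset.Ico (0:ℤ) N, ∑ j : Fin 2, capc (k / N + sf N j) (1 / N) v1) *
         (φ2 v2 * ∑ k ∈ Finset.Ico (0:ℤ) N, ∑ j : Fin 2, capc (k / N + sf N j) (1 / N) v2))) := by
    simp_rw [e0]
    unfold grd
    rw [prod_sum_aux _ _ (fun k j => φ1 v1 * capc (k / N + sf N j) (1 / N) v1) (fun k j => φ2 v2 * capc (k / N + sf N j) (1 / N) v2)]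
    simp_rw [Finset.mul_sum]
  rw [e2]
  have key : ∀ {φ : ℝ → ℂ} (hφ : Vcut φ) (v : ℝ), φ v * ∑ k ∈ Finset.Ico (0:ℤ) N, ∑ j : Fin 2, capc (k / N + sf N j) (1 / N) v = φ v := by
    intro φ hφ v
    by_cases h : φ v = 0
    · rw [h, zero_mul]
    · obtain ⟨a1, a2⟩ := hφ.supp v h
      rw [sum_capc hN a1 a2, mul_one]
  rw [key h1, key h2]
  rfl

theorem sm_Mc {H : Hyp} (hH : H.ok2) {c : ℝ} (hc : 0 < c) (hc1 : c ≤ 1) {N : ℕ} {o : Fin 2 × Fin 2} {k : ℤ × ℤ}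
    (hC : Cap (k.1 / N + sf N o.1) (k.2 / N + sf N o.2) (1 / N)) : Sm (Mc H c N o k) :=
  sm_mu hH.ok (r1_chi0 hc hc1).toRcut (vc_capc hC.pos hC.l1 hC.r1) (vc_capc hC.pos hC.l2 hC.r2)

theorem Mc_mul_MP {H : Hyp} (hH : H.ok2) {c : ℝ} (hc : 0 < c) (hc1 : c ≤ 1) {N : ℕ} {o : Fin 2 × Fin 2} {k : ℤ × ℤ}
    (hC : Cap (k.1 / N + sf N o.1) (k.2 / N + sf N o.2) (1 / N)) (ξ : E3) :
    Mc H c N o k ξ * MP H c N (sf N o.1) (sf N o.2) k ξ = Mc H c N o k ξ := by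
  unfold Mc MP
  rw [mu_mul hH.ok.bd (r1_chi0 hc hc1) (vc_capc hC.pos hC.l1 hC.r1) (vc_capc hC.pos hC.l2 hC.r2)]
  unfold Hyp.mu
  beta_reduce
  rw [chi0_mul_chiP hc, capc_mul_capP, capc_mul_capP]

/-- composition of multipliers -/
theorem U_mop (H : Hyp) (M1 : E3 → ℂ) {M2 h : E3 → ℂ} (hM : Sm M2) (hh : Adm volume h) (t : ℝ) (y : E3) :
    H.U (fun ξ => M1 ξ * M2 ξ) h t y = H.U M1 (mop M2 h) t y := by
  unfold Hyp.U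
  have e : (fun ξ : E3 => cexp (2 * Real.pi * I * (t * H.om ξ : ℝ)) * (M1 ξ * 𝓕 (mop M2 h) ξ)) =
      fun ξ : E3 => cexp (2 * Real.pi * I * (t * H.om ξ : ℝ)) * ((M1 ξ * M2 ξ) * 𝓕 h ξ) := by
    ext ξ
    rw [mop_fourier hM hh ξ]
    ring
  rw [e]

/-- pieces of the data -/
noncomputable def gp (H : Hyp) (c : ℝ) (N : ℕ) (h0 : E3 → ℂ) (o : Fin 2 × Fin 2) (k : ℤ × ℤ) : E3 → ℂ :=
  mop (MP H c N (sf N o.1) (sf N o.2) k) h0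

/-- decomposition of the solution -/
theorem U_dec {H : Hyp} (hH : H.ok2) {c : ℝ} (hc : 0 < c) (hc1 : c ≤ 1) {N : ℕ} (hN : 32 ≤ N) {φ1 φ2 : ℝ → ℂ} (h1 : Vcut φ1)
    (h2 : Vcut φ2) {h : E3 → ℂ} (hh : Adm volume h) (t : ℝ) (y : E3) :
    H.U (H.mu (chi0 c) φ1 φ2) h t y = ∑ o : Fin 2 × Fin 2, ∑ k ∈ sK φ1 φ2 N,
      H.U (Mc H c N o k) (gp H c N (mop (H.mu (chiP c) φ1 φ2) h) o k) t y := by
  have hN1 : 1 ≤ N := by omega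
  have hsmP : Sm (H.mu (chiP c) φ1 φ2) := sm_mu hH.ok (r1_chiP hc hc1).toRcut h1.vc h2.vc
  have hh0 : Adm volume (mop (H.mu (chiP c) φ1 φ2) h) := mop_adm hsmP hh
  have hd := fun ξ => mu_dec hH hc hc1 hN1 h1 h2 ξ
  simp_rw [← Finset.sum_product'] at hd
  rw [← Finset.sum_product' (f := fun o k => H.U (Mc H c N o k) (gp H c N (mop (H.mu (chiP c) φ1 φ2) h) o k) t y)]
  rw [U_sum H (Finset.univ ×ˢ sK φ1 φ2 N) (M := fun x ξ => Mc H c N x.1 x.2 ξ * H.mu (chiP c) φ1 φ2 ξ) ?_ hh.int hd t y]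
  · refine Finset.sum_congr rfl fun x hx => ?_
    have hC := (cap_sK h1 h2 hN (Finset.mem_product.1 hx).2 x.1.1 x.1.2).1
    rw [U_mop H _ hsmP hh]
    unfold gp
    rw [← U_mop H _ (sm_MP hH hc hc1 hC) hh0]
    congr 1
    ext ξ
    exact (Mc_mul_MP hH hc hc1 hC ξ).symm
  · intro x hx
    have hC := (cap_sK h1 h2 hN (Finset.mem_product.1 hx).2 x.1.1 x.1.2).1
    exact ((sm_Mc hH hc hc1 hC).mul hsmP).int

end Vale.Agent.P106.G
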