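import Vale.Agent.P106.G.KinI

/-! # The amplitudes of the cap pieces: supports -/

open MeasureTheory Complex Set Filter
open scoped ENNReal NNReal ContDiff FourierTransform Topology SchwartzMap

set_option linter.all false

namespace Vale.Agent.P106.G

open Vale.Agent.P117 (Adm contDiff_st cv cv_schwartz_eq)

theorem mu_cone' {H : Hyp} (hb : H.Bd) {χ φ1 φ2 : ℝ → ℂ} (hχ : R1 χ) (h1 : Vc φ1) (h2 : Vc φ2) {ξ : E3}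
    (h : H.mu χ φ1 φ2 ξ ≠ 0) : 1 ≤ H.Om ξ 0 ∧ H.om ξ = hc (H.Om ξ) ∧ χ (H.Om ξ 0) ≠ 0 ∧ φ1 (H.Om ξ 1 / H.Om ξ 0) ≠ 0 ∧
      φ2 (H.Om ξ 2 / H.Om ξ 0) ≠ 0 := by
  obtain ⟨hB, ⟨hw0, hw0'⟩, hv1, hv2⟩ := mu_supp hb hχ.toRcut h1 h2 h
  have hwne : H.Om ξ 0 ≠ 0 := by linarith
  have hB0 : 0 < H.B ξ := by linarith
  have h3 := right_ne_zero_of_mul (mu_eq H χ φ1 φ2 ξ ▸ h)
  have h4 := left_ne_zero_of_mul h3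
  have h5 := right_ne_zero_of_mul h3
  exact ⟨hχ.ge1 _ h4, (Hyp.hc_Om hb.D0 hB0 hwne).symm, h4, left_ne_zero_of_mul h5, right_ne_zero_of_mul h5⟩

/-- elementary estimates near the cone -/
theorem near_cone {g0 g1 g2 g3 z0 z1 z2 z3 κ : ℝ} (hg0 : 1 ≤ g0) (hg0' : g0 ≤ 2) (h1 : 0 ≤ g1 / g0) (h1' : g1 / g0 ≤ 1)
    (h2 : 0 ≤ g2 / g0) (h2' : g2 / g0 ≤ 1) (h3 : g3 = (g1 ^ 2 + g2 ^ 2) / g0) (hz0 : 1 ≤ z0) (hz1u : z1 / z0 ≤ 1) (hz1l : 0 ≤ z1 / z0)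
    (hz2u : z2 / z0 ≤ 1) (hz2l : 0 ≤ z2 / z0)
    (d0 : |z0 - g0| ≤ κ) (d1 : |z1 / z0 - g1 / g0| ≤ 2 * κ) (d2 : |z2 / z0 - g2 / g0| ≤ 2 * κ) (d3 : |z3 - g3| ≤ κ) :
    |z3 - (z1 ^ 2 + z2 ^ 2) / z0| ≤ 19 * κ := by
  have hκ : 0 ≤ κ := (abs_nonneg _).trans d0
  set u1 := g1 / g0 with hu1
  set u2 := g2 / g0 with hu2
  set w1 := z1 / z0 with hw1
  set w2 := z2 / z0 with hw2
  have hg : 0 < g0 := by linarith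
  have hz : 0 < z0 := by linarith
  have e1 : (z1 ^ 2 + z2 ^ 2) / z0 = (w1 ^ 2 + w2 ^ 2) * z0 := by rw [hw1, hw2]; field_simp
  have e2 : g3 = (u1 ^ 2 + u2 ^ 2) * g0 := by rw [h3, hu1, hu2]; field_simp
  have e3 : z3 - (z1 ^ 2 + z2 ^ 2) / z0 = (z3 - g3) - (w1 ^ 2 + w2 ^ 2) * (z0 - g0) - ((w1 - u1) * (w1 + u1) + (w2 - u2) * (w2 + u2)) * g0 := by
    rw [e1, e2]; ring
  have b1 : |(w1 ^ 2 + w2 ^ 2) * (z0 - g0)| ≤ 2 * κ := by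
    rw [abs_mul, abs_of_nonneg (by positivity)]
    have : w1 ^ 2 + w2 ^ 2 ≤ 2 := by nlinarith
    exact mul_le_mul this d0 (abs_nonneg _) (by norm_num)
  have b2 : |(w1 - u1) * (w1 + u1)| ≤ 2 * κ * 2 := by
    rw [abs_mul, abs_of_nonneg (by linarith : 0 ≤ w1 + u1)]
    exact mul_le_mul d1 (by linarith) (by linarith) (by positivity)
  have b3 : |(w2 - u2) * (w2 + u2)| ≤ 2 * κ * 2 := by
    rw [abs_mul, abs_of_nonneg (by linarith : 0 ≤ w2 + u2)]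
    exact mul_le_mul d2 (by linarith) (by linarith) (by positivity)
  have b4 : |((w1 - u1) * (w1 + u1) + (w2 - u2) * (w2 + u2)) * g0| ≤ (2 * κ * 2 + 2 * κ * 2) * 2 := by
    rw [abs_mul, abs_of_pos hg]
    exact mul_le_mul ((abs_add_le _ _).trans (add_le_add b2 b3)) hg0' hg.le (by positivity)
  rw [e3]
  calc _ ≤ |z3 - g3| + |(w1 ^ 2 + w2 ^ 2) * (z0 - g0)| + |((w1 - u1) * (w1 + u1) + (w2 - u2) * (w2 + u2)) * g0| :=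
        (abs_sub _ _).trans (add_le_add (abs_sub _ _) le_rfl)
    _ ≤ _ := by linarith

theorem ratio_near {g0 g1 z0 z1 κ : ℝ} (hg0 : 1 ≤ g0) (h1 : |g1 / g0| ≤ 1) (hz0 : 1 ≤ z0)
    (d0 : |z0 - g0| ≤ κ) (d1 : |z1 - g1| ≤ κ) : |z1 / z0 - g1 / g0| ≤ 2 * κ := by
  have hκ : 0 ≤ κ := (abs_nonneg _).trans d0
  have hg : 0 < g0 := by linarith
  have hz : 0 < z0 := by linarith
  have e : z1 / z0 - g1 / g0 = ((z1 - g1) - g1 / g0 * (z0 - g0)) / z0 := by field_simp; ring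
  rw [e, abs_div, abs_of_pos hz]
  refine (div_le_self (abs_nonneg _) hz0).trans ?_
  have : |g1 / g0 * (z0 - g0)| ≤ 1 * κ := by
    rw [abs_mul]; exact mul_le_mul h1 d0 (abs_nonneg _) (by norm_num)
  calc _ ≤ |z1 - g1| + |g1 / g0 * (z0 - g0)| := abs_sub _ _
    _ ≤ _ := by linarith

theorem Ga_cone {H : Hyp} {b1 b2 : ℝ} {ξ : E3} (hw : 1 ≤ H.Om ξ 0) (hom : H.om ξ = hc (H.Om ξ)) :
    Ga H b1 b2 ξ 0 = H.Om ξ 0 ∧ Ga H b1 b2 ξ 1 / Ga H b1 b2 ξ 0 = H.Om ξ 1 / H.Om ξ 0 - b1 ∧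
    Ga H b1 b2 ξ 2 / Ga H b1 b2 ξ 0 = H.Om ξ 2 / H.Om ξ 0 - b2 ∧
    Ga H b1 b2 ξ 3 = (Ga H b1 b2 ξ 1 ^ 2 + Ga H b1 b2 ξ 2 ^ 2) / Ga H b1 b2 ξ 0 := by
  have hw0 : 0 < H.Om ξ 0 := by linarith
  rw [Ga0, Ga1, Ga2, Ga3, hom]
  unfold hc
  refine ⟨rfl, ?_, ?_, ?_⟩
  · field_simp
  · field_simp
  · field_simp; ring

theorem grd_bd3 {N : ℕ} (hN : 1 ≤ N) {k : ℤ × ℤ} (hk : k ∈ grd N) :
    ((0:ℝ) ≤ k.1 / N ∧ (k.1:ℝ) / N + 1 / N ≤ 1) ∧ ((0:ℝ) ≤ k.2 / N ∧ (k.2:ℝ) / N + 1 / N ≤ 1) := by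
  have hN0 : (0:ℝ) < N := by exact_mod_cast hN
  have hk' := Finset.mem_product.1 hk
  rw [Finset.mem_Ico, Finset.mem_Ico] at hk'
  have a1 : (0:ℝ) ≤ k.1 := by exact_mod_cast hk'.1.1
  have a2 : (k.1:ℝ) + 1 ≤ N := by exact_mod_cast hk'.1.2
  have a3 : (0:ℝ) ≤ k.2 := by exact_mod_cast hk'.2.1
  have a4 : (k.2:ℝ) + 1 ≤ N := by exact_mod_cast hk'.2.2
  refine ⟨⟨by positivity, ?_⟩, by positivity, ?_⟩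
  · rw [← add_div, div_le_one hN0]; exact a2
  · rw [← add_div, div_le_one hN0]; exact a4

/-- the real-variable part of the location of the support -/
theorem loc_aux {N c κ g0 g1 g2 g3 z0 z1 z2 z3 x1 x2 : ℝ} (hN1 : 1 ≤ N) (hκ : 0 < κ) (hκc : κ ≤ c / 8) (hκN : κ ≤ 1/64 / N ^ 2)
    (hc1 : c ≤ 1) (p1 : 1 + c / 8 ≤ g0) (p2 : g0 ≤ 1 + 7 * c / 8) (G3 : g3 = (g1 ^ 2 + g2 ^ 2) / g0)
    (hx1 : 0 ≤ x1) (hx1' : x1 + 1 / N ≤ 1) (hx2 : 0 ≤ x2) (hx2' : x2 + 1 / N ≤ 1)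
    (u1 : x1 + 3/16 * (1 / N) ≤ g1 / g0) (u1' : g1 / g0 ≤ x1 + 13/16 * (1 / N))
    (u2 : x2 + 3/16 * (1 / N) ≤ g2 / g0) (u2' : g2 / g0 ≤ x2 + 13/16 * (1 / N))
    (d0 : |z0 - g0| ≤ κ) (d1 : |z1 - g1| ≤ κ) (d2 : |z2 - g2| ≤ κ) (d3 : |z3 - g3| ≤ κ) :
    (1 ≤ z0 ∧ z0 ≤ 1 + c) ∧ (x1 < z1 / z0 ∧ z1 / z0 < x1 + 1 / N) ∧
      (x2 < z2 / z0 ∧ z2 / z0 < x2 + 1 / N) ∧ |z3 - (z1 ^ 2 + z2 ^ 2) / z0| ≤ (N ^ 2)⁻¹ := by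
  have hN0 : 0 < N := by linarith
  have hi : 0 < 1 / N := by positivity
  have hg1 : 1 ≤ g0 := by linarith
  have z0' : 1 ≤ z0 ∧ z0 ≤ 1 + c := by
    have := abs_le.1 d0
    constructor <;> linarith
  have hG1 : 0 ≤ g1 / g0 ∧ g1 / g0 ≤ 1 := by constructor <;> linarith
  have hG2 : 0 ≤ g2 / g0 ∧ g2 / g0 ≤ 1 := by constructor <;> linarith
  have rr1 := ratio_near hg1 (abs_le.2 ⟨by linarith, hG1.2⟩) z0'.1 d0 d1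
  have rr2 := ratio_near hg1 (abs_le.2 ⟨by linarith, hG2.2⟩) z0'.1 d0 d2
  have hsm : 2 * κ ≤ 1/32 * (1 / N) := by
    have : 1/64 / N ^ 2 ≤ 1/64 * (1 / N) := by
      rw [mul_one_div]
      apply div_le_div_of_nonneg_left (by norm_num) hN0
      nlinarith
    linarith
  have s1 : x1 < z1 / z0 ∧ z1 / z0 < x1 + 1 / N := by
    have := abs_le.1 rr1
    constructor <;> linarith
  have s2 : x2 < z2 / z0 ∧ z2 / z0 < x2 + 1 / N := by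
    have := abs_le.1 rr2
    constructor <;> linarith
  refine ⟨z0', s1, s2, ?_⟩
  have hfin := near_cone (g3 := g3) (z3 := z3) hg1 (by linarith) hG1.1 hG1.2 hG2.1 hG2.2 G3 z0'.1 (by linarith) (by linarith)
    (by linarith) (by linarith) d0 rr1 rr2 d3
  refine hfin.trans ?_
  have : 1/64 / N ^ 2 = 1/64 * (N ^ 2)⁻¹ := by rw [div_eq_mul_inv]
  rw [this] at hκN
  have : 0 < (N ^ 2)⁻¹ := by positivity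
  linarith

/-- location of the support of a piece -/
theorem ap_loc {H : Hyp} (hH : H.ok2) {c : ℝ} (hcp : 0 < c) (hc1 : c ≤ 1) {N : ℕ} (hN : 1 ≤ N) {o : Fin 2 × Fin 2} {k : ℤ × ℤ}
    (hC : Cap (k.1 / N + sf N o.1) (k.2 / N + sf N o.2) (1 / N)) (hk : k ∈ grd N) {κ : ℝ} (hκ : 0 < κ) (hκc : κ ≤ c / 8)
    (hκN : κ ≤ 1/64 / (N:ℝ) ^ 2) {f : E3 → ℂ} {ζ : E4}
    (h : aP H (sf N o.1) (sf N o.2) κ (fun ξ => Mc H c N o k ξ * f ξ) ζ ≠ 0) :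
    (1 ≤ ζ 0 ∧ ζ 0 ≤ 1 + c) ∧ ((k.1:ℝ) / N < ζ 1 / ζ 0 ∧ ζ 1 / ζ 0 < k.1 / N + 1 / N) ∧
      ((k.2:ℝ) / N < ζ 2 / ζ 0 ∧ ζ 2 / ζ 0 < k.2 / N + 1 / N) ∧ |ζ 3 - (ζ 1 ^ 2 + ζ 2 ^ 2) / ζ 0| ≤ ((N:ℝ) ^ 2)⁻¹ := by
  have hN1 : (1:ℝ) ≤ N := by exact_mod_cast hN
  obtain ⟨ξ, hξ, hd⟩ := aP_supp hκ h
  obtain ⟨m1, m2, m3, m4, m5⟩ := mu_cone' hH.ok.bd (r1_chi0 hcp hc1) (vc_capc hC.pos hC.l1 hC.r1) (vc_capc hC.pos hC.l2 hC.r2)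
    (left_ne_zero_of_mul hξ : H.mu (chi0 c) (capc (k.1 / N + sf N o.1) (1 / N)) (capc (k.2 / N + sf N o.2) (1 / N)) ξ ≠ 0)
  obtain ⟨p1, p2⟩ := chi0_supp hcp m3
  obtain ⟨q1, q2⟩ := capc_supp hC.pos m4
  obtain ⟨r1, r2⟩ := capc_supp hC.pos m5
  obtain ⟨G0, G1, G2, G3⟩ := Ga_cone (b1 := sf N o.1) (b2 := sf N o.2) m1 m2
  obtain ⟨⟨g1, g2⟩, g3, g4⟩ := grd_bd3 hN hk
  have hd' : ∀ i, |ζ i - Ga H (sf N o.1) (sf N o.2) ξ i| ≤ κ := by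
    intro i
    have := abs_coord_le (ζ - Ga H (sf N o.1) (sf N o.2) ξ) i
    rw [PiLp.sub_apply] at this
    linarith
  exact loc_aux (g0 := Ga H (sf N o.1) (sf N o.2) ξ 0) (g1 := Ga H (sf N o.1) (sf N o.2) ξ 1) (g2 := Ga H (sf N o.1) (sf N o.2) ξ 2)
    (g3 := Ga H (sf N o.1) (sf N o.2) ξ 3) hN1 hκ hκc hκN hc1 (by rw [G0]; exact p1) (by rw [G0]; exact p2) G3 g1 g2 g3 g4
    (by rw [G1]; linarith) (by rw [G1]; linarith) (by rw [G2]; linarith) (by rw [G2]; linarith) (hd' 0) (hd' 1) (hd' 2) (hd' 3)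

/-- the total amplitude of a shifted grid -/
noncomputable def am (H : Hyp) (c : ℝ) (N : ℕ) (s : Finset (ℤ × ℤ)) (κ : ℝ) (h0 : E3 → ℂ) (o : Fin 2 × Fin 2) (ζ : E4) : ℂ :=
  ∑ k ∈ s, aP H (sf N o.1) (sf N o.2) κ (fun ξ => Mc H c N o k ξ * 𝓕 (gp H c N h0 o k) ξ) ζ

theorem cpi_eq {N : ℕ} (hN : 1 ≤ N) {k : ℤ × ℤ} {ζ : E4} (h1 : (k.1:ℝ) / N < ζ 1 / ζ 0 ∧ ζ 1 / ζ 0 < k.1 / N + 1 / N)
    (h2 : (k.2:ℝ) / N < ζ 2 / ζ 0 ∧ ζ 2 / ζ 0 < k.2 / N + 1 / N) : cpi N ζ = k := by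
  have hN0 : (0:ℝ) < N := by exact_mod_cast hN
  have key : ∀ (k : ℤ) (x : ℝ), ((k:ℝ) / N < x ∧ x < k / N + 1 / N) → ⌊(N:ℝ) * x⌋ = k := by
    intro k x ⟨a, b⟩
    rw [Int.floor_eq_iff]
    rw [div_lt_iff₀ hN0] at a
    rw [← add_div, lt_div_iff₀ hN0] at b
    constructor <;> linarith
  unfold cpi
  rw [key _ _ h1, key _ _ h2]

section
variable {H : Hyp} (hH : H.ok2) {c : ℝ} (hc : 0 < c) (hc1 : c ≤ 1) {N : ℕ} (hN : 32 ≤ N) {φ1 φ2 : ℝ → ℂ} (h1 : Vcut φ1)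
    (h2 : Vcut φ2) {κ : ℝ} (hκ : 0 < κ) (hκc : κ ≤ c / 8) (hκN : κ ≤ 1/64 / (N:ℝ) ^ 2) {h0 : E3 → ℂ} (hh : Adm volume h0) (o : Fin 2 × Fin 2)
include hH hc hc1 hN h1 h2 hκ hκc hκN hh

theorem ap_loc' {k : ℤ × ℤ} (hk : k ∈ sK φ1 φ2 N) {ζ : E4}
    (h : aP H (sf N o.1) (sf N o.2) κ (fun ξ => Mc H c N o k ξ * 𝓕 (gp H c N h0 o k) ξ) ζ ≠ 0) :
    (1 ≤ ζ 0 ∧ ζ 0 ≤ 1 + c) ∧ ((k.1:ℝ) / N < ζ 1 / ζ 0 ∧ ζ 1 / ζ 0 < k.1 / N + 1 / N) ∧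
      ((k.2:ℝ) / N < ζ 2 / ζ 0 ∧ ζ 2 / ζ 0 < k.2 / N + 1 / N) ∧ |ζ 3 - (ζ 1 ^ 2 + ζ 2 ^ 2) / ζ 0| ≤ ((N:ℝ) ^ 2)⁻¹ :=
  ap_loc hH hc hc1 (by omega) (cap_sK h1 h2 hN hk o.1 o.2).1 (sK_sub _ _ _ hk) hκ hκc hκN h

/-- the sharp pieces are the smooth pieces -/
theorem ampk_am (k : ℤ × ℤ) (ζ : E4) : ampk N k (am H c N (sK φ1 φ2 N) κ h0 o) ζ =
    if k ∈ sK φ1 φ2 N then aP H (sf N o.1) (sf N o.2) κ (fun ξ => Mc H c N o k ξ * 𝓕 (gp H c N h0 o k) ξ) ζ else 0 := by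
  classical
  have hN1 : 1 ≤ N := by omega
  have hz : ∀ k' ∈ sK φ1 φ2 N, cpi N ζ ≠ k' →
      aP H (sf N o.1) (sf N o.2) κ (fun ξ => Mc H c N o k' ξ * 𝓕 (gp H c N h0 o k') ξ) ζ = 0 := by
    intro k' hk' hne
    by_contra hcon
    obtain ⟨_, a1, a2, _⟩ := ap_loc' hH hc hc1 hN h1 h2 hκ hκc hκN hh o hk' hcon
    exact hne (cpi_eq hN1 a1 a2)
  unfold ampk am
  by_cases hk : cpi N ζ = k
  · rw [if_pos hk]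
    by_cases hks : k ∈ sK φ1 φ2 N
    · rw [if_pos hks]
      rw [Finset.sum_eq_single_of_mem k hks]
      intro k' hk' hne
      exact hz k' hk' (fun h => hne (h.symm.trans hk))
    · rw [if_neg hks]
      apply Finset.sum_eq_zero
      intro k' hk'
      apply hz k' hk'
      intro h
      rw [hk] at h
      rw [h] at hks
      exact hks hk'
  · rw [if_neg hk]
    split_ifs with hks
    · exact (hz k hks hk).symm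
    · rfl

theorem am_supp {ζ : E4} (h : am H c N (sK φ1 φ2 N) κ h0 o ζ ≠ 0) : ∃ k ∈ sK φ1 φ2 N,
    aP H (sf N o.1) (sf N o.2) κ (fun ξ => Mc H c N o k ξ * 𝓕 (gp H c N h0 o k) ξ) ζ ≠ 0 := by
  by_contra hcon
  push Not at hcon
  exact h (Finset.sum_eq_zero hcon)

theorem am_vel {ζ : E4} (h : am H c N (sK φ1 φ2 N) κ h0 o ζ ≠ 0) :
    ∃ v1 v2, φ1 v1 ≠ 0 ∧ φ2 v2 ≠ 0 ∧ |ζ 1 / ζ 0 - v1| ≤ 3 / N ∧ |ζ 2 / ζ 0 - v2| ≤ 3 / N := by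
  have hN0 : (0:ℝ) < N := by
    have : 0 < N := by omega
    exact_mod_cast this
  obtain ⟨k, hk, hne⟩ := am_supp hH hc hc1 hN h1 h2 hκ hκc hκN hh o h
  obtain ⟨_, a1, a2, _⟩ := ap_loc' hH hc hc1 hN h1 h2 hκ hκc hκN hh o hk hne
  obtain ⟨_, ⟨v1, g1, g2⟩, v2, g3, g4⟩ := mem_sK.1 hk
  have e3 : 3 / (N:ℝ) = 2 / N + 1 / N := by ring
  have hi : 0 < 1 / (N:ℝ) := by positivity
  refine ⟨v1, v2, g1, g3, ?_, ?_⟩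
  · have := abs_le.1 g2
    rw [e3, abs_le]
    constructor <;> linarith
  · have := abs_le.1 g4
    rw [e3, abs_le]
    constructor <;> linarith

end

end Vale.Agent.P106.G
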