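import Vale.Agent.P106.G.KinJ

/-! # The densities of the pieces: properties -/

open MeasureTheory Complex Set Filter
open scoped ENNReal NNReal ContDiff FourierTransform Topology SchwartzMap

set_option linter.all false

namespace Vale.Agent.P106.G

open Vale.Agent.P117 (Adm contDiff_st cv cv_schwartz_eq)
open Tri (ec norm_ec enorm_ec ec_add ec_zero continuous_ec)

theorem norm_psi_le (t : ℝ) : ‖psi t‖ ≤ 1 := by
  unfold psi stp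
  rw [← Complex.ofReal_sub, Complex.norm_real, Real.norm_eq_abs, abs_le]
  have a1 := Real.smoothTransition.nonneg (4 * t + 1/2)
  have a2 := Real.smoothTransition.le_one (4 * t + 1/2)
  have a3 := Real.smoothTransition.nonneg (4 * (t - 1) + 1/2)
  have a4 := Real.smoothTransition.le_one (4 * (t - 1) + 1/2)
  constructor <;> linarith

theorem norm_chi0_le (c t : ℝ) : ‖chi0 c t‖ ≤ 1 := by
  unfold chi0
  rw [Complex.norm_real, Real.norm_eq_abs, abs_of_nonneg (mul_nonneg (Real.smoothTransition.nonneg _) (Real.smoothTransition.nonneg _))]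
  exact mul_le_one₀ (Real.smoothTransition.le_one _) (Real.smoothTransition.nonneg _) (Real.smoothTransition.le_one _)

theorem norm_Mc_le (H : Hyp) (c : ℝ) (N : ℕ) (o : Fin 2 × Fin 2) (k : ℤ × ℤ) (ξ : E3) : ‖Mc H c N o k ξ‖ₑ ≤ 1 := by
  unfold Mc
  refine (norm_mu_le (norm_chi0_le c) ξ).trans ?_
  have h : ∀ β τ v, ‖capc β τ v‖ₑ ≤ 1 := by
    intro β τ v
    rw [← ofReal_norm, ← ENNReal.ofReal_one]
    exact ENNReal.ofReal_le_ofReal (norm_psi_le _)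
  calc _ ≤ (1:ℝ≥0∞) * 1 := mul_le_mul' (h _ _ _) (h _ _ _)
    _ = 1 := one_mul 1

/-- the densities -/
noncomputable def nud (H : Hyp) (c : ℝ) (N M' : ℕ) (s : Finset (ℤ × ℤ)) (h0 : E3 → ℂ) (k : ℤ × ℤ) (y : E3) : ℝ≥0∞ := by
  classical exact if k ∈ s then ∑ o : Fin 2 × Fin 2, nu M' N (gp H c N h0 o k) y else 0

theorem nud_pos {H : Hyp} {c : ℝ} {N M' : ℕ} {s : Finset (ℤ × ℤ)} {h0 : E3 → ℂ} {k : ℤ × ℤ} (hk : k ∈ s) (y : E3) :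
    nud H c N M' s h0 k y = ∑ o : Fin 2 × Fin 2, nu M' N (gp H c N h0 o k) y := by
  unfold nud; rw [if_pos hk]

theorem nud_neg {H : Hyp} {c : ℝ} {N M' : ℕ} {s : Finset (ℤ × ℤ)} {h0 : E3 → ℂ} {k : ℤ × ℤ} (hk : k ∉ s) (y : E3) :
    nud H c N M' s h0 k y = 0 := by
  unfold nud; rw [if_neg hk]

section
variable {H : Hyp} (hH : H.ok2) {c : ℝ} (hc : 0 < c) (hc1 : c ≤ 1) {N : ℕ} (hN : 32 ≤ N) {φ1 φ2 : ℝ → ℂ} (h1 : Vcut φ1)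
    (h2 : Vcut φ2) {h0 : E3 → ℂ} (hh : Adm volume h0)
include hH hc hc1 hN h1 h2 hh

theorem adm_gp {k : ℤ × ℤ} (hk : k ∈ sK φ1 φ2 N) (o : Fin 2 × Fin 2) : Adm volume (gp H c N h0 o k) :=
  mop_adm (sm_MP hH hc hc1 (cap_sK h1 h2 hN hk o.1 o.2).1) hh

theorem nud_meas (M' : ℕ) (k : ℤ × ℤ) : Measurable (nud H c N M' (sK φ1 φ2 N) h0 k) := by
  by_cases hk : k ∈ sK φ1 φ2 N
  · have e : nud H c N M' (sK φ1 φ2 N) h0 k = fun y => ∑ o : Fin 2 × Fin 2, nu M' N (gp H c N h0 o k) y := by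
      ext y; exact nud_pos hk y
    rw [e]
    exact Finset.measurable_sum _ fun o _ => measurable_nu M' N (adm_gp hH hc hc1 hN h1 h2 hh hk o).meas
  · have e : nud H c N M' (sK φ1 φ2 N) h0 k = fun y => 0 := by
      ext y; exact nud_neg hk y
    rw [e]
    exact measurable_const

theorem nud_sum {ε : ℝ} {M' : ℕ} {C A0 : ℝ}
    (hS : ∀ (b1 b2 : ℝ) (s : Finset (ℤ × ℤ)) (y : E3), s ⊆ grd N → (∀ k ∈ s, Cap (k.1 / N + b1) (k.2 / N + b2) (1 / N)) →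
      ∑ k ∈ s, nu M' N (mop (MP H c N b1 b2 k) h0) y ≤ ENNReal.ofReal (C * A0 ^ 2 * (N:ℝ) ^ ε)) (y : E3) :
    ∑ k ∈ grd N, nud H c N M' (sK φ1 φ2 N) h0 k y ≤ 4 * ENNReal.ofReal (C * A0 ^ 2 * (N:ℝ) ^ ε) := by
  have e1 : ∑ k ∈ grd N, nud H c N M' (sK φ1 φ2 N) h0 k y = ∑ k ∈ sK φ1 φ2 N, nud H c N M' (sK φ1 φ2 N) h0 k y := by
    symm
    apply Finset.sum_subset (sK_sub φ1 φ2 N)
    intro k _ hk
    exact nud_neg hk y
  have e2 : ∑ k ∈ sK φ1 φ2 N, nud H c N M' (sK φ1 φ2 N) h0 k y =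
      ∑ o : Fin 2 × Fin 2, ∑ k ∈ sK φ1 φ2 N, nu M' N (gp H c N h0 o k) y := by
    rw [Finset.sum_comm]
    exact Finset.sum_congr rfl fun k hk => nud_pos hk y
  rw [e1, e2]
  calc _ ≤ ∑ o : Fin 2 × Fin 2, ENNReal.ofReal (C * A0 ^ 2 * (N:ℝ) ^ ε) := by
        refine Finset.sum_le_sum fun o _ => ?_
        exact hS (sf N o.1) (sf N o.2) (sK φ1 φ2 N) y (sK_sub φ1 φ2 N) (fun k hk => (cap_sK h1 h2 hN hk o.1 o.2).1)
    _ = _ := by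
        rw [Finset.sum_const, Finset.card_univ, nsmul_eq_mul]
        simp

/-- energy of the densities -/
theorem nud_eng (M' : ℕ) : Eng N (nud H c N M' (sK φ1 φ2 N) h0) =
    cW M' * ∑ o : Fin 2 × Fin 2, ∑ k ∈ sK φ1 φ2 N, ∫⁻ u, ‖gp H c N h0 o k u‖ₑ ^ 2 := by
  have hN1 : 1 ≤ N := by omega
  unfold Eng
  have e1 : ∑ k ∈ grd N, ∫⁻ y, nud H c N M' (sK φ1 φ2 N) h0 k y = ∑ k ∈ sK φ1 φ2 N, ∫⁻ y, nud H c N M' (sK φ1 φ2 N) h0 k y := by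
    symm
    apply Finset.sum_subset (sK_sub φ1 φ2 N)
    intro k _ hk
    simp_rw [nud_neg hk]
    simp
  rw [e1, Finset.sum_comm, Finset.mul_sum]
  refine Finset.sum_congr rfl fun k hk => ?_
  simp_rw [nud_pos hk]
  rw [lintegral_finset_sum _ fun o _ => measurable_nu M' N (adm_gp hH hc hc1 hN h1 h2 hh hk o).meas, Finset.mul_sum]
  exact Finset.sum_congr rfl fun o _ => lint_nu M' hN1 (adm_gp hH hc hc1 hN h1 h2 hh hk o).meas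

theorem nud_eng_le (M' : ℕ) : Eng N (nud H c N M' (sK φ1 φ2 N) h0) ≤ 4 * cW M' * ∫⁻ u, ‖h0 u‖ₑ ^ 2 := by
  rw [nud_eng hH hc hc1 hN h1 h2 hh]
  calc _ ≤ cW M' * ∑ o : Fin 2 × Fin 2, ∫⁻ u, ‖h0 u‖ₑ ^ 2 := by
        gcongr with o _
        exact sum_MP_L2 hH hc hc1 (by omega) (sK_sub φ1 φ2 N) (fun k hk => (cap_sK h1 h2 hN hk o.1 o.2).1) hh
    _ = _ := by
        rw [Finset.sum_const, Finset.card_univ, nsmul_eq_mul]
        simp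
        ring

theorem gp_eng {M' : ℕ} (hM : 4 ≤ M') (o : Fin 2 × Fin 2) : ∑ k ∈ sK φ1 φ2 N, ∫⁻ u, ‖gp H c N h0 o k u‖ₑ ^ 2 ≤
    ENNReal.ofReal ((cW M').toReal⁻¹) * Eng N (nud H c N M' (sK φ1 φ2 N) h0) := by
  have hp : 0 < (cW M').toReal := ENNReal.toReal_pos (cW_pos M').ne' (cW_lt hM).ne
  rw [nud_eng hH hc hc1 hN h1 h2 hh, ← mul_assoc]
  have e : ENNReal.ofReal ((cW M').toReal⁻¹) * cW M' = 1 := by
    rw [ENNReal.ofReal_inv_of_pos hp, ENNReal.ofReal_toReal (cW_lt hM).ne]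
    exact ENNReal.inv_mul_cancel (cW_pos M').ne' (cW_lt hM).ne
  rw [e, one_mul]
  exact Finset.single_le_sum (f := fun o => ∑ k ∈ sK φ1 φ2 N, ∫⁻ u, ‖gp H c N h0 o k u‖ₑ ^ 2) (fun _ _ => zero_le) (Finset.mem_univ o)

end

/-- Fourier inversion of a finite sum in `E4` -/
theorem inv_sum4 {ι : Type*} (s : Finset ι) {F : ι → E4 → ℂ} (hF : ∀ i ∈ s, Integrable (F i)) (x : E4) :
    𝓕⁻ (fun ζ => ∑ i ∈ s, F i ζ) x = ∑ i ∈ s, 𝓕⁻ (F i) x := by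
  simp_rw [inv_eq, Finset.mul_sum]
  rw [integral_finset_sum]
  intro i hi
  apply (hF i hi).bdd_mul (c := 1)
  · exact (continuous_ec.comp (by fun_prop)).aestronglyMeasurable
  · exact Eventually.of_forall fun ζ => (norm_ec _).le

section
variable {H : Hyp} (hH : H.ok2) {c : ℝ} (hc : 0 < c) (hc1 : c ≤ 1) {N : ℕ} (hN : 32 ≤ N) {φ1 φ2 : ℝ → ℂ} (h1 : Vcut φ1)
    (h2 : Vcut φ2) {κ : ℝ} (hκ : 0 < κ) (hκc : κ ≤ c / 8) (hκN : κ ≤ 1/64 / (N:ℝ) ^ 2) {h0 : E3 → ℂ} (hh : Adm volume h0) (o : Fin 2 × Fin 2)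
include hH hc hc1 hN h1 h2 hκ hκc hκN hh

theorem pc_int {k : ℤ × ℤ} (hk : k ∈ sK φ1 φ2 N) : Integrable (fun ξ => Mc H c N o k ξ * 𝓕 (gp H c N h0 o k) ξ) :=
  mint (sm_Mc hH hc hc1 (cap_sK h1 h2 hN hk o.1 o.2).1).int (adm_gp hH hc hc1 hN h1 h2 hh hk o).int

theorem am_int : Integrable (am H c N (sK φ1 φ2 N) κ h0 o) :=
  integrable_finset_sum _ fun k hk => aP_integrable H _ _ hκ (pc_int hH hc hc1 hN h1 h2 hκ hκc hκN hh o hk)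

theorem am_cont : Continuous (am H c N (sK φ1 φ2 N) κ h0 o) :=
  continuous_finset_sum _ fun k hk => aP_cont H _ _ κ (pc_int hH hc hc1 hN h1 h2 hκ hκc hκN hh o hk)

/-- inversion formula for the total amplitude -/
theorem inv_am (z : E4) : 𝓕⁻ (am H c N (sK φ1 φ2 N) κ h0 o) (shT (sf N o.1) (sf N o.2) z) =
    2 * Psi (κ • shT (sf N o.1) (sf N o.2) z) * ∑ k ∈ sK φ1 φ2 N, H.U (Mc H c N o k) (gp H c N h0 o k) (H.tm z) (sp3 z) := by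
  have e : am H c N (sK φ1 φ2 N) κ h0 o = fun ζ => ∑ k ∈ sK φ1 φ2 N,
    aP H (sf N o.1) (sf N o.2) κ (fun ξ => Mc H c N o k ξ * 𝓕 (gp H c N h0 o k) ξ) ζ := rfl
  rw [e, inv_sum4 _ (fun k hk => aP_integrable H _ _ hκ (pc_int hH hc hc1 hN h1 h2 hκ hκc hκN hh o hk)), Finset.mul_sum]
  refine Finset.sum_congr rfl fun k hk => ?_
  exact inv_aP H _ _ hκ (sm_Mc hH hc hc1 (cap_sK h1 h2 hN hk o.1 o.2).1).int (adm_gp hH hc hc1 hN h1 h2 hh hk o).int z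

theorem am_sq_le (ζ : E4) : ‖am H c N (sK φ1 φ2 N) κ h0 o ζ‖ₑ ^ 2 ≤
    ∑ k ∈ sK φ1 φ2 N, ‖aP H (sf N o.1) (sf N o.2) κ (fun ξ => Mc H c N o k ξ * 𝓕 (gp H c N h0 o k) ξ) ζ‖ₑ ^ 2 := by
  classical
  have e1 : am H c N (sK φ1 φ2 N) κ h0 o ζ = ampk N (cpi N ζ) (am H c N (sK φ1 φ2 N) κ h0 o) ζ := by
    unfold ampk; rw [if_pos rfl]
  rw [e1, ampk_am hH hc hc1 hN h1 h2 hκ hκc hκN hh o]
  split_ifs with h
  · exact Finset.single_le_sum (f := fun k => ‖aP H (sf N o.1) (sf N o.2) κ (fun ξ => Mc H c N o k ξ * 𝓕 (gp H c N h0 o k) ξ) ζ‖ₑ ^ 2)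
      (fun _ _ => zero_le) h
  · simp

theorem am_L2 {C : ℝ} (hA : ∀ f : E3 → ℂ, Measurable f →
      ∫⁻ ζ, ‖aP H (sf N o.1) (sf N o.2) κ f ζ‖ₑ ^ 2 ≤ ENNReal.ofReal (C * κ⁻¹) * ∫⁻ ξ, ‖f ξ‖ₑ ^ 2) :
    ∫⁻ ζ, ‖am H c N (sK φ1 φ2 N) κ h0 o ζ‖ₑ ^ 2 ≤ ENNReal.ofReal (C * κ⁻¹) * ∑ k ∈ sK φ1 φ2 N, ∫⁻ u, ‖gp H c N h0 o k u‖ₑ ^ 2 := by
  calc ∫⁻ ζ, ‖am H c N (sK φ1 φ2 N) κ h0 o ζ‖ₑ ^ 2 ≤
      ∫⁻ ζ, ∑ k ∈ sK φ1 φ2 N, ‖aP H (sf N o.1) (sf N o.2) κ (fun ξ => Mc H c N o k ξ * 𝓕 (gp H c N h0 o k) ξ) ζ‖ₑ ^ 2 :=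
        lintegral_mono fun ζ => am_sq_le hH hc hc1 hN h1 h2 hκ hκc hκN hh o ζ
    _ = ∑ k ∈ sK φ1 φ2 N, ∫⁻ ζ, ‖aP H (sf N o.1) (sf N o.2) κ (fun ξ => Mc H c N o k ξ * 𝓕 (gp H c N h0 o k) ξ) ζ‖ₑ ^ 2 := by
        apply lintegral_finset_sum'
        intro k hk
        exact ((aP_cont H _ _ κ (pc_int hH hc hc1 hN h1 h2 hκ hκc hκN hh o hk)).measurable.enorm.pow_const 2).aemeasurable
    _ ≤ ∑ k ∈ sK φ1 φ2 N, ENNReal.ofReal (C * κ⁻¹) * ∫⁻ u, ‖gp H c N h0 o k u‖ₑ ^ 2 := by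
        refine Finset.sum_le_sum fun k hk => ?_
        have hg := adm_gp hH hc hc1 hN h1 h2 hh hk o
        have hsm := sm_Mc (o := o) hH hc hc1 (cap_sK h1 h2 hN hk o.1 o.2).1
        refine (hA (fun ξ => Mc H c N o k ξ * 𝓕 (gp H c N h0 o k) ξ)
          (hsm.smooth.continuous.mul (Vale.Agent.P117.continuous_fourier hg.int)).measurable).trans ?_
        refine mul_le_mul' le_rfl ?_
        calc ∫⁻ ξ, ‖Mc H c N o k ξ * 𝓕 (gp H c N h0 o k) ξ‖ₑ ^ 2 ≤ ∫⁻ ξ, ‖𝓕 (gp H c N h0 o k) ξ‖ₑ ^ 2 := by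
              refine lintegral_mono fun ξ => ?_
              rw [enorm_mul]
              have := norm_Mc_le H c N o k ξ
              calc (‖Mc H c N o k ξ‖ₑ * ‖𝓕 (gp H c N h0 o k) ξ‖ₑ) ^ 2 ≤ (1 * ‖𝓕 (gp H c N h0 o k) ξ‖ₑ) ^ 2 := by gcongr
                _ = _ := by rw [one_mul]
          _ ≤ _ := Vale.Agent.P117.lintegral_sq_fourier_le hg.int hg.meas
    _ = _ := by rw [Finset.mul_sum]

theorem am_Amp : Amp c ((N:ℝ) ^ 2) (am H c N (sK φ1 φ2 N) κ h0 o) := by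
  have hN1 : 1 ≤ N := by omega
  have hN0 : (0:ℝ) < N := by exact_mod_cast hN1
  refine ⟨(am_cont hH hc hc1 hN h1 h2 hκ hκc hκN hh o).measurable, am_int hH hc hc1 hN h1 h2 hκ hκc hκN hh o, ?_, ?_⟩
  · obtain ⟨C, hC, hA⟩ := aP_L2
    have hb := sf_le hN1
    have h8 : 1/4 / (N:ℝ) ≤ 1/8 := by
      have : (32:ℝ) ≤ N := by exact_mod_cast hN
      rw [div_le_iff₀ hN0]; linarith
    refine lt_of_le_of_lt (am_L2 hH hc hc1 hN h1 h2 hκ hκc hκN hh o (C := C) (fun f hf => hA H _ _ κ f hH.ok.bd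
      ((hb _).trans h8) ((hb _).trans h8) hκ hf)) ?_
    apply ENNReal.mul_lt_top ENNReal.ofReal_lt_top
    apply ENNReal.sum_lt_top.2
    intro k hk
    have hg := adm_gp hH hc hc1 hN h1 h2 hh hk o
    have := hg.eLpNorm_ne_top (p := 2) (by norm_num)
    rw [eLpNorm_eq_lintegral_rpow_enorm_toReal (by norm_num) (by norm_num)] at this
    simp only [ENNReal.toReal_ofNat, ENNReal.rpow_ofNat] at this
    by_contra hcon
    rw [not_lt, top_le_iff] at hcon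
    rw [hcon, ENNReal.top_rpow_of_pos (by norm_num)] at this
    exact this rfl
  · intro ζ hζ
    obtain ⟨k, hk, hne⟩ := am_supp hH hc hc1 hN h1 h2 hκ hκc hκN hh o hζ
    obtain ⟨a0, ⟨a1, a1'⟩, ⟨a2, a2'⟩, a3⟩ := ap_loc' hH hc hc1 hN h1 h2 hκ hκc hκN hh o hk hne
    obtain ⟨⟨g1, g2⟩, g3, g4⟩ := grd_bd3 hN1 (sK_sub _ _ _ hk)
    have hz : 0 < ζ 0 := by linarith [a0.1]
    have key : ∀ x z : ℝ, 0 ≤ x → x + 1 / N ≤ 1 → x < z / ζ 0 → z / ζ 0 < x + 1 / N → 0 ≤ z ∧ z < ζ 0 := by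
      intro x z hx hx' h3 h4
      have e1 : 0 < z / ζ 0 := by linarith
      have e2 : z / ζ 0 < 1 := by linarith
      rw [div_lt_one hz] at e2
      have e3 := mul_pos e1 hz
      rw [div_mul_cancel₀ _ hz.ne'] at e3
      exact ⟨e3.le, e2⟩
    exact ⟨a0, key _ _ g1 g2 a1 a1', key _ _ g3 g4 a2 a2', a3⟩

end

end Vale.Agent.P106.G
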