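import Vale.Agent.P106.G.KinK

/-! # The tube averages of the total amplitude and the pointwise bound -/

open MeasureTheory Complex Set Filter
open scoped ENNReal NNReal ContDiff FourierTransform Topology SchwartzMap

set_option linter.all false

namespace Vale.Agent.P106.G

open Vale.Agent.P117 (Adm contDiff_st cv cv_schwartz_eq)
open Tri (ec norm_ec enorm_ec ec_add ec_zero continuous_ec)

/-- one piece, with the base point of the unshifted direction -/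
theorem mu_one {c : ℝ} (hc : 0 < c) (hc1 : c ≤ 1) (M' : ℕ) {B r1 : ℝ} (hB : 1 ≤ B) (hr : 0 < r1) : ∃ C : ℝ, 0 ≤ C ∧
    ∀ (H : Hyp) (N M : ℕ) (φ1 φ2 : ℝ → ℂ) (k : ℤ × ℤ) (o : Fin 2 × Fin 2) (R : ℝ) (h0 : E3 → ℂ) (z : E4), H.ok2 → 32 ≤ N → M' + 2 ≤ M →
    Vcut φ1 → Vcut φ2 → k ∈ sK φ1 φ2 N → 0 < R → R ≤ B * (N:ℝ) ^ 2 → Adm volume h0 → |H.tm z| ≤ 3 * R →
    ∫⁻ w, ‖𝓕⁻ (aP H (sf N o.1) (sf N o.2) (r1 / R) (fun ξ => Mc H c N o k ξ * 𝓕 (gp H c N h0 o k) ξ)) w‖ₑ ^ 2 *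
      Phk M N k (shT (sf N o.1) (sf N o.2) z - w) ≤
    ENNReal.ofReal C * nud H c N M' (sK φ1 φ2 N) h0 k (H.bp (k.1 / N) (k.2 / N) z) := by
  obtain ⟨C1, hC1, hm⟩ := mu_piece hc hc1 M' hB hr
  refine ⟨C1 * (1 + 48 * B) ^ M', by positivity, ?_⟩
  intro H N M φ1 φ2 k o R h0 z hH hN hM h1 h2 hk hR hRN hh ht
  have hN1 : 1 ≤ N := by omega
  have hN0 : (0:ℝ) < N := by exact_mod_cast hN1
  have hN32 : (32:ℝ) ≤ N := by exact_mod_cast hN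
  have hCp := cap_sK h1 h2 hN hk o.1 o.2
  obtain ⟨hC, ⟨g1, g2⟩, g3, g4⟩ := hCp
  have hb := sf_le hN1
  have h8 : 1/4 / (N:ℝ) ≤ 1/8 := by rw [div_le_iff₀ hN0]; linarith
  have hi : 0 < 1 / (N:ℝ) := by positivity
  have hgp := adm_gp hH hc hc1 hN h1 h2 hh hk o
  refine (hm H N M k (sf N o.1) (sf N o.2) R (gp H c N h0 o k) z hH hN1 hM ((hb _).trans h8) ((hb _).trans h8) hC hR hRN hgp).trans ?_
  have hd : ‖H.bp (k.1 / N + sf N o.1) (k.2 / N + sf N o.2) z - H.bp (k.1 / N) (k.2 / N) z‖ ≤ 16 * (|H.tm z| * (1/4 / N)) := by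
    apply bp_vel hH.ok.bd (cap_m hH hC).1 (hH.m_bd g1 (by linarith) g3 (by linarith)).1 hC.l1 (by linarith [hC.r1]) hC.l2
      (by linarith [hC.r2]) g1 (by linarith) g3 (by linarith)
    · rw [add_sub_cancel_left]; exact hb _
    · rw [add_sub_cancel_left]; exact hb _
  have hL : ‖H.bp (k.1 / N + sf N o.1) (k.2 / N + sf N o.2) z - H.bp (k.1 / N) (k.2 / N) z‖ / N ≤ 48 * B := by
    rw [div_le_iff₀ hN0]
    refine hd.trans ?_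
    have e1 : 16 * (|H.tm z| * (1/4 / N)) = 4 * |H.tm z| / N := by field_simp; ring
    rw [e1, div_le_iff₀ hN0]
    nlinarith
  have hs := nu_slow M' hN1 (gp H c N h0 o k) (H.bp (k.1 / N + sf N o.1) (k.2 / N + sf N o.2) z) (H.bp (k.1 / N) (k.2 / N) z) hL
  rw [ENNReal.ofReal_mul hC1, mul_assoc]
  refine mul_le_mul' le_rfl (hs.trans (mul_le_mul' le_rfl ?_))
  rw [nud_pos hk]
  exact Finset.single_le_sum (f := fun o => nu M' N (gp H c N h0 o k) (H.bp (k.1 / N) (k.2 / N) z)) (fun _ _ => zero_le) (Finset.mem_univ o)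

/-- tube averages of the total amplitude -/
theorem mu_am {c : ℝ} (hc : 0 < c) (hc1 : c ≤ 1) (M' : ℕ) {B r1 : ℝ} (hB : 1 ≤ B) (hr : 0 < r1) : ∃ C : ℝ, 0 ≤ C ∧
    ∀ (H : Hyp) (N M : ℕ) (φ1 φ2 : ℝ → ℂ) (o : Fin 2 × Fin 2) (R : ℝ) (h0 : E3 → ℂ) (z : E4), H.ok2 → 32 ≤ N → M' + 2 ≤ M →
    Vcut φ1 → Vcut φ2 → 0 < R → R ≤ B * (N:ℝ) ^ 2 → r1 / R ≤ c / 8 → r1 / R ≤ 1/64 / (N:ℝ) ^ 2 → Adm volume h0 → |H.tm z| ≤ 3 * R →
    Mu M N (am H c N (sK φ1 φ2 N) (r1 / R) h0 o) (shT (sf N o.1) (sf N o.2) z) ≤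
      ENNReal.ofReal C * H.Wu N (nud H c N M' (sK φ1 φ2 N) h0) z := by
  obtain ⟨C, hC, h⟩ := mu_one hc hc1 M' hB hr
  refine ⟨C, hC, ?_⟩
  intro H N M φ1 φ2 o R h0 z hH hN hM h1 h2 hR hRN hκc hκN hh ht
  have hκ : 0 < r1 / R := by positivity
  unfold Mu Hyp.Wu
  rw [Finset.mul_sum]
  refine Finset.sum_le_sum fun k _ => ?_
  by_cases hk : k ∈ sK φ1 φ2 N
  · have e : ampk N k (am H c N (sK φ1 φ2 N) (r1 / R) h0 o) =
        aP H (sf N o.1) (sf N o.2) (r1 / R) (fun ξ => Mc H c N o k ξ * 𝓕 (gp H c N h0 o k) ξ) := by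
      ext ζ
      rw [ampk_am hH hc hc1 hN h1 h2 hκ hκc hκN hh o k ζ, if_pos hk]
    rw [e]
    exact h H N M φ1 φ2 k o R h0 z hH hN hM h1 h2 hk hR hRN hh ht
  · have e : ampk N k (am H c N (sK φ1 φ2 N) (r1 / R) h0 o) = fun _ => 0 := by
      ext ζ
      rw [ampk_am hH hc hc1 hN h1 h2 hκ hκc hκN hh o k ζ, if_neg hk]
    rw [e]
    have e2 : 𝓕⁻ (fun _ : E4 => (0:ℂ)) = fun _ => 0 := by
      ext w
      rw [inv_eq]; simp
    rw [e2]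
    simp

theorem zt_norm {H : Hyp} (hb : H.Bd) {R t : ℝ} (hR : 0 < R) (ht : t ∈ Icc R (2 * R)) {y : E3} (hy : ‖y‖ ≤ R) : ‖H.zt t y‖ ≤ 6 * R := by
  have a0 := abs_coord3 y 0
  have a1 := abs_coord3 y 1
  have a2 := abs_coord3 y 2
  obtain ⟨s0, s1, q1, q2, D0, D1⟩ := hb
  have b0 : |H.s * y 0| ≤ 1/64 * R := by
    rw [abs_mul, abs_of_pos s0]; exact mul_le_mul s1 (a0.trans hy) (abs_nonneg _) (by norm_num)
  have b1 : |H.q1 * y 1| ≤ 1/16 * R := by rw [abs_mul]; exact mul_le_mul q1 (a1.trans hy) (abs_nonneg _) (by norm_num)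
  have b2 : |H.q2 * y 2| ≤ 1/16 * R := by rw [abs_mul]; exact mul_le_mul q2 (a2.trans hy) (abs_nonneg _) (by norm_num)
  have c3 : |t - (H.s * y 0 + H.q1 * y 1 + H.q2 * y 2)| ≤ 3 * R := by
    have t1 := abs_le.1 b0
    have t2 := abs_le.1 b1
    have t3 := abs_le.1 b2
    rw [abs_le]
    constructor <;> linarith [ht.1, ht.2]
  have : ‖H.zt t y‖ ≤ 2 * (3 * R) := by
    apply norm4_le _ (by positivity)
    intro i
    fin_cases i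
    · show |y 0| ≤ _; linarith
    · show |y 1| ≤ _; linarith
    · show |y 2| ≤ _; linarith
    · exact c3
  linarith

section
variable {H : Hyp} (hH : H.ok2) {c : ℝ} (hc : 0 < c) (hc1 : c ≤ 1) {N : ℕ} (hN : 32 ≤ N) {φ1 φ2 : ℝ → ℂ} (h1 : Vcut φ1)
    (h2 : Vcut φ2) {r1 r R : ℝ} (hr1 : 0 < r1) (hR : 0 < R) (hrr : 12 * r1 ≤ r) (hPsi : ∀ x : E4, ‖x‖ ≤ r → 1/2 ≤ ‖Psi x‖)
    (hκc : r1 / R ≤ c / 8) (hκN : r1 / R ≤ 1/64 / (N:ℝ) ^ 2) {h : E3 → ℂ} (hh : Adm volume h)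
include hH hc hc1 hN h1 h2 hr1 hR hrr hPsi hκc hκN hh

/-- the solution is controlled by the four amplitudes -/
theorem pw_am {t : ℝ} (ht : t ∈ Icc R (2 * R)) {y : E3} (hy : ‖y‖ ≤ R) :
    ‖H.U (H.mu (chi0 c) φ1 φ2) h t y‖ ≤ ∑ o : Fin 2 × Fin 2,
      ‖𝓕⁻ (am H c N (sK φ1 φ2 N) (r1 / R) (mop (H.mu (chiP c) φ1 φ2) h) o) (shT (sf N o.1) (sf N o.2) (H.zt t y))‖ := by
  have hN1 : 1 ≤ N := by omega
  have hN0 : (0:ℝ) < N := by exact_mod_cast hN1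
  have hκ : 0 < r1 / R := by positivity
  have hsmP : Sm (H.mu (chiP c) φ1 φ2) := sm_mu hH.ok (r1_chiP hc hc1).toRcut h1.vc h2.vc
  have hh0 : Adm volume (mop (H.mu (chiP c) φ1 φ2) h) := mop_adm hsmP hh
  rw [U_dec hH hc hc1 hN h1 h2 hh]
  refine (norm_sum_le _ _).trans (Finset.sum_le_sum fun o _ => ?_)
  rw [inv_am hH hc hc1 hN h1 h2 hκ hκc hκN hh0 o, tm_zt, show sp3 (H.zt t y) = y from ext3 rfl rfl rfl, norm_mul, norm_mul]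
  simp only [Complex.norm_ofNat]
  have hb := sf_le hN1
  have h8 : 1/4 / (N:ℝ) ≤ 1/8 := by
    have : (32:ℝ) ≤ N := by exact_mod_cast hN
    rw [div_le_iff₀ hN0]; linarith
  have hz := zt_norm hH.ok.bd hR ht hy
  have hs := norm_shT_le ((hb o.1).trans h8) ((hb o.2).trans h8) (H.zt t y)
  have hp := hPsi ((r1 / R) • shT (sf N o.1) (sf N o.2) (H.zt t y)) (by
    rw [norm_smul, Real.norm_of_nonneg hκ.le]
    calc r1 / R * ‖shT (sf N o.1) (sf N o.2) (H.zt t y)‖ ≤ r1 / R * (12 * R) := by gcongr; linarith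
      _ = 12 * r1 := by field_simp
      _ ≤ r := hrr)
  have hn := norm_nonneg (∑ k ∈ sK φ1 φ2 N, H.U (Mc H c N o k) (gp H c N (mop (H.mu (chiP c) φ1 φ2) h) o k) t y)
  nlinarith

end

end Vale.Agent.P106.G
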