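import Vale.Agent.P106.G.Rec
import Vale.Agent.P106.A.LP

/-! # Localization: weights, kernels, covering -/

open MeasureTheory Complex Set Filter
open scoped ENNReal NNReal ContDiff FourierTransform Topology SchwartzMap

set_option linter.all false

namespace Vale.Agent.P106.G

open Vale.Agent.P117 (Adm cv cv_schwartz_eq enorm_cv_le)
open Vale.Agent.P106 (lintegral_smul3)

/-- localization weight -/
noncomputable def wl (ρ : ℝ) (x : E3) : ℝ := (1 + ‖x‖ / ρ) ^ (-(4:ℝ))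

theorem wl_pos {ρ : ℝ} (hρ : 0 < ρ) (x : E3) : 0 < wl ρ x := by
  unfold wl
  positivity

theorem cont_wl {ρ : ℝ} (hρ : 0 < ρ) : Continuous (wl ρ) := by
  unfold wl
  apply Continuous.rpow_const (by fun_prop)
  intro x
  left
  have : 0 ≤ ‖x‖ / ρ := by positivity
  linarith

theorem wl_ball {ρ : ℝ} (hρ : 0 < ρ) {x : E3} (h : ‖x‖ ≤ ρ) : 1 / 16 ≤ wl ρ x := by
  unfold wl
  have h1 : ‖x‖ / ρ ≤ 1 := by rw [div_le_one hρ]; exact h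
  have h0 : 0 ≤ ‖x‖ / ρ := by positivity
  have h2 : (2:ℝ) ^ (-(4:ℝ)) ≤ (1 + ‖x‖ / ρ) ^ (-(4:ℝ)) :=
    Real.rpow_le_rpow_of_nonpos (by linarith) (by linarith) (by norm_num)
  have h3 : (2:ℝ) ^ (-(4:ℝ)) = 1 / 16 := by
    rw [Real.rpow_neg (by norm_num)]
    norm_num
  rw [← h3]
  exact h2

theorem wl_int : ∃ C4 : ℝ, 1 ≤ C4 ∧ ∀ ρ : ℝ, 0 < ρ → ∫⁻ x : E3, ENNReal.ofReal (wl ρ x) ≤ ENNReal.ofReal (C4 * ρ ^ 3) := by
  have hI : Integrable (fun x : E3 => (1 + ‖x‖) ^ (-(4 : ℝ))) := by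
    apply integrable_one_add_norm
    simp only [finrank_euclideanSpace, Fintype.card_fin, Nat.cast_ofNat]
    norm_num
  refine ⟨max 1 (∫ x : E3, (1 + ‖x‖) ^ (-(4 : ℝ))), le_max_left _ _, ?_⟩
  intro ρ hρ
  have h1 := lintegral_smul3 (inv_pos.2 hρ) (fun x : E3 => ENNReal.ofReal ((1 + ‖x‖) ^ (-(4:ℝ))))
  have h2 : ∀ x : E3, ENNReal.ofReal (wl ρ x) = ENNReal.ofReal ((1 + ‖ρ⁻¹ • x‖) ^ (-(4:ℝ))) := by
    intro x
    unfold wl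
    rw [norm_smul, Real.norm_of_nonneg (inv_nonneg.2 hρ.le), div_eq_inv_mul]
  simp_rw [h2]
  rw [h1, ← ofReal_integral_eq_lintegral_ofReal hI (Eventually.of_forall fun x => by positivity),
    ← ENNReal.ofReal_mul (by positivity)]
  apply ENNReal.ofReal_le_ofReal
  rw [inv_pow, inv_inv, mul_comm]
  gcongr
  exact le_max_right _ _

theorem wl_holder : ∃ C4 : ℝ, 1 ≤ C4 ∧ ∀ (ρ p : ℝ), 1 ≤ ρ → 1 < p → ∀ (h : E3 → ℂ) (y0 : E3), Measurable h →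
    ∫⁻ x, ENNReal.ofReal (wl ρ (x - y0)) * ‖h x‖ₑ ≤ ENNReal.ofReal (C4 * ρ ^ 3) *
      (∫⁻ x, ENNReal.ofReal (wl ρ (x - y0)) * ‖h x‖ₑ ^ p) ^ (1 / p) := by
  obtain ⟨C4, hC4, hI⟩ := wl_int
  refine ⟨C4, hC4, ?_⟩
  intro ρ p hρ hp h y0 hm
  have hρ0 : 0 < ρ := by linarith
  set q := p / (p - 1) with hq
  have hpq : p.HolderConjugate q := Real.HolderConjugate.conjExponent hp
  have hp0 : 0 < p := by linarith
  have hq0 : 0 < q := hpq.symm.pos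
  have hwm : Measurable (fun x : E3 => ENNReal.ofReal (wl ρ (x - y0))) :=
    ENNReal.measurable_ofReal.comp ((cont_wl hρ0).measurable.comp (measurable_id.sub_const y0))
  have h1 := ENNReal.lintegral_mul_le_Lp_mul_Lq (volume : Measure E3) hpq.symm
    (f := fun x : E3 => ENNReal.ofReal (wl ρ (x - y0)) ^ (1 / q))
    (g := fun x : E3 => ENNReal.ofReal (wl ρ (x - y0)) ^ (1 / p) * ‖h x‖ₑ)
    (hwm.pow_const _).aemeasurable ((hwm.pow_const _).mul hm.enorm).aemeasurable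
  have e1 : ∀ x, ENNReal.ofReal (wl ρ (x - y0)) ^ (1 / q) * (ENNReal.ofReal (wl ρ (x - y0)) ^ (1 / p) * ‖h x‖ₑ) =
      ENNReal.ofReal (wl ρ (x - y0)) * ‖h x‖ₑ := by
    intro x
    rw [← mul_assoc, ← ENNReal.rpow_add_of_nonneg _ _ (by positivity) (by positivity)]
    have : 1 / q + 1 / p = 1 := by
      rw [one_div, one_div]
      exact hpq.symm.inv_add_inv_eq_one
    rw [this, ENNReal.rpow_one]
  have e2 : ∀ x, (ENNReal.ofReal (wl ρ (x - y0)) ^ (1 / q)) ^ q = ENNReal.ofReal (wl ρ (x - y0)) := by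
    intro x
    rw [← ENNReal.rpow_mul, one_div_mul_cancel hq0.ne', ENNReal.rpow_one]
  have e3 : ∀ x, (ENNReal.ofReal (wl ρ (x - y0)) ^ (1 / p) * ‖h x‖ₑ) ^ p =
      ENNReal.ofReal (wl ρ (x - y0)) * ‖h x‖ₑ ^ p := by
    intro x
    rw [ENNReal.mul_rpow_of_nonneg _ _ hp0.le, ← ENNReal.rpow_mul, one_div_mul_cancel hp0.ne', ENNReal.rpow_one]
  simp only [Pi.mul_apply] at h1
  simp_rw [e1, e2, e3] at h1
  refine h1.trans ?_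
  gcongr
  have h2 : ∫⁻ x : E3, ENNReal.ofReal (wl ρ (x - y0)) = ∫⁻ x : E3, ENNReal.ofReal (wl ρ x) :=
    lintegral_sub_right_eq_self (fun x => ENNReal.ofReal (wl ρ x)) y0
  rw [h2]
  have h3 : 1 ≤ C4 * ρ ^ 3 := by
    have : 1 ≤ ρ ^ 3 := one_le_pow₀ hρ
    nlinarith
  calc (∫⁻ x : E3, ENNReal.ofReal (wl ρ x)) ^ (1 / q) ≤ (ENNReal.ofReal (C4 * ρ ^ 3)) ^ (1 / q) := by
        gcongr
        exact hI ρ hρ0
    _ = ENNReal.ofReal ((C4 * ρ ^ 3) ^ (1 / q)) := by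
        rw [ENNReal.ofReal_rpow_of_nonneg (by positivity) (by positivity)]
    _ ≤ _ := by
        apply ENNReal.ofReal_le_ofReal
        calc (C4 * ρ ^ 3) ^ (1 / q) ≤ (C4 * ρ ^ 3) ^ (1:ℝ) := by
              apply Real.rpow_le_rpow_of_exponent_le h3
              rw [div_le_one hq0]
              exact hpq.symm.lt.le
          _ = _ := Real.rpow_one _

/-! ### Kernels -/

theorem mop_cv {M : E3 → ℂ} (hM : Sm M) {f : E3 → ℂ} (hf : Integrable f) : mop M f = cv (𝓕⁻ M) f := by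
  set MS : 𝓢(E3, ℂ) := hM.supp.toSchwartzMap hM.smooth with hMS
  have e1 : cv ((𝓕⁻ MS : 𝓢(E3, ℂ)) : E3 → ℂ) f = mop M f := cv_schwartz_eq MS hf
  have hKe : ((𝓕⁻ MS : 𝓢(E3, ℂ)) : E3 → ℂ) = 𝓕⁻ M := by
    rw [SchwartzMap.fourierInv_coe]
    rfl
  rw [← e1, hKe]

section
variable {χ φ1 φ2 : ℝ → ℂ}

theorem U_pt (hχ : Rcut χ) (h1 : Vc φ1) (h2 : Vc φ2) {H : Hyp} (hH : H.ok) {f : E3 → ℂ} (hf : Integrable f) (t : ℝ)
    (y : E3) : ‖H.U (H.mu χ φ1 φ2) f t y‖ₑ ≤ ∫⁻ x, ‖𝓕⁻ (H.em t (H.mu χ φ1 φ2)) (y - x)‖ₑ * ‖f x‖ₑ := by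
  rw [U_eq, mop_cv (sm_em hH hχ h1 h2 t) hf]
  exact enorm_cv_le _ _ _

/-- (B2) -/
theorem U_int (hχ : Rcut χ) (h1 : Vc φ1) (h2 : Vc φ2) : ∃ C : ℝ, 0 ≤ C ∧ ∀ (H : Hyp), H.ok → ∀ (f : E3 → ℂ),
    Integrable f → ∀ t y, ‖H.U (H.mu χ φ1 φ2) f t y‖ₑ ≤ ENNReal.ofReal C * ∫⁻ x, ‖f x‖ₑ := by
  obtain ⟨C, hC, hk⟩ := ker_bound hχ h1 h2 0
  refine ⟨C, hC, ?_⟩
  intro H hH f hf t y
  refine (U_pt hχ h1 h2 hH hf t y).trans ?_
  rw [← lintegral_const_mul' _ _ ENNReal.ofReal_ne_top]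
  gcongr with x
  rw [← ofReal_norm]
  apply ENNReal.ofReal_le_ofReal
  have := hk H hH t (y - x)
  simpa using this

/-- (B1) -/
theorem U_sup (hχ : Rcut χ) (h1 : Vc φ1) (h2 : Vc φ2) : ∃ C : ℝ, 0 ≤ C ∧ ∀ (H : Hyp), H.ok → ∀ (f : E3 → ℂ) (A : ℝ),
    Adm volume f → (∀ x, ‖f x‖ ≤ A) → ∀ t y, ‖H.U (H.mu χ φ1 φ2) f t y‖ₑ ≤ ENNReal.ofReal (C * (1 + |t|) ^ 4 * A) := by
  obtain ⟨C, hC, hk⟩ := ker_L1 hχ h1 h2
  refine ⟨C, hC, ?_⟩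
  intro H hH f A hf hA t y
  rw [U_eq]
  exact mop_sup (sm_em hH hχ h1 h2 t) hf (hk H hH t) hA y

/-- (B3) decay of the kernel outside the ball -/
theorem ker_tail (hχ : Rcut χ) (h1 : Vc φ1) (h2 : Vc φ2) {δ : ℝ} (hδ : 0 < δ) (L : ℝ) : ∃ C : ℝ, 0 ≤ C ∧
    ∀ (H : Hyp), H.ok → ∀ (R : ℝ), 1 ≤ R → ∀ t ∈ Icc R (2 * R), ∀ y0 : E3, ∀ y ∈ Metric.ball y0 R, ∀ x : E3,
      2 * R ^ (1 + δ) ≤ ‖x - y0‖ →
      ‖𝓕⁻ (H.em t (H.mu χ φ1 φ2)) (y - x)‖ ≤ C * R ^ (-L) * wl (2 * R ^ (1 + δ)) (x - y0) := by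
  set n : ℕ := max 4 ⌈L / δ⌉₊ with hn
  have hn4 : (4:ℝ) ≤ n := by
    have : 4 ≤ n := le_max_left _ _
    exact_mod_cast this
  have hnL : L ≤ δ * n := by
    have h3 : L / δ ≤ (n:ℝ) := (Nat.le_ceil _).trans (by
      have : ⌈L / δ⌉₊ ≤ n := le_max_right _ _
      exact_mod_cast this)
    rw [div_le_iff₀ hδ] at h3
    linarith
  obtain ⟨C, hC, hk⟩ := ker_bound hχ h1 h2 n
  refine ⟨C * 6 ^ n, by positivity, ?_⟩
  intro H hH R hR t ht y0 y hy x hx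
  have hR0 : 0 < R := by linarith
  set ρ := 2 * R ^ (1 + δ) with hρ
  have hρ0 : 0 < ρ := by positivity
  have hRρ : 2 * R ≤ ρ := by
    have : R ^ (1:ℝ) ≤ R ^ (1 + δ) := Real.rpow_le_rpow_of_exponent_le hR (by linarith)
    rw [Real.rpow_one] at this
    rw [hρ]; linarith
  have hy' : ‖y - y0‖ < R := by rwa [← dist_eq_norm]
  have h3 : ‖x - y0‖ ≤ ‖y - x‖ + ‖y - y0‖ := by
    have : x - y0 = -(y - x) + (y - y0) := by abel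
    rw [this]
    refine (norm_add_le _ _).trans ?_
    rw [norm_neg]
  have h4 : ‖x - y0‖ / 2 ≤ ‖y - x‖ := by linarith
  set u := 1 + ‖x - y0‖ / ρ with hu
  have hu1 : 1 ≤ u := by
    have : 0 ≤ ‖x - y0‖ / ρ := by positivity
    linarith
  have hu0 : 0 < u := by linarith
  have h5 : ρ * u / 4 ≤ 1 + ‖y - x‖ := by
    have : ρ * u = ρ + ‖x - y0‖ := by rw [hu]; field_simp
    rw [this]
    linarith
  have h6 := hk H hH t (y - x)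
  have ht0 : 0 ≤ t := by linarith [ht.1]
  rw [abs_of_nonneg ht0] at h6
  have h7 : (ρ * u / 4) ^ n * ‖𝓕⁻ (H.em t (H.mu χ φ1 φ2)) (y - x)‖ ≤ C * (3 * R) ^ n := by
    calc _ ≤ (1 + ‖y - x‖) ^ n * ‖𝓕⁻ (H.em t (H.mu χ φ1 φ2)) (y - x)‖ := by gcongr
      _ ≤ C * (1 + t) ^ n := h6
      _ ≤ C * (3 * R) ^ n := by
          gcongr
          linarith [ht.2]
  have h8 : ‖𝓕⁻ (H.em t (H.mu χ φ1 φ2)) (y - x)‖ ≤ C * (3 * R / (ρ * u / 4)) ^ n := by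
    rw [div_pow, mul_div_assoc', le_div_iff₀ (by positivity), mul_comm]
    exact h7
  have h9 : 3 * R / (ρ * u / 4) = 6 * (R ^ (-δ) * u⁻¹) := by
    have e1 : ρ = 2 * (R * R ^ δ) := by
      rw [hρ, Real.rpow_add hR0, Real.rpow_one]
    rw [e1, Real.rpow_neg hR0.le]
    field_simp
    norm_num
  rw [h9, mul_pow, mul_pow] at h8
  refine h8.trans ?_
  have e2 : (R ^ (-δ)) ^ n ≤ R ^ (-L) := by
    rw [← Real.rpow_natCast, ← Real.rpow_mul hR0.le]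
    apply Real.rpow_le_rpow_of_exponent_le hR
    linarith
  have e3 : (u⁻¹) ^ n ≤ wl ρ (x - y0) := by
    unfold wl
    rw [← hu, inv_pow, ← Real.rpow_natCast, ← Real.rpow_neg hu0.le]
    apply Real.rpow_le_rpow_of_exponent_le hu1
    linarith
  have hw := (wl_pos hρ0 (x - y0)).le
  calc C * (6 ^ n * ((R ^ (-δ)) ^ n * u⁻¹ ^ n)) ≤ C * (6 ^ n * (R ^ (-L) * wl ρ (x - y0))) := by gcongr
    _ = _ := by ring

theorem U_tail (hχ : Rcut χ) (h1 : Vc φ1) (h2 : Vc φ2) {δ : ℝ} (hδ : 0 < δ) (L : ℝ) : ∃ C : ℝ, 0 ≤ C ∧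
    ∀ (H : Hyp), H.ok → ∀ (R : ℝ), 1 ≤ R → ∀ t ∈ Icc R (2 * R), ∀ y0 : E3, ∀ y ∈ Metric.ball y0 R, ∀ f : E3 → ℂ,
      Integrable f → (∀ x, f x ≠ 0 → 2 * R ^ (1 + δ) ≤ ‖x - y0‖) →
      ‖H.U (H.mu χ φ1 φ2) f t y‖ₑ ≤ ENNReal.ofReal (C * R ^ (-L)) *
        ∫⁻ x, ENNReal.ofReal (wl (2 * R ^ (1 + δ)) (x - y0)) * ‖f x‖ₑ := by
  obtain ⟨C, hC, hk⟩ := ker_tail hχ h1 h2 hδ L
  refine ⟨C, hC, ?_⟩
  intro H hH R hR t ht y0 y hy f hf hs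
  have hR0 : 0 < R := by linarith
  refine (U_pt hχ h1 h2 hH hf t y).trans ?_
  rw [← lintegral_const_mul' _ _ ENNReal.ofReal_ne_top]
  apply lintegral_mono
  intro x
  simp only
  by_cases hx : f x = 0
  · rw [hx]; simp
  · rw [← mul_assoc, ← ENNReal.ofReal_mul (by positivity)]
    gcongr
    rw [← ofReal_norm]
    exact ENNReal.ofReal_le_ofReal (hk H hH R hR t ht y0 y hy x (hs x hx))

end

end Vale.Agent.P106.G
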