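import Vale.Agent.P106.G.LocA

/-! # Localization: levels -/

open MeasureTheory Complex Set Filter
open scoped ENNReal NNReal ContDiff FourierTransform Topology SchwartzMap

set_option linter.all false

namespace Vale.Agent.P106.G

open Vale.Agent.P117 (Adm)

/-! ### Linearity -/

theorem mop_sub {M : E3 → ℂ} (hM : Sm M) {f g : E3 → ℂ} (hf : Adm volume f) (hg : Adm volume g) (x : E3) :
    mop M (fun x => f x - g x) x = mop M f x - mop M g x := by
  have h1 : Adm volume (fun x => f x - g x) := hf.sub hg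
  have h2 := mop_add hM h1 hg x
  have e : (fun x => (fun x => f x - g x) x + g x) = f := by ext x; simp
  rw [e] at h2
  rw [h2]
  ring

theorem mop_smul (M : E3 → ℂ) (c : ℂ) (f : E3 → ℂ) (x : E3) : mop M (fun x => c * f x) x = c * mop M f x := by
  unfold mop
  rw [← Vale.Agent.P106.fi_const]
  refine congrArg (fun G : E3 → ℂ => 𝓕⁻ G x) (funext fun ξ => ?_)
  have h1 : 𝓕 (fun x => c * f x) ξ = c * 𝓕 f ξ := by
    rw [Real.fourier_eq, Real.fourier_eq, ← integral_const_mul]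
    congr 1
    ext v
    simp only [Circle.smul_def, smul_eq_mul]
    ring
  rw [h1]
  ring

section
variable {χ φ1 φ2 : ℝ → ℂ}

theorem U_sub (hχ : Rcut χ) (h1 : Vc φ1) (h2 : Vc φ2) {H : Hyp} (hH : H.ok) {f g : E3 → ℂ} (hf : Adm volume f)
    (hg : Adm volume g) (t : ℝ) (y : E3) : H.U (H.mu χ φ1 φ2) (fun x => f x - g x) t y =
      H.U (H.mu χ φ1 φ2) f t y - H.U (H.mu χ φ1 φ2) g t y := by
  rw [U_eq, U_eq, U_eq, mop_sub (sm_em hH hχ h1 h2 t) hf hg]

theorem U_smul (H : Hyp) (M : E3 → ℂ) (c : ℂ) (f : E3 → ℂ) (t : ℝ) (y : E3) :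
    H.U M (fun x => c * f x) t y = c * H.U M f t y := by
  rw [U_eq, U_eq, mop_smul]

end

/-! ### Truncation -/

/-- truncation -/
noncomputable def trc (h : E3 → ℂ) (lam : ℝ) (x : E3) : ℂ := {x | ‖h x‖ ≤ lam}.indicator h x

theorem meas_lev {h : E3 → ℂ} (hm : Measurable h) (lam : ℝ) : MeasurableSet {x | ‖h x‖ ≤ lam} :=
  measurableSet_le hm.norm measurable_const

theorem trc_adm {h : E3 → ℂ} (hh : Adm volume h) (lam : ℝ) : Adm volume (trc h lam) := by
  refine ⟨hh.meas.indicator (meas_lev hh.meas lam), hh.int.indicator (meas_lev hh.meas lam), ?_⟩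
  obtain ⟨C, hC⟩ := hh.bdd
  refine ⟨C, fun x => ?_⟩
  refine (norm_indicator_le_norm_self _ _).trans (hC x)

theorem norm_trc_le (h : E3 → ℂ) (lam : ℝ) (x : E3) : ‖trc h lam x‖ ≤ ‖h x‖ := norm_indicator_le_norm_self _ _

theorem norm_trc_le' (h : E3 → ℂ) {lam : ℝ} (h0 : 0 ≤ lam) (x : E3) : ‖trc h lam x‖ ≤ lam := by
  unfold trc
  by_cases hx : x ∈ {x | ‖h x‖ ≤ lam}
  · rw [indicator_of_mem hx]; exact hx
  · rw [indicator_of_notMem hx, norm_zero]; exact h0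

/-- a band -/
def band (h : E3 → ℂ) (a b : ℝ) : Set E3 := {x | a < ‖h x‖ ∧ ‖h x‖ ≤ b}

theorem meas_band {h : E3 → ℂ} (hm : Measurable h) (a b : ℝ) : MeasurableSet (band h a b) :=
  (measurableSet_lt measurable_const hm.norm).inter (measurableSet_le hm.norm measurable_const)

theorem trc_sub {h : E3 → ℂ} {a b : ℝ} (hab : a ≤ b) (x : E3) :
    trc h b x - trc h a x = (band h a b).indicator h x := by
  unfold trc
  by_cases h1 : ‖h x‖ ≤ a
  · have h2 : ‖h x‖ ≤ b := h1.trans hab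
    rw [indicator_of_mem (show x ∈ {x | ‖h x‖ ≤ b} from h2), indicator_of_mem (show x ∈ {x | ‖h x‖ ≤ a} from h1),
      indicator_of_notMem (show x ∉ band h a b from fun hx => absurd hx.1 (not_lt.2 h1)), sub_self]
  · rw [indicator_of_notMem (show x ∉ {x | ‖h x‖ ≤ a} from h1), sub_zero]
    by_cases h2 : ‖h x‖ ≤ b
    · rw [indicator_of_mem (show x ∈ {x | ‖h x‖ ≤ b} from h2),
        indicator_of_mem (show x ∈ band h a b from ⟨not_le.1 h1, h2⟩)]
    · rw [indicator_of_notMem (show x ∉ {x | ‖h x‖ ≤ b} from h2),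
        indicator_of_notMem (show x ∉ band h a b from fun hx => h2 hx.2)]

theorem norm_sub_trc (h : E3 → ℂ) (lam : ℝ) (x : E3) : h x - trc h lam x = {x | ‖h x‖ ≤ lam}ᶜ.indicator h x := by
  unfold trc
  by_cases hx : x ∈ {x | ‖h x‖ ≤ lam}
  · rw [indicator_of_mem hx, sub_self, indicator_of_notMem (by simpa using hx)]
  · rw [indicator_of_notMem hx, sub_zero, indicator_of_mem (show x ∈ {x | ‖h x‖ ≤ lam}ᶜ from hx)]

/-- the top part -/
theorem top_le {h : E3 → ℂ} {lam p : ℝ} (hl : 0 < lam) (hp : 1 < p) :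
    ∫⁻ x, ‖h x - trc h lam x‖ₑ ≤ ENNReal.ofReal (lam ^ (1 - p)) * ∫⁻ x, ‖h x‖ₑ ^ p := by
  rw [← lintegral_const_mul' _ _ ENNReal.ofReal_ne_top]
  apply lintegral_mono
  intro x
  simp only
  rw [norm_sub_trc]
  by_cases hx : ‖h x‖ ≤ lam
  · rw [indicator_of_notMem (show x ∉ {x | ‖h x‖ ≤ lam}ᶜ from fun h' => h' hx)]
    simp
  · have hx' : lam < ‖h x‖ := not_le.1 hx
    have hx0 : 0 < ‖h x‖ := hl.trans hx'
    rw [indicator_of_mem (show x ∈ {x | ‖h x‖ ≤ lam}ᶜ from hx), ← ofReal_norm,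
      ENNReal.ofReal_rpow_of_nonneg (norm_nonneg _) (by linarith), ← ENNReal.ofReal_mul (by positivity)]
    apply ENNReal.ofReal_le_ofReal
    have h1 : ‖h x‖ ^ (1 - p) ≤ lam ^ (1 - p) := Real.rpow_le_rpow_of_nonpos hl hx'.le (by linarith)
    calc ‖h x‖ = ‖h x‖ ^ (1 - p) * ‖h x‖ ^ p := by
          rw [← Real.rpow_add hx0]
          have : 1 - p + p = 1 := by ring
          rw [this, Real.rpow_one]
      _ ≤ _ := by gcongr

/-- measure of a band -/
theorem band_meas {h : E3 → ℂ} (hm : Measurable h) {a b p : ℝ} (ha : 0 ≤ a) (hp : 0 < p) :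
    ENNReal.ofReal (a ^ p) * volume (band h a b) ≤ ∫⁻ x, ‖h x‖ₑ ^ p := by
  have h1 := mul_meas_ge_le_lintegral (μ := (volume : Measure E3)) (hm.enorm.pow_const p) (ENNReal.ofReal (a ^ p))
  refine le_trans ?_ h1
  gcongr
  intro x hx
  show ENNReal.ofReal (a ^ p) ≤ ‖h x‖ₑ ^ p
  rw [← ofReal_norm, ENNReal.ofReal_rpow_of_nonneg (norm_nonneg _) hp.le]
  apply ENNReal.ofReal_le_ofReal
  exact Real.rpow_le_rpow ha hx.1.le hp.le

theorem band_fin {h : E3 → ℂ} (hm : Measurable h) {a b p : ℝ} (ha : 0 < a) (hp : 0 < p)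
    (hf : ∫⁻ x, ‖h x‖ₑ ^ p < ⊤) : volume (band h a b) < ⊤ := by
  have h1 := band_meas hm (b := b) ha.le hp
  by_contra h2
  have h3 : volume (band h a b) = ⊤ := by
    rw [not_lt, top_le_iff] at h2
    exact h2
  rw [h3, ENNReal.mul_top (by
    rw [ne_eq, ENNReal.ofReal_eq_zero, not_le]
    positivity)] at h1
  exact absurd hf (not_lt.2 h1)

/-! ### Elementary inequalities -/

theorem sum_rpow_le {ι : Type*} (s : Finset ι) (x : ι → ℝ≥0∞) {q : ℝ} (hq : 0 < q) :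
    (∑ i ∈ s, x i) ^ q ≤ (s.card : ℝ≥0∞) ^ q * ∑ i ∈ s, x i ^ q := by
  classical
  by_cases hs : s.Nonempty
  · obtain ⟨j, hj, hmax⟩ := s.exists_max_image x hs
    calc (∑ i ∈ s, x i) ^ q ≤ (∑ i ∈ s, x j) ^ q := by
          gcongr with i hi
          exact hmax i hi
      _ = ((s.card : ℝ≥0∞) * x j) ^ q := by rw [Finset.sum_const, nsmul_eq_mul]
      _ = (s.card : ℝ≥0∞) ^ q * x j ^ q := ENNReal.mul_rpow_of_nonneg _ _ hq.le
      _ ≤ _ := by
          gcongr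
          exact Finset.single_le_sum (f := fun i => x i ^ q) (fun _ _ => zero_le) hj
  · rw [Finset.not_nonempty_iff_eq_empty] at hs
    subst hs
    simp only [Finset.sum_empty, Finset.card_empty, Nat.cast_zero, mul_zero]
    rw [ENNReal.zero_rpow_of_pos hq]

theorem add_rpow_le' (a b : ℝ≥0∞) {q : ℝ} (hq : 0 ≤ q) : (a + b) ^ q ≤ 2 ^ q * (a ^ q + b ^ q) := by
  rcases le_total a b with h | h
  · calc (a + b) ^ q ≤ (b + b) ^ q := by gcongr
      _ = 2 ^ q * b ^ q := by rw [← two_mul, ENNReal.mul_rpow_of_nonneg _ _ hq]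
      _ ≤ _ := by gcongr; exact le_add_self
  · calc (a + b) ^ q ≤ (a + a) ^ q := by gcongr
      _ = 2 ^ q * a ^ q := by rw [← two_mul, ENNReal.mul_rpow_of_nonneg _ _ hq]
      _ ≤ _ := by gcongr; exact le_self_add

/-- number of levels -/
theorem lev {ε : ℝ} (hε : 0 < ε) : ∃ C : ℝ, 0 ≤ C ∧ ∀ R : ℝ, 1 ≤ R → ∃ K : ℕ, R ^ (16:ℝ) ≤ 2 ^ K ∧ (2 * K : ℝ) ≤ C * R ^ ε := by
  have hl2 : 0 < Real.log 2 := Real.log_pos (by norm_num)
  refine ⟨2 * (16 / Real.log 2 * (1 / ε) + 1), by positivity, ?_⟩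
  intro R hR
  have hR0 : 0 < R := by linarith
  have hlR : 0 ≤ Real.log R := Real.log_nonneg hR
  refine ⟨⌈16 * Real.log R / Real.log 2⌉₊, ?_, ?_⟩
  · have h1 : 16 * Real.log R / Real.log 2 ≤ (⌈16 * Real.log R / Real.log 2⌉₊ : ℝ) := Nat.le_ceil _
    have h2 : (2:ℝ) ^ (16 * Real.log R / Real.log 2) ≤ 2 ^ ((⌈16 * Real.log R / Real.log 2⌉₊ : ℕ) : ℝ) :=
      Real.rpow_le_rpow_of_exponent_le (by norm_num) h1
    rw [Real.rpow_natCast] at h2
    refine le_trans (le_of_eq ?_) h2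
    rw [Real.rpow_def_of_pos hR0, Real.rpow_def_of_pos (by norm_num : (0:ℝ) < 2)]
    congr 1
    field_simp
  · have h1 : (⌈16 * Real.log R / Real.log 2⌉₊ : ℝ) < 16 * Real.log R / Real.log 2 + 1 :=
      Nat.ceil_lt_add_one (by positivity)
    have h2 : Real.log R ≤ R ^ ε / ε := Real.log_le_rpow_div hR0.le hε
    have h3 : 1 ≤ R ^ ε := Real.one_le_rpow hR hε.le
    have h4 : 16 * Real.log R / Real.log 2 ≤ 16 / Real.log 2 * (1 / ε) * R ^ ε := by
      calc 16 * Real.log R / Real.log 2 = 16 / Real.log 2 * Real.log R := by ring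
        _ ≤ 16 / Real.log 2 * (R ^ ε / ε) := by gcongr
        _ = _ := by ring
    calc (2 * (⌈16 * Real.log R / Real.log 2⌉₊ : ℝ)) ≤ 2 * (16 / Real.log 2 * (1 / ε) * R ^ ε + R ^ ε) := by
          linarith
      _ = _ := by ring

end Vale.Agent.P106.G
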