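import Vale.Agent.P106.G.LocB

/-! # Localization: pairs of levels, telescoping, elementary estimates -/

open MeasureTheory Complex Set Filter
open scoped ENNReal NNReal ContDiff FourierTransform Topology SchwartzMap

set_option linter.all false

namespace Vale.Agent.P106.G

open Vale.Agent.P117 (Adm)

theorem band_adm {h : E3 → ℂ} (hh : Adm volume h) (a b : ℝ) : Adm volume ((band h a b).indicator h) := by
  refine ⟨hh.meas.indicator (meas_band hh.meas a b), hh.int.indicator (meas_band hh.meas a b), ?_⟩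
  obtain ⟨C, hC⟩ := hh.bdd
  exact ⟨C, fun x => (norm_indicator_le_norm_self _ _).trans (hC x)⟩

theorem adm_pow_fin {h : E3 → ℂ} (hh : Adm volume h) {p : ℝ} (hp : 1 ≤ p) : ∫⁻ x, ‖h x‖ₑ ^ p < ⊤ := by
  rw [Vale.Agent.P106.nrm_pow hp hh]
  exact ENNReal.ofReal_lt_top

/-- one pair of levels -/
theorem pair_bd {p Bc R : ℝ} {y0 : E3} {H : Hyp} {M M' : E3 → ℂ} (hp : 1 ≤ p) (hBc : 0 ≤ Bc)
    (hBR : ∀ (h h' : E3 → ℂ) (G G' : Set E3), Adm volume h → Adm volume h' → MeasurableSet G → MeasurableSet G' →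
      volume G < ⊤ → volume G' < ⊤ →
      (∀ y, ‖h y‖ ≤ G.indicator (fun _ => (1:ℝ)) y) → (∀ y, ‖h' y‖ ≤ G'.indicator (fun _ => (1:ℝ)) y) →
      ∫⁻ t in Icc R (2 * R), ∫⁻ y in Metric.ball y0 R, (‖H.U M h t y‖ₑ * ‖H.U M' h' t y‖ₑ) ^ (p / 2) ≤
        ENNReal.ofReal Bc * (volume G * volume G') ^ (1/2 : ℝ))
    {h : E3 → ℂ} (hh : Adm volume h) {a a' : ℝ} (ha : 0 < a) (ha' : 0 < a') :
    ∫⁻ t in Icc R (2 * R), ∫⁻ y in Metric.ball y0 R, (‖H.U M ((band h a (2 * a)).indicator h) t y‖ₑ *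
      ‖H.U M' ((band h a' (2 * a')).indicator h) t y‖ₑ) ^ (p / 2) ≤ ENNReal.ofReal (Bc * 2 ^ p) * ∫⁻ x, ‖h x‖ₑ ^ p := by
  have hp0 : 0 < p := by linarith
  set I := ∫⁻ x, ‖h x‖ₑ ^ p with hI
  have hIf : I < ⊤ := adm_pow_fin hh hp
  set G := band h a (2 * a) with hG
  set G' := band h a' (2 * a') with hG'
  set g : E3 → ℂ := fun x => (((2 * a)⁻¹ : ℝ) : ℂ) * G.indicator h x with hg
  set g' : E3 → ℂ := fun x => (((2 * a')⁻¹ : ℝ) : ℂ) * G'.indicator h x with hg'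
  have gA : ∀ {b : ℝ}, 0 < b → Adm volume (fun x => (((2 * b)⁻¹ : ℝ) : ℂ) * (band h b (2 * b)).indicator h x) := by
    intro b hb
    exact (band_adm hh b (2 * b)).smul _
  have gB : ∀ {b : ℝ}, 0 < b → ∀ y, ‖(((2 * b)⁻¹ : ℝ) : ℂ) * (band h b (2 * b)).indicator h y‖ ≤
      (band h b (2 * b)).indicator (fun _ => (1:ℝ)) y := by
    intro b hb y
    by_cases hy : y ∈ band h b (2 * b)
    · rw [indicator_of_mem hy, indicator_of_mem hy, norm_mul, Complex.norm_real, Real.norm_of_nonneg (by positivity),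
        inv_mul_le_iff₀ (by positivity), mul_one]
      exact hy.2
    · rw [indicator_of_notMem hy, indicator_of_notMem hy]
      simp
  have hV : ∀ {b : ℝ}, 0 < b → ∀ (N : E3 → ℂ) t y, ‖H.U N ((band h b (2 * b)).indicator h) t y‖ₑ =
      ENNReal.ofReal (2 * b) * ‖H.U N (fun x => (((2 * b)⁻¹ : ℝ) : ℂ) * (band h b (2 * b)).indicator h x) t y‖ₑ := by
    intro b hb N t y
    rw [U_smul, enorm_mul, ← mul_assoc, ← ofReal_norm (((2 * b)⁻¹ : ℝ) : ℂ), Complex.norm_real,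
      Real.norm_of_nonneg (by positivity), ← ENNReal.ofReal_mul (by positivity), mul_inv_cancel₀ (by positivity),
      ENNReal.ofReal_one, one_mul]
  have h1 := hBR g g' G G' (gA ha) (gA ha') (meas_band hh.meas _ _) (meas_band hh.meas _ _)
    (band_fin hh.meas ha hp0 hIf) (band_fin hh.meas ha' hp0 hIf) (gB ha) (gB ha')
  have e1 : ∀ t y, (‖H.U M (G.indicator h) t y‖ₑ * ‖H.U M' (G'.indicator h) t y‖ₑ) ^ (p / 2) =
      ENNReal.ofReal ((2 * a * (2 * a')) ^ (p / 2)) * (‖H.U M g t y‖ₑ * ‖H.U M' g' t y‖ₑ) ^ (p / 2) := by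
    intro t y
    have e0 : ‖H.U M (G.indicator h) t y‖ₑ * ‖H.U M' (G'.indicator h) t y‖ₑ =
        ENNReal.ofReal (2 * a * (2 * a')) * (‖H.U M g t y‖ₑ * ‖H.U M' g' t y‖ₑ) := by
      have v1 : ‖H.U M (G.indicator h) t y‖ₑ = ENNReal.ofReal (2 * a) * ‖H.U M g t y‖ₑ := hV ha M t y
      have v2 : ‖H.U M' (G'.indicator h) t y‖ₑ = ENNReal.ofReal (2 * a') * ‖H.U M' g' t y‖ₑ := hV ha' M' t y
      have v3 : ENNReal.ofReal (2 * a * (2 * a')) = ENNReal.ofReal (2 * a) * ENNReal.ofReal (2 * a') :=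
        ENNReal.ofReal_mul (by positivity)
      rw [v1, v2, v3]
      ring
    rw [e0, ENNReal.mul_rpow_of_nonneg _ _ (by positivity), ENNReal.ofReal_rpow_of_nonneg (by positivity) (by positivity)]
  simp_rw [e1]
  have e2 : ∀ t, ∫⁻ y in Metric.ball y0 R, ENNReal.ofReal ((2 * a * (2 * a')) ^ (p / 2)) *
      (‖H.U M g t y‖ₑ * ‖H.U M' g' t y‖ₑ) ^ (p / 2) = ENNReal.ofReal ((2 * a * (2 * a')) ^ (p / 2)) *
      ∫⁻ y in Metric.ball y0 R, (‖H.U M g t y‖ₑ * ‖H.U M' g' t y‖ₑ) ^ (p / 2) := by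
    intro t
    rw [lintegral_const_mul' _ _ ENNReal.ofReal_ne_top]
  simp_rw [e2]
  rw [lintegral_const_mul' _ _ ENNReal.ofReal_ne_top]
  have hm : ENNReal.ofReal (a ^ p) * volume G ≤ I := band_meas hh.meas ha.le hp0
  have hm' : ENNReal.ofReal (a' ^ p) * volume G' ≤ I := band_meas hh.meas ha'.le hp0
  have e3 : ENNReal.ofReal ((2 * a * (2 * a')) ^ (p / 2)) * (volume G * volume G') ^ (1/2 : ℝ) =
      ENNReal.ofReal (2 ^ p) * ((ENNReal.ofReal (a ^ p) * volume G) * (ENNReal.ofReal (a' ^ p) * volume G')) ^ (1/2 : ℝ) := by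
    have e4 : (2 * a * (2 * a')) ^ (p / 2) = 2 ^ p * (a ^ p * a' ^ p) ^ (1/2 : ℝ) := by
      have e5 : 2 * a * (2 * a') = 2 ^ (2:ℝ) * (a * a') := by
        rw [Real.rpow_two]; ring
      rw [e5, Real.mul_rpow (by positivity) (by positivity), ← Real.rpow_mul (by norm_num),
        ← Real.mul_rpow ha.le ha'.le, ← Real.rpow_mul (by positivity)]
      congr 2
      · ring
      · ring
    rw [e4, ENNReal.ofReal_mul (by positivity), mul_assoc]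
    congr 1
    rw [← ENNReal.ofReal_rpow_of_nonneg (by positivity) (by positivity), ← ENNReal.mul_rpow_of_nonneg _ _ (by positivity),
      ENNReal.ofReal_mul (by positivity)]
    congr 1
    ring
  calc ENNReal.ofReal ((2 * a * (2 * a')) ^ (p / 2)) * ∫⁻ t in Icc R (2 * R), ∫⁻ y in Metric.ball y0 R,
        (‖H.U M g t y‖ₑ * ‖H.U M' g' t y‖ₑ) ^ (p / 2) ≤
      ENNReal.ofReal ((2 * a * (2 * a')) ^ (p / 2)) * (ENNReal.ofReal Bc * (volume G * volume G') ^ (1/2 : ℝ)) := by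
        gcongr
    _ = ENNReal.ofReal Bc * (ENNReal.ofReal ((2 * a * (2 * a')) ^ (p / 2)) * (volume G * volume G') ^ (1/2 : ℝ)) := by ring
    _ = ENNReal.ofReal Bc * (ENNReal.ofReal (2 ^ p) * ((ENNReal.ofReal (a ^ p) * volume G) *
        (ENNReal.ofReal (a' ^ p) * volume G')) ^ (1/2 : ℝ)) := by rw [e3]
    _ ≤ ENNReal.ofReal Bc * (ENNReal.ofReal (2 ^ p) * (I * I) ^ (1/2 : ℝ)) := by gcongr
    _ = _ := by
        have : (I * I) ^ (1/2 : ℝ) = I := by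
          rw [← sq, ← ENNReal.rpow_natCast, ← ENNReal.rpow_mul]
          norm_num
        rw [this, ENNReal.ofReal_mul hBc, mul_assoc]

section
variable {χ φ1 φ2 : ℝ → ℂ}

/-- telescoping -/
theorem U_tele (hχ : Rcut χ) (h1 : Vc φ1) (h2 : Vc φ2) {H : Hyp} (hH : H.ok) {h : E3 → ℂ} (hh : Adm volume h)
    {l0 : ℝ} (hl : 0 < l0) (n : ℕ) (t : ℝ) (y : E3) :
    H.U (H.mu χ φ1 φ2) (trc h (2 ^ n * l0)) t y - H.U (H.mu χ φ1 φ2) (trc h l0) t y =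
      ∑ i ∈ Finset.range n, H.U (H.mu χ φ1 φ2) ((band h (2 ^ i * l0) (2 * (2 ^ i * l0))).indicator h) t y := by
  have h3 := Finset.sum_range_sub (fun i => H.U (H.mu χ φ1 φ2) (trc h (2 ^ i * l0)) t y) n
  rw [pow_zero, one_mul] at h3
  rw [← h3]
  apply Finset.sum_congr rfl
  intro i hi
  rw [← U_sub hχ h1 h2 hH (trc_adm hh _) (trc_adm hh _)]
  congr 1
  ext x
  have hab : 2 ^ i * l0 ≤ 2 * (2 ^ i * l0) := by
    have : 0 < 2 ^ i * l0 := by positivity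
    linarith
  have e : (2:ℝ) ^ (i + 1) * l0 = 2 * (2 ^ i * l0) := by ring
  rw [e, trc_sub hab]

end

theorem pow8 {R δ : ℝ} (hR : 1 ≤ R) (hδ1 : δ ≤ 1) : (2 * R ^ (1 + δ)) ^ 3 ≤ 8 * R ^ (6:ℝ) := by
  have hR0 : 0 < R := by linarith
  have h1 : (R ^ (1 + δ)) ^ 3 ≤ R ^ (6:ℝ) := by
    rw [← Real.rpow_natCast, ← Real.rpow_mul hR0.le]
    apply Real.rpow_le_rpow_of_exponent_le hR
    push_cast
    linarith
  calc (2 * R ^ (1 + δ)) ^ 3 = 8 * (R ^ (1 + δ)) ^ 3 := by ring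
    _ ≤ _ := by gcongr

theorem arith1 {R A δ p C4 CT CS C0 t : ℝ} {K : ℕ} (hR : 1 ≤ R) (hA : 0 < A) (hδ1 : δ ≤ 1) (hp : 2 < p)
    (h4 : 0 ≤ C4) (hT : 0 ≤ CT) (hS : 0 ≤ CS) (h0 : 0 ≤ C0) (hK : R ^ (16:ℝ) ≤ 2 ^ K) (ht0 : 0 ≤ t) (ht : t ≤ 2 * R) :
    CT * R ^ (-(16:ℝ)) * (C4 * (2 * R ^ (1 + δ)) ^ 3 * A) + CS * (1 + |t|) ^ 4 * (A / 2 ^ K) +
      C0 * ((2 ^ K * A) ^ (1 - p) * (16 * A ^ p)) ≤ (8 * CT * C4 + 81 * CS + 16 * C0) * R ^ (-(10:ℝ)) * A := by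
  have hR0 : 0 < R := by linarith
  have e1 : R ^ (-(16:ℝ)) * R ^ (6:ℝ) = R ^ (-(10:ℝ)) := by
    rw [← Real.rpow_add hR0]; norm_num
  have e16 : R ^ (-(16:ℝ)) ≤ R ^ (-(10:ℝ)) := Real.rpow_le_rpow_of_exponent_le hR (by norm_num)
  have hKi : ((2:ℝ) ^ K)⁻¹ ≤ R ^ (-(16:ℝ)) := by
    rw [Real.rpow_neg hR0.le]
    exact inv_anti₀ (by positivity) hK
  have hK1 : (1:ℝ) ≤ 2 ^ K := one_le_pow₀ (by norm_num)
  have t1 : CT * R ^ (-(16:ℝ)) * (C4 * (2 * R ^ (1 + δ)) ^ 3 * A) ≤ 8 * CT * C4 * R ^ (-(10:ℝ)) * A := by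
    calc CT * R ^ (-(16:ℝ)) * (C4 * (2 * R ^ (1 + δ)) ^ 3 * A) ≤ CT * R ^ (-(16:ℝ)) * (C4 * (8 * R ^ (6:ℝ)) * A) := by
          gcongr
          exact pow8 hR hδ1
      _ = 8 * CT * C4 * (R ^ (-(16:ℝ)) * R ^ (6:ℝ)) * A := by ring
      _ = _ := by rw [e1]
  have t2 : CS * (1 + |t|) ^ 4 * (A / 2 ^ K) ≤ 81 * CS * R ^ (-(10:ℝ)) * A := by
    have e2 : R ^ (4:ℝ) * R ^ (-(16:ℝ)) ≤ R ^ (-(10:ℝ)) := by
      rw [← Real.rpow_add hR0]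
      exact Real.rpow_le_rpow_of_exponent_le hR (by norm_num)
    have e3 : (1 + |t|) ^ 4 ≤ 81 * R ^ (4:ℝ) := by
      rw [abs_of_nonneg ht0]
      have : R ^ (4:ℝ) = R ^ 4 := by exact_mod_cast Real.rpow_natCast R 4
      rw [this]
      calc (1 + t) ^ 4 ≤ (3 * R) ^ 4 := by
            gcongr
            linarith
        _ = _ := by ring
    calc CS * (1 + |t|) ^ 4 * (A / 2 ^ K) = CS * (1 + |t|) ^ 4 * (((2:ℝ) ^ K)⁻¹ * A) := by ring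
      _ ≤ CS * (81 * R ^ (4:ℝ)) * (R ^ (-(16:ℝ)) * A) := by gcongr
      _ = 81 * CS * (R ^ (4:ℝ) * R ^ (-(16:ℝ))) * A := by ring
      _ ≤ _ := by gcongr
  have t3 : C0 * ((2 ^ K * A) ^ (1 - p) * (16 * A ^ p)) ≤ 16 * C0 * R ^ (-(10:ℝ)) * A := by
    have e4 : (2 ^ K * A) ^ (1 - p) * A ^ p = ((2:ℝ) ^ K) ^ (1 - p) * A := by
      rw [Real.mul_rpow (by positivity) hA.le, mul_assoc, ← Real.rpow_add hA]
      have : 1 - p + p = 1 := by ring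
      rw [this, Real.rpow_one]
    have e5 : ((2:ℝ) ^ K) ^ (1 - p) ≤ R ^ (-(10:ℝ)) := by
      calc ((2:ℝ) ^ K) ^ (1 - p) ≤ ((2:ℝ) ^ K) ^ (-(1:ℝ)) := by
            apply Real.rpow_le_rpow_of_exponent_le hK1
            linarith
        _ = ((2:ℝ) ^ K)⁻¹ := Real.rpow_neg_one _
        _ ≤ _ := hKi.trans e16
    calc C0 * ((2 ^ K * A) ^ (1 - p) * (16 * A ^ p)) = 16 * C0 * ((2 ^ K * A) ^ (1 - p) * A ^ p) := by ring
      _ = 16 * C0 * (((2:ℝ) ^ K) ^ (1 - p) * A) := by rw [e4]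
      _ ≤ 16 * C0 * (R ^ (-(10:ℝ)) * A) := by gcongr
      _ = _ := by ring
  linarith

theorem arith2 {R A δ C4 C0 : ℝ} (hR : 1 ≤ R) (hA : 0 < A) (hδ1 : δ ≤ 1) (h4 : 0 ≤ C4) (h0 : 0 ≤ C0) :
    C0 * (16 * (C4 * (2 * R ^ (1 + δ)) ^ 3 * A)) ≤ 128 * C0 * C4 * R ^ (6:ℝ) * A := by
  have hR0 : 0 < R := by linarith
  calc C0 * (16 * (C4 * (2 * R ^ (1 + δ)) ^ 3 * A)) ≤ C0 * (16 * (C4 * (8 * R ^ (6:ℝ)) * A)) := by
        gcongr
        exact pow8 hR hδ1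
    _ = _ := by ring

/-- cross terms -/
theorem arith3 {R A m1 e1 m2 e2 : ℝ} (hR : 1 ≤ R) (hA : 0 < A) (hm1 : 0 ≤ m1) (he1 : 0 ≤ e1) (hm2 : 0 ≤ m2) (he2 : 0 ≤ e2) :
    (m1 * R ^ (6:ℝ) * A) * (e2 * R ^ (-(10:ℝ)) * A) + (e1 * R ^ (-(10:ℝ)) * A) * (m2 * R ^ (6:ℝ) * A) +
      (e1 * R ^ (-(10:ℝ)) * A) * (e2 * R ^ (-(10:ℝ)) * A) ≤ (m1 * e2 + e1 * m2 + e1 * e2) * R ^ (-(4:ℝ)) * A ^ 2 := by
  have hR0 : 0 < R := by linarith
  have a1 : R ^ (6:ℝ) * R ^ (-(10:ℝ)) = R ^ (-(4:ℝ)) := by rw [← Real.rpow_add hR0]; norm_num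
  have a2 : R ^ (-(10:ℝ)) * R ^ (-(10:ℝ)) ≤ R ^ (-(4:ℝ)) := by
    rw [← Real.rpow_add hR0]
    exact Real.rpow_le_rpow_of_exponent_le hR (by norm_num)
  calc _ = (m1 * e2 + e1 * m2) * (R ^ (6:ℝ) * R ^ (-(10:ℝ))) * A ^ 2 +
        e1 * e2 * (R ^ (-(10:ℝ)) * R ^ (-(10:ℝ))) * A ^ 2 := by ring
    _ ≤ (m1 * e2 + e1 * m2) * R ^ (-(4:ℝ)) * A ^ 2 + e1 * e2 * R ^ (-(4:ℝ)) * A ^ 2 := by
        rw [a1]
        gcongr
    _ = _ := by ring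

end Vale.Agent.P106.G
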