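import Vale.Agent.P106.G.LocC

/-! # Localization: one ball -/

open MeasureTheory Complex Set Filter
open scoped ENNReal NNReal ContDiff FourierTransform Topology SchwartzMap

set_option linter.all false

namespace Vale.Agent.P106.G

open Vale.Agent.P117 (Adm)

/-- decomposition of the solution near one ball: main part and error -/
theorem near_ball {χ φ1 φ2 : ℝ → ℂ} (hχ : Rcut χ) (h1 : Vc φ1) (h2 : Vc φ2) {δ p : ℝ} (hδ : 0 < δ) (hδ1 : δ ≤ 1)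
    (hp : 2 < p) : ∃ m e : ℝ, 0 ≤ m ∧ 0 ≤ e ∧ ∀ (R : ℝ) (K : ℕ), 1 ≤ R → R ^ (16:ℝ) ≤ 2 ^ K → ∀ (H : Hyp), H.ok →
    ∀ (h : E3 → ℂ) (y0 : E3) (A : ℝ), Adm volume h → 0 < A →
    (∫⁻ x, ENNReal.ofReal (wl (2 * R ^ (1 + δ)) (x - y0)) * ‖h x‖ₑ ^ p = ENNReal.ofReal (A ^ p)) →
    ∀ t ∈ Icc R (2 * R), ∀ y ∈ Metric.ball y0 R, ∃ x e' : ℂ, H.U (H.mu χ φ1 φ2) h t y = x + e' ∧
      x = ∑ i ∈ Finset.range (2 * K), H.U (H.mu χ φ1 φ2)
        ((band ((Metric.ball y0 (2 * R ^ (1 + δ))).indicator h) (2 ^ i * (A / 2 ^ K)) (2 * (2 ^ i * (A / 2 ^ K)))).indicator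
          ((Metric.ball y0 (2 * R ^ (1 + δ))).indicator h)) t y ∧
      ‖x‖ₑ ≤ ENNReal.ofReal (m * R ^ (6:ℝ) * A) ∧ ‖e'‖ₑ ≤ ENNReal.ofReal (e * R ^ (-(10:ℝ)) * A) := by
  obtain ⟨C4, hC4, hH⟩ := wl_holder
  obtain ⟨C0, hC0, hI⟩ := U_int hχ h1 h2
  obtain ⟨CS, hCS, hS⟩ := U_sup hχ h1 h2
  obtain ⟨CT, hCT, hT⟩ := U_tail hχ h1 h2 hδ 16
  refine ⟨128 * C0 * C4, 8 * CT * C4 + 81 * CS + 16 * C0, by positivity, by positivity, ?_⟩
  intro R K hR hK H hok h y0 A hh hA hAw t ht y hy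
  have hR0 : 0 < R := by linarith
  have hp0 : 0 < p := by linarith
  have ht0 : 0 ≤ t := by linarith [ht.1]
  set ρ := 2 * R ^ (1 + δ) with hρ
  have hρ1 : 1 ≤ ρ := by
    have : 1 ≤ R ^ (1 + δ) := Real.one_le_rpow hR (by linarith)
    rw [hρ]; linarith
  have hρ0 : 0 < ρ := by linarith
  set h0 := (Metric.ball y0 ρ).indicator h with hh0
  have h0a : Adm volume h0 := by
    refine ⟨hh.meas.indicator measurableSet_ball, hh.int.indicator measurableSet_ball, ?_⟩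
    obtain ⟨C, hC⟩ := hh.bdd
    exact ⟨C, fun x => (norm_indicator_le_norm_self _ _).trans (hC x)⟩
  have ht' : Adm volume (fun x => h x - h0 x) := hh.sub h0a
  -- `J`
  have hJ : ∫⁻ x, ENNReal.ofReal (wl ρ (x - y0)) * ‖h x‖ₑ ≤ ENNReal.ofReal (C4 * ρ ^ 3 * A) := by
    refine (hH ρ p hρ1 (by linarith) h y0 hh.meas).trans (le_of_eq ?_)
    rw [hAw, ENNReal.ofReal_rpow_of_nonneg (by positivity) (by positivity), ← Real.rpow_mul hA.le,
      mul_one_div_cancel hp0.ne', Real.rpow_one, ← ENNReal.ofReal_mul (by positivity)]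
  have hb : ∀ s : ℝ, 0 < s → ∫⁻ x, ‖h0 x‖ₑ ^ s ≤ ENNReal.ofReal 16 * ∫⁻ x, ENNReal.ofReal (wl ρ (x - y0)) * ‖h x‖ₑ ^ s := by
    intro s hs
    rw [← lintegral_const_mul' _ _ ENNReal.ofReal_ne_top]
    apply lintegral_mono
    intro x
    simp only
    by_cases hx : x ∈ Metric.ball y0 ρ
    · rw [hh0, indicator_of_mem hx, ← mul_assoc, ← ENNReal.ofReal_mul (by norm_num)]
      have h3 : 1 / 16 ≤ wl ρ (x - y0) := wl_ball hρ0 (by
        rw [← dist_eq_norm]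
        exact (Metric.mem_ball.1 hx).le)
      calc ‖h x‖ₑ ^ s = ENNReal.ofReal 1 * ‖h x‖ₑ ^ s := by rw [ENNReal.ofReal_one, one_mul]
        _ ≤ _ := by
            gcongr
            linarith
    · rw [hh0, indicator_of_notMem hx, enorm_zero, ENNReal.zero_rpow_of_pos hs]
      exact zero_le
  have hb1 : ∫⁻ x, ‖h0 x‖ₑ ≤ ENNReal.ofReal (16 * (C4 * ρ ^ 3 * A)) := by
    have h3 := hb 1 one_pos
    simp only [ENNReal.rpow_one] at h3
    refine h3.trans ?_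
    rw [ENNReal.ofReal_mul (by norm_num)]
    gcongr
  have hbp : ∫⁻ x, ‖h0 x‖ₑ ^ p ≤ ENNReal.ofReal (16 * A ^ p) := by
    have h3 := hb p hp0
    rw [hAw, ← ENNReal.ofReal_mul (by norm_num)] at h3
    exact h3
  set l0 := A / 2 ^ K with hl0
  have hl0p : 0 < l0 := by positivity
  have eln : (2:ℝ) ^ (2 * K) * l0 = 2 ^ K * A := by
    rw [hl0, two_mul, pow_add]
    field_simp
  have htele := U_tele hχ h1 h2 hok h0a hl0p (2 * K) t y
  set x := H.U (H.mu χ φ1 φ2) (trc h0 (2 ^ (2 * K) * l0)) t y - H.U (H.mu χ φ1 φ2) (trc h0 l0) t y with hx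
  set ea := H.U (H.mu χ φ1 φ2) (fun x => h x - h0 x) t y with hea
  set eb := H.U (H.mu χ φ1 φ2) (trc h0 l0) t y with heb
  set ec := H.U (H.mu χ φ1 φ2) (fun x => h0 x - trc h0 (2 ^ (2 * K) * l0) x) t y with hec
  refine ⟨x, ea + eb + ec, ?_, htele, ?_, ?_⟩
  · have a1 : ea = H.U (H.mu χ φ1 φ2) h t y - H.U (H.mu χ φ1 φ2) h0 t y := U_sub hχ h1 h2 hok hh h0a t y
    have a2 : ec = H.U (H.mu χ φ1 φ2) h0 t y - H.U (H.mu χ φ1 φ2) (trc h0 (2 ^ (2 * K) * l0)) t y :=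
      U_sub hχ h1 h2 hok h0a (trc_adm h0a _) t y
    rw [a1, a2, hx]
    ring
  · have a3 : x = H.U (H.mu χ φ1 φ2) (fun x => trc h0 (2 ^ (2 * K) * l0) x - trc h0 l0 x) t y :=
      (U_sub hχ h1 h2 hok (trc_adm h0a _) (trc_adm h0a _) t y).symm
    have hab : l0 ≤ 2 ^ (2 * K) * l0 := by
      have : (1:ℝ) ≤ 2 ^ (2 * K) := one_le_pow₀ (by norm_num)
      nlinarith
    rw [a3]
    refine (hI H hok _ ((trc_adm h0a _).sub (trc_adm h0a _)).int t y).trans ?_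
    calc ENNReal.ofReal C0 * ∫⁻ x, ‖trc h0 (2 ^ (2 * K) * l0) x - trc h0 l0 x‖ₑ ≤ ENNReal.ofReal C0 * ∫⁻ x, ‖h0 x‖ₑ := by
          gcongr with x
          rw [trc_sub hab]
          exact enorm_indicator_le_enorm_self _ _
      _ ≤ ENNReal.ofReal C0 * ENNReal.ofReal (16 * (C4 * ρ ^ 3 * A)) := by gcongr
      _ = ENNReal.ofReal (C0 * (16 * (C4 * ρ ^ 3 * A))) := by rw [ENNReal.ofReal_mul hC0]
      _ ≤ _ := ENNReal.ofReal_le_ofReal (arith2 hR hA hδ1 (by linarith) hC0)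
  · have b1 : ‖ea‖ₑ ≤ ENNReal.ofReal (CT * R ^ (-(16:ℝ)) * (C4 * ρ ^ 3 * A)) := by
      refine (hT H hok R hR t ht y0 y hy _ ht'.int ?_).trans ?_
      · intro x hx
        by_contra hc
        apply hx
        rw [not_le, ← dist_eq_norm] at hc
        rw [hh0, indicator_of_mem (Metric.mem_ball.2 hc), sub_self]
      · rw [ENNReal.ofReal_mul (p := CT * R ^ (-(16:ℝ))) (by positivity)]
        refine mul_le_mul' le_rfl (le_trans ?_ hJ)
        gcongr with x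
        by_cases hx : x ∈ Metric.ball y0 ρ
        · rw [hh0, indicator_of_mem hx, sub_self, enorm_zero]
          exact zero_le
        · rw [hh0, indicator_of_notMem hx, sub_zero]
    have b2 : ‖eb‖ₑ ≤ ENNReal.ofReal (CS * (1 + |t|) ^ 4 * (A / 2 ^ K)) :=
      hS H hok _ l0 (trc_adm h0a _) (fun x => norm_trc_le' h0 hl0p.le x) t y
    have b3 : ‖ec‖ₑ ≤ ENNReal.ofReal (C0 * ((2 ^ K * A) ^ (1 - p) * (16 * A ^ p))) := by
      refine (hI H hok _ (h0a.sub (trc_adm h0a _)).int t y).trans ?_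
      rw [ENNReal.ofReal_mul hC0, ENNReal.ofReal_mul (p := (2 ^ K * A) ^ (1 - p)) (by positivity)]
      gcongr
      have h3 := top_le (h := h0) (lam := 2 ^ (2 * K) * l0) (p := p) (by positivity) (by linarith)
      rw [eln] at h3
      rw [eln]
      exact h3.trans (by gcongr)
    have hn1 : 0 ≤ CT * R ^ (-(16:ℝ)) * (C4 * ρ ^ 3 * A) := by positivity
    have hn2 : 0 ≤ CS * (1 + |t|) ^ 4 * (A / 2 ^ K) := by positivity
    have hn3 : 0 ≤ C0 * ((2 ^ K * A) ^ (1 - p) * (16 * A ^ p)) := by positivity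
    calc ‖ea + eb + ec‖ₑ ≤ ‖ea‖ₑ + ‖eb‖ₑ + ‖ec‖ₑ := (enorm_add_le _ _).trans (by gcongr; exact enorm_add_le _ _)
      _ ≤ ENNReal.ofReal (CT * R ^ (-(16:ℝ)) * (C4 * ρ ^ 3 * A)) + ENNReal.ofReal (CS * (1 + |t|) ^ 4 * (A / 2 ^ K)) +
          ENNReal.ofReal (C0 * ((2 ^ K * A) ^ (1 - p) * (16 * A ^ p))) := by gcongr
      _ = ENNReal.ofReal (CT * R ^ (-(16:ℝ)) * (C4 * ρ ^ 3 * A) + CS * (1 + |t|) ^ 4 * (A / 2 ^ K) +
          C0 * ((2 ^ K * A) ^ (1 - p) * (16 * A ^ p))) := by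
          rw [ENNReal.ofReal_add (by positivity) hn3, ENNReal.ofReal_add hn1 hn2]
      _ ≤ _ := ENNReal.ofReal_le_ofReal (arith1 hR hA hδ1 hp (by linarith) hCT hCS hC0 hK ht0 ht.2)

end Vale.Agent.P106.G
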