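import Vale.Agent.P106.G.LocD

/-! # Localization: the estimate on one ball -/

open MeasureTheory Complex Set Filter
open scoped ENNReal NNReal ContDiff FourierTransform Topology SchwartzMap

set_option linter.all false

namespace Vale.Agent.P106.G

open Vale.Agent.P117 (Adm)

/-- space-time box -/
def bx (R : ℝ) (y0 : E3) : Set (ℝ × E3) := Icc R (2 * R) ×ˢ Metric.ball y0 R

theorem meas_bx (R : ℝ) (y0 : E3) : MeasurableSet (bx R y0) := measurableSet_Icc.prod measurableSet_ball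

theorem lint_bx (R : ℝ) (y0 : E3) {F : ℝ → E3 → ℝ≥0∞} (hF : Measurable (fun z : ℝ × E3 => F z.1 z.2)) :
    ∫⁻ t in Icc R (2 * R), ∫⁻ y in Metric.ball y0 R, F t y = ∫⁻ z in bx R y0, F z.1 z.2 := by
  unfold bx
  rw [Measure.volume_eq_prod, ← Measure.prod_restrict, lintegral_prod _ hF.aemeasurable]

theorem vol_bx {R : ℝ} (hR : 0 ≤ R) (y0 : E3) :
    (volume : Measure (ℝ × E3)) (bx R y0) = ENNReal.ofReal (R * (R ^ 3 * (volume (Metric.ball (0:E3) 1)).toReal)) := by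
  unfold bx
  rw [Measure.volume_eq_prod, Measure.prod_prod, Real.volume_Icc]
  have h1 := Measure.addHaar_ball (volume : Measure E3) y0 hR
  simp only [finrank_euclideanSpace, Fintype.card_fin] at h1
  rw [h1, ENNReal.ofReal_mul hR, ENNReal.ofReal_mul (by positivity), ENNReal.ofReal_toReal (measure_ball_lt_top).ne]
  congr 2
  ring

theorem prod_bd {x x' e e' : ℂ} {X E : ℝ≥0∞} (h1 : ‖x‖ₑ * ‖x'‖ₑ ≤ X)
    (h2 : ‖x‖ₑ * ‖e'‖ₑ + ‖e‖ₑ * ‖x'‖ₑ + ‖e‖ₑ * ‖e'‖ₑ ≤ E) : ‖x + e‖ₑ * ‖x' + e'‖ₑ ≤ X + E := by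
  calc ‖x + e‖ₑ * ‖x' + e'‖ₑ ≤ (‖x‖ₑ + ‖e‖ₑ) * (‖x'‖ₑ + ‖e'‖ₑ) :=
        mul_le_mul' (enorm_add_le _ _) (enorm_add_le _ _)
    _ = ‖x‖ₑ * ‖x'‖ₑ + (‖x‖ₑ * ‖e'‖ₑ + ‖e‖ₑ * ‖x'‖ₑ + ‖e‖ₑ * ‖e'‖ₑ) := by ring
    _ ≤ _ := add_le_add h1 h2

theorem sum_prod_bd {ι : Type*} (s : Finset ι) (f g : ι → ℂ) :
    ‖∑ i ∈ s, f i‖ₑ * ‖∑ i ∈ s, g i‖ₑ ≤ ∑ q ∈ s ×ˢ s, ‖f q.1‖ₑ * ‖g q.2‖ₑ := by
  calc ‖∑ i ∈ s, f i‖ₑ * ‖∑ i ∈ s, g i‖ₑ ≤ (∑ i ∈ s, ‖f i‖ₑ) * (∑ i ∈ s, ‖g i‖ₑ) :=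
        mul_le_mul' (enorm_sum_le _ _) (enorm_sum_le _ _)
    _ = _ := by rw [Finset.sum_mul_sum, Finset.sum_product]

theorem arith4 {R A p α δ Cn CB E2 v n : ℝ} (hR : 1 ≤ R) (hA : 0 < A) (hp : 2 < p) (hα : 0 ≤ α) (hδ : 0 < δ)
    (hCn : 0 ≤ Cn) (hCB : 0 ≤ CB) (hE2 : 0 ≤ E2) (hv : 0 ≤ v) (hn0 : 0 ≤ n) (hn : n ≤ Cn * R ^ (δ / (p + 2))) :
    2 ^ (p / 2) * ((n * n) ^ (p / 2) * ((n * n) * (CB * R ^ (α * p + 1) * 2 ^ p * (16 * A ^ p))) +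
      (E2 * R ^ (-(4:ℝ)) * A ^ 2) ^ (p / 2) * (R * (R ^ 3 * v))) ≤
    (2 ^ (p / 2) * (Cn ^ (p + 2) * (CB * 2 ^ p * 16) + E2 ^ (p / 2) * v)) * R ^ (α * p + 1 + δ) * A ^ p := by
  have hR0 : 0 < R := by linarith
  have hp0 : 0 < p := by linarith
  have e1 : (n * n) ^ (p / 2) * (n * n) ≤ Cn ^ (p + 2) * R ^ δ := by
    set N := Cn * R ^ (δ / (p + 2)) with hN
    have hN0 : 0 ≤ N := by positivity
    have h1 : n * n ≤ N * N := mul_le_mul hn hn hn0 hN0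
    calc (n * n) ^ (p / 2) * (n * n) ≤ (N * N) ^ (p / 2) * (N * N) := by gcongr
      _ = N ^ (p + 2) := by
          have : N * N = N ^ (2:ℝ) := by rw [Real.rpow_two]; ring
          rw [this, ← Real.rpow_mul hN0, ← Real.rpow_add_of_nonneg hN0 (by positivity) (by norm_num)]
          congr 1
          ring
      _ = _ := by
          rw [hN, Real.mul_rpow hCn (by positivity), ← Real.rpow_mul hR0.le]
          congr 2
          field_simp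
  have e2 : (E2 * R ^ (-(4:ℝ)) * A ^ 2) ^ (p / 2) * (R * (R ^ 3 * v)) ≤ E2 ^ (p / 2) * v * A ^ p := by
    have h1 : (A ^ 2) ^ (p / 2) = A ^ p := by
      rw [← Real.rpow_natCast, ← Real.rpow_mul hA.le]
      congr 1
      push_cast
      ring
    have h2 : (R ^ (-(4:ℝ))) ^ (p / 2) * (R * R ^ 3) ≤ 1 := by
      have h3 : R * R ^ 3 = R ^ (4:ℝ) := by
        have : R ^ (4:ℝ) = R ^ 4 := by exact_mod_cast Real.rpow_natCast R 4
        rw [this]; ring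
      rw [h3, ← Real.rpow_mul hR0.le, ← Real.rpow_add hR0]
      apply Real.rpow_le_one_of_one_le_of_nonpos hR
      linarith
    rw [Real.mul_rpow (by positivity) (by positivity), Real.mul_rpow hE2 (by positivity), h1]
    calc E2 ^ (p / 2) * (R ^ (-(4:ℝ))) ^ (p / 2) * A ^ p * (R * (R ^ 3 * v)) =
          E2 ^ (p / 2) * v * A ^ p * ((R ^ (-(4:ℝ))) ^ (p / 2) * (R * R ^ 3)) := by ring
      _ ≤ E2 ^ (p / 2) * v * A ^ p * 1 := by gcongr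
      _ = _ := by ring
  have e3 : 1 ≤ R ^ (α * p + 1 + δ) := Real.one_le_rpow hR (by positivity)
  have e4 : R ^ (α * p + 1 + δ) = R ^ (α * p + 1) * R ^ δ := Real.rpow_add hR0 _ _
  calc _ = 2 ^ (p / 2) * (((n * n) ^ (p / 2) * (n * n)) * (CB * R ^ (α * p + 1) * 2 ^ p * (16 * A ^ p)) +
      (E2 * R ^ (-(4:ℝ)) * A ^ 2) ^ (p / 2) * (R * (R ^ 3 * v))) := by ring
    _ ≤ 2 ^ (p / 2) * ((Cn ^ (p + 2) * R ^ δ) * (CB * R ^ (α * p + 1) * 2 ^ p * (16 * A ^ p)) +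
      E2 ^ (p / 2) * v * A ^ p) := by gcongr
    _ = 2 ^ (p / 2) * (Cn ^ (p + 2) * (CB * 2 ^ p * 16) * (R ^ (α * p + 1) * R ^ δ) * A ^ p +
      E2 ^ (p / 2) * v * 1 * A ^ p) := by ring
    _ ≤ 2 ^ (p / 2) * (Cn ^ (p + 2) * (CB * 2 ^ p * 16) * (R ^ (α * p + 1) * R ^ δ) * A ^ p +
      E2 ^ (p / 2) * v * R ^ (α * p + 1 + δ) * A ^ p) := by gcongr
    _ = _ := by rw [e4]; ring

theorem one_ball {ok : Hyp → Prop} (hok : ∀ H, ok H → H.ok) {p α c0 δ : ℝ} (hp : 2 < p) (hα : 0 ≤ α) (hc0 : 0 < c0)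
    (hc1 : c0 ≤ 1) (hδ : 0 < δ) (hδ1 : δ ≤ 1) {φ1 φ2 φ1' φ2' : ℝ → ℂ} (v1 : Vcut φ1) (v2 : Vcut φ2) (v1' : Vcut φ1')
    (v2' : Vcut φ2') {CB : ℝ} (hCB : 0 ≤ CB)
    (hBR : ∀ (R : ℝ) (H : Hyp) (h h' : E3 → ℂ) (G G' : Set E3) (y0 : E3), 1 ≤ R → ok H → Adm volume h → Adm volume h' →
      MeasurableSet G → MeasurableSet G' → volume G < ⊤ → volume G' < ⊤ →
      (∀ y, ‖h y‖ ≤ G.indicator (fun _ => (1:ℝ)) y) → (∀ y, ‖h' y‖ ≤ G'.indicator (fun _ => (1:ℝ)) y) →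
      ∫⁻ t in Icc R (2 * R), ∫⁻ y in Metric.ball y0 R,
        (‖H.U (H.mu (chi0 c0) φ1 φ2) h t y‖ₑ * ‖H.U (H.mu (chi0 c0) φ1' φ2') h' t y‖ₑ) ^ (p / 2) ≤
        ENNReal.ofReal (CB * R ^ (α * p + 1)) * (volume G * volume G') ^ (1/2 : ℝ)) :
    ∃ C : ℝ, 0 ≤ C ∧ ∀ (R : ℝ) (H : Hyp) (h : E3 → ℂ) (y0 : E3), 1 ≤ R → ok H → Adm volume h →
      ∫⁻ z in bx R y0, (‖H.U (H.mu (chi0 c0) φ1 φ2) h z.1 z.2‖ₑ * ‖H.U (H.mu (chi0 c0) φ1' φ2') h z.1 z.2‖ₑ) ^ (p / 2) ≤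
      ENNReal.ofReal (C * R ^ (α * p + 1 + δ)) * ∫⁻ x, ENNReal.ofReal (wl (2 * R ^ (1 + δ)) (x - y0)) * ‖h x‖ₑ ^ p := by
  have hp0 : 0 < p := by linarith
  have hχ : Rcut (chi0 c0) := (r1_chi0 hc0 hc1).toRcut
  obtain ⟨Cn, hCn, hlev⟩ := lev (show 0 < δ / (p + 2) by positivity)
  obtain ⟨m1, e1, hm1, he1, hN1⟩ := near_ball hχ v1.vc v2.vc hδ hδ1 hp
  obtain ⟨m2, e2, hm2, he2, hN2⟩ := near_ball hχ v1'.vc v2'.vc hδ hδ1 hp
  obtain ⟨CI, hCI, hI⟩ := U_int hχ v1.vc v2.vc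
  obtain ⟨C4, hC4, hHol⟩ := wl_holder
  set v := (volume (Metric.ball (0:E3) 1)).toReal with hv
  have hv0 : 0 ≤ v := ENNReal.toReal_nonneg
  set E2 := m1 * e2 + e1 * m2 + e1 * e2 with hE2
  have hE20 : 0 ≤ E2 := by positivity
  refine ⟨2 ^ (p / 2) * (Cn ^ (p + 2) * (CB * 2 ^ p * 16) + E2 ^ (p / 2) * v), by positivity, ?_⟩
  intro R H h y0 hR hH hh
  have hR0 : 0 < R := by linarith
  have hHok := hok H hH
  set ρ := 2 * R ^ (1 + δ) with hρ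
  have hρ1 : 1 ≤ ρ := by
    have : 1 ≤ R ^ (1 + δ) := Real.one_le_rpow hR (by linarith)
    rw [hρ]; linarith
  have hρ0 : 0 < ρ := by linarith
  set M := H.mu (chi0 c0) φ1 φ2 with hM
  set M' := H.mu (chi0 c0) φ1' φ2' with hM'
  have sM : Sm M := sm_mu hHok hχ v1.vc v2.vc
  have sM' : Sm M' := sm_mu hHok hχ v1'.vc v2'.vc
  set Aw := ∫⁻ x, ENNReal.ofReal (wl ρ (x - y0)) * ‖h x‖ₑ ^ p with hAw
  have hwle : ∀ x, wl ρ x ≤ 1 := by
    intro x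
    unfold wl
    apply Real.rpow_le_one_of_one_le_of_nonpos
    · have : 0 ≤ ‖x‖ / ρ := by positivity
      linarith
    · norm_num
  have hAwf : Aw < ⊤ := by
    refine lt_of_le_of_lt ?_ (adm_pow_fin hh (show 1 ≤ p by linarith))
    apply lintegral_mono
    intro x
    simp only
    calc ENNReal.ofReal (wl ρ (x - y0)) * ‖h x‖ₑ ^ p ≤ ENNReal.ofReal 1 * ‖h x‖ₑ ^ p := by
          gcongr
          exact hwle _
      _ = _ := by rw [ENNReal.ofReal_one, one_mul]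
  rcases eq_or_ne Aw 0 with hA0 | hA0
  · -- trivial case
    have h1 := hHol ρ p hρ1 (by linarith) h y0 hh.meas
    rw [← hAw, hA0, ENNReal.zero_rpow_of_pos (by positivity), mul_zero] at h1
    have h2 : ∫⁻ x, ENNReal.ofReal (wl ρ (x - y0)) * ‖h x‖ₑ = 0 := le_antisymm h1 zero_le
    have hwm : Measurable (fun x : E3 => ENNReal.ofReal (wl ρ (x - y0))) :=
      ENNReal.measurable_ofReal.comp ((cont_wl hρ0).measurable.comp (measurable_id.sub_const y0))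
    have hmm : Measurable (fun x : E3 => ENNReal.ofReal (wl ρ (x - y0)) * ‖h x‖ₑ) := hwm.mul hh.meas.enorm
    rw [lintegral_eq_zero_iff hmm] at h2
    have h3 : ∫⁻ x, ‖h x‖ₑ = 0 := by
      rw [lintegral_eq_zero_iff hh.meas.enorm]
      filter_upwards [h2] with x hx
      have h4 : ENNReal.ofReal (wl ρ (x - y0)) * ‖h x‖ₑ = 0 := hx
      rcases mul_eq_zero.1 h4 with h5 | h5
      · exact absurd (wl_pos hρ0 (x - y0)) (not_lt.2 (ENNReal.ofReal_eq_zero.1 h5))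
      · exact h5
    have h6 : ∀ z : ℝ × E3, (‖H.U M h z.1 z.2‖ₑ * ‖H.U M' h z.1 z.2‖ₑ) ^ (p / 2) = 0 := by
      intro z
      have h7 := hI H hHok h hh.int z.1 z.2
      rw [h3, mul_zero] at h7
      have h8 : ‖H.U M h z.1 z.2‖ₑ = 0 := le_antisymm h7 zero_le
      rw [h8, zero_mul, ENNReal.zero_rpow_of_pos (by positivity)]
    simp_rw [h6]
    simp
  · have hAt : 0 < Aw.toReal := ENNReal.toReal_pos hA0 hAwf.ne
    set A := Aw.toReal ^ (1 / p) with hA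
    have hAp : 0 < A := by positivity
    have hAwA : Aw = ENNReal.ofReal (A ^ p) := by
      rw [hA, ← Real.rpow_mul hAt.le, one_div_mul_cancel hp0.ne', Real.rpow_one, ENNReal.ofReal_toReal hAwf.ne]
    obtain ⟨K, hK, hKn⟩ := hlev R hR
    set h0 := (Metric.ball y0 ρ).indicator h with hh0
    have h0a : Adm volume h0 := by
      refine ⟨hh.meas.indicator measurableSet_ball, hh.int.indicator measurableSet_ball, ?_⟩
      obtain ⟨C, hC⟩ := hh.bdd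
      exact ⟨C, fun x => (norm_indicator_le_norm_self _ _).trans (hC x)⟩
    have hI0 : ∫⁻ x, ‖h0 x‖ₑ ^ p ≤ ENNReal.ofReal (16 * A ^ p) := by
      rw [ENNReal.ofReal_mul (by norm_num), ← hAwA, hAw, ← lintegral_const_mul' _ _ ENNReal.ofReal_ne_top]
      apply lintegral_mono
      intro x
      simp only
      by_cases hx : x ∈ Metric.ball y0 ρ
      · rw [hh0, indicator_of_mem hx, ← mul_assoc, ← ENNReal.ofReal_mul (by norm_num)]
        have h3 : 1 / 16 ≤ wl ρ (x - y0) := wl_ball hρ0 (by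
          rw [← dist_eq_norm]
          exact (Metric.mem_ball.1 hx).le)
        calc ‖h x‖ₑ ^ p = ENNReal.ofReal 1 * ‖h x‖ₑ ^ p := by rw [ENNReal.ofReal_one, one_mul]
          _ ≤ _ := by
              gcongr
              linarith
      · rw [hh0, indicator_of_notMem hx, enorm_zero, ENNReal.zero_rpow_of_pos hp0]
        exact zero_le
    set l0 := A / 2 ^ K with hl0
    set d : ℕ → E3 → ℂ := fun i => (band h0 (2 ^ i * l0) (2 * (2 ^ i * l0))).indicator h0 with hd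
    have da : ∀ i, Adm volume (d i) := fun i => band_adm h0a _ _
    set n := 2 * K with hn
    set S := Finset.range n ×ˢ Finset.range n with hS
    set cE := (E2 * R ^ (-(4:ℝ)) * A ^ 2) ^ (p / 2) with hcE
    have hcE0 : 0 ≤ cE := by positivity
    have hU : ∀ i, Measurable (fun z : ℝ × E3 => ‖H.U M (d i) z.1 z.2‖ₑ) := fun i =>
      (cont_U H sM.int (da i).int).measurable.enorm
    have hU' : ∀ i, Measurable (fun z : ℝ × E3 => ‖H.U M' (d i) z.1 z.2‖ₑ) := fun i =>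
      (cont_U H sM'.int (da i).int).measurable.enorm
    have hpt : ∀ z ∈ bx R y0, (‖H.U M h z.1 z.2‖ₑ * ‖H.U M' h z.1 z.2‖ₑ) ^ (p / 2) ≤
        2 ^ (p / 2) * ((S.card : ℝ≥0∞) ^ (p / 2) * ∑ q ∈ S, (‖H.U M (d q.1) z.1 z.2‖ₑ * ‖H.U M' (d q.2) z.1 z.2‖ₑ) ^ (p / 2) +
          ENNReal.ofReal cE) := by
      rintro ⟨t, y⟩ hz
      have ht : t ∈ Icc R (2 * R) := hz.1
      have hy : y ∈ Metric.ball y0 R := hz.2
      simp only
      obtain ⟨x, e, q1, q2, q3, q4⟩ := hN1 R K hR hK H hHok h y0 A hh hAp hAwA t ht y hy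
      obtain ⟨x', e', q1', q2', q3', q4'⟩ := hN2 R K hR hK H hHok h y0 A hh hAp hAwA t ht y hy
      have k1 : ‖x‖ₑ * ‖x'‖ₑ ≤ ∑ q ∈ S, ‖H.U M (d q.1) t y‖ₑ * ‖H.U M' (d q.2) t y‖ₑ := by
        rw [q2, q2']
        exact sum_prod_bd _ _ _
      have k2 : ‖x‖ₑ * ‖e'‖ₑ + ‖e‖ₑ * ‖x'‖ₑ + ‖e‖ₑ * ‖e'‖ₑ ≤ ENNReal.ofReal (E2 * R ^ (-(4:ℝ)) * A ^ 2) := by
        calc ‖x‖ₑ * ‖e'‖ₑ + ‖e‖ₑ * ‖x'‖ₑ + ‖e‖ₑ * ‖e'‖ₑ ≤
            ENNReal.ofReal (m1 * R ^ (6:ℝ) * A) * ENNReal.ofReal (e2 * R ^ (-(10:ℝ)) * A) +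
            ENNReal.ofReal (e1 * R ^ (-(10:ℝ)) * A) * ENNReal.ofReal (m2 * R ^ (6:ℝ) * A) +
            ENNReal.ofReal (e1 * R ^ (-(10:ℝ)) * A) * ENNReal.ofReal (e2 * R ^ (-(10:ℝ)) * A) := by gcongr
          _ = ENNReal.ofReal ((m1 * R ^ (6:ℝ) * A) * (e2 * R ^ (-(10:ℝ)) * A) +
              (e1 * R ^ (-(10:ℝ)) * A) * (m2 * R ^ (6:ℝ) * A) + (e1 * R ^ (-(10:ℝ)) * A) * (e2 * R ^ (-(10:ℝ)) * A)) := by
              rw [ENNReal.ofReal_add (by positivity) (by positivity), ENNReal.ofReal_add (by positivity) (by positivity),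
                ENNReal.ofReal_mul (p := m1 * R ^ (6:ℝ) * A) (by positivity),
                ENNReal.ofReal_mul (p := e1 * R ^ (-(10:ℝ)) * A) (by positivity),
                ENNReal.ofReal_mul (p := e1 * R ^ (-(10:ℝ)) * A) (by positivity)]
          _ ≤ _ := ENNReal.ofReal_le_ofReal (arith3 hR hAp hm1 he1 hm2 he2)
      have k3 := prod_bd k1 k2
      rw [← q1, ← q1'] at k3
      calc _ ≤ (∑ q ∈ S, ‖H.U M (d q.1) t y‖ₑ * ‖H.U M' (d q.2) t y‖ₑ + ENNReal.ofReal (E2 * R ^ (-(4:ℝ)) * A ^ 2)) ^ (p / 2) := by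
            gcongr
        _ ≤ 2 ^ (p / 2) * ((∑ q ∈ S, ‖H.U M (d q.1) t y‖ₑ * ‖H.U M' (d q.2) t y‖ₑ) ^ (p / 2) +
            ENNReal.ofReal (E2 * R ^ (-(4:ℝ)) * A ^ 2) ^ (p / 2)) := add_rpow_le' _ _ (by positivity)
        _ ≤ _ := by
            rw [ENNReal.ofReal_rpow_of_nonneg (by positivity) (by positivity)]
            gcongr
            exact sum_rpow_le _ _ (by positivity)
    have hpair : ∀ q ∈ S, ∫⁻ z in bx R y0, (‖H.U M (d q.1) z.1 z.2‖ₑ * ‖H.U M' (d q.2) z.1 z.2‖ₑ) ^ (p / 2) ≤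
        ENNReal.ofReal (CB * R ^ (α * p + 1) * 2 ^ p * (16 * A ^ p)) := by
      intro q hq
      rw [← lint_bx R y0 (F := fun t y => (‖H.U M (d q.1) t y‖ₑ * ‖H.U M' (d q.2) t y‖ₑ) ^ (p / 2))
        (((hU q.1).mul (hU' q.2)).pow_const _)]
      refine (pair_bd (Bc := CB * R ^ (α * p + 1)) (by linarith) (by positivity) (fun h h' G G' a1 a2 a3 a4 a5 a6 a7 a8 =>
        hBR R H h h' G G' y0 hR hH a1 a2 a3 a4 a5 a6 a7 a8) h0a (by positivity) (by positivity)).trans ?_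
      rw [ENNReal.ofReal_mul (p := CB * R ^ (α * p + 1) * 2 ^ p) (by positivity)]
      gcongr
    have hms : Measurable (fun z : ℝ × E3 => (S.card : ℝ≥0∞) ^ (p / 2) *
        ∑ q ∈ S, (‖H.U M (d q.1) z.1 z.2‖ₑ * ‖H.U M' (d q.2) z.1 z.2‖ₑ) ^ (p / 2)) :=
      (Finset.measurable_sum _ fun q _ => ((hU q.1).mul (hU' q.2)).pow_const _).const_mul _
    have h2q : (2:ℝ≥0∞) ^ (p / 2) = ENNReal.ofReal (2 ^ (p / 2)) := by
      rw [← ENNReal.ofReal_rpow_of_nonneg (by norm_num) (by positivity)]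
      simp
    have hcard : (S.card : ℝ≥0∞) = ENNReal.ofReal ((n:ℝ) * n) := by
      rw [hS, Finset.card_product, Finset.card_range]
      push_cast
      rw [ENNReal.ofReal_mul (by positivity), ENNReal.ofReal_natCast]
    have hcq : (S.card : ℝ≥0∞) ^ (p / 2) = ENNReal.ofReal (((n:ℝ) * n) ^ (p / 2)) := by
      rw [hcard, ENNReal.ofReal_rpow_of_nonneg (by positivity) (by positivity)]
    have hsum : ∑ q ∈ S, ∫⁻ z in bx R y0, (‖H.U M (d q.1) z.1 z.2‖ₑ * ‖H.U M' (d q.2) z.1 z.2‖ₑ) ^ (p / 2) ≤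
        ENNReal.ofReal ((n:ℝ) * n) * ENNReal.ofReal (CB * R ^ (α * p + 1) * 2 ^ p * (16 * A ^ p)) := by
      refine (Finset.sum_le_sum hpair).trans (le_of_eq ?_)
      rw [Finset.sum_const, nsmul_eq_mul, hcard]
    calc ∫⁻ z in bx R y0, (‖H.U M h z.1 z.2‖ₑ * ‖H.U M' h z.1 z.2‖ₑ) ^ (p / 2) ≤
        ∫⁻ z in bx R y0, 2 ^ (p / 2) * ((S.card : ℝ≥0∞) ^ (p / 2) *
          ∑ q ∈ S, (‖H.U M (d q.1) z.1 z.2‖ₑ * ‖H.U M' (d q.2) z.1 z.2‖ₑ) ^ (p / 2) + ENNReal.ofReal cE) :=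
          setLIntegral_mono' (meas_bx R y0) hpt
      _ = 2 ^ (p / 2) * ((S.card : ℝ≥0∞) ^ (p / 2) *
          (∑ q ∈ S, ∫⁻ z in bx R y0, (‖H.U M (d q.1) z.1 z.2‖ₑ * ‖H.U M' (d q.2) z.1 z.2‖ₑ) ^ (p / 2)) +
            ENNReal.ofReal cE * volume (bx R y0)) := by
          rw [lintegral_const_mul _ (hms.add_const _), lintegral_add_left hms, setLIntegral_const,
            lintegral_const_mul _ (Finset.measurable_sum _ fun q _ => ((hU q.1).mul (hU' q.2)).pow_const _),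
            lintegral_finset_sum _ (fun q _ => ((hU q.1).mul (hU' q.2)).pow_const _)]
      _ ≤ ENNReal.ofReal (2 ^ (p / 2)) * (ENNReal.ofReal (((n:ℝ) * n) ^ (p / 2)) *
          (ENNReal.ofReal ((n:ℝ) * n) * ENNReal.ofReal (CB * R ^ (α * p + 1) * 2 ^ p * (16 * A ^ p))) +
            ENNReal.ofReal cE * ENNReal.ofReal (R * (R ^ 3 * v))) := by
          rw [h2q, vol_bx hR0.le y0, hcq]
          gcongr
      _ = ENNReal.ofReal (2 ^ (p / 2) * ((((n:ℝ) * n)) ^ (p / 2) * (((n:ℝ) * n) * (CB * R ^ (α * p + 1) * 2 ^ p * (16 * A ^ p))) +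
            cE * (R * (R ^ 3 * v)))) := by
          rw [ENNReal.ofReal_mul (p := 2 ^ (p / 2)) (by positivity), ENNReal.ofReal_add (by positivity) (by positivity),
            ENNReal.ofReal_mul (p := ((n:ℝ) * n) ^ (p / 2)) (by positivity), ENNReal.ofReal_mul (p := (n:ℝ) * n) (by positivity),
            ENNReal.ofReal_mul hcE0]
      _ ≤ ENNReal.ofReal ((2 ^ (p / 2) * (Cn ^ (p + 2) * (CB * 2 ^ p * 16) + E2 ^ (p / 2) * v)) *
            R ^ (α * p + 1 + δ) * A ^ p) :=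
          ENNReal.ofReal_le_ofReal (arith4 hR hAp hp hα hδ hCn hCB hE20 hv0 (by positivity) (by
            rw [hn]; push_cast; exact hKn))
      _ = _ := by rw [ENNReal.ofReal_mul (by positivity), ← hAwA]

end Vale.Agent.P106.G
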