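import Vale.Agent.P106.A.Mode
import Vale.Agent.P106.G.DefsF

/-! # From the frequency localized estimate to the local smoothing estimate -/

open MeasureTheory Complex Set Filter
open scoped ENNReal NNReal ContDiff FourierTransform SchwartzMap ComplexConjugate Topology

set_option linter.all false

namespace Vale.Agent.P106.G

open Vale.Agent.P117 Vale.Agent.P106

theorem V_gen {P e : ℝ} (hP : 2 < P) (hGL : StGL P e X0) : ∃ C : ℝ, 0 ≤ C ∧
    ∀ (Λ : ℝ), 1 ≤ Λ → ∀ (f : E3 → ℂ), Adm volume f →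
    ∫⁻ T in Icc Λ (2 * Λ), ∫⁻ x : E3, ‖𝓕⁻ (fun ξ => wm1 X0 T ξ * 𝓕 f ξ) x‖ₑ ^ P ≤
      ENNReal.ofReal ((C * Λ ^ (1/P + e) * nrm (ENNReal.ofReal P) f volume) ^ P) := by
  obtain ⟨C, hC, h⟩ := hGL
  have hP0 : 0 < P := by linarith
  refine ⟨C ^ (1 / P), by positivity, ?_⟩
  intro Λ hΛ f hf
  have hΛ0 : 0 < Λ := by linarith
  have h1 := h Λ f hΛ hf
  rw [nrm_pow (by linarith) hf, ← ENNReal.ofReal_mul (by positivity)] at h1
  have e1 : ∀ T : ℝ, (fun ξ : E3 => wm1 X0 T ξ * 𝓕 f ξ) =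
      fun ξ : E3 => cexp (2 * Real.pi * I * (T * ‖ξ‖ : ℝ)) * (X0 ξ * 𝓕 f ξ) := by
    intro T
    ext ξ
    unfold wm1
    ring
  simp_rw [e1]
  refine h1.trans (le_of_eq ?_)
  congr 1
  have n0 : 0 ≤ nrm (ENNReal.ofReal P) f volume := nrm_nonneg
  rw [Real.mul_rpow (by positivity) n0, Real.mul_rpow (by positivity) (by positivity), ← Real.rpow_mul hC,
    ← Real.rpow_mul hΛ0.le, one_div_mul_cancel hP0.ne', Real.rpow_one]
  congr 3
  field_simp
  ring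

theorem piece_hi_gen {P e : ℝ} (hP : 2 < P) (hGL : StGL P e X0) (α : ℝ) :
    ∃ (C : ℝ), 0 ≤ C ∧ ∀ l : ℤ, 0 < l → ∀ (g : E3 → ℂ), Adm volume g →
    ∫⁻ t in Icc (1:ℝ) 2, ∫⁻ x : E3, ‖pp α g l t x‖ₑ ^ P ≤
      ENNReal.ofReal ((C * ((2:ℝ) ^ l) ^ (e - α) * nrm (ENNReal.ofReal P) g volume) ^ P) := by
  obtain ⟨C, hC, h⟩ := V_gen hP hGL
  obtain ⟨B, hB, hL⟩ := paramL1 (contDiff_symB α) 2 (fun η κ h => symB_supp h)
  refine ⟨C * B, by positivity, ?_⟩
  intro l hl g hg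
  have hP0 : 0 < P := by linarith
  set Λ : ℝ := (2:ℝ) ^ l with hΛ
  have hΛ0 : 0 < Λ := by positivity
  have hΛ1 : 1 ≤ Λ := by rw [hΛ]; exact one_le_zpow₀ (by norm_num) hl.le
  have hinv : Λ⁻¹ ∈ Icc (0:ℝ) 1 := ⟨by positivity, inv_le_one_of_one_le₀ hΛ1⟩
  have hga := dil_adm hΛ0 hg
  obtain ⟨s1, s2, s3, s4⟩ := smop_props (M := fun η => symB α (η, Λ⁻¹)) ((contDiff_symB α).comp (by fun_prop))
    (compact_of_supp (fun η h => symB_supp h)) hga
  set h' := 𝓕⁻ (fun ξ => (fun η => symB α (η, Λ⁻¹)) ξ * 𝓕 (dil Λ g) ξ) with hh'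
  have hn := s3 B hB (hL Λ⁻¹ hinv) (ENNReal.ofReal P) (by
    rw [← ENNReal.ofReal_one]; exact ENNReal.ofReal_le_ofReal (by linarith))
  rw [nrm_dil hΛ0 (by linarith) hg] at hn
  have hV := h Λ hΛ1 h' s1
  have e1 : ∀ t x, ‖pp α g l t x‖ₑ ^ P = ENNReal.ofReal ((Λ ^ (-α)) ^ P) *
      ‖𝓕⁻ (fun ξ => wm1 X0 (Λ * t) ξ * 𝓕 h' ξ) (Λ • x)‖ₑ ^ P := by
    intro t x
    unfold pp
    rw [scal hΛ0]
    have e2 : (fun η => pm α t l (Λ • η) * 𝓕 (dil Λ g) η) = fun η => ((Λ ^ (-α) : ℝ) : ℂ) *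
        (wm1 X0 (Λ * t) η * 𝓕 h' η) := by
      ext η
      rw [s2, pm_hi α t hl]
      ring
    rw [e2, fi_const, enorm_mul, ENNReal.mul_rpow_of_nonneg _ _ hP0.le]
    congr 1
    rw [← ofReal_norm, Complex.norm_real, Real.norm_of_nonneg (by positivity),
      ENNReal.ofReal_rpow_of_nonneg (by positivity) hP0.le]
  simp_rw [e1]
  have e3 : ∀ t : ℝ, ∫⁻ x : E3, ENNReal.ofReal ((Λ ^ (-α)) ^ P) *
      ‖𝓕⁻ (fun ξ => wm1 X0 (Λ * t) ξ * 𝓕 h' ξ) (Λ • x)‖ₑ ^ P =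
      ENNReal.ofReal ((Λ ^ (-α)) ^ P * (Λ ^ 3)⁻¹) * ∫⁻ x : E3, ‖𝓕⁻ (fun ξ => wm1 X0 (Λ * t) ξ * 𝓕 h' ξ) x‖ₑ ^ P := by
    intro t
    rw [lintegral_const_mul' _ _ ENNReal.ofReal_ne_top,
      lintegral_smul3 hΛ0 (fun y => ‖𝓕⁻ (fun ξ => wm1 X0 (Λ * t) ξ * 𝓕 h' ξ) y‖ₑ ^ P), ← mul_assoc,
      ← ENNReal.ofReal_mul (by positivity)]
  simp_rw [e3]
  rw [lintegral_const_mul' _ _ ENNReal.ofReal_ne_top,
    lintegral_scaleT hΛ0 (fun T => ∫⁻ x : E3, ‖𝓕⁻ (fun ξ => wm1 X0 T ξ * 𝓕 h' ξ) x‖ₑ ^ P), ← mul_assoc,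
    ← ENNReal.ofReal_mul (by positivity)]
  have n0 : 0 ≤ nrm (ENNReal.ofReal P) g volume := nrm_nonneg
  have n1 : 0 ≤ nrm (ENNReal.ofReal P) h' volume := nrm_nonneg
  calc _ ≤ ENNReal.ofReal ((Λ ^ (-α)) ^ P * (Λ ^ 3)⁻¹ * Λ⁻¹) *
        ENNReal.ofReal ((C * Λ ^ (1/P + e) * nrm (ENNReal.ofReal P) h' volume) ^ P) := by gcongr
    _ = ENNReal.ofReal ((Λ ^ (-α)) ^ P * (Λ ^ 3)⁻¹ * Λ⁻¹ *
        (C * Λ ^ (1/P + e) * nrm (ENNReal.ofReal P) h' volume) ^ P) := by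
        rw [← ENNReal.ofReal_mul (by positivity)]
    _ ≤ _ := by
        apply ENNReal.ofReal_le_ofReal
        have e4 : (Λ ^ (-α)) ^ P * (Λ ^ 3)⁻¹ * Λ⁻¹ = (Λ ^ (-α - 4 / P)) ^ P := by
          rw [← Real.rpow_mul hΛ0.le, ← Real.rpow_mul hΛ0.le]
          have a1 : (Λ ^ 3)⁻¹ = Λ ^ (-3:ℝ) := by
            rw [Real.rpow_neg hΛ0.le]
            congr 1
            exact_mod_cast (Real.rpow_natCast Λ 3).symm
          have a2 : Λ⁻¹ = Λ ^ (-1:ℝ) := (Real.rpow_neg_one Λ).symm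
          rw [a1, a2, ← Real.rpow_add hΛ0, ← Real.rpow_add hΛ0]
          congr 1
          field_simp
          ring
        rw [e4, ← Real.mul_rpow (by positivity) (by positivity)]
        apply Real.rpow_le_rpow (by positivity) _ hP0.le
        calc Λ ^ (-α - 4 / P) * (C * Λ ^ (1/P + e) * nrm (ENNReal.ofReal P) h' volume) ≤
            Λ ^ (-α - 4 / P) * (C * Λ ^ (1/P + e) *
              (B * (Λ ^ (3 / P) * nrm (ENNReal.ofReal P) g volume))) := by gcongr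
          _ = C * B * (Λ ^ (-α - 4 / P) * Λ ^ (1/P + e) * Λ ^ (3 / P)) *
              nrm (ENNReal.ofReal P) g volume := by ring
          _ = _ := by
              rw [← Real.rpow_add hΛ0, ← Real.rpow_add hΛ0]
              congr 3
              ring


/-- the local smoothing estimate from its frequency localized form -/
theorem gen_LS {P α e : ℝ} (hP : 2 < P) (he : 0 < e) (heα : e < α) (hGL : StGL P e Vale.Agent.P106.X0) :
    ∃ C : ℝ, 0 ≤ C ∧ ∀ g : E3 → ℂ, Adm volume g → Integrable (𝓕 g) →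
    eLpNorm (fun z : ℝ × E3 => uu α g z.1 z.2) (ENNReal.ofReal P) muS ≤
      ENNReal.ofReal C * eLpNorm g (ENNReal.ofReal P) volume := by
  have hα0 : 0 < α := he.trans heα
  have hP0 : 0 < P := by linarith
  have hP1 : (1:ℝ≥0∞) ≤ ENNReal.ofReal P := by
    rw [← ENNReal.ofReal_one]; exact ENNReal.ofReal_le_ofReal (by linarith)
  obtain ⟨C1, hC1, h1⟩ := piece_hi_gen hP hGL α
  obtain ⟨C2, hC2, h2⟩ := piece_lo hP α
  obtain ⟨C3, hC3, hL⟩ := paramL1 (contDiff_symL α) 2 (fun η κ h => symL_supp h)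
  set r : ℝ := max (1/2) ((2:ℝ) ^ (e - α)) with hr
  have hr0 : 0 ≤ r := le_max_of_le_left (by norm_num)
  have hr1 : r < 1 := by
    apply max_lt (by norm_num)
    apply Real.rpow_lt_one_of_one_lt_of_neg (by norm_num) (by linarith)
  have hS := summable_kz hr0 hr1
  set S : ℝ := ∑' l : ℤ, kz r l with hSd
  have hS0 : 0 ≤ S := tsum_nonneg (kz_nonneg hr0)
  refine ⟨C3 + (C1 + C2) * S, by positivity, ?_⟩
  intro g hg hF
  set n : ℝ := nrm (ENNReal.ofReal P) g volume with hn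
  have hn0 : 0 ≤ n := nrm_nonneg
  -- pieces
  have hp : ∀ l : ℤ, eLpNorm (fun z : ℝ × E3 => pp α g l z.1 z.2) (ENNReal.ofReal P) muS ≤
      ENNReal.ofReal ((C1 + C2) * kz r l * n) := by
    intro l
    have hk := kz_nonneg hr0 l
    by_cases hl : 0 < l
    · refine (eLpNorm_muS (by linarith) (cont_pp hα0.le l hF) (by positivity) (h1 l hl g hg)).trans ?_
      apply ENNReal.ofReal_le_ofReal
      have hL0 : (0:ℝ) < (2:ℝ) ^ l := by positivity
      have e1 : ((2:ℝ) ^ l) ^ (e - α) ≤ kz r l := by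
        unfold kz
        obtain ⟨k, hk⟩ := Int.eq_ofNat_of_zero_le hl.le
        rw [hk, zpow_natCast, Int.natAbs_natCast, ← Real.rpow_natCast, ← Real.rpow_mul (by norm_num), mul_comm,
          Real.rpow_mul (by norm_num), Real.rpow_natCast]
        exact pow_le_pow_left₀ (by positivity) (le_max_right _ _) _
      calc C1 * ((2:ℝ) ^ l) ^ (e - α) * n ≤ C1 * kz r l * n := by gcongr
        _ ≤ (C1 + C2) * kz r l * n := by gcongr; linarith
    · refine (eLpNorm_muS (by linarith) (cont_pp hα0.le l hF) (by positivity) (h2 l hl g hg)).trans ?_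
      apply ENNReal.ofReal_le_ofReal
      have e1 : (2:ℝ) ^ l ≤ kz r l := by
        unfold kz
        obtain ⟨k, hk⟩ := Int.eq_ofNat_of_zero_le (show 0 ≤ -l by omega)
        have hl' : l = -(k:ℤ) := by omega
        rw [hl', Int.natAbs_neg, Int.natAbs_natCast, zpow_neg, zpow_natCast, ← inv_pow]
        apply pow_le_pow_left₀ (by norm_num)
        rw [hr]
        exact le_trans (by norm_num) (le_max_left _ _)
      calc C2 * (2:ℝ) ^ l * n ≤ C2 * kz r l * n := by gcongr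
        _ ≤ (C1 + C2) * kz r l * n := by gcongr; linarith
  have hcl : Continuous (fun z : ℝ × E3 => lo α g z.2) := (cont_lo α hg).comp continuous_snd
  have hcu : Continuous (fun z : ℝ × E3 => uu α g z.1 z.2) := cont_uu hα0.le hF
  -- low part
  have hlo : eLpNorm (fun z : ℝ × E3 => lo α g z.2) (ENNReal.ofReal P) muS ≤ ENNReal.ofReal (C3 * n) := by
    obtain ⟨s1, s2, s3, s4⟩ := smop_props (M := fun ξ => symL α (ξ, 0)) ((contDiff_symL α).comp (by fun_prop))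
      (compact_of_supp (fun η h => symL_supp h)) hg
    have h3 := s3 C3 hC3 (hL 0 ⟨le_rfl, zero_le_one⟩) (ENNReal.ofReal P) hP1
    have h4 := pow_nrm_le (P := P) (by linarith) s1 h3
    have h6 : ∫⁻ t in Icc (1:ℝ) 2, ∫⁻ x : E3, ‖lo α g x‖ₑ ^ P ≤ ENNReal.ofReal ((C3 * n) ^ P) := by
      rw [setLIntegral_const, Real.volume_Icc]
      norm_num
      exact h4
    exact eLpNorm_muS (F := fun z : ℝ × E3 => lo α g z.2) (D := C3 * n) (by linarith) hcl (by positivity) h6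
  have hsum : eLpNorm (fun z : ℝ × E3 => uu α g z.1 z.2 - lo α g z.2) (ENNReal.ofReal P) muS ≤
      ENNReal.ofReal ((C1 + C2) * S * n) := by
    have k1 : ∀ l : ℤ, AEStronglyMeasurable (fun z : ℝ × E3 => pp α g l z.1 z.2) muS :=
      fun l => (cont_pp hα0.le l hF).aestronglyMeasurable
    have k2 : ∀ z : ℝ × E3, HasSum (fun l : ℤ => pp α g l z.1 z.2) (uu α g z.1 z.2 - lo α g z.2) :=
      fun z => pp_hasSum hα0.le hF z.1 z.2
    refine (eLpNorm_le_tsum_gen (μ := muS) (u := fun z : ℝ × E3 => uu α g z.1 z.2 - lo α g z.2)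
      (v := fun (l : ℤ) (z : ℝ × E3) => pp α g l z.1 z.2) k1 k2 hP1).trans ?_
    refine (ENNReal.tsum_le_tsum hp).trans (le_of_eq ?_)
    rw [← ENNReal.ofReal_tsum_of_nonneg (fun l => by have := kz_nonneg hr0 l; positivity)
      ((hS.mul_left _).mul_right _), tsum_mul_right, tsum_mul_left]
  have e1 : (fun z : ℝ × E3 => uu α g z.1 z.2) = (fun z : ℝ × E3 => uu α g z.1 z.2 - lo α g z.2) + fun z => lo α g z.2 := by
    ext z; simp
  rw [e1]
  refine (eLpNorm_add_le (hcu.sub hcl).aestronglyMeasurable hcl.aestronglyMeasurable hP1).trans ?_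
  rw [← hg.ofReal_nrm hP1, ← hn, ← ENNReal.ofReal_mul (by positivity)]
  calc _ ≤ ENNReal.ofReal ((C1 + C2) * S * n) + ENNReal.ofReal (C3 * n) := add_le_add hsum hlo
    _ = _ := by
        rw [← ENNReal.ofReal_add (by positivity) (by positivity)]
        congr 1
        ring


end Vale.Agent.P106.G
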