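import Vale.Agent.P106.G.BLa

/-! # Narrow and broad centres -/

open MeasureTheory Complex Set
open scoped ENNReal NNReal ContDiff FourierTransform SchwartzMap ComplexConjugate

set_option linter.all false

namespace Vale.Agent.P106.G

theorem trv_real {K a1 a2 b1 b2 α β γ δ : ℝ} (hK : 1 ≤ K) (h1 : |a1| ≤ K) (h2 : |b2| ≤ K) (h3 : |b1| ≤ K) (h4 : |a2| ≤ K)
    (hα : |α| ≤ 1) (hβ : |β| ≤ 1) (hγ : |γ| ≤ 1) (hδ : |δ| ≤ 1) (h : 7 * K ≤ |a1 * b2 - b1 * a2|) :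
    K ≤ |(a1 + α) * (b2 + β) - (b1 + γ) * (a2 + δ)| := by
  have e : a1 * b2 - b1 * a2 = ((a1 + α) * (b2 + β) - (b1 + γ) * (a2 + δ)) -
      (a1 * β + α * b2 + α * β - (b1 * δ + γ * a2 + γ * δ)) := by ring
  have h5 : ∀ x y A B : ℝ, |x| ≤ A → |y| ≤ B → |x * y| ≤ A * B := by
    intro x y A B hx hy
    rw [abs_mul]
    exact mul_le_mul hx hy (abs_nonneg _) ((abs_nonneg _).trans hx)
  have q1 := h5 _ _ _ _ h1 hβ
  have q2 := h5 _ _ _ _ hα h2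
  have q3 := h5 _ _ _ _ hα hβ
  have q4 := h5 _ _ _ _ h3 hδ
  have q5 := h5 _ _ _ _ hγ h4
  have q6 := h5 _ _ _ _ hγ hδ
  have h6 : |a1 * β + α * b2 + α * β - (b1 * δ + γ * a2 + γ * δ)| ≤ 4 * K + 2 := by
    rw [abs_le] at q1 q2 q3 q4 q5 q6 ⊢
    constructor <;> linarith [q1.1, q1.2, q2.1, q2.2, q3.1, q3.2, q4.1, q4.2, q5.1, q5.2, q6.1, q6.2]
  have h7 : |a1 * b2 - b1 * a2| ≤ |(a1 + α) * (b2 + β) - (b1 + γ) * (a2 + δ)| +
      |a1 * β + α * b2 + α * β - (b1 * δ + γ * a2 + γ * δ)| := by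
    rw [e]; exact abs_sub _ _
  linarith

theorem par_frac {K q : ℕ} (hK : 1 ≤ K) (hq : 1 ≤ q) (k : ℤ) :
    ∃ α : ℝ, 0 ≤ α ∧ α ≤ 1 ∧ (k:ℝ) / ((K * q : ℕ):ℝ) = (((k / (q:ℤ) : ℤ):ℝ) + α) / K := by
  have hK0 : (0:ℝ) < K := by exact_mod_cast hK
  have hq0 : (0:ℝ) < q := by exact_mod_cast hq
  have hqz : (0:ℤ) < q := by exact_mod_cast hq
  refine ⟨((k % (q:ℤ) : ℤ):ℝ) / q, ?_, ?_, ?_⟩
  · have : 0 ≤ k % (q:ℤ) := Int.emod_nonneg _ hqz.ne'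
    have : (0:ℝ) ≤ ((k % (q:ℤ) : ℤ):ℝ) := by exact_mod_cast this
    positivity
  · rw [div_le_one hq0]
    have : k % (q:ℤ) ≤ q := (Int.emod_lt_of_pos _ hqz).le
    exact_mod_cast this
  · have h : ((k / (q:ℤ) : ℤ):ℝ) * q + ((k % (q:ℤ) : ℤ):ℝ) = k := by
      have := Int.mul_ediv_add_emod k q
      have h2 : k / (q:ℤ) * q + k % (q:ℤ) = k := by linarith
      exact_mod_cast h2
    push_cast
    rw [← h]
    field_simp

theorem trv_sub {K q : ℕ} (hK : 1 ≤ K) (hq : 1 ≤ q) {k l j : ℤ × ℤ} (hk : k ∈ grd (K * q)) (hl : l ∈ grd (K * q))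
    (hj : j ∈ grd (K * q)) (h : Trv K (par q k) (par q l) (par q j)) :
    1 / (K:ℝ) ≤ |d3 (cc (K * q) k) (cc (K * q) l) (cc (K * q) j)| := by
  have hK0 : (0:ℝ) < K := by exact_mod_cast hK
  have hK1 : (1:ℝ) ≤ K := by exact_mod_cast hK
  have pk := par_mem hq hk
  have pl := par_mem hq hl
  have pj := par_mem hq hj
  obtain ⟨α1, a1, a1', e1⟩ := par_frac hK hq k.1
  obtain ⟨α2, a2, a2', e2⟩ := par_frac hK hq k.2
  obtain ⟨β1, b1, b1', f1⟩ := par_frac hK hq l.1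
  obtain ⟨β2, b2, b2', f2⟩ := par_frac hK hq l.2
  obtain ⟨γ1, c1, c1', g1⟩ := par_frac hK hq j.1
  obtain ⟨γ2, c2, c2', g2⟩ := par_frac hK hq j.2
  unfold grd at pk pl pj
  rw [Finset.mem_product, Finset.mem_Ico, Finset.mem_Ico] at pk pl pj
  unfold Trv at h
  unfold par at pk pl pj h
  simp only at pk pl pj h
  set k1 := k.1 / (q:ℤ)
  set k2 := k.2 / (q:ℤ)
  set l1 := l.1 / (q:ℤ)
  set l2 := l.2 / (q:ℤ)
  set j1 := j.1 / (q:ℤ)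
  set j2 := j.2 / (q:ℤ)
  obtain ⟨⟨p1, p2⟩, p3, p4⟩ := pk
  obtain ⟨⟨r1, r2⟩, r3, r4⟩ := pl
  obtain ⟨⟨s1, s2⟩, s3, s4⟩ := pj
  have hb : ∀ x y : ℤ, 0 ≤ x → x < K → 0 ≤ y → y < K → |(x:ℝ) - y| ≤ K := by
    intro x y h1 h2 h3 h4
    have : |x - y| ≤ (K:ℤ) := by rw [abs_le]; constructor <;> omega
    exact_mod_cast this
  have hR : 7 * (K:ℝ) ≤ |((l1:ℝ) - k1) * ((j2:ℝ) - k2) - ((j1:ℝ) - k1) * ((l2:ℝ) - k2)| := by exact_mod_cast h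
  have main := trv_real hK1 (hb l1 k1 r1 r2 p1 p2) (hb j2 k2 s3 s4 p3 p4) (hb j1 k1 s1 s2 p1 p2) (hb l2 k2 r3 r4 p3 p4)
    (α := β1 - α1) (β := γ2 - α2) (γ := γ1 - α1) (δ := β2 - α2) (by rw [abs_le]; constructor <;> linarith)
    (by rw [abs_le]; constructor <;> linarith) (by rw [abs_le]; constructor <;> linarith)
    (by rw [abs_le]; constructor <;> linarith) hR
  have e : d3 (cc (K * q) k) (cc (K * q) l) (cc (K * q) j) =
      (((l1:ℝ) - k1 + (β1 - α1)) * ((j2:ℝ) - k2 + (γ2 - α2)) - ((j1:ℝ) - k1 + (γ1 - α1)) * ((l2:ℝ) - k2 + (β2 - α2))) / (K:ℝ) ^ 2 := by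
    unfold d3 cc
    simp only
    rw [e1, e2, f1, f2, g1, g2]
    field_simp
    ring
  rw [e, abs_div, abs_of_pos (by positivity : (0:ℝ) < (K:ℝ) ^ 2), div_le_div_iff₀ hK0 (by positivity)]
  calc 1 * (K:ℝ) ^ 2 = K * K := by ring
    _ ≤ _ := by gcongr

theorem far_sep {m : ℕ} (hm : 1 ≤ m) {k k' κ κ' : ℤ × ℤ} (hk : par m k = κ) (hk' : par m k' = κ') (h : Far κ κ') :
    9 * (m:ℤ) ≤ |k.1 - k'.1| ∨ 9 * (m:ℤ) ≤ |k.2 - k'.2| := by
  have hm0 : (0:ℤ) < m := by exact_mod_cast hm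
  have key : ∀ x y : ℤ, 10 ≤ |x / (m:ℤ) - y / (m:ℤ)| → 9 * (m:ℤ) ≤ |x - y| := by
    intro x y hxy
    have h1 := Int.mul_ediv_add_emod x m
    have h2 := Int.mul_ediv_add_emod y m
    have h3 := Int.emod_nonneg x hm0.ne'
    have h4 := Int.emod_lt_of_pos x hm0
    have h5 := Int.emod_nonneg y hm0.ne'
    have h6 := Int.emod_lt_of_pos y hm0
    set a := x / (m:ℤ)
    set b := y / (m:ℤ)
    rw [le_abs] at hxy ⊢
    rcases hxy with h | h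
    · left
      have : (m:ℤ) * 10 ≤ m * (a - b) := by gcongr
      nlinarith
    · right
      have : (m:ℤ) * 10 ≤ m * (-(a - b)) := by gcongr
      nlinarith
  unfold par at hk hk'
  subst hk hk'
  rcases h with h | h
  · left; exact key _ _ h
  · right; exact key _ _ h

theorem jensen34 {f : E4 → ℝ≥0∞} (hf : Measurable f) (B : Set E4) :
    ∫⁻ z in B, f z ^ (3/2 : ℝ) ≤ (∫⁻ z in B, f z ^ 2) ^ (3/4 : ℝ) * (volume B) ^ (1/4 : ℝ) := by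
  have m1 : Measurable (fun z => f z ^ (3/2 : ℝ)) := hf.pow_const _
  have m2 : Measurable (fun _ : E4 => (1 : ℝ≥0∞)) := measurable_const
  have hH := ENNReal.lintegral_mul_le_Lp_mul_Lq (μ := (volume : Measure E4).restrict B) (p := 4/3) (q := 4)
    (by constructor <;> norm_num) (f := fun z => f z ^ (3/2 : ℝ)) (g := fun _ => (1 : ℝ≥0∞)) m1.aemeasurable m2.aemeasurable
  have e2 : ∀ z, (f z ^ (3/2 : ℝ)) ^ (4/3 : ℝ) = f z ^ 2 := by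
    intro z
    rw [← ENNReal.rpow_mul, ← ENNReal.rpow_natCast]
    norm_num
  simp only [Pi.mul_apply, mul_one, e2, ENNReal.one_rpow, lintegral_const, one_mul, Measure.restrict_apply_univ] at hH
  have e3 : (1 / (4/3) : ℝ) = 3/4 := by norm_num
  rwa [e3] at hH

end Vale.Agent.P106.G
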