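import Vale.Agent.P106.G.NB

/-! # Narrow and broad centres, conclusion -/

open MeasureTheory Complex Set
open scoped ENNReal NNReal ContDiff FourierTransform SchwartzMap ComplexConjugate

set_option linter.all false

namespace Vale.Agent.P106.G

/-- local average of a cap -/
noncomputable def Gk (M K N : ℕ) (a : E4 → ℂ) (k : ℤ × ℤ) (y : E4) : ℝ≥0∞ := Gav M K (ampk N k a) y

open Classical in
/-- transversal triples of fine caps -/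
noncomputable def trip (K N : ℕ) : Finset ((ℤ × ℤ) × (ℤ × ℤ) × (ℤ × ℤ)) :=
  (grd N ×ˢ grd N ×ˢ grd N).filter (fun t => 1 / (K:ℝ) ≤ |d3 (cc N t.1) (cc N t.2.1) (cc N t.2.2)|)

theorem Gk_near (M : ℕ) : ∃ C : ℝ≥0∞, C ≠ ⊤ ∧ ∀ (K : ℕ), 1 ≤ K → ∀ (c0 R : ℝ) (a : E4 → ℂ), Amp c0 R a →
    c0 ≤ 1 / K → R⁻¹ ≤ 1 / K → ∀ k y, ∀ z ∈ Metric.closedBall y (K:ℝ),
    ‖𝓕⁻ (ampk K k a) z‖ₑ ≤ C * Gk M K K a k y := by
  obtain ⟨C, hC, h⟩ := cap_le_Gav M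
  refine ⟨ENNReal.ofReal C * 2 ^ M, ENNReal.mul_ne_top ENNReal.ofReal_ne_top (by simp), ?_⟩
  intro K hK c0 R a ha hc hR k y z hz
  have hK0 : (0:ℝ) < K := by exact_mod_cast hK
  rw [Metric.mem_closedBall, dist_eq_norm] at hz
  have h1 := h K hK c0 R a ha hc hR k z
  have h2 := (Gav_SV M hK0 (ha.ampk K k).int).sub z y
  have h3 : ENNReal.ofReal ((1 + ‖z - y‖ / K) ^ M) ≤ 2 ^ M := by
    have e2 : (2:ℝ≥0∞) ^ M = ENNReal.ofReal (2 ^ M) := by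
      rw [ENNReal.ofReal_pow (by norm_num), ENNReal.ofReal_ofNat]
    rw [e2]
    apply ENNReal.ofReal_le_ofReal
    have h4 : ‖z - y‖ / K ≤ 1 := by rw [div_le_one hK0]; exact hz
    have h5 : 0 ≤ ‖z - y‖ / K := by positivity
    exact pow_le_pow_left₀ (by linarith) (by linarith) _
  calc _ ≤ _ := h1
    _ ≤ ENNReal.ofReal C * (2 ^ M * Gk M K K a k y) := by
        refine mul_le_mul' le_rfl (h2.trans (mul_le_mul' h3 le_rfl))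
    _ = _ := by ring

open Classical in
theorem Gk_split (M K : ℕ) {N q : ℕ} (hN : 1 ≤ N) (hq : 1 ≤ q) {c0 R : ℝ} {a : E4 → ℂ} (ha : Amp c0 R a) (k : ℤ × ℤ) (y : E4) :
    Gk M K N a k y ≤ ∑ l ∈ (grd (N * q)).filter (fun l => par q l = k), Gk M K (N * q) a l y := by
  unfold Gk Gav
  have m1 : ∀ l, Measurable (fun z => ‖𝓕⁻ (ampk (N * q) l a) z‖ₑ * wK M K (y - z)) := fun l =>
    ((continuous_inv (ha.ampk _ l).int).measurable.enorm).mul ((measurable_wK M K).comp (by fun_prop))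
  rw [← lintegral_finset_sum _ (fun l _ => m1 l)]
  refine lintegral_mono fun z => ?_
  simp only
  rw [← Finset.sum_mul, inv_split ha hN hq k z]
  refine mul_le_mul' ?_ le_rfl
  exact enorm_sum_le _ _

theorem sum_le_card {s : Finset (ℤ × ℤ)} {N : ℕ} (hs : s ⊆ grd N) {f : ℤ × ℤ → ℝ≥0∞} {b : ℝ≥0∞} (h : ∀ k ∈ s, f k ≤ b) :
    ∑ k ∈ s, f k ≤ (N:ℝ≥0∞) ^ 2 * b := by
  calc ∑ k ∈ s, f k ≤ ∑ k ∈ s, b := Finset.sum_le_sum h
    _ = s.card * b := by rw [Finset.sum_const, nsmul_eq_mul]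
    _ ≤ _ := by
      gcongr
      have := Finset.card_le_card hs
      rw [card_grd] at this
      exact_mod_cast this

open Classical in
theorem NB (M : ℕ) : ∃ C : ℝ≥0∞, C ≠ ⊤ ∧ ∀ (K0 m q : ℕ), 1 ≤ K0 → 1 ≤ m → 1 ≤ q → ∀ (c0 R : ℝ) (a : E4 → ℂ), Amp c0 R a →
    c0 ≤ 1 / ((K0 * m : ℕ):ℝ) → R⁻¹ ≤ 1 / ((K0 * m : ℕ):ℝ) → ∀ (κ κ' : ℤ × ℤ), Far κ κ' → ∀ (y : E4),
    ∫⁻ z in Metric.closedBall y ((K0 * m : ℕ):ℝ), (‖𝓕⁻ (ampk K0 κ a) z‖ₑ * ‖𝓕⁻ (ampk K0 κ' a) z‖ₑ) ^ (3/2 : ℝ) ≤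
      C * (K0:ℝ≥0∞) ^ 2 * ((K0 * m : ℕ):ℝ≥0∞) ^ 4 * (∑ k ∈ grd (K0 * m), Gk M (K0 * m) (K0 * m) a k y ^ 2) ^ (3/2 : ℝ) +
      C * ((K0 * m : ℕ):ℝ≥0∞) ^ 25 * ∑ t ∈ trip (K0 * m) (K0 * m * q), Gk M (K0 * m) (K0 * m * q) a t.1 y *
        Gk M (K0 * m) (K0 * m * q) a t.2.1 y * Gk M (K0 * m) (K0 * m * q) a t.2.2 y := by
  obtain ⟨D, hD, hnear⟩ := Gk_near M
  obtain ⟨B, hB, hBL⟩ := BLq M
  have hvb : vb < ⊤ := vb_lt
  set C1 : ℝ≥0∞ := D ^ 3 * vb with hC1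
  set C2 : ℝ≥0∞ := 2 ^ (3/2 : ℝ) * (B ^ (3/4 : ℝ) * vb ^ (1/4 : ℝ) + (3 * D ^ 2) ^ (3/2 : ℝ) * vb) with hC2
  have hC1t : C1 ≠ ⊤ := ENNReal.mul_ne_top (ENNReal.pow_ne_top hD) hvb.ne
  have hC2t : C2 ≠ ⊤ := by
    refine ENNReal.mul_ne_top (ENNReal.rpow_ne_top_of_nonneg (by norm_num) (by norm_num)) (ENNReal.add_ne_top.2 ⟨?_, ?_⟩)
    · exact ENNReal.mul_ne_top (ENNReal.rpow_ne_top_of_nonneg (by norm_num) hB) (ENNReal.rpow_ne_top_of_nonneg (by norm_num) hvb.ne)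
    · exact ENNReal.mul_ne_top (ENNReal.rpow_ne_top_of_nonneg (by norm_num) (ENNReal.mul_ne_top (by norm_num) (ENNReal.pow_ne_top hD))) hvb.ne
  refine ⟨C1 + C2, ENNReal.add_ne_top.2 ⟨hC1t, hC2t⟩, ?_⟩
  intro K0 m q hK0 hm hq c0 R a ha hc hR κ κ' hfar y
  have hK : 1 ≤ K0 * m := Nat.mul_pos hK0 hm
  set K := K0 * m with hKd
  have hKR : (0:ℝ) < (K:ℝ) := by exact_mod_cast hK
  set x : ℤ × ℤ → ℝ≥0∞ := fun k => Gk M K K a k y with hx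
  have hK1 : (1 : ℝ≥0∞) ≤ (K:ℝ≥0∞) := by exact_mod_cast hK
  have hne : (grd K).Nonempty := by rw [← Finset.card_pos, card_grd]; positivity
  obtain ⟨k₀, hk₀, hmax⟩ := Finset.exists_max_image (grd K) x hne
  set mx := x k₀ with hmx
  -- bounds of the pieces
  have hpiece : ∀ z ∈ Metric.closedBall y (K:ℝ), ∀ k, ‖𝓕⁻ (ampk K k a) z‖ₑ ≤ D * x k :=
    fun z hz k => hnear K hK c0 R a ha hc hR k y z hz
  have hcoarse : ∀ z ∈ Metric.closedBall y (K:ℝ), ∀ (s : Finset (ℤ × ℤ)), s ⊆ grd K →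
      ∑ k ∈ s, ‖𝓕⁻ (ampk K k a) z‖ₑ ≤ (K:ℝ≥0∞) ^ 2 * (D * mx) := by
    intro z hz s hs
    refine sum_le_card hs fun k hk => (hpiece z hz k).trans ?_
    gcongr
    exact hmax k (hs hk)
  have hvol : volume (Metric.closedBall y (K:ℝ)) = (K:ℝ≥0∞) ^ 4 * vb := by
    rw [vol_ball y hKR.le, ENNReal.ofReal_pow hKR.le, ENNReal.ofReal_natCast]
    rfl
  by_cases hbroad : ∃ k ∈ grd K, ∃ l ∈ grd K, ∃ j ∈ grd K, (mx ≤ (K:ℝ≥0∞) ^ 5 * x k ∧ mx ≤ (K:ℝ≥0∞) ^ 5 * x l ∧ mx ≤ (K:ℝ≥0∞) ^ 5 * x j) ∧ Trv K k l j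
  · -- broad case
    obtain ⟨k, hk, l, hl, j, hj, ⟨s1, s2, s3⟩, htr⟩ := hbroad
    have h3 : mx ^ 3 ≤ (K:ℝ≥0∞) ^ 15 * (x k * x l * x j) := by
      calc mx ^ 3 = mx * mx * mx := by ring
        _ ≤ ((K:ℝ≥0∞) ^ 5 * x k) * ((K:ℝ≥0∞) ^ 5 * x l) * ((K:ℝ≥0∞) ^ 5 * x j) := by gcongr
        _ = _ := by ring
    have h4 : x k * x l * x j ≤ ∑ t ∈ trip K (K * q), Gk M K (K * q) a t.1 y * Gk M K (K * q) a t.2.1 y * Gk M K (K * q) a t.2.2 y := by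
      have g1 := Gk_split M K hK hq ha k y
      have g2 := Gk_split M K hK hq ha l y
      have g3 := Gk_split M K hK hq ha j y
      calc x k * x l * x j ≤ (∑ l ∈ (grd (K * q)).filter (fun l => par q l = k), Gk M K (K * q) a l y) *
            (∑ l' ∈ (grd (K * q)).filter (fun l' => par q l' = l), Gk M K (K * q) a l' y) *
            (∑ l ∈ (grd (K * q)).filter (fun l => par q l = j), Gk M K (K * q) a l y) := by gcongr
        _ = ∑ t ∈ ((grd (K * q)).filter (fun l => par q l = k)) ×ˢ ((grd (K * q)).filter (fun l' => par q l' = l)) ×ˢ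
            ((grd (K * q)).filter (fun l => par q l = j)),
            Gk M K (K * q) a t.1 y * Gk M K (K * q) a t.2.1 y * Gk M K (K * q) a t.2.2 y := by
            rw [Finset.sum_product, mul_assoc, Finset.sum_mul]
            refine Finset.sum_congr rfl fun t1 _ => ?_
            rw [Finset.sum_product, Finset.sum_mul_sum, Finset.mul_sum]
            refine Finset.sum_congr rfl fun t2 _ => ?_
            rw [Finset.mul_sum]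
            refine Finset.sum_congr rfl fun t3 _ => ?_
            ring
        _ ≤ _ := by
            apply Finset.sum_le_sum_of_subset
            intro t ht
            rw [Finset.mem_product, Finset.mem_product, Finset.mem_filter, Finset.mem_filter, Finset.mem_filter] at ht
            obtain ⟨⟨a1, a2⟩, ⟨b1, b2⟩, c1, c2⟩ := ht
            unfold trip
            rw [Finset.mem_filter, Finset.mem_product, Finset.mem_product]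
            refine ⟨⟨a1, b1, c1⟩, ?_⟩
            apply trv_sub hK hq a1 b1 c1
            rw [a2, b2, c2]
            exact htr
    have h5 : ∀ z ∈ Metric.closedBall y (K:ℝ), (‖𝓕⁻ (ampk K0 κ a) z‖ₑ * ‖𝓕⁻ (ampk K0 κ' a) z‖ₑ) ^ (3/2 : ℝ) ≤
        ((K:ℝ≥0∞) ^ 2 * (D * mx)) ^ 3 := by
      intro z hz
      have g : ∀ κ, ‖𝓕⁻ (ampk K0 κ a) z‖ₑ ≤ (K:ℝ≥0∞) ^ 2 * (D * mx) := by
        intro κ
        rw [inv_split ha hK0 hm κ z]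
        exact (enorm_sum_le _ _).trans (hcoarse z hz _ (Finset.filter_subset _ _))
      calc _ ≤ (((K:ℝ≥0∞) ^ 2 * (D * mx)) * ((K:ℝ≥0∞) ^ 2 * (D * mx))) ^ (3/2 : ℝ) := by
            gcongr
            · exact g κ
            · exact g κ'
        _ = _ := by
            rw [← sq, ← ENNReal.rpow_natCast, ← ENNReal.rpow_mul, ← ENNReal.rpow_natCast]
            norm_num
    calc _ ≤ ∫⁻ z in Metric.closedBall y (K:ℝ), ((K:ℝ≥0∞) ^ 2 * (D * mx)) ^ 3 :=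
          setLIntegral_mono' measurableSet_closedBall h5
      _ = ((K:ℝ≥0∞) ^ 2 * (D * mx)) ^ 3 * ((K:ℝ≥0∞) ^ 4 * vb) := by rw [setLIntegral_const, hvol]
      _ = (D ^ 3 * vb) * (K:ℝ≥0∞) ^ 10 * mx ^ 3 := by ring
      _ ≤ (D ^ 3 * vb) * (K:ℝ≥0∞) ^ 10 * ((K:ℝ≥0∞) ^ 15 * ∑ t ∈ trip K (K * q), Gk M K (K * q) a t.1 y * Gk M K (K * q) a t.2.1 y * Gk M K (K * q) a t.2.2 y) := by
          gcongr
          exact h3.trans (by gcongr)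
      _ = C1 * (K:ℝ≥0∞) ^ 25 * ∑ t ∈ trip K (K * q), Gk M K (K * q) a t.1 y * Gk M K (K * q) a t.2.1 y * Gk M K (K * q) a t.2.2 y := by
          rw [hC1]; ring
      _ ≤ (C1 + C2) * (K:ℝ≥0∞) ^ 25 * ∑ t ∈ trip K (K * q), Gk M K (K * q) a t.1 y * Gk M K (K * q) a t.2.1 y * Gk M K (K * q) a t.2.2 y := by
          gcongr
          exact le_self_add
      _ ≤ _ := le_add_self
  · -- narrow case
    push Not at hbroad
    set sig := (grd K).filter (fun k => mx ≤ (K:ℝ≥0∞) ^ 5 * x k) with hsig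
    set S := sig.filter (fun k => par m k = κ) with hS
    set S' := sig.filter (fun k => par m k = κ') with hS'
    have hSg : S ⊆ grd K := (Finset.filter_subset _ _).trans (Finset.filter_subset _ _)
    have hSg' : S' ⊆ grd K := (Finset.filter_subset _ _).trans (Finset.filter_subset _ _)
    have hmem : ∀ k ∈ S, k ∈ grd K ∧ mx ≤ (K:ℝ≥0∞) ^ 5 * x k ∧ par m k = κ := by
      intro k hk
      rw [hS, hsig, Finset.mem_filter, Finset.mem_filter] at hk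
      exact ⟨hk.1.1, hk.1.2, hk.2⟩
    have hmem' : ∀ k ∈ S', k ∈ grd K ∧ mx ≤ (K:ℝ≥0∞) ^ 5 * x k ∧ par m k = κ' := by
      intro k hk
      rw [hS', hsig, Finset.mem_filter, Finset.mem_filter] at hk
      exact ⟨hk.1.1, hk.1.2, hk.2⟩
    have hsep : ∀ k ∈ S, ∀ k' ∈ S', 9 * (m:ℤ) ≤ |k.1 - k'.1| ∨ 9 * (m:ℤ) ≤ |k.2 - k'.2| :=
      fun k hk k' hk' => far_sep hm (hmem k hk).2.2 (hmem' k' hk').2.2 hfar
    have hnt : ∀ k ∈ S, ∀ l ∈ S, ∀ j ∈ S', ¬ Trv K k l j := by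
      intro k hk l hl j hj
      exact hbroad k (hmem k hk).1 l (hmem l hl).1 j (hmem' j hj).1 ⟨(hmem k hk).2.1, (hmem l hl).2.1, (hmem' j hj).2.1⟩
    have hBLm := hBL K0 m hK0 hm S S' hSg hSg' hsep hnt c0 R a ha hc hR y
    rw [← hKd] at hBLm
    set Sx := ∑ k ∈ grd K, Gk M K K a k y ^ 2 with hSx
    have hmxS : mx ^ 2 ≤ Sx := by
      rw [hSx]
      exact Finset.single_le_sum_of_canonicallyOrdered (f := fun k => Gk M K K a k y ^ 2) hk₀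
    set X : E4 → ℝ≥0∞ := fun z => ‖∑ k ∈ S, 𝓕⁻ (ampk K k a) z‖ₑ * ‖∑ k ∈ S', 𝓕⁻ (ampk K k a) z‖ₑ with hX
    have mX : Measurable X := by
      have c1 : ∀ s : Finset (ℤ × ℤ), Continuous (fun z => ∑ k ∈ s, 𝓕⁻ (ampk K k a) z) := fun s =>
        continuous_finset_sum _ fun k _ => continuous_inv (ha.ampk K k).int
      exact (c1 S).measurable.enorm.mul (c1 S').measurable.enorm
    -- splitting off the insignificant part
    have hsplit : ∀ (κ : ℤ × ℤ), ∀ z ∈ Metric.closedBall y (K:ℝ), ∃ e : ℝ≥0∞, ‖𝓕⁻ (ampk K0 κ a) z‖ₑ ≤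
        ‖∑ k ∈ sig.filter (fun k => par m k = κ), 𝓕⁻ (ampk K k a) z‖ₑ + e ∧ (K:ℝ≥0∞) ^ 3 * e ≤ D * mx := by
      intro κ z hz
      set P := (grd K).filter (fun k => par m k = κ) with hP
      refine ⟨∑ k ∈ P.filter (fun k => ¬ (mx ≤ (K:ℝ≥0∞) ^ 5 * x k)), ‖𝓕⁻ (ampk K k a) z‖ₑ, ?_, ?_⟩
      · rw [inv_split ha hK0 hm κ z]
        have e1 : ∑ k ∈ P, 𝓕⁻ (ampk K k a) z = (∑ k ∈ P.filter (fun k => mx ≤ (K:ℝ≥0∞) ^ 5 * x k), 𝓕⁻ (ampk K k a) z) +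
            ∑ k ∈ P.filter (fun k => ¬ (mx ≤ (K:ℝ≥0∞) ^ 5 * x k)), 𝓕⁻ (ampk K k a) z :=
          (Finset.sum_filter_add_sum_filter_not P _ _).symm
        have e2 : P.filter (fun k => mx ≤ (K:ℝ≥0∞) ^ 5 * x k) = sig.filter (fun k => par m k = κ) := by
          rw [hP, hsig]
          exact Finset.filter_comm _ _ _
        rw [← hP, e1, e2]
        exact (enorm_add_le _ _).trans (add_le_add le_rfl (enorm_sum_le _ _))
      · have h1 : (K:ℝ≥0∞) ^ 5 * ∑ k ∈ P.filter (fun k => ¬ (mx ≤ (K:ℝ≥0∞) ^ 5 * x k)), ‖𝓕⁻ (ampk K k a) z‖ₑ ≤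
            (K:ℝ≥0∞) ^ 2 * (D * mx) := by
          rw [Finset.mul_sum]
          refine sum_le_card ((Finset.filter_subset _ _).trans (Finset.filter_subset _ _)) fun k hk => ?_
          rw [Finset.mem_filter] at hk
          have h2 := hk.2
          push Not at h2
          calc (K:ℝ≥0∞) ^ 5 * ‖𝓕⁻ (ampk K k a) z‖ₑ ≤ (K:ℝ≥0∞) ^ 5 * (D * x k) := by gcongr; exact hpiece z hz k
            _ = D * ((K:ℝ≥0∞) ^ 5 * x k) := by ring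
            _ ≤ D * mx := by gcongr
        have h2 : (K:ℝ≥0∞) ^ 2 * ((K:ℝ≥0∞) ^ 3 * ∑ k ∈ P.filter (fun k => ¬ (mx ≤ (K:ℝ≥0∞) ^ 5 * x k)), ‖𝓕⁻ (ampk K k a) z‖ₑ) ≤
            (K:ℝ≥0∞) ^ 2 * (D * mx) := by
          calc _ = (K:ℝ≥0∞) ^ 5 * ∑ k ∈ P.filter (fun k => ¬ (mx ≤ (K:ℝ≥0∞) ^ 5 * x k)), ‖𝓕⁻ (ampk K k a) z‖ₑ := by ring
            _ ≤ _ := h1
        exact (ENNReal.mul_le_mul_iff_right (pow_ne_zero _ (by
          rw [ne_eq, Nat.cast_eq_zero]; omega)) (ENNReal.pow_ne_top (ENNReal.natCast_ne_top _))).1 h2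
    have hprod : ∀ z ∈ Metric.closedBall y (K:ℝ), ‖𝓕⁻ (ampk K0 κ a) z‖ₑ * ‖𝓕⁻ (ampk K0 κ' a) z‖ₑ ≤ X z + 3 * D ^ 2 * mx ^ 2 := by
      intro z hz
      obtain ⟨e, he1, he2⟩ := hsplit κ z hz
      obtain ⟨e', he1', he2'⟩ := hsplit κ' z hz
      set u := ‖∑ k ∈ sig.filter (fun k => par m k = κ), 𝓕⁻ (ampk K k a) z‖ₑ with hu
      set v := ‖∑ k ∈ sig.filter (fun k => par m k = κ'), 𝓕⁻ (ampk K k a) z‖ₑ with hv
      have hu2 : u ≤ (K:ℝ≥0∞) ^ 2 * (D * mx) := (enorm_sum_le _ _).trans (hcoarse z hz _ hSg)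
      have hv2 : v ≤ (K:ℝ≥0∞) ^ 2 * (D * mx) := (enorm_sum_le _ _).trans (hcoarse z hz _ hSg')
      have hp : ∀ n : ℕ, (1:ℝ≥0∞) ≤ (K:ℝ≥0∞) ^ n := fun n => one_le_pow₀ hK1
      have ke : (K:ℝ≥0∞) ^ 2 * e ≤ D * mx := by
        refine le_trans ?_ he2
        exact mul_le_mul' (pow_le_pow_right₀ hK1 (by norm_num)) le_rfl
      have ke' : (K:ℝ≥0∞) ^ 2 * e' ≤ D * mx := by
        refine le_trans ?_ he2'
        exact mul_le_mul' (pow_le_pow_right₀ hK1 (by norm_num)) le_rfl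
      have ke1 : e ≤ D * mx := by
        calc e = 1 * e := (one_mul _).symm
          _ ≤ (K:ℝ≥0∞) ^ 2 * e := by gcongr; exact hp 2
          _ ≤ _ := ke
      have ke1' : e' ≤ D * mx := by
        calc e' = 1 * e' := (one_mul _).symm
          _ ≤ (K:ℝ≥0∞) ^ 2 * e' := by gcongr; exact hp 2
          _ ≤ _ := ke'
      calc _ ≤ (u + e) * (v + e') := mul_le_mul' he1 he1'
        _ = u * v + (u * e' + v * e + e * e') := by ring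
        _ ≤ u * v + (((K:ℝ≥0∞) ^ 2 * (D * mx)) * e' + ((K:ℝ≥0∞) ^ 2 * (D * mx)) * e + (D * mx) * (D * mx)) := by gcongr
        _ = u * v + ((D * mx) * ((K:ℝ≥0∞) ^ 2 * e') + (D * mx) * ((K:ℝ≥0∞) ^ 2 * e) + (D * mx) * (D * mx)) := by ring
        _ ≤ u * v + ((D * mx) * (D * mx) + (D * mx) * (D * mx) + (D * mx) * (D * mx)) := by gcongr
        _ = _ := by rw [hX]; simp only [hu, hv]; ring
    have hvb1 : (volume (Metric.closedBall y (K:ℝ))) ^ (1/4 : ℝ) = (K:ℝ≥0∞) * vb ^ (1/4 : ℝ) := by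
      rw [hvol, ENNReal.mul_rpow_of_nonneg _ _ (by norm_num), ← ENNReal.rpow_natCast, ← ENNReal.rpow_mul]
      norm_num
    have hLX : ∫⁻ z in Metric.closedBall y (K:ℝ), X z ^ (3/2 : ℝ) ≤ B ^ (3/4 : ℝ) * vb ^ (1/4 : ℝ) * (K0:ℝ≥0∞) ^ 2 * (K:ℝ≥0∞) ^ 4 * Sx ^ (3/2 : ℝ) := by
      refine (jensen34 mX _).trans ?_
      rw [hvb1]
      have h1 : ∫⁻ z in Metric.closedBall y (K:ℝ), X z ^ 2 ≤ B * (K0:ℝ≥0∞) ^ 2 * (K:ℝ≥0∞) ^ 4 * Sx ^ 2 := by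
        refine hBLm.trans ?_
        have e1 : ENNReal.ofReal ((K:ℝ) ^ 4) = (K:ℝ≥0∞) ^ 4 := by
          rw [ENNReal.ofReal_pow hKR.le, ENNReal.ofReal_natCast]
        rw [e1, sq Sx]
        gcongr
        · exact Finset.sum_le_sum_of_subset hSg
        · exact Finset.sum_le_sum_of_subset hSg'
      calc _ ≤ (B * (K0:ℝ≥0∞) ^ 2 * (K:ℝ≥0∞) ^ 4 * Sx ^ 2) ^ (3/4 : ℝ) * ((K:ℝ≥0∞) * vb ^ (1/4 : ℝ)) := by gcongr
        _ = B ^ (3/4 : ℝ) * (K0:ℝ≥0∞) ^ (3/2 : ℝ) * (K:ℝ≥0∞) ^ 3 * Sx ^ (3/2 : ℝ) * ((K:ℝ≥0∞) * vb ^ (1/4 : ℝ)) := by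
            rw [ENNReal.mul_rpow_of_nonneg _ _ (by norm_num), ENNReal.mul_rpow_of_nonneg _ _ (by norm_num),
              ENNReal.mul_rpow_of_nonneg _ _ (by norm_num), ← ENNReal.rpow_natCast, ← ENNReal.rpow_natCast, ← ENNReal.rpow_natCast,
              ← ENNReal.rpow_natCast, ← ENNReal.rpow_mul, ← ENNReal.rpow_mul, ← ENNReal.rpow_mul]
            norm_num
        _ ≤ B ^ (3/4 : ℝ) * (K0:ℝ≥0∞) ^ 2 * (K:ℝ≥0∞) ^ 3 * Sx ^ (3/2 : ℝ) * ((K:ℝ≥0∞) * vb ^ (1/4 : ℝ)) := by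
            gcongr
            rw [← ENNReal.rpow_natCast]
            apply ENNReal.rpow_le_rpow_of_exponent_le
            · exact_mod_cast hK0
            · norm_num
        _ = _ := by ring
    calc _ ≤ ∫⁻ z in Metric.closedBall y (K:ℝ), (2 ^ (3/2 : ℝ) * X z ^ (3/2 : ℝ) + 2 ^ (3/2 : ℝ) * (3 * D ^ 2 * mx ^ 2) ^ (3/2 : ℝ)) := by
          refine setLIntegral_mono' measurableSet_closedBall fun z hz => ?_
          calc _ ≤ (X z + 3 * D ^ 2 * mx ^ 2) ^ (3/2 : ℝ) := by gcongr; exact hprod z hz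
            _ ≤ _ := add_rpow_q (by norm_num) _ _
            _ = _ := mul_add _ _ _
      _ = 2 ^ (3/2 : ℝ) * (∫⁻ z in Metric.closedBall y (K:ℝ), X z ^ (3/2 : ℝ)) + 2 ^ (3/2 : ℝ) * (3 * D ^ 2 * mx ^ 2) ^ (3/2 : ℝ) * ((K:ℝ≥0∞) ^ 4 * vb) := by
          rw [lintegral_add_right _ measurable_const, lintegral_const_mul' _ _ (ENNReal.rpow_ne_top_of_nonneg (by norm_num) (by norm_num)),
            setLIntegral_const, hvol]
      _ ≤ 2 ^ (3/2 : ℝ) * (B ^ (3/4 : ℝ) * vb ^ (1/4 : ℝ) * (K0:ℝ≥0∞) ^ 2 * (K:ℝ≥0∞) ^ 4 * Sx ^ (3/2 : ℝ)) +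
          2 ^ (3/2 : ℝ) * ((3 * D ^ 2) ^ (3/2 : ℝ) * Sx ^ (3/2 : ℝ)) * ((K0:ℝ≥0∞) ^ 2 * (K:ℝ≥0∞) ^ 4 * vb) := by
          have hk2 : (1:ℝ≥0∞) ≤ (K0:ℝ≥0∞) ^ 2 := one_le_pow₀ (by exact_mod_cast hK0)
          have h9 : (3 * D ^ 2 * mx ^ 2) ^ (3/2 : ℝ) ≤ (3 * D ^ 2) ^ (3/2 : ℝ) * Sx ^ (3/2 : ℝ) := by
            rw [ENNReal.mul_rpow_of_nonneg _ _ (by norm_num)]
            gcongr
          have h10 : (K:ℝ≥0∞) ^ 4 * vb ≤ (K0:ℝ≥0∞) ^ 2 * (K:ℝ≥0∞) ^ 4 * vb := by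
            calc (K:ℝ≥0∞) ^ 4 * vb = 1 * (K:ℝ≥0∞) ^ 4 * vb := by rw [one_mul]
              _ ≤ _ := by gcongr
          gcongr
      _ = C2 * (K0:ℝ≥0∞) ^ 2 * (K:ℝ≥0∞) ^ 4 * Sx ^ (3/2 : ℝ) := by rw [hC2]; ring
      _ ≤ (C1 + C2) * (K0:ℝ≥0∞) ^ 2 * (K:ℝ≥0∞) ^ 4 * Sx ^ (3/2 : ℝ) := by
          gcongr
          exact le_add_self
      _ ≤ _ := le_self_add

end Vale.Agent.P106.G
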