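import Vale.Agent.P106.G.NikDefs
import Vale.Agent.P106.G.Mop

/-! # Plancherel inequality from below, difference estimate for transported densities -/

open MeasureTheory Complex Set Filter
open scoped ENNReal NNReal ContDiff FourierTransform Topology SchwartzMap

set_option linter.all false

namespace Vale.Agent.P106.G

open Vale.Agent.P117 (Adm lintegral_sq_fourier_le)

theorem eLpNorm_two_sq {F : E3 → ℂ} : eLpNorm F 2 volume ^ 2 = ∫⁻ x, ‖F x‖ₑ ^ 2 := by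
  rw [eLpNorm_eq_lintegral_rpow_enorm_toReal (by norm_num) (by norm_num)]
  rw [← ENNReal.rpow_natCast, ← ENNReal.rpow_mul]
  norm_num

/-- Plancherel, lower bound, for bounded integrable functions -/
theorem lintegral_sq_le_fourier {f : E3 → ℂ} (hf : Adm volume f) :
    ∫⁻ x, ‖f x‖ₑ ^ 2 ≤ ∫⁻ ξ, ‖𝓕 f ξ‖ₑ ^ 2 := by
  have key : eLpNorm f 2 volume ≤ eLpNorm (𝓕 f) 2 volume := by
    refine ENNReal.le_of_forall_pos_le_add ?_
    intro ε hε _
    have hε2 : (0:ℝ) < (ε:ℝ) / 2 := by positivity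
    obtain ⟨g0, hg1, hg2, hg3⟩ := (hf.memLp (p := 2) (by norm_num)).exist_eLpNorm_sub_le (by norm_num) (by norm_num) hε2
    set g : 𝓢(E3, ℂ) := hg1.toSchwartzMap hg2 with hg
    have hgg : (g : E3 → ℂ) = g0 := rfl
    have hgi : Integrable g0 := by rw [← hgg]; exact g.integrable
    have h1 : eLpNorm (𝓕 g0) 2 volume = eLpNorm g0 2 volume := by
      have h := SchwartzMap.norm_fourier_toL2_eq g
      rw [SchwartzMap.norm_toLp, SchwartzMap.norm_toLp] at h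
      rw [ENNReal.toReal_eq_toReal_iff' ((𝓕 g).memLp 2 volume).2.ne (g.memLp 2 volume).2.ne] at h
      rw [← hgg, ← h, SchwartzMap.fourier_coe]
    have h2 : eLpNorm (𝓕 f - 𝓕 g0) 2 volume ≤ ENNReal.ofReal (ε / 2) := by
      have e : 𝓕 f - 𝓕 g0 = 𝓕 (f - g0) := by
        ext ξ
        rw [Pi.sub_apply, Real.fourier_eq, Real.fourier_eq, Real.fourier_eq, ← integral_sub]
        · congr 1; ext x; rw [Pi.sub_apply, smul_sub]
        · exact (Real.fourierIntegral_convergent_iff ξ).2 hf.int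
        · exact (Real.fourierIntegral_convergent_iff ξ).2 hgi
      rw [e]
      have h3 := lintegral_sq_fourier_le (hf.int.sub hgi) (hf.meas.sub (hg2.continuous.measurable))
      rw [← eLpNorm_two_sq, ← eLpNorm_two_sq] at h3
      exact ((ENNReal.pow_le_pow_left_iff (by norm_num)).1 h3).trans hg3
    calc eLpNorm f 2 volume = eLpNorm ((f - g0) + g0) 2 volume := by rw [sub_add_cancel]
      _ ≤ eLpNorm (f - g0) 2 volume + eLpNorm g0 2 volume :=
          eLpNorm_add_le (hf.meas.sub hg2.continuous.measurable).aestronglyMeasurable hg2.continuous.aestronglyMeasurable (by norm_num)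
      _ ≤ ENNReal.ofReal (ε / 2) + (eLpNorm (𝓕 g0 - 𝓕 f) 2 volume + eLpNorm (𝓕 f) 2 volume) := by
          gcongr
          rw [← h1]
          calc eLpNorm (𝓕 g0) 2 volume = eLpNorm ((𝓕 g0 - 𝓕 f) + 𝓕 f) 2 volume := by rw [sub_add_cancel]
            _ ≤ _ := eLpNorm_add_le ((Vale.Agent.P117.continuous_fourier hgi).sub (Vale.Agent.P117.continuous_fourier hf.int)).aestronglyMeasurable
                (Vale.Agent.P117.continuous_fourier hf.int).aestronglyMeasurable (by norm_num)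
      _ ≤ ENNReal.ofReal (ε / 2) + (ENNReal.ofReal (ε / 2) + eLpNorm (𝓕 f) 2 volume) := by
          gcongr
          rw [eLpNorm_sub_comm]
          exact h2
      _ = eLpNorm (𝓕 f) 2 volume + ε := by
          rw [← add_assoc, ← ENNReal.ofReal_add hε2.le hε2.le, add_halves, ENNReal.ofReal_coe_nnreal, add_comm]
  rw [← eLpNorm_two_sq, ← eLpNorm_two_sq]
  gcongr

theorem fourier_sub_adm {f g : E3 → ℂ} (hf : Integrable f) (hg : Integrable g) (ξ : E3) :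
    𝓕 (fun x => f x - g x) ξ = 𝓕 f ξ - 𝓕 g ξ := by
  rw [Real.fourier_eq, Real.fourier_eq, Real.fourier_eq, ← integral_sub]
  · congr 1; ext x; rw [smul_sub]
  · exact (Real.fourierIntegral_convergent_iff ξ).2 hf
  · exact (Real.fourierIntegral_convergent_iff ξ).2 hg

theorem fourier_trans {h : E3 → ℂ} (y0 ξ : E3) :
    𝓕 (fun x => h (x - y0)) ξ = cexp (-(2 * Real.pi * I * ((inner ℝ ξ y0 : ℝ) : ℂ))) * 𝓕 h ξ := by
  rw [Real.fourier_eq', Real.fourier_eq']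
  have h1 := integral_sub_right_eq_self (μ := (volume : Measure E3))
    (fun x => cexp (((-2 * Real.pi * inner ℝ (x + y0) ξ : ℝ) : ℂ) * I) • h x) y0
  simp only [sub_add_cancel] at h1
  rw [h1, ← integral_const_mul]
  congr 1
  ext x
  rw [smul_eq_mul, smul_eq_mul, ← mul_assoc, ← Complex.exp_add]
  congr 2
  rw [inner_add_left, real_inner_comm y0 ξ]
  push_cast
  ring

theorem adm_trans {f : E3 → ℂ} (hf : Adm volume f) (y0 : E3) : Adm volume (fun x => f (x - y0)) := by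
  refine ⟨hf.meas.comp (measurable_sub_const y0), hf.int.comp_sub_right y0, ?_⟩
  obtain ⟨C, hC⟩ := hf.bdd
  exact ⟨C, fun x => hC _⟩

theorem adm_sum {ι : Type*} (s : Finset ι) {f : ι → E3 → ℂ} (hf : ∀ i ∈ s, Adm volume (f i)) :
    Adm volume (fun x => ∑ i ∈ s, f i x) := by
  have h := Adm.finsum s hf
  convert h using 1
  ext x
  rw [Finset.sum_apply]

theorem fourier_sum_trans (s : Finset (ℤ × ℤ)) {f : ℤ × ℤ → E3 → ℂ} (hf : ∀ k ∈ s, Adm volume (f k)) (c : ℤ × ℤ → E3)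
    (t : ℝ) (ξ : E3) : 𝓕 (fun y => ∑ k ∈ s, f k (y - t • c k)) ξ =
      ∑ k ∈ s, 𝓕 (f k) ξ * cexp (-(2 * Real.pi * I * ((t * inner ℝ ξ (c k) : ℝ) : ℂ))) := by
  rw [Real.fourier_eq]
  have h1 : ∀ y : E3, (Real.fourierChar (-inner ℝ y ξ)) • ∑ k ∈ s, f k (y - t • c k) =
      ∑ k ∈ s, (Real.fourierChar (-inner ℝ y ξ)) • f k (y - t • c k) := by
    intro y; rw [Finset.smul_sum]
  simp_rw [h1]
  rw [integral_finset_sum]
  · apply Finset.sum_congr rfl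
    intro k hk
    have h2 := fourier_trans (h := f k) (t • c k) ξ
    rw [Real.fourier_eq] at h2
    rw [h2, inner_smul_right, mul_comm]
  · intro k hk
    exact (Real.fourierIntegral_convergent_iff ξ).2 (adm_trans (hf k hk) (t • c k)).int

/-- the large sieve for the symbol of a difference -/
theorem one_xi {C : ℝ} (hC : 0 ≤ C) {N : ℕ} (hN : 1 ≤ N) {T K : ℝ} (hT : 0 < T) (hK : 1 ≤ K) (c : ℤ × ℤ → E3)
    (h34 : ∀ (ξ : E3) (a : ℤ × ℤ → ℂ), ENNReal.ofReal (T * ‖ξ‖) * ∫⁻ t in Icc (-T) T, ‖∑ k ∈ grd N, a k *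
      cexp (-(2 * Real.pi * I * ((t * inner ℝ ξ (c k) : ℝ) : ℂ)))‖ₑ ^ 2 ≤
      ENNReal.ofReal (C * T * ((N:ℝ) ^ 2 + N * (T * ‖ξ‖))) * ∑ k ∈ grd N, ‖a k‖ₑ ^ 2)
    {x : E3} (hx : ‖x‖ ≤ K * T / N) (ξ : E3) (b : ℤ × ℤ → ℂ) :
    ∫⁻ t in Icc (-T) T, ‖∑ k ∈ grd N, ((1 - cexp (-(2 * Real.pi * I * ((inner ℝ ξ x : ℝ) : ℂ)))) * b k) *
      cexp (-(2 * Real.pi * I * ((t * inner ℝ ξ (c k) : ℝ) : ℂ)))‖ₑ ^ 2 ≤
      ENNReal.ofReal (80 * C * K * N * T) * ∑ k ∈ grd N, ‖b k‖ₑ ^ 2 := by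
  have hNr : (1:ℝ) ≤ N := by exact_mod_cast hN
  have hN0 : (0:ℝ) < N := by linarith
  set z : ℂ := 1 - cexp (-(2 * Real.pi * I * ((inner ℝ ξ x : ℝ) : ℂ))) with hz
  rcases eq_or_ne ξ 0 with h0 | h0
  · have hz0 : z = 0 := by
      rw [hz, h0, inner_zero_left]
      simp
    simp [hz0]
  have hξ : 0 < ‖ξ‖ := norm_pos_iff.2 h0
  set X := T * ‖ξ‖ with hX
  have hX0 : 0 < X := by positivity
  have hz2 : ‖z‖ ≤ 2 := by
    rw [hz]
    refine (norm_sub_le _ _).trans ?_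
    rw [norm_one, show -(2 * Real.pi * I * ((inner ℝ ξ x : ℝ) : ℂ)) = ((-(2 * Real.pi * inner ℝ ξ x) : ℝ) : ℂ) * I by push_cast; ring,
      Complex.norm_exp_ofReal_mul_I]
    norm_num
  have hzx : ‖z‖ ≤ 2 * Real.pi * (K * X / N) := by
    rw [hz, norm_sub_rev, show -(2 * Real.pi * I * ((inner ℝ ξ x : ℝ) : ℂ)) = I * ((-(2 * Real.pi * inner ℝ ξ x) : ℝ) : ℂ) by push_cast; ring]
    refine (Real.norm_exp_I_mul_ofReal_sub_one_le).trans ?_
    rw [Real.norm_eq_abs, abs_neg, abs_mul, abs_of_pos (by positivity : 0 < 2 * Real.pi)]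
    have h1 : |inner ℝ ξ x| ≤ ‖ξ‖ * ‖x‖ := abs_real_inner_le_norm ξ x
    have h2 : ‖ξ‖ * ‖x‖ ≤ K * X / N := by
      calc ‖ξ‖ * ‖x‖ ≤ ‖ξ‖ * (K * T / N) := by gcongr
        _ = K * X / N := by rw [hX]; ring
    have := Real.pi_pos
    gcongr
    exact h1.trans h2
  have hsq : ‖z‖ ^ 2 ≤ 40 * min 1 (K * X / N) := by
    set u := K * X / N with hu
    have hu0 : 0 < u := by rw [hu]; positivity
    rcases le_total 1 u with h | h
    · rw [min_eq_left h]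
      nlinarith [norm_nonneg z]
    · rw [min_eq_right h]
      have hpi : Real.pi ^ 2 ≤ 10 := by nlinarith [Real.pi_lt_d2, Real.pi_pos]
      calc ‖z‖ ^ 2 ≤ (2 * Real.pi * u) ^ 2 := by gcongr
        _ = 4 * Real.pi ^ 2 * (u * u) := by ring
        _ ≤ 4 * 10 * (1 * u) := by gcongr
        _ = 40 * u := by ring
  have hreal : X⁻¹ * (C * T * ((N:ℝ) ^ 2 + N * X)) * ‖z‖ ^ 2 ≤ 80 * C * K * N * T := by
    have hm1 : min 1 (K * X / N) ≤ 1 := min_le_left _ _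
    have hm2 : min 1 (K * X / N) ≤ K * X / N := min_le_right _ _
    have hm0 : 0 ≤ min 1 (K * X / N) := le_min (by norm_num) (by positivity)
    calc X⁻¹ * (C * T * ((N:ℝ) ^ 2 + N * X)) * ‖z‖ ^ 2 ≤ X⁻¹ * (C * T * ((N:ℝ) ^ 2 + N * X)) * (40 * min 1 (K * X / N)) := by gcongr
      _ = 40 * C * T * (X⁻¹ * ((N:ℝ) ^ 2 * min 1 (K * X / N) + N * X * min 1 (K * X / N))) := by ring
      _ ≤ 40 * C * T * (X⁻¹ * ((N:ℝ) ^ 2 * (K * X / N) + N * X * 1)) := by gcongr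
      _ = 40 * C * T * (N * (K + 1)) := by field_simp
      _ ≤ 40 * C * T * (N * (K + K)) := by gcongr
      _ = 80 * C * K * N * T := by ring
  set J := ∫⁻ t in Icc (-T) T, ‖∑ k ∈ grd N, (z * b k) * cexp (-(2 * Real.pi * I * ((t * inner ℝ ξ (c k) : ℝ) : ℂ)))‖ₑ ^ 2 with hJ
  have h1 := h34 ξ (fun k => z * b k)
  have h2 : ∑ k ∈ grd N, ‖z * b k‖ₑ ^ 2 = ENNReal.ofReal (‖z‖ ^ 2) * ∑ k ∈ grd N, ‖b k‖ₑ ^ 2 := by
    rw [Finset.mul_sum]
    apply Finset.sum_congr rfl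
    intro k _
    rw [enorm_mul, mul_pow, ENNReal.ofReal_pow (norm_nonneg _), ofReal_norm]
  rw [h2, ← mul_assoc, ← ENNReal.ofReal_mul (by positivity)] at h1
  calc J = ENNReal.ofReal X⁻¹ * (ENNReal.ofReal X * J) := by
        rw [← mul_assoc, ← ENNReal.ofReal_mul (by positivity), inv_mul_cancel₀ hX0.ne', ENNReal.ofReal_one, one_mul]
    _ ≤ ENNReal.ofReal X⁻¹ * (ENNReal.ofReal (C * T * ((N:ℝ) ^ 2 + N * X) * ‖z‖ ^ 2) * ∑ k ∈ grd N, ‖b k‖ₑ ^ 2) := by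
        gcongr
    _ = ENNReal.ofReal (X⁻¹ * (C * T * ((N:ℝ) ^ 2 + N * X)) * ‖z‖ ^ 2) * ∑ k ∈ grd N, ‖b k‖ₑ ^ 2 := by
        rw [← mul_assoc, ← ENNReal.ofReal_mul (by positivity)]
        congr 2
        ring
    _ ≤ _ := by gcongr

/-- difference estimate -/
theorem diff_est {C : ℝ} (hC : 0 ≤ C) {N : ℕ} (hN : 1 ≤ N) {T K : ℝ} (hT : 0 < T) (hK : 1 ≤ K) (c : ℤ × ℤ → E3)
    (h34 : ∀ (ξ : E3) (a : ℤ × ℤ → ℂ), ENNReal.ofReal (T * ‖ξ‖) * ∫⁻ t in Icc (-T) T, ‖∑ k ∈ grd N, a k *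
      cexp (-(2 * Real.pi * I * ((t * inner ℝ ξ (c k) : ℝ) : ℂ)))‖ₑ ^ 2 ≤
      ENNReal.ofReal (C * T * ((N:ℝ) ^ 2 + N * (T * ‖ξ‖))) * ∑ k ∈ grd N, ‖a k‖ₑ ^ 2)
    {x : E3} (hx : ‖x‖ ≤ K * T / N) {f : ℤ × ℤ → E3 → ℂ} (hf : ∀ k ∈ grd N, Adm volume (f k)) :
    ∫⁻ t in Icc (-T) T, ∫⁻ y, ‖∑ k ∈ grd N, (f k (y - t • c k) - f k (y - x - t • c k))‖ₑ ^ 2 ≤
      ENNReal.ofReal (80 * C * K * N * T) * ∑ k ∈ grd N, ∫⁻ y, ‖f k y‖ₑ ^ 2 := by
  set z : E3 → ℂ := fun ξ => 1 - cexp (-(2 * Real.pi * I * ((inner ℝ ξ x : ℝ) : ℂ))) with hz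
  have hg : ∀ k ∈ grd N, Adm volume (fun y => f k y - f k (y - x)) := by
    intro k hk
    exact (hf k hk).sub (adm_trans (hf k hk) x)
  have hgz : ∀ k ∈ grd N, ∀ ξ, 𝓕 (fun y => f k y - f k (y - x)) ξ = z ξ * 𝓕 (f k) ξ := by
    intro k hk ξ
    rw [fourier_sub_adm (hf k hk).int (adm_trans (hf k hk) x).int, fourier_trans]
    simp only [hz]
    ring
  have h1 : ∀ t : ℝ, ∫⁻ y, ‖∑ k ∈ grd N, (f k (y - t • c k) - f k (y - x - t • c k))‖ₑ ^ 2 ≤
      ∫⁻ ξ, ‖∑ k ∈ grd N, (z ξ * 𝓕 (f k) ξ) * cexp (-(2 * Real.pi * I * ((t * inner ℝ ξ (c k) : ℝ) : ℂ)))‖ₑ ^ 2 := by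
    intro t
    have ha : Adm volume (fun y => ∑ k ∈ grd N, (f k (y - t • c k) - f k (y - x - t • c k))) := by
      have := adm_sum (grd N) (f := fun k y => f k (y - t • c k) - f k (y - x - t • c k)) ?_
      · exact this
      · intro k hk
        have h := adm_trans (hg k hk) (t • c k)
        convert h using 1
        ext y
        rw [sub_right_comm y x (t • c k)]
    refine (lintegral_sq_le_fourier ha).trans (le_of_eq ?_)
    congr 1
    ext ξ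
    congr 2
    have h := fourier_sum_trans (grd N) hg c t ξ
    have e : (fun y => ∑ k ∈ grd N, (f k (y - t • c k) - f k (y - x - t • c k))) =
        fun y => ∑ k ∈ grd N, (fun y => f k y - f k (y - x)) (y - t • c k) := by
      ext y
      apply Finset.sum_congr rfl
      intro k _
      simp only
      rw [sub_right_comm y x (t • c k)]
    rw [e, h]
    apply Finset.sum_congr rfl
    intro k hk
    rw [hgz k hk ξ]
  calc ∫⁻ t in Icc (-T) T, ∫⁻ y, ‖∑ k ∈ grd N, (f k (y - t • c k) - f k (y - x - t • c k))‖ₑ ^ 2 ≤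
      ∫⁻ t in Icc (-T) T, ∫⁻ ξ, ‖∑ k ∈ grd N, (z ξ * 𝓕 (f k) ξ) *
        cexp (-(2 * Real.pi * I * ((t * inner ℝ ξ (c k) : ℝ) : ℂ)))‖ₑ ^ 2 := lintegral_mono fun t => h1 t
    _ = ∫⁻ ξ, ∫⁻ t in Icc (-T) T, ‖∑ k ∈ grd N, (z ξ * 𝓕 (f k) ξ) *
        cexp (-(2 * Real.pi * I * ((t * inner ℝ ξ (c k) : ℝ) : ℂ)))‖ₑ ^ 2 := by
        apply lintegral_lintegral_swap
        apply Measurable.aemeasurable
        have hcz : Continuous z := by
          simp only [hz]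
          fun_prop
        have hcf : ∀ k ∈ grd N, Continuous (fun p : ℝ × E3 => (z p.2 * 𝓕 (f k) p.2) *
            cexp (-(2 * Real.pi * I * ((p.1 * inner ℝ p.2 (c k) : ℝ) : ℂ)))) := by
          intro k hk
          have h2 : Continuous (𝓕 (f k)) := Vale.Agent.P117.continuous_fourier (hf k hk).int
          have h3 : Continuous fun p : ℝ × E3 => 𝓕 (f k) p.2 := h2.comp continuous_snd
          have h4 : Continuous fun p : ℝ × E3 => z p.2 := hcz.comp continuous_snd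
          have h5 : Continuous fun p : ℝ × E3 => cexp (-(2 * Real.pi * I * ((p.1 * inner ℝ p.2 (c k) : ℝ) : ℂ))) := by
            fun_prop
          exact (h4.mul h3).mul h5
        have h6 : Continuous (fun p : ℝ × E3 => ∑ k ∈ grd N, (z p.2 * 𝓕 (f k) p.2) *
            cexp (-(2 * Real.pi * I * ((p.1 * inner ℝ p.2 (c k) : ℝ) : ℂ)))) := continuous_finset_sum _ hcf
        exact (h6.measurable.enorm.pow_const 2)
    _ ≤ ∫⁻ ξ, ENNReal.ofReal (80 * C * K * N * T) * ∑ k ∈ grd N, ‖𝓕 (f k) ξ‖ₑ ^ 2 :=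
        lintegral_mono fun ξ => one_xi hC hN hT hK c h34 hx ξ (fun k => 𝓕 (f k) ξ)
    _ = ENNReal.ofReal (80 * C * K * N * T) * ∑ k ∈ grd N, ∫⁻ ξ, ‖𝓕 (f k) ξ‖ₑ ^ 2 := by
        rw [lintegral_const_mul', lintegral_finset_sum']
        · intro k hk
          exact ((Vale.Agent.P117.continuous_fourier (hf k hk).int).measurable.enorm.pow_const 2).aemeasurable
        · exact ENNReal.ofReal_ne_top
    _ ≤ ENNReal.ofReal (80 * C * K * N * T) * ∑ k ∈ grd N, ∫⁻ y, ‖f k y‖ₑ ^ 2 := by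
        refine mul_le_mul' le_rfl (Finset.sum_le_sum fun k hk => ?_)
        exact lintegral_sq_fourier_le (hf k hk).int (hf k hk).meas

end Vale.Agent.P106.G
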