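import Vale.Agent.P106.G.NikA
import Vale.Agent.P106.G.BrA

/-! # Averages over balls and merging of caps -/

open MeasureTheory Complex Set Filter
open scoped ENNReal NNReal ContDiff FourierTransform Topology

set_option linter.all false

namespace Vale.Agent.P106.G

open Vale.Agent.P117 (Adm)

theorem bp_zt (H : Hyp) (v1 v2 t : ℝ) (y : E3) : H.bp v1 v2 (H.zt t y) = y - t • H.vel v1 v2 := by
  unfold Hyp.bp Hyp.vel
  rw [tm_zt]
  apply ext3
  · simp [Hyp.zt]; ring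
  · simp [Hyp.zt]; ring
  · simp [Hyp.zt]; ring

theorem vel_lip {H : Hyp} (hH : H.ok2) {v1 v2 w1 w2 : ℝ} (a1 : 0 ≤ v1) (a1' : v1 ≤ 1) (a2 : 0 ≤ v2) (a2' : v2 ≤ 1)
    (b1 : 0 ≤ w1) (b1' : w1 ≤ 1) (b2 : 0 ≤ w2) (b2' : w2 ≤ 1) :
    ‖H.vel v1 v2 - H.vel w1 w2‖ ≤ 20 * (|v1 - w1| + |v2 - w2|) := by
  obtain ⟨s0, s1, q1, q2, D0, D1⟩ := hH.ok.bd
  have hm := (hH.m_bd a1 a1' a2 a2').1
  have hm' := (hH.m_bd b1 b1' b2 b2').1
  set δ := |v1 - w1| + |v2 - w2| with hδ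
  have e1 : |v1 - w1| ≤ δ := by rw [hδ]; linarith [abs_nonneg (v2 - w2)]
  have e2 : |v2 - w2| ≤ δ := by rw [hδ]; linarith [abs_nonneg (v1 - w1)]
  have hδ0 : 0 ≤ δ := by positivity
  have hsq : |(v1 ^ 2 + v2 ^ 2) - (w1 ^ 2 + w2 ^ 2)| ≤ 2 * δ := by
    have h : (v1 ^ 2 + v2 ^ 2) - (w1 ^ 2 + w2 ^ 2) = (v1 - w1) * (v1 + w1) + (v2 - w2) * (v2 + w2) := by ring
    rw [h]
    refine (abs_add_le _ _).trans ?_
    rw [abs_mul, abs_mul, abs_of_nonneg (by linarith : 0 ≤ v1 + w1), abs_of_nonneg (by linarith : 0 ≤ v2 + w2), hδ]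
    nlinarith [abs_nonneg (v1 - w1), abs_nonneg (v2 - w2)]
  have hmm : |H.m v1 v2 - H.m w1 w2| ≤ δ := by
    have h : H.m v1 v2 - H.m w1 w2 = H.s * ((v1 ^ 2 + v2 ^ 2) - (w1 ^ 2 + w2 ^ 2)) +
        (-2 * H.q1 * (v1 - w1) + -2 * H.q2 * (v2 - w2)) := by unfold Hyp.m; ring
    rw [h]
    have h1 : |H.s * ((v1 ^ 2 + v2 ^ 2) - (w1 ^ 2 + w2 ^ 2))| ≤ 1/64 * (2 * δ) := by
      rw [abs_mul, abs_of_pos s0]; gcongr
    have h2 : |-2 * H.q1 * (v1 - w1)| ≤ 2 * (1/16) * δ := by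
      rw [abs_mul, abs_mul, abs_neg, abs_two]; gcongr
    have h3 : |-2 * H.q2 * (v2 - w2)| ≤ 2 * (1/16) * δ := by
      rw [abs_mul, abs_mul, abs_neg, abs_two]; gcongr
    refine (abs_add_le _ _).trans ((add_le_add le_rfl (abs_add_le _ _)).trans ?_)
    linarith
  have gen : ∀ p p' : ℝ, |p - p'| ≤ 2 * δ → |p'| ≤ 2 → |p / H.m v1 v2 - p' / H.m w1 w2| ≤ 4 * δ := by
    intro p p' hp hp'
    have h0 : 0 < H.m v1 v2 := by linarith
    have h0' : 0 < H.m w1 w2 := by linarith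
    have h : p / H.m v1 v2 - p' / H.m w1 w2 = (p - p') / H.m v1 v2 +
        p' * (H.m w1 w2 - H.m v1 v2) / (H.m v1 v2 * H.m w1 w2) := by field_simp; ring
    rw [h]
    have h1 : |(p - p') / H.m v1 v2| ≤ 2 * δ := by
      rw [abs_div, abs_of_pos h0]
      exact (div_le_self (abs_nonneg _) hm).trans hp
    have h2 : |p' * (H.m w1 w2 - H.m v1 v2) / (H.m v1 v2 * H.m w1 w2)| ≤ 2 * δ := by
      rw [abs_div, abs_of_pos (mul_pos h0 h0')]
      refine (div_le_self (abs_nonneg _) (by nlinarith)).trans ?_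
      rw [abs_mul, abs_sub_comm]
      gcongr
    exact (abs_add_le _ _).trans (by linarith)
  refine (norm3_le1 _).trans ?_
  have c0 : |(H.vel v1 v2 - H.vel w1 w2) 0| ≤ 4 * δ := by
    have : (H.vel v1 v2 - H.vel w1 w2) 0 = (v1 ^ 2 + v2 ^ 2) / H.m v1 v2 - (w1 ^ 2 + w2 ^ 2) / H.m w1 w2 := by
      simp [Hyp.vel]
    rw [this]
    exact gen _ _ hsq (by rw [abs_of_nonneg (by positivity)]; nlinarith)
  have c1 : |(H.vel v1 v2 - H.vel w1 w2) 1| ≤ 4 * δ := by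
    have : (H.vel v1 v2 - H.vel w1 w2) 1 = -2 * v1 / H.m v1 v2 - -2 * w1 / H.m w1 w2 := by
      simp [Hyp.vel]
    rw [this]
    apply gen
    · rw [show -2 * v1 - -2 * w1 = -2 * (v1 - w1) by ring, abs_mul, abs_neg, abs_two]; gcongr
    · rw [abs_mul, abs_neg, abs_two, abs_of_nonneg b1]; linarith
  have c2 : |(H.vel v1 v2 - H.vel w1 w2) 2| ≤ 4 * δ := by
    have : (H.vel v1 v2 - H.vel w1 w2) 2 = -2 * v2 / H.m v1 v2 - -2 * w2 / H.m w1 w2 := by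
      simp [Hyp.vel]
    rw [this]
    apply gen
    · rw [show -2 * v2 - -2 * w2 = -2 * (v2 - w2) by ring, abs_mul, abs_neg, abs_two]; gcongr
    · rw [abs_mul, abs_neg, abs_two, abs_of_nonneg b2]; linarith
  linarith

/-- normalized measure on a ball -/
noncomputable def mb (r : ℝ) : Measure E3 := (volume (Metric.ball (0:E3) r))⁻¹ • volume.restrict (Metric.ball 0 r)

theorem vol_ball_ne {r : ℝ} (hr : 0 < r) : volume (Metric.ball (0:E3) r) ≠ 0 ∧ volume (Metric.ball (0:E3) r) ≠ ⊤ :=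
  ⟨(Metric.measure_ball_pos _ _ hr).ne', measure_ball_lt_top.ne⟩

theorem lint_mb (r : ℝ) (g : E3 → ℝ≥0∞) :
    ∫⁻ x, g x ∂(mb r) = (volume (Metric.ball (0:E3) r))⁻¹ * ∫⁻ x in Metric.ball (0:E3) r, g x := by
  unfold mb
  rw [lintegral_smul_measure, smul_eq_mul]

theorem mb_prob {r : ℝ} (hr : 0 < r) : IsProbabilityMeasure (mb r) := by
  constructor
  unfold mb
  rw [Measure.smul_apply, Measure.restrict_apply_univ, smul_eq_mul]
  exact ENNReal.inv_mul_cancel (vol_ball_ne hr).1 (vol_ball_ne hr).2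

theorem lint_mb_le {r : ℝ} (hr : 0 < r) {g : E3 → ℝ≥0∞} {C : ℝ≥0∞} (h : ∀ x, ‖x‖ ≤ r → g x ≤ C) : ∫⁻ x, g x ∂(mb r) ≤ C := by
  rw [lint_mb]
  calc (volume (Metric.ball (0:E3) r))⁻¹ * ∫⁻ x in Metric.ball (0:E3) r, g x ≤
      (volume (Metric.ball (0:E3) r))⁻¹ * ∫⁻ x in Metric.ball (0:E3) r, C := by
        refine mul_le_mul' le_rfl (setLIntegral_mono' Metric.isOpen_ball.measurableSet fun x hx => h x ?_)
        rw [mem_ball_zero_iff] at hx
        exact hx.le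
    _ = C := by
        rw [setLIntegral_const, mul_left_comm, ENNReal.inv_mul_cancel (vol_ball_ne hr).1 (vol_ball_ne hr).2, mul_one]

/-- merging -/
theorem mb_shift {r A : ℝ} (hr : 0 < r) (hA : 1 ≤ A) {a : E3} (ha : ‖a‖ ≤ (A - 1) * r) {g : E3 → ℝ≥0∞} (hg : Measurable g) :
    ∫⁻ x, g (x - a) ∂(mb r) ≤ ENNReal.ofReal (A ^ 3) * ∫⁻ x, g x ∂(mb (A * r)) := by
  have hA0 : 0 < A := by linarith
  rw [lint_mb, lint_mb]
  have h1 : ∫⁻ x in Metric.ball (0:E3) r, g (x - a) ≤ ∫⁻ x in Metric.ball (0:E3) (A * r), g x := by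
    rw [← lintegral_indicator Metric.isOpen_ball.measurableSet, ← lintegral_indicator Metric.isOpen_ball.measurableSet]
    rw [← lintegral_sub_right_eq_self (μ := (volume : Measure E3)) ((Metric.ball (0:E3) (A * r)).indicator g) a]
    refine lintegral_mono fun x => ?_
    by_cases hx : x ∈ Metric.ball (0:E3) r
    · have hx2 : x - a ∈ Metric.ball (0:E3) (A * r) := by
        rw [mem_ball_zero_iff] at hx ⊢
        calc ‖x - a‖ ≤ ‖x‖ + ‖a‖ := norm_sub_le _ _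
          _ < r + (A - 1) * r := by linarith
          _ = A * r := by ring
      rw [indicator_of_mem hx, indicator_of_mem hx2]
    · rw [indicator_of_notMem hx]; exact bot_le
  have h2 : (volume (Metric.ball (0:E3) r))⁻¹ = ENNReal.ofReal (A ^ 3) * (volume (Metric.ball (0:E3) (A * r)))⁻¹ := by
    rw [Measure.addHaar_ball_mul volume (0:E3) hA0.le r, finrank_euclideanSpace_fin,
      ENNReal.mul_inv (Or.inl (by positivity)) (Or.inl ENNReal.ofReal_ne_top), ← mul_assoc,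
      ENNReal.mul_inv_cancel (by positivity) ENNReal.ofReal_ne_top, one_mul]
  rw [h2, mul_assoc]
  gcongr

/-- Jensen -/
theorem mb_sq {r : ℝ} (hr : 0 < r) {g : E3 → ℝ≥0∞} (hg : Measurable g) :
    (∫⁻ x, g x ∂(mb r)) ^ 2 ≤ ∫⁻ x, g x ^ 2 ∂(mb r) := by
  haveI := mb_prob hr
  have h := ENNReal.lintegral_mul_le_Lp_mul_Lq (mb r) (p := 2) (q := 2) (by constructor <;> norm_num)
    (f := fun _ => 1) (g := g) measurable_const.aemeasurable hg.aemeasurable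
  simp only [Pi.mul_apply, one_mul, ENNReal.one_rpow, lintegral_const, measure_univ] at h
  calc (∫⁻ x, g x ∂(mb r)) ^ 2 ≤ ((∫⁻ x, g x ^ (2:ℝ) ∂(mb r)) ^ (1/2 : ℝ)) ^ 2 := by gcongr
    _ = ∫⁻ x, g x ^ 2 ∂(mb r) := by
        rw [← ENNReal.rpow_natCast, ← ENNReal.rpow_mul]
        norm_num

end Vale.Agent.P106.G
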