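import Mathlib

/-! # [NIK] (N3), (N4): one dimensional tools -/

open MeasureTheory Complex Set
open scoped ENNReal NNReal

set_option linter.all false

namespace Vale.Agent.P106.G

/-! ### Gaussian integrals -/

theorem lint_gauss {X : ℝ} (hX : 0 < X) (c : ℝ) :
    ∫⁻ s : ℝ, ENNReal.ofReal (Real.exp (-(Real.pi * (X * (s - c) / 2) ^ 2))) = ENNReal.ofReal (2 / X) := by
  rw [lintegral_sub_right_eq_self (fun s : ℝ => ENNReal.ofReal (Real.exp (-(Real.pi * (X * s / 2) ^ 2)))) c]
  have hb : 0 < Real.pi * X ^ 2 / 4 := by positivity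
  have h1 : (fun s : ℝ => Real.exp (-(Real.pi * (X * s / 2) ^ 2))) =
      fun s : ℝ => Real.exp (-(Real.pi * X ^ 2 / 4) * s ^ 2) := by
    funext s
    congr 1
    ring
  have h2 := integral_gaussian (Real.pi * X ^ 2 / 4)
  rw [← h1] at h2
  have hint : Integrable (fun s : ℝ => Real.exp (-(Real.pi * (X * s / 2) ^ 2))) := by
    rw [h1]
    exact integrable_exp_neg_mul_sq hb
  rw [← ofReal_integral_eq_lintegral_ofReal hint (Filter.Eventually.of_forall fun s => (Real.exp_pos _).le), h2]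
  congr 1
  have h3 : Real.pi / (Real.pi * X ^ 2 / 4) = (2 / X) ^ 2 := by
    have := Real.pi_pos
    field_simp
    ring
  rw [h3, Real.sqrt_sq (by positivity)]

/-- truncated Gaussian -/
noncomputable def gXd (X d : ℝ) (s : ℝ) : ℝ := Real.exp (-(Real.pi * (X * max (|s| - d) 0 / 2) ^ 2))

theorem measurable_gXd (X d : ℝ) : Measurable (gXd X d) := by
  unfold gXd
  fun_prop

theorem lint_gXd {X d : ℝ} (hX : 0 < X) (hd : 0 ≤ d) :
    ∫⁻ s : ℝ, ENNReal.ofReal (gXd X d s) ≤ ENNReal.ofReal (2 * d + 4 / X) := by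
  have h1 : ∀ s : ℝ, ENNReal.ofReal (gXd X d s) ≤ (Icc (-d) d).indicator 1 s +
      (ENNReal.ofReal (Real.exp (-(Real.pi * (X * (s - d) / 2) ^ 2))) +
        ENNReal.ofReal (Real.exp (-(Real.pi * (X * (s - (-d)) / 2) ^ 2)))) := by
    intro s
    by_cases hs : s ∈ Icc (-d) d
    · rw [indicator_of_mem hs]
      refine le_trans ?_ le_self_add
      simp only [Pi.one_apply]
      rw [← ENNReal.ofReal_one]
      apply ENNReal.ofReal_le_ofReal
      unfold gXd
      apply Real.exp_le_one_iff.2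
      have := Real.pi_pos
      have : 0 ≤ Real.pi * (X * max (|s| - d) 0 / 2) ^ 2 := by positivity
      linarith
    · rw [indicator_of_notMem hs, zero_add]
      rw [mem_Icc, not_and_or, not_le, not_le] at hs
      rcases hs with hs | hs
      · refine le_trans (le_of_eq ?_) le_add_self
        congr 1
        unfold gXd
        have e1 : |s| = -s := abs_of_neg (by linarith)
        rw [e1, max_eq_left (by linarith)]
        congr 1
        ring
      · refine le_trans (le_of_eq ?_) le_self_add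
        congr 1
        unfold gXd
        have e1 : |s| = s := abs_of_pos (by linarith)
        rw [e1, max_eq_left (by linarith)]
  refine (lintegral_mono h1).trans ?_
  rw [lintegral_add_left ((measurable_one).indicator measurableSet_Icc),
    lintegral_add_left (by fun_prop), lint_gauss hX, lint_gauss hX, lintegral_indicator_one measurableSet_Icc,
    Real.volume_Icc, ← ENNReal.ofReal_add (by positivity) (by positivity),
    ← ENNReal.ofReal_add (by linarith) (by positivity)]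
  apply ENNReal.ofReal_le_ofReal
  have : 2 / X + 2 / X = 4 / X := by ring
  linarith

/-! ### Polar coordinates -/

theorem lint_radial {g : ℝ → ℝ≥0∞} (hg : Measurable g) {a : ℝ} (ha : 0 < a) (ρ : ℝ) :
    ∫⁻ r in Ioi (0:ℝ), ENNReal.ofReal r * g (a * r ^ 2 - ρ) ≤ ENNReal.ofReal (1 / (2 * a)) * ∫⁻ s, g s := by
  have h := lintegral_image_eq_lintegral_abs_deriv_mul (s := Ioi (0:ℝ)) measurableSet_Ioi
    (f := fun r => a * r ^ 2 - ρ) (f' := fun r => a * (2 * r))
    (fun x hx => by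
      have h1 : HasDerivAt (fun r : ℝ => a * r ^ 2 - ρ) (a * (2 * x)) x := by
        simpa using ((hasDerivAt_pow 2 x).const_mul a).sub_const ρ
      exact h1.hasDerivWithinAt)
    (fun x hx y hy hxy => by
      have hx' : (0:ℝ) < x := hx
      have hy' : (0:ℝ) < y := hy
      have h1 : a * x ^ 2 - ρ = a * y ^ 2 - ρ := hxy
      have h2 : x ^ 2 = y ^ 2 := by
        have : a * x ^ 2 = a * y ^ 2 := by linarith
        exact mul_left_cancel₀ ha.ne' this
      exact (pow_left_inj₀ hx'.le hy'.le two_ne_zero).1 h2) g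
  have h3 : ∫⁻ r in Ioi (0:ℝ), ENNReal.ofReal r * g (a * r ^ 2 - ρ) =
      ENNReal.ofReal (1 / (2 * a)) * ∫⁻ r in Ioi (0:ℝ), ENNReal.ofReal |a * (2 * r)| * g (a * r ^ 2 - ρ) := by
    rw [← lintegral_const_mul _ (by fun_prop)]
    refine setLIntegral_congr_fun measurableSet_Ioi fun r hr => ?_
    have hr' : (0:ℝ) < r := hr
    rw [← mul_assoc, ← ENNReal.ofReal_mul (by positivity), abs_of_pos (by positivity)]
    congr 2
    field_simp
  rw [h3, ← h]
  gcongr
  exact Measure.restrict_le_self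

theorem lint_disc {g : ℝ → ℝ≥0∞} (hg : Measurable g) {a : ℝ} (ha : 0 < a) (ρ c1 c2 : ℝ) :
    ∫⁻ z : ℝ × ℝ, g (a * ((z.1 - c1) ^ 2 + (z.2 - c2) ^ 2) - ρ) ≤ ENNReal.ofReal (Real.pi / a) * ∫⁻ s, g s := by
  have h0 : ∫⁻ z : ℝ × ℝ, g (a * ((z.1 - c1) ^ 2 + (z.2 - c2) ^ 2) - ρ) =
      ∫⁻ z : ℝ × ℝ, g (a * (z.1 ^ 2 + z.2 ^ 2) - ρ) :=
    lintegral_sub_right_eq_self (fun z : ℝ × ℝ => g (a * (z.1 ^ 2 + z.2 ^ 2) - ρ)) ((c1, c2) : ℝ × ℝ)
  rw [h0, ← lintegral_comp_polarCoord_symm]
  have h1 : polarCoord.target = Ioi (0:ℝ) ×ˢ Ioo (-Real.pi) Real.pi := rfl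
  have h2 : ∀ p : ℝ × ℝ, ENNReal.ofReal p.1 • g (a * ((polarCoord.symm p).1 ^ 2 + (polarCoord.symm p).2 ^ 2) - ρ) =
      ENNReal.ofReal p.1 * g (a * p.1 ^ 2 - ρ) := by
    intro p
    rw [polarCoord_symm_apply, smul_eq_mul]
    simp only
    congr 2
    have := Real.sin_sq_add_cos_sq p.2
    linear_combination (a * p.1 ^ 2) * this
  simp only [h2]
  rw [h1, Measure.volume_eq_prod, ← Measure.prod_restrict, lintegral_prod _ (by fun_prop)]
  simp only [lintegral_const, Measure.restrict_apply MeasurableSet.univ, univ_inter, Real.volume_Ioo]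
  rw [lintegral_mul_const _ (by fun_prop)]
  refine (mul_le_mul_left (lint_radial hg ha ρ) _).trans (le_of_eq ?_)
  rw [mul_right_comm, ← ENNReal.ofReal_mul (by positivity)]
  congr 2
  field_simp
  ring

/-! ### Sums over separated points -/

theorem sum_natAbs_le (s : Finset ℤ) (k0 : ℤ) {r : ℝ} (h0 : 0 ≤ r) (h1 : r < 1) :
    ∑ k ∈ s, r ^ (k - k0).natAbs ≤ 2 * (1 - r)⁻¹ := by
  classical
  have hs : Summable (fun j : ℕ => r ^ j) := summable_geometric_of_lt_one h0 h1
  have ht : ∑' j : ℕ, r ^ j = (1 - r)⁻¹ := tsum_geometric_of_lt_one h0 h1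
  have key : ∀ t : Finset ℤ, (∀ x ∈ t, ∀ y ∈ t, (x - k0).natAbs = (y - k0).natAbs → x = y) →
      ∑ k ∈ t, r ^ (k - k0).natAbs ≤ (1 - r)⁻¹ := by
    intro t hinj
    rw [← Finset.sum_image (f := fun j : ℕ => r ^ j) (g := fun k : ℤ => (k - k0).natAbs)
      (fun x hx y hy hxy => hinj x hx y hy hxy), ← ht]
    exact hs.sum_le_tsum _ (fun j _ => pow_nonneg h0 j)
  rw [← Finset.sum_filter_add_sum_filter_not s (fun k => k0 ≤ k)]
  have e1 := key (s.filter (fun k => k0 ≤ k)) (by
    intro x hx y hy hxy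
    rw [Finset.mem_filter] at hx hy
    omega)
  have e2 := key (s.filter (fun k => ¬ k0 ≤ k)) (by
    intro x hx y hy hxy
    rw [Finset.mem_filter] at hx hy
    omega)
  linarith

theorem sum_sep_le (s : Finset ℤ) (q : ℤ → ℝ) {c X : ℝ} (hc : 0 < c) (hX : 0 < X)
    (hsep : ∀ k ∈ s, ∀ k' ∈ s, c * |((k:ℝ) - k')| ≤ |q k - q k'|) :
    ∑ k ∈ s, Real.exp (-(Real.pi * (X * q k / 2) ^ 2)) ≤ 2 * Real.exp 1 * (1 + 4 / (c * X)) := by
  rcases s.eq_empty_or_nonempty with rfl | hne
  · simp only [Finset.sum_empty]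
    positivity
  obtain ⟨k0, hk0, hmin⟩ := s.exists_min_image (fun k => |q k|) hne
  set α : ℝ := c * X / 4 with hα
  have hα0 : 0 < α := by positivity
  have h1 : ∀ k ∈ s, Real.exp (-(Real.pi * (X * q k / 2) ^ 2)) ≤ Real.exp 1 * (Real.exp (-α)) ^ (k - k0).natAbs := by
    intro k hk
    rw [← Real.exp_nat_mul, ← Real.exp_add]
    apply Real.exp_le_exp.2
    have e1 := hsep k hk k0 hk0
    have e2 := hmin k hk
    have e3 : |q k - q k0| ≤ |q k| + |q k0| := abs_sub _ _
    have e4 : (((k - k0).natAbs : ℕ) : ℝ) = |((k:ℝ) - k0)| := by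
      rw [Nat.cast_natAbs]
      push_cast
      rfl
    rw [e4]
    set y : ℝ := |((k:ℝ) - k0)| with hy
    have hy0 : 0 ≤ y := abs_nonneg _
    have e5 : c * y ≤ 2 * |q k| := by linarith
    have e6 : α * y ≤ |X * q k / 2| := by
      rw [abs_div, abs_mul, abs_of_pos hX, abs_of_pos (by norm_num : (0:ℝ) < 2), hα]
      have : X * (c * y) ≤ X * (2 * |q k|) := mul_le_mul_of_nonneg_left e5 hX.le
      linarith
    have e7 : (α * y) ^ 2 ≤ (X * q k / 2) ^ 2 := by
      rw [← sq_abs (X * q k / 2)]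
      exact pow_le_pow_left₀ (by positivity) e6 2
    have e8 := Real.pi_gt_three
    nlinarith [sq_nonneg (α * y - 1/2), sq_nonneg (α * y), sq_nonneg (X * q k / 2)]
  refine (Finset.sum_le_sum h1).trans ?_
  rw [← Finset.mul_sum]
  have h2 : Real.exp (-α) < 1 := by
    rw [Real.exp_lt_one_iff]
    linarith
  have h3 := sum_natAbs_le s k0 (Real.exp_pos (-α)).le h2
  have h4 : (1 - Real.exp (-α))⁻¹ ≤ 1 + 4 / (c * X) := by
    have e1 : 1 + α ≤ Real.exp α := by
      have := Real.add_one_le_exp α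
      linarith
    have e2 : Real.exp (-α) ≤ 1 / (1 + α) := by
      rw [Real.exp_neg, inv_eq_one_div]
      exact one_div_le_one_div_of_le (by positivity) e1
    have e3 : α / (1 + α) ≤ 1 - Real.exp (-α) := by
      have : α / (1 + α) = 1 - 1 / (1 + α) := by
        field_simp
        ring
      linarith
    have e4 : 0 < α / (1 + α) := by positivity
    have e5 : 1 + 4 / (c * X) = (α / (1 + α))⁻¹ := by
      rw [hα]
      field_simp
      ring
    rw [e5]
    exact inv_anti₀ e4 e3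
  have h5 : 0 < Real.exp 1 := Real.exp_pos 1
  calc Real.exp 1 * ∑ k ∈ s, Real.exp (-α) ^ (k - k0).natAbs ≤ Real.exp 1 * (2 * (1 - Real.exp (-α))⁻¹) := by gcongr
    _ ≤ Real.exp 1 * (2 * (1 + 4 / (c * X))) := by gcongr
    _ = _ := by ring

end Vale.Agent.P106.G
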