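import Vale.Agent.P106.G.NikC
import Vale.Agent.P106.G.Resc

/-! # [NIK] (N4): counting of velocities near a plane -/

open MeasureTheory Complex Set
open scoped ENNReal NNReal

set_option linter.all false

namespace Vale.Agent.P106.G

theorem grid_le_int {n : ℕ} (hn : 1 ≤ n) (f : ℤ × ℤ → ℝ≥0∞) (G : ℝ × ℝ → ℝ≥0∞)
    (h : ∀ k ∈ grd n, ∀ w : ℝ × ℝ, (k.1:ℝ) / n ≤ w.1 → w.1 < ((k.1:ℝ) + 1) / n → (k.2:ℝ) / n ≤ w.2 →
      w.2 < ((k.2:ℝ) + 1) / n → f k ≤ G w) :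
    ∑ k ∈ grd n, f k ≤ ENNReal.ofReal ((n:ℝ) ^ 2) * ∫⁻ w, G w := by
  have hn0 : (0:ℝ) < n := by exact_mod_cast hn
  set cell : ℤ × ℤ → Set (ℝ × ℝ) := fun k => Ico ((k.1:ℝ) / n) (((k.1:ℝ) + 1) / n) ×ˢ
    Ico ((k.2:ℝ) / n) (((k.2:ℝ) + 1) / n) with hcell
  have hmeas : ∀ k, MeasurableSet (cell k) := fun k => measurableSet_Ico.prod measurableSet_Ico
  have hvol : ∀ k, volume (cell k) = ENNReal.ofReal (1 / (n:ℝ) ^ 2) := by
    intro k
    rw [hcell]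
    simp only
    rw [Measure.volume_eq_prod, Measure.prod_prod, Real.volume_Ico, Real.volume_Ico,
      ← ENNReal.ofReal_mul (by
        rw [← sub_div]
        have : (k.1:ℝ) + 1 - k.1 = 1 := by ring
        rw [this]
        positivity)]
    congr 1
    field_simp
    ring
  have hdisj : Set.PairwiseDisjoint (↑(grd n) : Set (ℤ × ℤ)) cell := by
    intro k _ k' _ hkk
    rw [Function.onFun, Set.disjoint_left]
    rintro w ⟨⟨a1, a2⟩, ⟨a3, a4⟩⟩ ⟨⟨b1, b2⟩, ⟨b3, b4⟩⟩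
    apply hkk
    rw [div_le_iff₀ hn0] at a1 a3 b1 b3
    rw [lt_div_iff₀ hn0] at a2 a4 b2 b4
    have e1 : (k.1:ℝ) < k'.1 + 1 := by linarith
    have e2 : (k'.1:ℝ) < k.1 + 1 := by linarith
    have e3 : (k.2:ℝ) < k'.2 + 1 := by linarith
    have e4 : (k'.2:ℝ) < k.2 + 1 := by linarith
    have f1 : k.1 < k'.1 + 1 := by exact_mod_cast e1
    have f2 : k'.1 < k.1 + 1 := by exact_mod_cast e2
    have f3 : k.2 < k'.2 + 1 := by exact_mod_cast e3
    have f4 : k'.2 < k.2 + 1 := by exact_mod_cast e4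
    ext <;> omega
  have h1 : ∀ k ∈ grd n, f k * ENNReal.ofReal (1 / (n:ℝ) ^ 2) ≤ ∫⁻ w in cell k, G w := by
    intro k hk
    rw [← hvol k, ← setLIntegral_const]
    refine setLIntegral_mono' (hmeas k) fun w hw => ?_
    exact h k hk w hw.1.1 hw.1.2 hw.2.1 hw.2.2
  have h2 : (∑ k ∈ grd n, f k) * ENNReal.ofReal (1 / (n:ℝ) ^ 2) ≤ ∫⁻ w, G w := by
    rw [Finset.sum_mul]
    refine (Finset.sum_le_sum h1).trans ?_
    rw [← lintegral_biUnion_finset hdisj (fun k _ => hmeas k)]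
    exact setLIntegral_le_lintegral _ _
  calc ∑ k ∈ grd n, f k = ENNReal.ofReal ((n:ℝ) ^ 2) * ((∑ k ∈ grd n, f k) * ENNReal.ofReal (1 / (n:ℝ) ^ 2)) := by
        rw [mul_comm, mul_assoc, ← ENNReal.ofReal_mul (by positivity), one_div_mul_cancel (by positivity),
          ENNReal.ofReal_one, mul_one]
    _ ≤ _ := by gcongr

/-- the quadratic polynomial -/
def qqN (a b1 b2 ρ w1 w2 : ℝ) : ℝ := a * (w1 ^ 2 + w2 ^ 2) - 2 * b1 * w1 - 2 * b2 * w2 - ρ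

/-- elliptic case -/
theorem sum_qq_A {a b1 b2 ρ X : ℝ} {n : ℕ} (hn : 1 ≤ n) (hX : 0 < X) (ha : 1 / 16 ≤ a) (ha2 : a ≤ 2)
    (hb1 : |b1| ≤ 2) (hb2 : |b2| ≤ 2) :
    ∑ k ∈ grd n, Real.exp (-(Real.pi * (X * qqN a b1 b2 ρ (k.1 / n) (k.2 / n) / 2) ^ 2)) ≤
      2000 * ((n:ℝ) ^ 2 / X + n) := by
  have hn0 : (0:ℝ) < n := by exact_mod_cast hn
  have ha0 : 0 < a := by linarith
  have hpi := Real.pi_pos
  set ρ' : ℝ := ρ + (b1 ^ 2 + b2 ^ 2) / a with hρ'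
  have hQ : ∀ w1 w2, qqN a b1 b2 ρ w1 w2 = a * ((w1 - b1 / a) ^ 2 + (w2 - b2 / a) ^ 2) - ρ' := by
    intro w1 w2
    rw [hρ']
    unfold qqN
    field_simp
    ring
  have key : ∑ k ∈ grd n, ENNReal.ofReal (Real.exp (-(Real.pi * (X * qqN a b1 b2 ρ (k.1 / n) (k.2 / n) / 2) ^ 2))) ≤
      ENNReal.ofReal ((n:ℝ) ^ 2) * ∫⁻ w : ℝ × ℝ, ENNReal.ofReal (gXd X (16 / n)
        (a * ((w.1 - b1 / a) ^ 2 + (w.2 - b2 / a) ^ 2) - ρ')) := by
    apply grid_le_int hn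
    rintro k hk ⟨w1, w2⟩ h1 h2 h3 h4
    simp only at h1 h2 h3 h4
    rw [← hQ]
    apply ENNReal.ofReal_le_ofReal
    unfold gXd
    apply Real.exp_le_exp.2
    unfold grd at hk
    rw [Finset.mem_product, Finset.mem_Ico, Finset.mem_Ico] at hk
    obtain ⟨⟨k1, k2⟩, ⟨k3, k4⟩⟩ := hk
    have k1' : (0:ℝ) ≤ k.1 := by exact_mod_cast k1
    have k3' : (0:ℝ) ≤ k.2 := by exact_mod_cast k3
    have k2' : (k.1:ℝ) + 1 ≤ n := by
      have : k.1 + 1 ≤ (n:ℤ) := by omega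
      exact_mod_cast this
    have k4' : (k.2:ℝ) + 1 ≤ n := by
      have : k.2 + 1 ≤ (n:ℤ) := by omega
      exact_mod_cast this
    set u1 : ℝ := (k.1:ℝ) / n with hu1
    set u2 : ℝ := (k.2:ℝ) / n with hu2
    have hu10 : 0 ≤ u1 := by positivity
    have hu20 : 0 ≤ u2 := by positivity
    have e1 : ((k.1:ℝ) + 1) / n = u1 + 1 / n := by rw [hu1]; ring
    have e2 : ((k.2:ℝ) + 1) / n = u2 + 1 / n := by rw [hu2]; ring
    have g1 : u1 + 1 / n ≤ 1 := by rw [← e1, div_le_one hn0]; exact k2'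
    have g2 : u2 + 1 / n ≤ 1 := by rw [← e2, div_le_one hn0]; exact k4'
    rw [e1] at h2
    rw [e2] at h4
    have hd1 : |w1 - u1| ≤ 1 / n := by rw [abs_le]; constructor <;> linarith [one_div_pos.2 hn0]
    have hd2 : |w2 - u2| ≤ 1 / n := by rw [abs_le]; constructor <;> linarith [one_div_pos.2 hn0]
    obtain ⟨hb11, hb12⟩ := abs_le.1 hb1
    obtain ⟨hb21, hb22⟩ := abs_le.1 hb2
    have hdiff : |qqN a b1 b2 ρ w1 w2 - qqN a b1 b2 ρ u1 u2| ≤ 16 / n := by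
      have e3 : qqN a b1 b2 ρ w1 w2 - qqN a b1 b2 ρ u1 u2 = (w1 - u1) * (a * (w1 + u1) - 2 * b1) +
          (w2 - u2) * (a * (w2 + u2) - 2 * b2) := by
        unfold qqN
        ring
      rw [e3]
      refine (abs_add_le _ _).trans ?_
      rw [abs_mul, abs_mul]
      have f1 : |a * (w1 + u1) - 2 * b1| ≤ 8 := by
        have : 0 ≤ a * (w1 + u1) := mul_nonneg ha0.le (by linarith)
        have : a * (w1 + u1) ≤ 2 * 2 := mul_le_mul ha2 (by linarith) (by linarith) (by norm_num)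
        rw [abs_le]
        constructor <;> linarith
      have f2 : |a * (w2 + u2) - 2 * b2| ≤ 8 := by
        have : 0 ≤ a * (w2 + u2) := mul_nonneg ha0.le (by linarith)
        have : a * (w2 + u2) ≤ 2 * 2 := mul_le_mul ha2 (by linarith) (by linarith) (by norm_num)
        rw [abs_le]
        constructor <;> linarith
      have f3 := mul_le_mul hd1 f1 (abs_nonneg _) (by positivity)
      have f4 := mul_le_mul hd2 f2 (abs_nonneg _) (by positivity)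
      have : (16:ℝ) / n = 1 / n * 8 + 1 / n * 8 := by ring
      linarith
    have hmx : max (|qqN a b1 b2 ρ w1 w2| - 16 / n) 0 ≤ |qqN a b1 b2 ρ u1 u2| := by
      apply max_le _ (abs_nonneg _)
      have := abs_sub_abs_le_abs_sub (qqN a b1 b2 ρ w1 w2) (qqN a b1 b2 ρ u1 u2)
      linarith
    have h0 : 0 ≤ max (|qqN a b1 b2 ρ w1 w2| - 16 / n) 0 := le_max_right _ _
    have h5 : (X * max (|qqN a b1 b2 ρ w1 w2| - 16 / n) 0 / 2) ^ 2 ≤ (X * qqN a b1 b2 ρ u1 u2 / 2) ^ 2 := by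
      rw [← sq_abs (X * qqN a b1 b2 ρ u1 u2 / 2), abs_div, abs_mul, abs_of_pos hX, abs_of_pos (by norm_num : (0:ℝ) < 2)]
      gcongr
    have := mul_le_mul_of_nonneg_left h5 hpi.le
    linarith
  have h2 : ∫⁻ w : ℝ × ℝ, ENNReal.ofReal (gXd X (16 / n)
        (a * ((w.1 - b1 / a) ^ 2 + (w.2 - b2 / a) ^ 2) - ρ')) ≤
      ENNReal.ofReal (Real.pi / a * (2 * (16 / n) + 4 / X)) := by
    refine (lint_disc (g := fun s => ENNReal.ofReal (gXd X (16 / n) s))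
      (ENNReal.measurable_ofReal.comp (measurable_gXd _ _)) ha0 ρ' (b1 / a) (b2 / a)).trans ?_
    rw [ENNReal.ofReal_mul (by positivity)]
    gcongr
    exact lint_gXd hX (by positivity)
  have h3 := key.trans (mul_le_mul_right h2 _)
  rw [← ENNReal.ofReal_sum_of_nonneg (fun k _ => (Real.exp_pos _).le), ← ENNReal.ofReal_mul (by positivity),
    ENNReal.ofReal_le_ofReal_iff (by positivity)] at h3
  refine h3.trans ?_
  have h4 : Real.pi / a ≤ 52 := by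
    rw [div_le_iff₀ ha0]
    have := Real.pi_lt_d2
    linarith
  calc (n:ℝ) ^ 2 * (Real.pi / a * (2 * (16 / n) + 4 / X)) ≤ (n:ℝ) ^ 2 * (52 * (2 * (16 / n) + 4 / X)) := by gcongr
    _ = 208 * ((n:ℝ) ^ 2 / X) + 1664 * n := by
        field_simp
        ring
    _ ≤ _ := by
        have : 0 ≤ (n:ℝ) ^ 2 / X := by positivity
        linarith

/-- degenerate case -/
theorem sum_qq_B {a b1 b2 ρ X : ℝ} {n : ℕ} (hn : 1 ≤ n) (hX : 0 < X) (ha : |a| ≤ 1 / 16) (hb : 5 / 16 ≤ |b1|) :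
    ∑ k ∈ grd n, Real.exp (-(Real.pi * (X * qqN a b1 b2 ρ (k.1 / n) (k.2 / n) / 2) ^ 2)) ≤
      2000 * ((n:ℝ) ^ 2 / X + n) := by
  have hn0 : (0:ℝ) < n := by exact_mod_cast hn
  unfold grd
  rw [Finset.sum_product_right]
  have h1 : ∀ k2 ∈ Finset.Ico (0:ℤ) n, ∑ k1 ∈ Finset.Ico (0:ℤ) n,
      Real.exp (-(Real.pi * (X * qqN a b1 b2 ρ ((k1:ℝ) / n) ((k2:ℝ) / n) / 2) ^ 2)) ≤
      2 * Real.exp 1 * (1 + 4 / (1 / (2 * n) * X)) := by
    intro k2 _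
    apply sum_sep_le (Finset.Ico (0:ℤ) n) (fun k1 => qqN a b1 b2 ρ ((k1:ℝ) / n) ((k2:ℝ) / n)) (by positivity) hX
    intro k hk k' hk'
    rw [Finset.mem_Ico] at hk hk'
    have e1 : (0:ℝ) ≤ k := by exact_mod_cast hk.1
    have e2 : (k:ℝ) ≤ n := by exact_mod_cast hk.2.le
    have e3 : (0:ℝ) ≤ k' := by exact_mod_cast hk'.1
    have e4 : (k':ℝ) ≤ n := by exact_mod_cast hk'.2.le
    have e5 : qqN a b1 b2 ρ ((k:ℝ) / n) ((k2:ℝ) / n) - qqN a b1 b2 ρ ((k':ℝ) / n) ((k2:ℝ) / n) =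
        ((k:ℝ) - k') / n * (a * ((k:ℝ) / n + (k':ℝ) / n) - 2 * b1) := by
      unfold qqN
      ring
    rw [e5, abs_mul, abs_div, abs_of_pos hn0]
    have e6 : (1:ℝ) / 2 ≤ |a * ((k:ℝ) / n + (k':ℝ) / n) - 2 * b1| := by
      have f1 : |a * ((k:ℝ) / n + (k':ℝ) / n)| ≤ 1 / 16 * 2 := by
        rw [abs_mul]
        have g1 : (k:ℝ) / n ≤ 1 := (div_le_one hn0).2 e2
        have g2 : (k':ℝ) / n ≤ 1 := (div_le_one hn0).2 e4
        have g3 : 0 ≤ (k:ℝ) / n := by positivity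
        have g4 : 0 ≤ (k':ℝ) / n := by positivity
        apply mul_le_mul ha _ (abs_nonneg _) (by norm_num)
        rw [abs_of_nonneg (by positivity)]
        linarith
      have f2 : |2 * b1| = 2 * |b1| := by rw [abs_mul, abs_of_pos (by norm_num : (0:ℝ) < 2)]
      have f3 := abs_sub_abs_le_abs_sub (2 * b1) (a * ((k:ℝ) / n + (k':ℝ) / n))
      rw [abs_sub_comm] at f3
      rw [f2] at f3
      linarith
    calc 1 / (2 * (n:ℝ)) * |(k:ℝ) - k'| = |(k:ℝ) - k'| / n * (1 / 2) := by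
          field_simp
      _ ≤ _ := by gcongr
  refine (Finset.sum_le_sum h1).trans ?_
  rw [Finset.sum_const, Int.card_Ico, nsmul_eq_mul]
  have e1 : (((n:ℤ) - 0).toNat : ℝ) = n := by simp
  rw [e1]
  have e2 : Real.exp 1 < 2.7182818286 := Real.exp_one_lt_d9
  have e3 : 0 < Real.exp 1 := Real.exp_pos 1
  have e4 : 4 / (1 / (2 * (n:ℝ)) * X) = 8 * (n / X) := by
    field_simp
    ring
  rw [e4]
  have e5 : 0 ≤ (n:ℝ) / X := by positivity
  calc (n:ℝ) * (2 * Real.exp 1 * (1 + 8 * (n / X))) ≤ n * (2 * 3 * (1 + 8 * (n / X))) := by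
        gcongr
        linarith
    _ = 48 * ((n:ℝ) ^ 2 / X) + 6 * n := by ring
    _ ≤ _ := by
        have : 0 ≤ (n:ℝ) ^ 2 / X := by positivity
        linarith

theorem sum_grd_swap (n : ℕ) (f : ℝ → ℝ → ℝ) :
    ∑ k ∈ grd n, f k.1 k.2 = ∑ k ∈ grd n, f k.2 k.1 := by
  unfold grd
  rw [Finset.sum_product, Finset.sum_product_right]

/-- the general case -/
theorem sum_qq {a b1 b2 ρ X : ℝ} {n : ℕ} (hn : 1 ≤ n) (hX : 0 < X) (ha : |a| ≤ 2)
    (hb1 : |b1| ≤ 2) (hb2 : |b2| ≤ 2) (h : 1 / 4 ≤ a ^ 2 + b1 ^ 2 + b2 ^ 2) :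
    ∑ k ∈ grd n, Real.exp (-(Real.pi * (X * qqN a b1 b2 ρ (k.1 / n) (k.2 / n) / 2) ^ 2)) ≤
      2000 * ((n:ℝ) ^ 2 / X + n) := by
  by_cases h1 : 1 / 16 ≤ |a|
  · rcases le_abs.1 h1 with h2 | h2
    · exact sum_qq_A hn hX h2 (le_of_abs_le ha) hb1 hb2
    · have h3 := sum_qq_A (a := -a) (b1 := -b1) (b2 := -b2) (ρ := -ρ) hn hX h2 (by
        have := neg_le_of_abs_le ha
        linarith) (by rwa [abs_neg]) (by rwa [abs_neg])
      refine le_trans (le_of_eq ?_) h3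
      refine Finset.sum_congr rfl fun k _ => ?_
      congr 3
      unfold qqN
      ring
  · rw [not_le] at h1
    by_cases h2 : 5 / 16 ≤ |b1|
    · exact sum_qq_B hn hX h1.le h2
    · rw [not_le] at h2
      have h3 : 5 / 16 ≤ |b2| := by
        by_contra h4
        rw [not_le] at h4
        have e1 : a ^ 2 ≤ (1 / 16) ^ 2 := by rw [← sq_abs]; exact pow_le_pow_left₀ (abs_nonneg _) h1.le 2
        have e2 : b1 ^ 2 ≤ (5 / 16) ^ 2 := by rw [← sq_abs]; exact pow_le_pow_left₀ (abs_nonneg _) h2.le 2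
        have e3 : b2 ^ 2 ≤ (5 / 16) ^ 2 := by rw [← sq_abs b2]; exact pow_le_pow_left₀ (abs_nonneg _) h4.le 2
        norm_num at e1 e2 e3
        linarith
      have h4 := sum_qq_B (a := a) (b1 := b2) (b2 := b1) (ρ := ρ) hn hX h1.le h3
      rw [sum_grd_swap n (fun x y => Real.exp (-(Real.pi * (X * qqN a b2 b1 ρ (x / n) (y / n) / 2) ^ 2)))] at h4
      refine le_trans (le_of_eq ?_) h4
      refine Finset.sum_congr rfl fun k _ => ?_
      congr 3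
      unfold qqN
      ring

end Vale.Agent.P106.G
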