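import Vale.Agent.P106.G.NikC2
import Vale.Agent.P106.G.DefsF

/-! # [NIK] (N3): the large sieve, and the final form of (N3) + (N4) -/

open MeasureTheory Complex Set
open scoped ENNReal NNReal

set_option linter.all false

namespace Vale.Agent.P106.G

theorem gauss_pair {T : ℝ} (hT : 0 < T) (θ : ℝ) :
    Integrable (fun t : ℝ => cexp (I * ((2 * Real.pi * θ : ℝ) : ℂ) * t) * cexp (-((Real.pi / T ^ 2 : ℝ) : ℂ) * t ^ 2)) ∧
    ∫ t : ℝ, cexp (I * ((2 * Real.pi * θ : ℝ) : ℂ) * t) * cexp (-((Real.pi / T ^ 2 : ℝ) : ℂ) * t ^ 2) =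
      ((T * Real.exp (-(Real.pi * (T * θ) ^ 2)) : ℝ) : ℂ) := by
  have hpi := Real.pi_pos
  have hb : 0 < (((Real.pi / T ^ 2 : ℝ) : ℂ)).re := by
    rw [ofReal_re]
    positivity
  constructor
  · have h := integrable_cexp_quadratic hb (I * ((2 * Real.pi * θ : ℝ) : ℂ)) 0
    refine h.congr (Filter.Eventually.of_forall fun t => ?_)
    simp only
    rw [← Complex.exp_add]
    congr 1
    ring
  · rw [fourierIntegral_gaussian hb]
    have e1 : (Real.pi : ℂ) / ((Real.pi / T ^ 2 : ℝ) : ℂ) = ((T ^ 2 : ℝ) : ℂ) := by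
      rw [← ofReal_div]
      congr 1
      field_simp
    have e2 : ((T ^ 2 : ℝ) : ℂ) ^ (1 / 2 : ℂ) = ((T : ℝ) : ℂ) := by
      have h1 : (1 / 2 : ℂ) = (((1 / 2 : ℝ)) : ℂ) := by push_cast; ring
      rw [h1, ← ofReal_cpow (by positivity), ← Real.sqrt_eq_rpow, Real.sqrt_sq hT.le]
    have e3 : -(((2 * Real.pi * θ : ℝ) : ℂ)) ^ 2 / (4 * ((Real.pi / T ^ 2 : ℝ) : ℂ)) =
        ((-(Real.pi * (T * θ) ^ 2) : ℝ) : ℂ) := by
      have : ((-(Real.pi * (T * θ) ^ 2) : ℝ)) = -(2 * Real.pi * θ) ^ 2 / (4 * (Real.pi / T ^ 2)) := by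
        field_simp
        ring
      rw [this]
      push_cast
      ring
    rw [e1, e2, e3, ← ofReal_exp, ← ofReal_mul]

theorem large_sieve {ι : Type*} (s : Finset ι) (x : ι → ℝ) (a : ι → ℂ) {T G : ℝ} (hT : 0 < T)
    (hG0 : 0 ≤ G) (hG : ∀ i ∈ s, ∑ j ∈ s, Real.exp (-(Real.pi * (T * (x i - x j)) ^ 2)) ≤ G) :
    ∫⁻ t in Icc (-T) T, ‖∑ i ∈ s, a i * cexp (-(2 * Real.pi * I * ((t * x i : ℝ) : ℂ)))‖ₑ ^ 2 ≤
      ENNReal.ofReal (Real.exp Real.pi * T * G) * ∑ i ∈ s, ‖a i‖ₑ ^ 2 := by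
  have hpi := Real.pi_pos
  set F : ℝ → ℂ := fun t => ∑ i ∈ s, a i * cexp (-(2 * Real.pi * I * ((t * x i : ℝ) : ℂ))) with hF
  set w : ℝ → ℝ := fun t => Real.exp (-(Real.pi / T ^ 2) * t ^ 2) with hw
  have hFc : Continuous F := by
    rw [hF]
    fun_prop
  -- pointwise expansion
  have hexp : ∀ t, ((w t * ‖F t‖ ^ 2 : ℝ) : ℂ) = ∑ i ∈ s, ∑ j ∈ s, (a i * (starRingEnd ℂ) (a j)) *
      (cexp (I * ((2 * Real.pi * (x j - x i) : ℝ) : ℂ) * t) * cexp (-((Real.pi / T ^ 2 : ℝ) : ℂ) * t ^ 2)) := by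
    intro t
    have h1 : ((‖F t‖ ^ 2 : ℝ) : ℂ) = F t * (starRingEnd ℂ) (F t) := by
      rw [Complex.mul_conj, Complex.normSq_eq_norm_sq]
    have h2 : ((w t : ℝ) : ℂ) = cexp (-((Real.pi / T ^ 2 : ℝ) : ℂ) * t ^ 2) := by
      rw [hw]
      simp only
      rw [ofReal_exp]
      congr 1
      push_cast
      ring
    rw [ofReal_mul, h1, h2, hF]
    simp only [map_sum, map_mul]
    rw [Finset.sum_mul_sum, Finset.mul_sum]
    refine Finset.sum_congr rfl fun i _ => ?_
    rw [Finset.mul_sum]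
    refine Finset.sum_congr rfl fun j _ => ?_
    have h3 : (starRingEnd ℂ) (cexp (-(2 * Real.pi * I * ((t * x j : ℝ) : ℂ)))) =
        cexp (2 * Real.pi * I * ((t * x j : ℝ) : ℂ)) := by
      rw [← Complex.exp_conj]
      congr 1
      simp only [map_neg, map_mul, conj_ofReal, conj_I, map_ofNat]
      ring
    rw [h3]
    have h4 : cexp (I * ((2 * Real.pi * (x j - x i) : ℝ) : ℂ) * t) =
        cexp (-(2 * Real.pi * I * ((t * x i : ℝ) : ℂ))) * cexp (2 * Real.pi * I * ((t * x j : ℝ) : ℂ)) := by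
      rw [← Complex.exp_add]
      congr 1
      push_cast
      ring
    rw [h4]
    ring
  have hint : Integrable (fun t => ((w t * ‖F t‖ ^ 2 : ℝ) : ℂ)) := by
    simp only [hexp]
    refine integrable_finset_sum _ fun i _ => integrable_finset_sum _ fun j _ => ?_
    exact (gauss_pair hT (x j - x i)).1.const_mul _
  have hint' : Integrable (fun t => w t * ‖F t‖ ^ 2) := by
    have := hint.re
    refine this.congr (Filter.Eventually.of_forall fun t => ?_)
    simp only [RCLike.re_eq_complex_re, ofReal_re]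
  have hval : ((∫ t, w t * ‖F t‖ ^ 2 : ℝ) : ℂ) = ∑ i ∈ s, ∑ j ∈ s, (a i * (starRingEnd ℂ) (a j)) *
      ((T * Real.exp (-(Real.pi * (T * (x j - x i)) ^ 2)) : ℝ) : ℂ) := by
    rw [← integral_complex_ofReal]
    simp only [hexp]
    rw [integral_finset_sum _ fun i _ => integrable_finset_sum _ fun j _ =>
      (gauss_pair hT (x j - x i)).1.const_mul _]
    refine Finset.sum_congr rfl fun i _ => ?_
    rw [integral_finset_sum _ fun j _ => (gauss_pair hT (x j - x i)).1.const_mul _]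
    refine Finset.sum_congr rfl fun j _ => ?_
    rw [integral_const_mul, (gauss_pair hT (x j - x i)).2]
  have hnn : 0 ≤ ∫ t, w t * ‖F t‖ ^ 2 := integral_nonneg fun t => mul_nonneg (Real.exp_pos _).le (sq_nonneg _)
  have hbd : ∫ t, w t * ‖F t‖ ^ 2 ≤ T * G * ∑ i ∈ s, ‖a i‖ ^ 2 := by
    have h1 : ∫ t, w t * ‖F t‖ ^ 2 = ‖((∫ t, w t * ‖F t‖ ^ 2 : ℝ) : ℂ)‖ := by
      rw [Complex.norm_real, Real.norm_of_nonneg hnn]
    rw [h1, hval]
    set e : ι → ι → ℝ := fun i j => Real.exp (-(Real.pi * (T * (x j - x i)) ^ 2)) with he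
    have he0 : ∀ i j, 0 ≤ e i j := fun i j => (Real.exp_pos _).le
    have hsym : ∀ i j, e i j = e j i := by
      intro i j
      rw [he]
      simp only
      congr 3
      ring
    calc ‖∑ i ∈ s, ∑ j ∈ s, (a i * (starRingEnd ℂ) (a j)) * ((T * e i j : ℝ) : ℂ)‖
        ≤ ∑ i ∈ s, ∑ j ∈ s, ‖a i‖ * ‖a j‖ * (T * e i j) := by
          refine (norm_sum_le _ _).trans (Finset.sum_le_sum fun i _ => ?_)
          refine (norm_sum_le _ _).trans (Finset.sum_le_sum fun j _ => ?_)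
          rw [norm_mul, norm_mul, RCLike.norm_conj, Complex.norm_real,
            Real.norm_of_nonneg (mul_nonneg hT.le (he0 i j))]
      _ ≤ ∑ i ∈ s, ∑ j ∈ s, ((‖a i‖ ^ 2 / 2) * (T * e i j) + (‖a j‖ ^ 2 / 2) * (T * e i j)) := by
          refine Finset.sum_le_sum fun i _ => Finset.sum_le_sum fun j _ => ?_
          rw [← add_mul]
          apply mul_le_mul_of_nonneg_right _ (mul_nonneg hT.le (he0 i j))
          nlinarith [sq_nonneg (‖a i‖ - ‖a j‖)]
      _ = T * ∑ i ∈ s, ‖a i‖ ^ 2 * ∑ j ∈ s, e i j := by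
          have h2 : ∑ i ∈ s, ∑ j ∈ s, (‖a j‖ ^ 2 / 2) * (T * e i j) =
              ∑ i ∈ s, ∑ j ∈ s, (‖a i‖ ^ 2 / 2) * (T * e i j) := by
            rw [Finset.sum_comm]
            refine Finset.sum_congr rfl fun i _ => Finset.sum_congr rfl fun j _ => ?_
            rw [hsym j i]
          simp only [Finset.sum_add_distrib]
          rw [h2, ← two_mul, Finset.mul_sum, Finset.mul_sum]
          refine Finset.sum_congr rfl fun i _ => ?_
          rw [Finset.mul_sum, Finset.mul_sum, Finset.mul_sum]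
          refine Finset.sum_congr rfl fun j _ => ?_
          ring
      _ ≤ T * ∑ i ∈ s, ‖a i‖ ^ 2 * G := by
          apply mul_le_mul_of_nonneg_left _ hT.le
          refine Finset.sum_le_sum fun i hi => ?_
          apply mul_le_mul_of_nonneg_left _ (sq_nonneg _)
          refine le_trans (le_of_eq ?_) (hG i hi)
          refine Finset.sum_congr rfl fun j _ => ?_
          rw [hsym i j]
      _ = _ := by
          rw [← Finset.sum_mul]
          ring
  calc ∫⁻ t in Icc (-T) T, ‖F t‖ₑ ^ 2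
      ≤ ∫⁻ t in Icc (-T) T, ENNReal.ofReal (Real.exp Real.pi * (w t * ‖F t‖ ^ 2)) := by
        refine setLIntegral_mono' measurableSet_Icc fun t ht => ?_
        rw [← ofReal_norm_eq_enorm, ← ENNReal.ofReal_pow (norm_nonneg _)]
        apply ENNReal.ofReal_le_ofReal
        rw [← mul_assoc]
        have h1 : 1 ≤ Real.exp Real.pi * w t := by
          rw [hw]
          simp only
          rw [← Real.exp_add]
          apply Real.one_le_exp
          have h2 : t ^ 2 ≤ T ^ 2 := sq_le_sq' ht.1 ht.2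
          have h3 : Real.pi / T ^ 2 * t ^ 2 ≤ Real.pi := by
            calc Real.pi / T ^ 2 * t ^ 2 ≤ Real.pi / T ^ 2 * T ^ 2 := by gcongr
              _ = Real.pi := by field_simp
          linarith
        nlinarith [sq_nonneg ‖F t‖]
    _ ≤ ∫⁻ t, ENNReal.ofReal (Real.exp Real.pi * (w t * ‖F t‖ ^ 2)) := setLIntegral_le_lintegral _ _
    _ = ENNReal.ofReal (∫ t, Real.exp Real.pi * (w t * ‖F t‖ ^ 2)) := by
        rw [ofReal_integral_eq_lintegral_ofReal (hint'.const_mul _)]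
        exact Filter.Eventually.of_forall fun t =>
          mul_nonneg (Real.exp_pos _).le (mul_nonneg (Real.exp_pos _).le (sq_nonneg _))
    _ ≤ ENNReal.ofReal (Real.exp Real.pi * T * G * ∑ i ∈ s, ‖a i‖ ^ 2) := by
        apply ENNReal.ofReal_le_ofReal
        rw [integral_const_mul]
        calc Real.exp Real.pi * ∫ t, w t * ‖F t‖ ^ 2 ≤ Real.exp Real.pi * (T * G * ∑ i ∈ s, ‖a i‖ ^ 2) := by
              gcongr
          _ = _ := by ring
    _ = _ := by
        rw [ENNReal.ofReal_mul (by positivity), ENNReal.ofReal_sum_of_nonneg (fun i _ => sq_nonneg _)]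
        congr 1
        refine Finset.sum_congr rfl fun i _ => ?_
        rw [ENNReal.ofReal_pow (norm_nonneg _), ofReal_norm_eq_enorm]

end Vale.Agent.P106.G
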