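import Vale.Agent.P106.G.NikC3

/-! # [NIK] (N3) + (N4): final form -/

open MeasureTheory Complex Set
open scoped ENNReal NNReal

set_option linter.all false

namespace Vale.Agent.P106.G

/-- velocity of the ray of direction `v` over the data hyperplane -/
noncomputable def Hyp.cv (H : Hyp) (v1 v2 : ℝ) : E3 :=
  !₂[(v1 ^ 2 + v2 ^ 2) / H.m v1 v2, -2 * v1 / H.m v1 v2, -2 * v2 / H.m v1 v2]

theorem Hyp.tm_zt (H : Hyp) (t : ℝ) (y : E3) : H.tm (H.zt t y) = t := by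
  simp [Hyp.tm, Hyp.zt]

theorem Hyp.bp_zt (H : Hyp) (v1 v2 t : ℝ) (y : E3) : H.bp v1 v2 (H.zt t y) = y - t • H.cv v1 v2 := by
  unfold Hyp.bp
  rw [H.tm_zt t y]
  ext i
  fin_cases i
  · simp [Hyp.cv, Hyp.zt]
    ring
  · simp [Hyp.cv, Hyp.zt]
    ring
  · simp [Hyp.cv, Hyp.zt]
    ring

theorem inner_cv (H : Hyp) (v1 v2 : ℝ) (ξ : E3) : inner ℝ (H.cv v1 v2) ξ =
    ((v1 ^ 2 + v2 ^ 2) * ξ 0 - 2 * v1 * ξ 1 - 2 * v2 * ξ 2) / H.m v1 v2 := by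
  rw [EuclideanSpace.inner_eq_star_dotProduct]
  simp [Hyp.cv, Fin.sum_univ_three, dotProduct]
  ring

/-- the size of the coefficients in the class `ok2` -/
theorem Hyp.ok2.sq_le {H : Hyp} (h : H.ok2) : H.s ^ 2 + H.q1 ^ 2 + H.q2 ^ 2 ≤ 1 / 200 := by
  obtain ⟨σ, b1, b2, k1, k2, k3, k4, k5, k6, rfl⟩ := h
  unfold hyp
  simp only
  set d : ℝ := 1 + b1 ^ 2 + b2 ^ 2 with hd
  have hd1 : 1 ≤ d := by rw [hd]; nlinarith [sq_nonneg b1, sq_nonneg b2]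
  have hd0 : 0 < d := by linarith
  have e1 : (σ ^ 2 / d) ^ 2 + (-σ * b1 / d) ^ 2 + (-σ * b2 / d) ^ 2 = (σ ^ 4 + σ ^ 2 * (d - 1)) / d ^ 2 := by
    rw [hd]
    field_simp
    ring
  rw [e1, div_le_div_iff₀ (by positivity) (by norm_num)]
  have hs2 : σ ^ 2 ≤ 1 / 64 := by
    calc σ ^ 2 ≤ (1 / 8) ^ 2 := pow_le_pow_left₀ k1.le k2 2
      _ = 1 / 64 := by norm_num
  have hs4 : σ ^ 4 ≤ 1 / 4096 := by
    calc σ ^ 4 ≤ (1 / 8) ^ 4 := pow_le_pow_left₀ k1.le k2 4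
      _ = 1 / 4096 := by norm_num
  have e2 : d - 1 ≤ d ^ 2 / 4 := by nlinarith [sq_nonneg (d - 2)]
  have e3 : σ ^ 2 * (d - 1) ≤ 1 / 64 * (d ^ 2 / 4) := mul_le_mul hs2 e2 (by linarith) (by norm_num)
  have e4 : σ ^ 4 ≤ 1 / 4096 * d ^ 2 := by nlinarith
  nlinarith [sq_nonneg d]

theorem cv_bound {H : Hyp} (h : H.ok2) {v1 v2 : ℝ} (h1 : 0 ≤ v1) (h1' : v1 ≤ 1) (h2 : 0 ≤ v2) (h2' : v2 ≤ 1) :
    ‖H.cv v1 v2‖ ^ 2 ≤ 12 := by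
  obtain ⟨hm1, hm2⟩ := h.m_bd h1 h1' h2 h2'
  have hm0 : 0 < H.m v1 v2 := by linarith
  rw [EuclideanSpace.norm_sq_eq]
  simp [Hyp.cv, Fin.sum_univ_three]
  have e0 : v1 ^ 2 ≤ 1 := by nlinarith
  have e0' : v2 ^ 2 ≤ 1 := by nlinarith
  rw [div_pow, div_pow, div_pow, ← add_div, ← add_div, div_le_iff₀ (by positivity)]
  have e1 : 1 ≤ H.m v1 v2 ^ 2 := by nlinarith
  nlinarith [sq_nonneg v1, sq_nonneg v2, mul_nonneg (sq_nonneg v1) (sq_nonneg v2)]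

theorem norm_cv_le {H : Hyp} (h : H.ok2) {v1 v2 : ℝ} (h1 : 0 ≤ v1) (h1' : v1 ≤ 1) (h2 : 0 ≤ v2) (h2' : v2 ≤ 1) :
    ‖H.cv v1 v2‖ ≤ 4 := by
  have := cv_bound h h1 h1' h2 h2'
  nlinarith [norm_nonneg (H.cv v1 v2)]

/-- size of the coefficients of the quadratic polynomial -/
theorem coef_size {w0 w1 w2 s q1 q2 φ : ℝ} (hsq : s ^ 2 + q1 ^ 2 + q2 ^ 2 ≤ 1 / 200)
    (hω2 : w0 ^ 2 + w1 ^ 2 + w2 ^ 2 = 1) (hφ2 : φ ^ 2 ≤ 12) :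
    1 / 4 ≤ (w0 - φ * s) ^ 2 + (w1 - φ * q1) ^ 2 + (w2 - φ * q2) ^ 2 ∧
      (w0 - φ * s) ^ 2 + (w1 - φ * q1) ^ 2 + (w2 - φ * q2) ^ 2 ≤ 4 := by
  have hdot : (w0 * s + w1 * q1 + w2 * q2) ^ 2 ≤ 1 / 200 := by
    have e : (w0 * s + w1 * q1 + w2 * q2) ^ 2 = (w0 ^ 2 + w1 ^ 2 + w2 ^ 2) * (s ^ 2 + q1 ^ 2 + q2 ^ 2) -
        ((w0 * q1 - w1 * s) ^ 2 + (w0 * q2 - w2 * s) ^ 2 + (w1 * q2 - w2 * q1) ^ 2) := by ring
    rw [e, hω2, one_mul]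
    have : 0 ≤ (w0 * q1 - w1 * s) ^ 2 + (w0 * q2 - w2 * s) ^ 2 + (w1 * q2 - w2 * q1) ^ 2 := by positivity
    linarith
  have hφd : |φ * (w0 * s + w1 * q1 + w2 * q2)| ≤ 1 / 4 := by
    apply abs_le_of_sq_le_sq _ (by norm_num)
    rw [mul_pow]
    calc φ ^ 2 * (w0 * s + w1 * q1 + w2 * q2) ^ 2 ≤ 12 * (1 / 200) :=
          mul_le_mul hφ2 hdot (sq_nonneg _) (by norm_num)
      _ ≤ (1 / 4) ^ 2 := by norm_num
  have habs := abs_le.1 hφd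
  have hφs : φ ^ 2 * (s ^ 2 + q1 ^ 2 + q2 ^ 2) ≤ 12 * (1 / 200) :=
    mul_le_mul hφ2 hsq (by positivity) (by norm_num)
  have hsum : (w0 - φ * s) ^ 2 + (w1 - φ * q1) ^ 2 + (w2 - φ * q2) ^ 2 =
      1 - 2 * (φ * (w0 * s + w1 * q1 + w2 * q2)) + φ ^ 2 * (s ^ 2 + q1 ^ 2 + q2 ^ 2) := by
    linear_combination hω2
  have hnn : 0 ≤ φ ^ 2 * (s ^ 2 + q1 ^ 2 + q2 ^ 2) := by positivity
  rw [hsum]
  constructor
  · linarith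
  · linarith

theorem qq_id (w0 w1 w2 s q1 q2 φ u1 u2 m : ℝ) (hm : m = s * (u1 ^ 2 + u2 ^ 2) - 2 * (q1 * u1 + q2 * u2) + 1) :
    (u1 ^ 2 + u2 ^ 2) * w0 - 2 * u1 * w1 - 2 * u2 * w2 - φ * m =
      qqN (w0 - φ * s) (w1 - φ * q1) (w2 - φ * q2) φ u1 u2 := by
  rw [hm]
  unfold qqN
  ring

/-- (N4) for a unit vector -/
theorem count_unit {H : Hyp} (h : H.ok2) {n : ℕ} (hn : 1 ≤ n) {X : ℝ} (hX : 0 < X) {ω : E3} (hω : ‖ω‖ = 1)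
    {v1 v2 : ℝ} (h1 : 0 ≤ v1) (h1' : v1 ≤ 1) (h2 : 0 ≤ v2) (h2' : v2 ≤ 1) :
    ∑ k ∈ grd n, Real.exp (-(Real.pi * (X * (inner ℝ (H.cv v1 v2) ω - inner ℝ (H.cv (k.1 / n) (k.2 / n)) ω)) ^ 2)) ≤
      2000 * ((n:ℝ) ^ 2 / X + n) := by
  have hn0 : (0:ℝ) < n := by exact_mod_cast hn
  obtain ⟨φ, hφ⟩ : ∃ φ : ℝ, φ = inner ℝ (H.cv v1 v2) ω := ⟨_, rfl⟩
  rw [← hφ]
  have hsq := h.sq_le
  have hω2 : ω 0 ^ 2 + ω 1 ^ 2 + ω 2 ^ 2 = 1 := by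
    have h3 := EuclideanSpace.norm_sq_eq ω
    rw [hω] at h3
    simp [Fin.sum_univ_three] at h3
    linarith
  have hφ2 : φ ^ 2 ≤ 12 := by
    have h3 : |φ| ≤ ‖H.cv v1 v2‖ := by
      have := abs_real_inner_le_norm (H.cv v1 v2) ω
      rwa [hω, mul_one, ← hφ] at this
    calc φ ^ 2 = |φ| ^ 2 := (sq_abs _).symm
      _ ≤ ‖H.cv v1 v2‖ ^ 2 := pow_le_pow_left₀ (abs_nonneg _) h3 2
      _ ≤ 12 := cv_bound h h1 h1' h2 h2'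
  obtain ⟨hlow, hup⟩ := coef_size hsq hω2 hφ2
  obtain ⟨a, ha⟩ : ∃ a : ℝ, a = ω 0 - φ * H.s := ⟨_, rfl⟩
  obtain ⟨b1, hb1⟩ : ∃ b1 : ℝ, b1 = ω 1 - φ * H.q1 := ⟨_, rfl⟩
  obtain ⟨b2, hb2⟩ : ∃ b2 : ℝ, b2 = ω 2 - φ * H.q2 := ⟨_, rfl⟩
  rw [← ha, ← hb1, ← hb2] at hlow hup
  have ha2 : |a| ≤ 2 := abs_le_of_sq_le_sq (by nlinarith [sq_nonneg b1, sq_nonneg b2]) (by norm_num)
  have hb12 : |b1| ≤ 2 := abs_le_of_sq_le_sq (by nlinarith [sq_nonneg a, sq_nonneg b2]) (by norm_num)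
  have hb22 : |b2| ≤ 2 := abs_le_of_sq_le_sq (by nlinarith [sq_nonneg a, sq_nonneg b1]) (by norm_num)
  refine (Finset.sum_le_sum fun k hk => ?_).trans (sum_qq (ρ := φ) hn hX ha2 hb12 hb22 hlow)
  apply Real.exp_le_exp.2
  unfold grd at hk
  rw [Finset.mem_product, Finset.mem_Ico, Finset.mem_Ico] at hk
  obtain ⟨⟨k1, k2⟩, ⟨k3, k4⟩⟩ := hk
  have k1' : (0:ℝ) ≤ k.1 := by exact_mod_cast k1
  have k3' : (0:ℝ) ≤ k.2 := by exact_mod_cast k3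
  have k2' : (k.1:ℝ) ≤ n := by exact_mod_cast k2.le
  have k4' : (k.2:ℝ) ≤ n := by exact_mod_cast k4.le
  obtain ⟨u1, hu1⟩ : ∃ u1 : ℝ, u1 = (k.1:ℝ) / n := ⟨_, rfl⟩
  obtain ⟨u2, hu2⟩ : ∃ u2 : ℝ, u2 = (k.2:ℝ) / n := ⟨_, rfl⟩
  rw [← hu1, ← hu2]
  obtain ⟨hm1, hm2⟩ := h.m_bd (β1 := u1) (β2 := u2) (by rw [hu1]; positivity)
    (by rw [hu1]; exact (div_le_one hn0).2 k2') (by rw [hu2]; positivity)
    (by rw [hu2]; exact (div_le_one hn0).2 k4')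
  have hm0 : 0 < H.m u1 u2 := by linarith
  have e0 := qq_id (ω 0) (ω 1) (ω 2) H.s H.q1 H.q2 φ u1 u2 (H.m u1 u2) rfl
  rw [← ha, ← hb1, ← hb2] at e0
  have e1 : φ - inner ℝ (H.cv u1 u2) ω = -(qqN a b1 b2 φ u1 u2 / H.m u1 u2) := by
    rw [inner_cv, ← e0]
    have e9 : H.m u1 u2 ≠ 0 := hm0.ne'
    generalize H.m u1 u2 = M at e9
    field_simp
    ring
  rw [e1]
  have e2 : (X * qqN a b1 b2 φ u1 u2 / 2) ^ 2 ≤ (X * -(qqN a b1 b2 φ u1 u2 / H.m u1 u2)) ^ 2 := by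
    have f1 : (X * -(qqN a b1 b2 φ u1 u2 / H.m u1 u2)) ^ 2 = (X * qqN a b1 b2 φ u1 u2) ^ 2 * (1 / H.m u1 u2) ^ 2 := by
      ring
    have f2 : (X * qqN a b1 b2 φ u1 u2 / 2) ^ 2 = (X * qqN a b1 b2 φ u1 u2) ^ 2 * (1 / 2) ^ 2 := by
      ring
    rw [f1, f2]
    have f3 : (1:ℝ) / 2 ≤ 1 / H.m u1 u2 := one_div_le_one_div_of_le hm0 hm2
    gcongr
  have := mul_le_mul_of_nonneg_left e2 Real.pi_pos.le
  linarith

/-- (N4) for a general vector -/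
theorem count_all {H : Hyp} (h : H.ok2) {n : ℕ} (hn : 1 ≤ n) {T : ℝ} (hT : 0 < T) {ξ : E3} (hξ : ξ ≠ 0)
    {v1 v2 : ℝ} (h1 : 0 ≤ v1) (h1' : v1 ≤ 1) (h2 : 0 ≤ v2) (h2' : v2 ≤ 1) :
    ∑ k ∈ grd n, Real.exp (-(Real.pi * (T * (inner ℝ (H.cv v1 v2) ξ - inner ℝ (H.cv (k.1 / n) (k.2 / n)) ξ)) ^ 2)) ≤
      2000 * ((n:ℝ) ^ 2 / (T * ‖ξ‖) + n) := by
  have hx : 0 < ‖ξ‖ := norm_pos_iff.2 hξ
  have hω : ‖(‖ξ‖⁻¹ • ξ)‖ = 1 := by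
    rw [norm_smul, norm_inv, norm_norm, inv_mul_cancel₀ hx.ne']
  refine le_trans (le_of_eq ?_) (count_unit h hn (mul_pos hT hx) hω h1 h1' h2 h2')
  refine Finset.sum_congr rfl fun k _ => ?_
  congr 3
  rw [inner_smul_right, inner_smul_right]
  field_simp

theorem nik_ls : ∃ C : ℝ, 0 ≤ C ∧ ∀ (n : ℕ) (H : Hyp) (T : ℝ) (ξ : E3) (a : ℤ × ℤ → ℂ), 1 ≤ n → H.ok2 → 0 < T →
    ξ ≠ 0 → ∫⁻ t in Icc (-T) T, ‖∑ k ∈ grd n, a k * cexp (-(2 * Real.pi * I *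
      ((t * inner ℝ (H.cv (k.1 / n) (k.2 / n)) ξ : ℝ) : ℂ)))‖ₑ ^ 2 ≤
    ENNReal.ofReal (C * T * ((n:ℝ) ^ 2 / (T * ‖ξ‖) + n)) * ∑ k ∈ grd n, ‖a k‖ₑ ^ 2 := by
  refine ⟨Real.exp Real.pi * 2000, by positivity, ?_⟩
  intro n H T ξ a hn hH hT hξ
  have hn0 : (0:ℝ) < n := by exact_mod_cast hn
  have hx : 0 < ‖ξ‖ := norm_pos_iff.2 hξ
  refine (large_sieve (grd n) (fun k => inner ℝ (H.cv (k.1 / n) (k.2 / n)) ξ) a hT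
    (G := 2000 * ((n:ℝ) ^ 2 / (T * ‖ξ‖) + n)) (by positivity) ?_).trans (le_of_eq ?_)
  · intro k hk
    unfold grd at hk
    rw [Finset.mem_product, Finset.mem_Ico, Finset.mem_Ico] at hk
    obtain ⟨⟨k1, k2⟩, ⟨k3, k4⟩⟩ := hk
    have k1' : (0:ℝ) ≤ k.1 := by exact_mod_cast k1
    have k3' : (0:ℝ) ≤ k.2 := by exact_mod_cast k3
    have k2' : (k.1:ℝ) ≤ n := by exact_mod_cast k2.le
    have k4' : (k.2:ℝ) ≤ n := by exact_mod_cast k4.le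
    exact count_all hH hn hT hξ (by positivity) ((div_le_one hn0).2 k2') (by positivity) ((div_le_one hn0).2 k4')
  · congr 2
    ring

theorem nik_triv (n : ℕ) (x : ℤ × ℤ → ℝ) (T : ℝ) (hT : 0 < T) (a : ℤ × ℤ → ℂ) :
    ∫⁻ t in Icc (-T) T, ‖∑ k ∈ grd n, a k * cexp (-(2 * Real.pi * I * ((t * x k : ℝ) : ℂ)))‖ₑ ^ 2 ≤
    ENNReal.ofReal (2 * T * (n:ℝ) ^ 2) * ∑ k ∈ grd n, ‖a k‖ₑ ^ 2 := by
  have h1 : ∀ t : ℝ, ‖∑ k ∈ grd n, a k * cexp (-(2 * Real.pi * I * ((t * x k : ℝ) : ℂ)))‖ₑ ^ 2 ≤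
      ENNReal.ofReal ((n:ℝ) ^ 2) * ∑ k ∈ grd n, ‖a k‖ₑ ^ 2 := by
    intro t
    have h2 : ‖∑ k ∈ grd n, a k * cexp (-(2 * Real.pi * I * ((t * x k : ℝ) : ℂ)))‖ ^ 2 ≤
        (n:ℝ) ^ 2 * ∑ k ∈ grd n, ‖a k‖ ^ 2 := by
      have h3 : ‖∑ k ∈ grd n, a k * cexp (-(2 * Real.pi * I * ((t * x k : ℝ) : ℂ)))‖ ≤ ∑ k ∈ grd n, ‖a k‖ := by
        refine (norm_sum_le _ _).trans (Finset.sum_le_sum fun k _ => ?_)
        rw [norm_mul]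
        have h4 : ‖cexp (-(2 * Real.pi * I * ((t * x k : ℝ) : ℂ)))‖ = 1 := by
          have : -(2 * Real.pi * I * ((t * x k : ℝ) : ℂ)) = ((-(2 * Real.pi * (t * x k)) : ℝ) : ℂ) * I := by
            push_cast
            ring
          rw [this, Complex.norm_exp_ofReal_mul_I]
        rw [h4, mul_one]
      calc ‖∑ k ∈ grd n, a k * cexp (-(2 * Real.pi * I * ((t * x k : ℝ) : ℂ)))‖ ^ 2 ≤ (∑ k ∈ grd n, ‖a k‖) ^ 2 := by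
            gcongr
        _ ≤ (grd n).card * ∑ k ∈ grd n, ‖a k‖ ^ 2 := sq_sum_le_card_mul_sum_sq
        _ = _ := by
            congr 1
            unfold grd
            rw [Finset.card_product, Int.card_Ico]
            simp
            ring
    rw [← ofReal_norm_eq_enorm, ← ENNReal.ofReal_pow (norm_nonneg _)]
    refine (ENNReal.ofReal_le_ofReal h2).trans (le_of_eq ?_)
    rw [ENNReal.ofReal_mul (by positivity), ENNReal.ofReal_sum_of_nonneg (fun i _ => sq_nonneg _)]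
    congr 1
    refine Finset.sum_congr rfl fun i _ => ?_
    rw [ENNReal.ofReal_pow (norm_nonneg _), ofReal_norm_eq_enorm]
  refine (lintegral_mono h1).trans (le_of_eq ?_)
  rw [setLIntegral_const, Real.volume_Icc, mul_right_comm, ← ENNReal.ofReal_mul (by positivity)]
  congr 2
  ring

theorem nik_N34 : ∃ C : ℝ, 0 ≤ C ∧ ∀ (n : ℕ) (H : Hyp) (T K : ℝ) (ξ : E3) (a : ℤ × ℤ → ℂ), 1 ≤ n → H.ok2 → 0 < T →
    1 ≤ K → ENNReal.ofReal ((min 1 (K * (T * ‖ξ‖) / n)) ^ 2) *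
      ∫⁻ t in Icc (-T) T, ‖∑ k ∈ grd n, a k * cexp (-(2 * Real.pi * I *
        ((t * inner ℝ (H.cv (k.1 / n) (k.2 / n)) ξ : ℝ) : ℂ)))‖ₑ ^ 2 ≤
    ENNReal.ofReal (C * K * n * T) * ∑ k ∈ grd n, ‖a k‖ₑ ^ 2 := by
  obtain ⟨C, hC, h⟩ := nik_ls
  refine ⟨2 * C, by positivity, ?_⟩
  intro n H T K ξ a hn hH hT hK
  have hn0 : (0:ℝ) < n := by exact_mod_cast hn
  rcases eq_or_ne ξ 0 with rfl | hξ
  · simp
  have hx : 0 < ‖ξ‖ := norm_pos_iff.2 hξ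
  have h1 := h n H T ξ a hn hH hT hξ
  refine (mul_le_mul_right h1 _).trans ?_
  rw [← mul_assoc, ← ENNReal.ofReal_mul (by positivity)]
  refine mul_le_mul_left (ENNReal.ofReal_le_ofReal ?_) _
  set X : ℝ := T * ‖ξ‖ with hX
  have hX0 : 0 < X := by positivity
  have hK0 : 0 < K := by linarith
  have h2 : (min 1 (K * X / n)) ^ 2 * ((n:ℝ) ^ 2 / X + n) ≤ 2 * K * n := by
    by_cases hc : K * X ≤ n
    · have e1 : min 1 (K * X / n) ≤ K * X / n := min_le_right _ _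
      have e0 : 0 ≤ min 1 (K * X / n) := le_min (by norm_num) (by positivity)
      calc (min 1 (K * X / n)) ^ 2 * ((n:ℝ) ^ 2 / X + n) ≤ (K * X / n) ^ 2 * ((n:ℝ) ^ 2 / X + n) := by gcongr
        _ = K * (K * X) + (K * X) * (K * X) / n := by
            field_simp
        _ ≤ K * n + n * n / n := by gcongr
        _ = K * n + n := by field_simp
        _ ≤ _ := by nlinarith
    · rw [not_le] at hc
      have e1 : min 1 (K * X / n) ≤ 1 := min_le_left _ _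
      have e0 : 0 ≤ min 1 (K * X / n) := le_min (by norm_num) (by positivity)
      have e2 : (n:ℝ) / X ≤ K := by
        rw [div_le_iff₀ hX0]
        exact hc.le
      calc (min 1 (K * X / n)) ^ 2 * ((n:ℝ) ^ 2 / X + n) ≤ 1 ^ 2 * ((n:ℝ) ^ 2 / X + n) := by gcongr
        _ = n * (n / X) + n := by ring
        _ ≤ n * K + n := by gcongr
        _ ≤ _ := by nlinarith
  calc (min 1 (K * X / n)) ^ 2 * (C * T * ((n:ℝ) ^ 2 / X + n)) = C * T * ((min 1 (K * X / n)) ^ 2 * ((n:ℝ) ^ 2 / X + n)) := by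
        ring
    _ ≤ C * T * (2 * K * n) := by gcongr
    _ = _ := by ring

end Vale.Agent.P106.G
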