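import Vale.Agent.P106.G.NikB

/-! # The box estimate: induction on the number of caps -/

open MeasureTheory Complex Set Filter
open scoped ENNReal NNReal ContDiff FourierTransform Topology

set_option linter.all false

namespace Vale.Agent.P106.G

open Vale.Agent.P117 (Adm)

/-- index of the coarse cap -/
def pim (N N' : ℕ) (k : ℤ × ℤ) : ℤ × ℤ := (k.1 * N' / N, k.2 * N' / N)

theorem pim_aux {N N' : ℕ} (hN : 1 ≤ N) (hN' : 1 ≤ N') {k : ℤ} (h0 : 0 ≤ k) (h1 : k < N) :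
    0 ≤ k * N' / N ∧ k * N' / N < N' ∧ |(k:ℝ) / N - ((k * N' / N : ℤ) : ℝ) / N'| ≤ 1 / N' := by
  have hNz : (0:ℤ) < N := by exact_mod_cast hN
  have hNz' : (0:ℤ) < N' := by exact_mod_cast hN'
  have hNr : (0:ℝ) < N := by exact_mod_cast hN
  have hNr' : (0:ℝ) < N' := by exact_mod_cast hN'
  set q := k * N' / N with hq
  have e1 : N * q ≤ k * N' := Int.mul_ediv_self_le hNz.ne'
  have e2 : k * N' < N * q + N := Int.lt_mul_ediv_self_add hNz
  refine ⟨Int.ediv_nonneg (by positivity) hNz.le, ?_, ?_⟩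
  · rw [hq]
    exact Int.ediv_lt_of_lt_mul hNz (by nlinarith)
  · have r1 : (N:ℝ) * q ≤ k * N' := by exact_mod_cast e1
    have r2 : (k:ℝ) * N' < N * q + N := by exact_mod_cast e2
    have e : (k:ℝ) / N - (q:ℝ) / N' = (k * N' - N * q) / (N * N') := by field_simp
    rw [e, abs_of_nonneg (div_nonneg (by linarith) (by positivity)), div_le_div_iff₀ (by positivity) hNr']
    nlinarith

theorem pim_mem {N N' : ℕ} (hN : 1 ≤ N) (hN' : 1 ≤ N') {k : ℤ × ℤ} (hk : k ∈ grd N) : pim N N' k ∈ grd N' := by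
  unfold grd at hk ⊢
  rw [Finset.mem_product, Finset.mem_Ico, Finset.mem_Ico] at hk ⊢
  obtain ⟨⟨a1, a2⟩, b1, b2⟩ := hk
  have h1 := pim_aux hN hN' a1 a2
  have h2 := pim_aux hN hN' b1 b2
  exact ⟨⟨h1.1, h1.2.1⟩, h2.1, h2.2.1⟩

theorem vk_pim {H : Hyp} (hH : H.ok2) {N N' : ℕ} (hN : 1 ≤ N) (hN' : 1 ≤ N') {k : ℤ × ℤ} (hk : k ∈ grd N) :
    ‖H.vk N' (pim N N' k) - H.vk N k‖ ≤ 40 / N' := by
  obtain ⟨g1, g2, g3, g4⟩ := grd_bd hk
  obtain ⟨g1', g2', g3', g4'⟩ := grd_bd (pim_mem hN hN' hk)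
  rw [norm_sub_rev]
  unfold grd at hk
  rw [Finset.mem_product, Finset.mem_Ico, Finset.mem_Ico] at hk
  obtain ⟨⟨a1, a2⟩, b1, b2⟩ := hk
  have h1 := (pim_aux hN hN' a1 a2).2.2
  have h2 := (pim_aux hN hN' b1 b2).2.2
  refine (vel_lip hH g1 g2 g3 g4 g1' g2' g3' g4').trans ?_
  have h3 : |(k.1:ℝ) / N - ((pim N N' k).1 : ℝ) / N'| ≤ 1 / N' := h1
  have h4 : |(k.2:ℝ) / N - ((pim N N' k).2 : ℝ) / N'| ≤ 1 / N' := h2
  calc 20 * (|(k.1:ℝ) / N - ((pim N N' k).1 : ℝ) / N'| + |(k.2:ℝ) / N - ((pim N N' k).2 : ℝ) / N'|) ≤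
      20 * (1 / N' + 1 / N') := by gcongr
    _ = 40 / N' := by ring

/-- densities of the coarse caps -/
noncomputable def nup (N N' : ℕ) (ρ : ℝ) (ν : ℤ × ℤ → E3 → ℝ≥0∞) (k' : ℤ × ℤ) (y : E3) : ℝ≥0∞ :=
  ∑ k ∈ (grd N).filter (fun k => pim N N' k = k'), ∫⁻ x, ν k (y - x) ∂(mb ρ)

section

variable {N N' : ℕ} (hN : 1 ≤ N) (hN' : 1 ≤ N') {ν : ℤ × ℤ → E3 → ℝ≥0∞} (hν : ∀ k, Measurable (ν k)) {ρ : ℝ} (hρ : 0 < ρ)

include hν hρ in
theorem meas_av (k : ℤ × ℤ) : Measurable (fun y : E3 => ∫⁻ x, ν k (y - x) ∂(mb ρ)) := by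
  haveI := mb_prob hρ
  exact Measurable.lintegral_prod_right' (f := fun p : E3 × E3 => ν k (p.1 - p.2)) ((hν k).comp (measurable_fst.sub measurable_snd))

include hν hρ in
theorem meas_nup (k' : ℤ × ℤ) : Measurable (nup N N' ρ ν k') :=
  Finset.measurable_sum _ fun k _ => meas_av hν hρ k

include hN hN' in
theorem sum_nup_gen (F : ℤ × ℤ → ℤ × ℤ → ℝ≥0∞) :
    ∑ k' ∈ grd N', ∑ k ∈ (grd N).filter (fun k => pim N N' k = k'), F k k' = ∑ k ∈ grd N, F k (pim N N' k) := by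
  rw [← Finset.sum_fiberwise_of_maps_to (s := grd N) (t := grd N') (g := pim N N') (fun k hk => pim_mem hN hN' hk)]
  apply Finset.sum_congr rfl
  intro k' _
  apply Finset.sum_congr rfl
  intro k hk
  rw [(Finset.mem_filter.1 hk).2]

include hN hN' hν hρ in
theorem sum_nup {D : ℝ} (hD : ∀ y, ∑ k ∈ grd N, ν k y ≤ ENNReal.ofReal D) (y : E3) :
    ∑ k' ∈ grd N', nup N N' ρ ν k' y ≤ ENNReal.ofReal D := by
  unfold nup
  rw [sum_nup_gen hN hN' (fun k _ => ∫⁻ x, ν k (y - x) ∂(mb ρ)), ← lintegral_finset_sum']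
  · exact lint_mb_le hρ fun x _ => hD (y - x)
  · intro k _
    exact ((hν k).comp (measurable_const.sub measurable_id)).aemeasurable

include hν hρ in
theorem lint_av (k : ℤ × ℤ) : ∫⁻ y : E3, ∫⁻ x, ν k (y - x) ∂(mb ρ) = ∫⁻ y, ν k y := by
  haveI := mb_prob hρ
  rw [lintegral_lintegral_swap]
  · have : ∀ x : E3, ∫⁻ y : E3, ν k (y - x) = ∫⁻ y, ν k y := fun x => lintegral_sub_right_eq_self _ x
    simp_rw [this]
    rw [lintegral_const, measure_univ, mul_one]
  · exact ((hν k).comp (measurable_fst.sub measurable_snd)).aemeasurable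

include hN hN' hν hρ in
theorem eng_nup : Eng N' (nup N N' ρ ν) = Eng N ν := by
  unfold Eng nup
  have h1 : ∀ k' ∈ grd N', ∫⁻ y, ∑ k ∈ (grd N).filter (fun k => pim N N' k = k'), ∫⁻ x, ν k (y - x) ∂(mb ρ) =
      ∑ k ∈ (grd N).filter (fun k => pim N N' k = k'), ∫⁻ y, ν k y := by
    intro k' _
    rw [lintegral_finset_sum _ fun k _ => meas_av hν hρ k]
    apply Finset.sum_congr rfl
    intro k _
    exact lint_av hν hρ k
  rw [Finset.sum_congr rfl h1]
  exact sum_nup_gen hN hN' (fun k _ => ∫⁻ y, ν k y)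

include hN hN' hν in
/-- transport of the averages -/
theorem P2_le {H : Hyp} (hH : H.ok2) {r T t : ℝ} (hr : 0 < r) (hT : T * (40 / N') ≤ 40 * r) (ht : |t| ≤ T) (y : E3) :
    ∫⁻ x, ∑ k ∈ grd N, ν k (y - x - t • H.vk N k) ∂(mb r) ≤
      ENNReal.ofReal (41 ^ 3) * ∑ k' ∈ grd N', nup N N' (41 * r) ν k' (y - t • H.vk N' k') := by
  have hNr' : (0:ℝ) < N' := by exact_mod_cast hN'
  unfold nup
  rw [sum_nup_gen hN hN' (fun k k' => ∫⁻ x, ν k (y - t • H.vk N' k' - x) ∂(mb (41 * r)))]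
  have hme : ∀ k ∈ grd N, Measurable (fun x => ν k (y - x - t • H.vk N k)) := by
    intro k _
    exact (hν k).comp (by fun_prop)
  rw [lintegral_finset_sum (grd N) hme, Finset.mul_sum]
  refine Finset.sum_le_sum fun k hk => ?_
  have h := mb_shift (r := r) (A := 41) hr (by norm_num) (a := t • (H.vk N' (pim N N' k) - H.vk N k))
    (g := fun x => ν k (y - t • H.vk N' (pim N N' k) - x)) ?_ ((hν k).comp (by fun_prop))
  · refine (le_of_eq ?_).trans h
    congr 1
    ext x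
    congr 1
    rw [smul_sub]
    abel
  · rw [norm_smul, Real.norm_eq_abs]
    have hT0 : 0 ≤ T := (abs_nonneg t).trans ht
    calc |t| * ‖H.vk N' (pim N N' k) - H.vk N k‖ ≤ T * (40 / N') :=
          mul_le_mul ht (vk_pim hH hN hN' hk) (norm_nonneg _) hT0
      _ ≤ 40 * r := hT
      _ = (41 - 1) * r := by ring

end

section

variable {N : ℕ} {D : ℝ} (hD0 : 0 ≤ D) {ν : ℤ × ℤ → E3 → ℝ≥0∞} (hν : ∀ k, Measurable (ν k))
  (hD : ∀ y, ∑ k ∈ grd N, ν k y ≤ ENNReal.ofReal D) (hE : Eng N ν < ⊤)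

include hD in
theorem nu_leN {k : ℤ × ℤ} (hk : k ∈ grd N) (y : E3) : ν k y ≤ ENNReal.ofReal D :=
  (Finset.single_le_sum (f := fun k => ν k y) (fun _ _ => bot_le) hk).trans (hD y)

/-- complex version of a density -/
noncomputable def fnu (ν : ℤ × ℤ → E3 → ℝ≥0∞) (k : ℤ × ℤ) (y : E3) : ℂ := (((ν k y).toReal : ℝ) : ℂ)

include hD in
theorem enorm_fnu {k : ℤ × ℤ} (hk : k ∈ grd N) (y : E3) : ‖fnu ν k y‖ₑ = ν k y := by
  unfold fnu
  rw [← ofReal_norm, Complex.norm_real, Real.norm_eq_abs, abs_of_nonneg ENNReal.toReal_nonneg]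
  exact ENNReal.ofReal_toReal (lt_of_le_of_lt (nu_leN hD hk y) ENNReal.ofReal_lt_top).ne

include hD0 hν hD hE in
theorem adm_nu {k : ℤ × ℤ} (hk : k ∈ grd N) : Adm volume (fnu ν k) := by
  have hm : Measurable (fnu ν k) := Complex.measurable_ofReal.comp (hν k).ennreal_toReal
  refine ⟨hm, ?_, D, ?_⟩
  · refine ⟨hm.aestronglyMeasurable, ?_⟩
    have h1 : ∫⁻ y, ν k y ≤ Eng N ν := Finset.single_le_sum (f := fun k => ∫⁻ y, ν k y) (fun _ _ => bot_le) hk
    refine lt_of_le_of_lt (le_trans (lintegral_mono fun y => ?_) h1) hE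
    exact (enorm_fnu hD hk y).le
  · intro y
    have h := nu_leN hD hk y
    rw [← enorm_fnu hD hk y, ← ofReal_norm, ENNReal.ofReal_le_ofReal_iff hD0] at h
    exact h

include hD in
theorem enorm_sum_fnu (u : ℤ × ℤ → E3) : ‖∑ k ∈ grd N, fnu ν k (u k)‖ₑ = ∑ k ∈ grd N, ν k (u k) := by
  have h1 : ∑ k ∈ grd N, fnu ν k (u k) = ((∑ k ∈ grd N, (ν k (u k)).toReal : ℝ) : ℂ) := by
    unfold fnu; push_cast; rfl
  rw [h1, ← ofReal_norm, Complex.norm_real, Real.norm_eq_abs,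
    abs_of_nonneg (Finset.sum_nonneg fun _ _ => ENNReal.toReal_nonneg), ENNReal.ofReal_sum_of_nonneg (fun _ _ => ENNReal.toReal_nonneg)]
  apply Finset.sum_congr rfl
  intro k hk
  exact ENNReal.ofReal_toReal (lt_of_le_of_lt (nu_leN hD hk _) ENNReal.ofReal_lt_top).ne

include hD hν in
/-- the squares of the densities -/
theorem sum_sq_le : ∑ k ∈ grd N, ∫⁻ y, ‖fnu ν k y‖ₑ ^ 2 ≤ ENNReal.ofReal D * Eng N ν := by
  unfold Eng
  rw [Finset.mul_sum]
  refine Finset.sum_le_sum fun k hk => ?_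
  rw [← lintegral_const_mul _ (hν k)]
  refine lintegral_mono fun y => ?_
  rw [enorm_fnu hD hk y, sq]
  exact mul_le_mul' (nu_leN hD hk y) le_rfl

include hν in
theorem meas_tr (c : ℤ × ℤ → E3) : Measurable (fun p : ℝ × E3 => ∑ k ∈ grd N, ν k (p.2 - p.1 • c k)) := by
  refine Finset.measurable_sum _ fun k _ => ?_
  have h : Measurable (fun p : ℝ × E3 => p.2 - p.1 • c k) := by fun_prop
  exact (hν k).comp h

include hν in
theorem lint_tr (c : ℤ × ℤ → E3) (t : ℝ) : ∫⁻ y, ∑ k ∈ grd N, ν k (y - t • c k) = Eng N ν := by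
  have hme : ∀ k ∈ grd N, Measurable (fun y => ν k (y - t • c k)) := fun k _ => (hν k).comp (by fun_prop)
  rw [lintegral_finset_sum (grd N) hme]
  unfold Eng
  apply Finset.sum_congr rfl
  intro k _
  exact lintegral_sub_right_eq_self (fun y => ν k y) _

include hD0 hν hD in
/-- trivial bound -/
theorem triv_bdN (c : ℤ × ℤ → E3) {T : ℝ} (hT : 0 < T) :
    ∫⁻ t in Icc (-T) T, ∫⁻ y, (∑ k ∈ grd N, ν k (y - t • c k)) ^ 2 ≤ ENNReal.ofReal (2 * (N:ℝ) ^ 2 * D * T) * Eng N ν := by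
  have hp : ∀ (t : ℝ) (y : E3), (∑ k ∈ grd N, ν k (y - t • c k)) ^ 2 ≤ ENNReal.ofReal ((N:ℝ) ^ 2 * D) * ∑ k ∈ grd N, ν k (y - t • c k) := by
    intro t y
    rw [sq]
    refine mul_le_mul' ?_ le_rfl
    calc ∑ k ∈ grd N, ν k (y - t • c k) ≤ ∑ k ∈ grd N, ENNReal.ofReal D := Finset.sum_le_sum fun k hk => nu_leN hD hk _
      _ = ENNReal.ofReal ((N:ℝ) ^ 2 * D) := by
          rw [Finset.sum_const, nsmul_eq_mul, ENNReal.ofReal_mul (by positivity)]
          congr 1
          unfold grd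
          rw [Finset.card_product, Int.card_Ico, sub_zero, Int.toNat_natCast, ENNReal.ofReal_pow (by positivity), ENNReal.ofReal_natCast]
          push_cast
          ring
  calc ∫⁻ t in Icc (-T) T, ∫⁻ y, (∑ k ∈ grd N, ν k (y - t • c k)) ^ 2 ≤
      ∫⁻ t in Icc (-T) T, ENNReal.ofReal ((N:ℝ) ^ 2 * D) * Eng N ν := by
        refine lintegral_mono fun t => ?_
        refine (lintegral_mono fun y => hp t y).trans (le_of_eq ?_)
        rw [lintegral_const_mul' _ _ ENNReal.ofReal_ne_top, lint_tr hν]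
    _ = ENNReal.ofReal (2 * (N:ℝ) ^ 2 * D * T) * Eng N ν := by
        rw [setLIntegral_const, Real.volume_Icc, mul_right_comm, ← ENNReal.ofReal_mul (by positivity)]
        congr 2
        ring

include hν hD hD0 hE in
/-- the oscillating part -/
theorem P1_bd {C : ℝ} (hC : 0 ≤ C) (hN : 1 ≤ N) {T K : ℝ} (hT : 0 < T) (hK : 1 ≤ K) (c : ℤ × ℤ → E3)
    (h34 : ∀ (ξ : E3) (a : ℤ × ℤ → ℂ), ENNReal.ofReal (T * ‖ξ‖) * ∫⁻ t in Icc (-T) T, ‖∑ k ∈ grd N, a k *
      cexp (-(2 * Real.pi * I * ((t * inner ℝ ξ (c k) : ℝ) : ℂ)))‖ₑ ^ 2 ≤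
      ENNReal.ofReal (C * T * ((N:ℝ) ^ 2 + N * (T * ‖ξ‖))) * ∑ k ∈ grd N, ‖a k‖ₑ ^ 2) :
    ∫⁻ t in Icc (-T) T, ∫⁻ y, (∫⁻ x, ‖∑ k ∈ grd N, (fnu ν k (y - t • c k) - fnu ν k (y - x - t • c k))‖ₑ ∂(mb (K * T / N))) ^ 2 ≤
      ENNReal.ofReal (80 * C * K * N * T * D) * Eng N ν := by
  have hN0 : (0:ℝ) < N := by exact_mod_cast hN
  have hr : 0 < K * T / N := by positivity
  haveI := mb_prob hr
  have hfm : ∀ k ∈ grd N, Measurable (fnu ν k) := fun k hk => (adm_nu hD0 hν hD hE hk).meas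
  have hG : Measurable (fun p : (ℝ × E3) × E3 => ‖∑ k ∈ grd N, (fnu ν k (p.2 - p.1.1 • c k) - fnu ν k (p.2 - p.1.2 - p.1.1 • c k))‖ₑ ^ 2) := by
    refine (Finset.measurable_sum _ fun k hk => ?_).enorm.pow_const 2
    exact ((hfm k hk).comp (by fun_prop)).sub ((hfm k hk).comp (by fun_prop))
  calc ∫⁻ t in Icc (-T) T, ∫⁻ y, (∫⁻ x, ‖∑ k ∈ grd N, (fnu ν k (y - t • c k) - fnu ν k (y - x - t • c k))‖ₑ ∂(mb (K * T / N))) ^ 2 ≤
      ∫⁻ t in Icc (-T) T, ∫⁻ y, ∫⁻ x, ‖∑ k ∈ grd N, (fnu ν k (y - t • c k) - fnu ν k (y - x - t • c k))‖ₑ ^ 2 ∂(mb (K * T / N)) := by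
        refine lintegral_mono fun t => lintegral_mono fun y => ?_
        apply mb_sq hr
        refine (Finset.measurable_sum _ fun k hk => ?_).enorm
        exact measurable_const.sub ((hfm k hk).comp (by fun_prop))
    _ = ∫⁻ t in Icc (-T) T, ∫⁻ x, (∫⁻ y, ‖∑ k ∈ grd N, (fnu ν k (y - t • c k) - fnu ν k (y - x - t • c k))‖ₑ ^ 2) ∂(mb (K * T / N)) := by
        refine lintegral_congr fun t => ?_
        apply lintegral_lintegral_swap
        apply Measurable.aemeasurable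
        exact hG.comp (f := fun p : E3 × E3 => ((t, p.2), p.1)) (by fun_prop)
    _ = ∫⁻ x, (∫⁻ t in Icc (-T) T, ∫⁻ y, ‖∑ k ∈ grd N, (fnu ν k (y - t • c k) - fnu ν k (y - x - t • c k))‖ₑ ^ 2) ∂(mb (K * T / N)) := by
        apply lintegral_lintegral_swap
        apply Measurable.aemeasurable
        exact hG.lintegral_prod_right'
    _ ≤ ENNReal.ofReal (80 * C * K * N * T * D) * Eng N ν := by
        apply lint_mb_le hr
        intro x hx
        refine (diff_est hC hN hT hK c h34 hx (fun k hk => adm_nu hD0 hν hD hE hk)).trans ?_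
        calc ENNReal.ofReal (80 * C * K * N * T) * ∑ k ∈ grd N, ∫⁻ y, ‖fnu ν k y‖ₑ ^ 2 ≤
            ENNReal.ofReal (80 * C * K * N * T) * (ENNReal.ofReal D * Eng N ν) := mul_le_mul' le_rfl (sum_sq_le hν hD)
          _ = _ := by rw [← mul_assoc, ← ENNReal.ofReal_mul (by positivity)]

end

theorem two_sqN (a b : ℝ≥0∞) : (a + b) ^ 2 ≤ 2 * a ^ 2 + 2 * b ^ 2 := by
  have h := ENNReal.rpow_add_le_mul_rpow_add_rpow a b (p := 2) (by norm_num)
  norm_num at h
  calc (a + b) ^ 2 ≤ 2 * (a ^ 2 + b ^ 2) := h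
    _ = _ := by ring

/-- [NIKt] from the large sieve -/
theorem nikt_of (h34 : StN34) : StNIKt := by
  obtain ⟨C, hC, h34⟩ := h34
  set K : ℕ := 8 * 41 ^ 6 with hK
  have hK1 : 1 ≤ K := by norm_num [hK]
  have hKr : (K:ℝ) = 8 * 41 ^ 6 := by rw [hK]; push_cast; ring
  have hK1r : (1:ℝ) ≤ K := by exact_mod_cast hK1
  have hK0 : (0:ℝ) < K := by linarith
  clear_value K
  set Cs : ℝ := 320 * C * K + 4 * K with hCs
  have hCs0 : 0 ≤ Cs := by positivity
  refine ⟨Cs, hCs0, ?_⟩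
  intro N
  induction N using Nat.strong_induction_on with
  | _ N ih =>
    intro T D H ν hN hT hH hD0 hν hD hE
    have hNr : (1:ℝ) ≤ N := by exact_mod_cast hN
    have hN0 : (0:ℝ) < N := by linarith
    rcases lt_or_ge N (2 * K) with hlt | hge
    · refine (triv_bdN hD0 hν hD (fun k => H.vk N k) hT).trans ?_
      refine mul_le_mul' (ENNReal.ofReal_le_ofReal ?_) le_rfl
      have h1 : (N:ℝ) ≤ 2 * K := by exact_mod_cast hlt.le
      calc 2 * (N:ℝ) ^ 2 * D * T = (2 * N) * (D * N * T) := by ring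
        _ ≤ Cs * (D * N * T) := by
            have : 2 * (N:ℝ) ≤ Cs := by
              have : 0 ≤ 320 * C * K := by positivity
              linarith
            gcongr
        _ = Cs * D * N * T := by ring
    · set N' := N / K + 1 with hN'
      have hN'1 : 1 ≤ N' := Nat.succ_pos _
      have hN'r : (0:ℝ) < N' := by exact_mod_cast hN'1
      have hgr : (2:ℝ) * K ≤ N := by exact_mod_cast hge
      have hdiv : ((N / K : ℕ) : ℝ) ≤ N / K := Nat.cast_div_le
      have hup : (N':ℝ) ≤ 2 * (N / K) := by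
        rw [hN']
        push_cast
        have : (1:ℝ) ≤ N / K := by rw [le_div_iff₀ hK0]; linarith
        linarith
      have hlow : (N:ℝ) / K ≤ N' := by
        have h := Nat.lt_mul_div_succ N (show 0 < K by omega)
        rw [div_le_iff₀ hK0, mul_comm]
        rw [hN']
        exact_mod_cast h.le
      have hN'lt : N' < N := by
        have h1 : (N':ℝ) < N := by
          have h8 : (8:ℝ) ≤ K := by rw [hKr]; norm_num
          calc (N':ℝ) ≤ 2 * (N / K) := hup
            _ ≤ 2 * (N / 8) := by gcongr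
            _ < N := by linarith
        exact_mod_cast h1
      set r : ℝ := K * T / N with hr
      have hr0 : 0 < r := by rw [hr]; positivity
      have hρ : 0 < 41 * r := by positivity
      set ν' := nup N N' (41 * r) ν with hν'
      have hTr : T * (40 / N') ≤ 40 * r := by
        rw [hr]
        have h1 : (1:ℝ) / N' ≤ K / N := by
          rw [div_le_div_iff₀ hN'r hN0]
          rw [div_le_iff₀ hK0] at hlow
          linarith
        calc T * (40 / N') = 40 * T * (1 / N') := by ring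
          _ ≤ 40 * T * (K / N) := by gcongr
          _ = 40 * (K * T / N) := by ring
      have hE' : Eng N' ν' = Eng N ν := eng_nup hN hN'1 hν hρ
      have hind := ih N' hN'lt T D H ν' hN'1 hT hH hD0 (meas_nup hν hρ) (sum_nup hN hN'1 hν hρ hD) (by rw [hE']; exact hE)
      rw [hE'] at hind
      haveI := mb_prob hr0
      -- pointwise splitting
      have hpt : ∀ t ∈ Icc (-T) T, ∀ y : E3, (∑ k ∈ grd N, ν k (y - t • H.vk N k)) ^ 2 ≤
          2 * (∫⁻ x, ‖∑ k ∈ grd N, (fnu ν k (y - t • H.vk N k) - fnu ν k (y - x - t • H.vk N k))‖ₑ ∂(mb r)) ^ 2 +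
          ENNReal.ofReal (2 * 41 ^ 6) * (∑ k ∈ grd N', ν' k (y - t • H.vk N' k)) ^ 2 := by
        intro t ht y
        have htT : |t| ≤ T := abs_le.2 ht
        have hP2 := P2_le hN hN'1 hν hH hr0 hTr htT y
        have hmW : Measurable (fun x => ∑ k ∈ grd N, ν k (y - x - t • H.vk N k)) :=
          Finset.measurable_sum _ fun k _ => (hν k).comp (by fun_prop)
        have h1 : ∑ k ∈ grd N, ν k (y - t • H.vk N k) ≤
            ∫⁻ x, ‖∑ k ∈ grd N, (fnu ν k (y - t • H.vk N k) - fnu ν k (y - x - t • H.vk N k))‖ₑ ∂(mb r) +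
            ∫⁻ x, ∑ k ∈ grd N, ν k (y - x - t • H.vk N k) ∂(mb r) := by
          rw [← lintegral_add_right _ hmW]
          calc ∑ k ∈ grd N, ν k (y - t • H.vk N k) = ∫⁻ x, ∑ k ∈ grd N, ν k (y - t • H.vk N k) ∂(mb r) := by
                rw [lintegral_const, measure_univ, mul_one]
            _ ≤ _ := by
                refine lintegral_mono fun x => ?_
                rw [← enorm_sum_fnu hD (fun k => y - t • H.vk N k), ← enorm_sum_fnu hD (fun k => y - x - t • H.vk N k)]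
                rw [Finset.sum_sub_distrib]
                set a := ∑ k ∈ grd N, fnu ν k (y - t • H.vk N k)
                set b := ∑ k ∈ grd N, fnu ν k (y - x - t • H.vk N k)
                calc ‖a‖ₑ = ‖(a - b) + b‖ₑ := by rw [sub_add_cancel]
                  _ ≤ _ := enorm_add_le _ _
        calc (∑ k ∈ grd N, ν k (y - t • H.vk N k)) ^ 2 ≤
            (∫⁻ x, ‖∑ k ∈ grd N, (fnu ν k (y - t • H.vk N k) - fnu ν k (y - x - t • H.vk N k))‖ₑ ∂(mb r) +
            ENNReal.ofReal (41 ^ 3) * ∑ k' ∈ grd N', ν' k' (y - t • H.vk N' k')) ^ 2 := by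
              gcongr
              exact h1.trans (add_le_add le_rfl hP2)
          _ ≤ _ := by
              refine (two_sqN _ _).trans (add_le_add le_rfl (le_of_eq ?_))
              rw [mul_pow, ← ENNReal.ofReal_pow (by norm_num), ← mul_assoc]
              congr 1
              rw [ENNReal.ofReal_mul (by norm_num), ENNReal.ofReal_ofNat]
              norm_num
      have hm1 : Measurable (fun p : ℝ × E3 => (∑ k ∈ grd N', ν' k (p.2 - p.1 • H.vk N' k)) ^ 2) :=
        (meas_tr (N := N') (meas_nup hν hρ) _).pow_const 2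
      have hP1 := P1_bd hD0 hν hD hE hC hN hT hK1r (fun k => H.vk N k) (fun ξ a => h34 H N T ξ a hH hN hT)
      calc ∫⁻ t in Icc (-T) T, ∫⁻ y, (∑ k ∈ grd N, ν k (y - t • H.vk N k)) ^ 2 ≤
          ∫⁻ t in Icc (-T) T, ∫⁻ y, (2 * (∫⁻ x, ‖∑ k ∈ grd N, (fnu ν k (y - t • H.vk N k) - fnu ν k (y - x - t • H.vk N k))‖ₑ ∂(mb r)) ^ 2 +
          ENNReal.ofReal (2 * 41 ^ 6) * (∑ k ∈ grd N', ν' k (y - t • H.vk N' k)) ^ 2) :=
            setLIntegral_mono' measurableSet_Icc fun t ht => lintegral_mono fun y => hpt t ht y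
        _ = 2 * (∫⁻ t in Icc (-T) T, ∫⁻ y, (∫⁻ x, ‖∑ k ∈ grd N, (fnu ν k (y - t • H.vk N k) - fnu ν k (y - x - t • H.vk N k))‖ₑ ∂(mb r)) ^ 2) +
            ENNReal.ofReal (2 * 41 ^ 6) * ∫⁻ t in Icc (-T) T, ∫⁻ y, (∑ k ∈ grd N', ν' k (y - t • H.vk N' k)) ^ 2 := by
            have e1 : ∀ t : ℝ, ∫⁻ y, (2 * (∫⁻ x, ‖∑ k ∈ grd N, (fnu ν k (y - t • H.vk N k) - fnu ν k (y - x - t • H.vk N k))‖ₑ ∂(mb r)) ^ 2 +
                ENNReal.ofReal (2 * 41 ^ 6) * (∑ k ∈ grd N', ν' k (y - t • H.vk N' k)) ^ 2) =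
                2 * (∫⁻ y, (∫⁻ x, ‖∑ k ∈ grd N, (fnu ν k (y - t • H.vk N k) - fnu ν k (y - x - t • H.vk N k))‖ₑ ∂(mb r)) ^ 2) +
                ENNReal.ofReal (2 * 41 ^ 6) * ∫⁻ y, (∑ k ∈ grd N', ν' k (y - t • H.vk N' k)) ^ 2 := by
              intro t
              have hm2 : Measurable (fun y : E3 => ENNReal.ofReal (2 * 41 ^ 6) * (∑ k ∈ grd N', ν' k (y - t • H.vk N' k)) ^ 2) :=
                (hm1.comp (measurable_const.prodMk measurable_id)).const_mul _
              rw [lintegral_add_right _ hm2,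
                lintegral_const_mul' _ _ (by norm_num), lintegral_const_mul' _ _ ENNReal.ofReal_ne_top]
            simp_rw [e1]
            rw [lintegral_add_right _ ((hm1.lintegral_prod_right').const_mul _),
                lintegral_const_mul' _ _ (by norm_num), lintegral_const_mul' _ _ ENNReal.ofReal_ne_top]
        _ ≤ 2 * (ENNReal.ofReal (80 * C * K * N * T * D) * Eng N ν) +
            ENNReal.ofReal (2 * 41 ^ 6) * (ENNReal.ofReal (Cs * D * N' * T) * Eng N ν) := by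
            gcongr
        _ = ENNReal.ofReal (2 * (80 * C * K * N * T * D) + 2 * 41 ^ 6 * (Cs * D * N' * T)) * Eng N ν := by
            rw [← mul_assoc, ← mul_assoc, ← add_mul]
            congr 1
            have hA : 0 ≤ 80 * C * K * N * T * D := by positivity
            have hB : 0 ≤ Cs * D * N' * T := by positivity
            rw [ENNReal.ofReal_add (by positivity) (by positivity), ENNReal.ofReal_mul (p := 2) (q := 80 * C * K * N * T * D) (by norm_num),
              ENNReal.ofReal_mul (p := 2 * 41 ^ 6) (q := Cs * D * N' * T) (by norm_num), ENNReal.ofReal_ofNat]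
        _ ≤ ENNReal.ofReal (Cs * D * N * T) * Eng N ν := by
            refine mul_le_mul' (ENNReal.ofReal_le_ofReal ?_) le_rfl
            calc 2 * (80 * C * K * N * T * D) + 2 * 41 ^ 6 * (Cs * D * N' * T) ≤
                2 * (80 * C * K * N * T * D) + 2 * 41 ^ 6 * (Cs * D * (2 * (N / K)) * T) := by gcongr
              _ = (160 * C * K + 4 * 41 ^ 6 / K * Cs) * (D * N * T) := by ring
              _ = (160 * C * K + 1 / 2 * Cs) * (D * N * T) := by
                  congr 3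
                  rw [hKr]
                  norm_num
              _ ≤ Cs * (D * N * T) := by
                  have : 160 * C * K + 1 / 2 * Cs ≤ Cs := by
                    rw [hCs]; linarith
                  gcongr
              _ = Cs * D * N * T := by ring

/-- [NIK] from [NIKt] -/
theorem nik_of (h : StNIKt) : StNIK := by
  obtain ⟨C, hC, h⟩ := h
  intro B C0 _ _
  refine ⟨4 * C, by positivity, ?_⟩
  intro N R D H ν hN hR _ hH hD0 hν _ hD hE
  have hNr : (1:ℝ) ≤ N := by exact_mod_cast hN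
  have hR0 : 0 < R := lt_of_lt_of_le (by positivity) hR
  have h1 := h N (4 * R) D H ν hN (by positivity) hH hD0 hν hD hE
  refine (le_of_eq ?_).trans (h1.trans (le_of_eq ?_))
  · refine lintegral_congr fun t => lintegral_congr fun y => ?_
    unfold Hyp.Wu Hyp.vk
    simp_rw [bp_zt]
  · congr 2
    ring

end Vale.Agent.P106.G
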