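import Vale.Agent.P106.G.Caps

/-! # The cap projections -/

open MeasureTheory Complex Set Filter
open scoped ENNReal NNReal ContDiff FourierTransform Topology SchwartzMap

set_option linter.all false

namespace Vale.Agent.P106.G

open Vale.Agent.P117 (Adm contDiff_st)

theorem inv_AT {A : Matrix (Fin 3) (Fin 3) ℝ} (h : A.det ≠ 0) (M : E3 → ℂ) (y : E3) :
    𝓕⁻ M y = (|A.det| : ℝ) • 𝓕⁻ (fun ξ => M (mat3 A ξ)) (mat3 A.transpose y) := by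
  rw [Real.fourierInv_eq', Real.fourierInv_eq']
  have h1 := integral_mat3 h (fun v : E3 => cexp (((2 * Real.pi * inner ℝ v y : ℝ) : ℂ) * I) • M v)
  have h2 : ∀ ξ : E3, inner ℝ (mat3 A ξ) y = inner ℝ ξ (mat3 A.transpose y) := by
    intro ξ
    rw [real_inner_comm, ← inner_mat3, real_inner_comm]
  simp only [h2] at h1
  rw [h1, smul_smul, abs_inv, mul_inv_cancel₀ (abs_ne_zero.2 h), one_smul]

theorem kn_AT {A : Matrix (Fin 3) (Fin 3) ℝ} (h : A.det ≠ 0) (M : E3 → ℂ) : kn M = kn (fun ξ => M (mat3 A ξ)) := by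
  unfold kn
  have ht : A.transpose.det ≠ 0 := by rwa [Matrix.det_transpose]
  have e : ∀ y : E3, ‖𝓕⁻ M y‖ₑ = ENNReal.ofReal |A.det| * ‖𝓕⁻ (fun ξ => M (mat3 A ξ)) (mat3 A.transpose y)‖ₑ := by
    intro y
    rw [inv_AT h M y, enorm_smul]
    congr 1
    rw [← ofReal_norm, Real.norm_of_nonneg (abs_nonneg _)]
  simp_rw [e]
  rw [lintegral_const_mul' _ _ ENNReal.ofReal_ne_top, lintegral_mat3 ht (fun x => ‖𝓕⁻ (fun ξ => M (mat3 A ξ)) x‖ₑ),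
    Matrix.det_transpose, ← mul_assoc, ← ENNReal.ofReal_mul (abs_nonneg _), abs_inv,
    mul_inv_cancel₀ (abs_ne_zero.2 h), ENNReal.ofReal_one, one_mul]

theorem em_zero (H : Hyp) (M : E3 → ℂ) : H.em 0 M = M := by
  ext ξ
  unfold Hyp.em
  simp

section
variable {H : Hyp} (hH : H.ok2) {K : ℝ} (hK : 5 ≤ K) {k1 k2 : ℤ} (h1 : k1 ∈ ks K) (h2 : k2 ∈ ks K)
include hH hK h1 h2

theorem sub_ok2 : (H.sub (bk K k1) (bk K k2) K⁻¹).ok2 := by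
  have hK0 : 0 < K := by linarith
  obtain ⟨a1, a2⟩ := bk_bd hK h1
  obtain ⟨a3, a4⟩ := bk_bd hK h2
  exact hH.sub (by positivity) a1 a2 a3 a4

theorem m_bk : 1 ≤ H.m (bk K k1) (bk K k2) ∧ H.m (bk K k1) (bk K k2) ≤ 2 := by
  have hK0 : 0 < K⁻¹ := by have : 0 < K := by linarith
                           positivity
  obtain ⟨a1, a2⟩ := bk_bd hK h1
  obtain ⟨a3, a4⟩ := bk_bd hK h2
  exact hH.m_bd a1 (by linarith) a3 (by linarith)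

theorem kn_pk {c : ℝ} (hc : 0 < c) (hc1 : c ≤ 1) : kn (H.mu (chiP c) (pkP K k1) (pkP K k2)) =
    kn ((H.sub (bk K k1) (bk K k2) K⁻¹).mu (chiP c) psvP psvP) := by
  have hK0 : 0 < K := by linarith
  have hm := m_bk hH hK h1 h2
  have hm0 : 0 < H.m (bk K k1) (bk K k2) := by linarith [hm.1]
  have hτ : 0 < K⁻¹ := by positivity
  rw [kn_AT (AT_det_ne (H := H) (β1 := bk K k1) (β2 := bk K k2) (τ := K⁻¹) hm0 hτ)]
  congr 1
  ext ξ
  have e1 : (fun t => pkP K k1 (bk K k1 + K⁻¹ * t)) = psvP := by ext t; exact pkP_bk hK0 k1 t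
  have e2 : (fun t => pkP K k2 (bk K k2 + K⁻¹ * t)) = psvP := by ext t; exact pkP_bk hK0 k2 t
  have := (mu_AT (hH.ok.bd) ((sub_ok2 hH hK h1 h2).ok.bd) hm0 hτ (r1_chiP hc hc1) (vc_pkP hK h1) (vc_pkP hK h2)
    (by rw [e1]; exact vcut_psvP.vc) (by rw [e2]; exact vcut_psvP.vc) ξ).1
  rw [this, e1, e2]

end

theorem norm_mu_le {H : Hyp} {χ φ1 φ2 : ℝ → ℂ} (hχ : ∀ t, ‖χ t‖ ≤ 1) (ξ : E3) :
    ‖H.mu χ φ1 φ2 ξ‖ₑ ≤ ‖φ1 (H.Om ξ 1 / H.Om ξ 0)‖ₑ * ‖φ2 (H.Om ξ 2 / H.Om ξ 0)‖ₑ := by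
  unfold Hyp.mu
  rw [enorm_mul, enorm_mul, enorm_mul]
  have h1 : ‖(Real.smoothTransition (4 * H.B ξ - 1) : ℂ)‖ₑ ≤ 1 := by
    rw [← ofReal_norm, ← ENNReal.ofReal_one]; exact ENNReal.ofReal_le_ofReal (norm_st_le _)
  have h2 : ‖χ (H.Om ξ 0)‖ₑ ≤ 1 := by
    rw [← ofReal_norm, ← ENNReal.ofReal_one]; exact ENNReal.ofReal_le_ofReal (hχ _)
  calc _ ≤ 1 * (1 * (‖φ1 (H.Om ξ 1 / H.Om ξ 0)‖ₑ * ‖φ2 (H.Om ξ 2 / H.Om ξ 0)‖ₑ)) := by gcongr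
    _ = _ := by rw [one_mul, one_mul]

/-- the cap projections are bounded from `L^p` to `ℓ^p L^p` -/
theorem Pk_bound {p c : ℝ} (hp : 2 < p) (hc : 0 < c) (hc1 : c ≤ 1) : ∃ C : ℝ, 0 ≤ C ∧ ∀ (H : Hyp) (K : ℝ) (g : E3 → ℂ),
    H.ok2 → 5 ≤ K → Adm volume g →
    ∑ k ∈ ks K ×ˢ ks K, ∫⁻ x, ‖mop (H.mu (chiP c) (pkP K k.1) (pkP K k.2)) g x‖ₑ ^ p ≤
      ENNReal.ofReal C * ∫⁻ x, ‖g x‖ₑ ^ p := by
  obtain ⟨B, hB, hBk⟩ := ker_L1 (r1_chiP hc hc1).toRcut vcut_psvP.vc vcut_psvP.vc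
  have hp2 : 0 < p - 2 := by linarith
  refine ⟨4 * p * 4 * (2 * (B + 1)) ^ (p - 2) / (p - 2), by positivity, ?_⟩
  intro H K g hH hK hg
  classical
  set ι := {k : ℤ × ℤ // k ∈ ks K ×ˢ ks K} with hι
  have hmem : ∀ k : ι, k.1.1 ∈ ks K ∧ k.1.2 ∈ ks K := fun k => Finset.mem_product.1 k.2
  have hsm : ∀ k : ι, Sm (H.mu (chiP c) (pkP K k.1.1) (pkP K k.1.2)) := fun k =>
    sm_mu hH.ok (r1_chiP hc hc1).toRcut (vc_pkP hK (hmem k).1) (vc_pkP hK (hmem k).2)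
  have hkn : ∀ k : ι, kn (H.mu (chiP c) (pkP K k.1.1) (pkP K k.1.2)) ≤ ENNReal.ofReal (B + 1) := by
    intro k
    rw [kn_pk hH hK (hmem k).1 (hmem k).2 hc hc1]
    have := hBk _ (sub_ok2 hH hK (hmem k).1 (hmem k).2).ok 0
    rw [em_zero] at this
    refine this.trans (ENNReal.ofReal_le_ofReal ?_)
    simp
  set T : (E3 → ℂ) → E3 × ι → ℝ≥0∞ := fun f y => ‖mop (H.mu (chiP c) (pkP K y.2.1.1) (pkP K y.2.1.2)) f y.1‖ₑ with hT
  have hTm : ∀ f, Adm volume f → Measurable (T f) := by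
    intro f hf
    apply measurable_from_prod_countable_left
    intro k
    exact (mop_cont (hsm k) hf).measurable.enorm
  have hsum : ∀ F : E3 × ι → ℝ≥0∞, Measurable F →
      ∫⁻ y, F y ∂((volume : Measure E3).prod (Measure.count : Measure ι)) = ∑ k : ι, ∫⁻ x, F (x, k) := by
    intro F hF
    rw [lintegral_prod _ hF.aemeasurable]
    simp_rw [lintegral_count, tsum_fintype]
    rw [lintegral_finset_sum]
    intro k _
    exact hF.comp (by fun_prop)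
  have hatt : ∀ G : ℤ × ℤ → ℝ≥0∞, ∑ k ∈ ks K ×ˢ ks K, G k = ∑ k : ι, G k.1 := by
    intro G
    exact (Finset.sum_coe_sort (ks K ×ˢ ks K) G).symm
  have hmain := interp_gen (volume : Measure E3) ((volume : Measure E3).prod (Measure.count : Measure ι)) T
    (A := 4) (B := B + 1) (by norm_num) (by positivity) hp hTm ?_ ?_ ?_ hg
  · rw [hsum _ ((hTm g hg).pow_const p)] at hmain
    rw [hatt (fun k => ∫⁻ x, ‖mop (H.mu (chiP c) (pkP K k.1) (pkP K k.2)) g x‖ₑ ^ p)]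
    exact hmain
  · intro f g hf hg y
    simp only [hT]
    rw [mop_add (hsm y.2) hf hg]
    exact enorm_add_le _ _
  · intro f hf
    rw [hsum _ ((hTm f hf).pow_const 2)]
    calc ∑ k : ι, ∫⁻ x, T f (x, k) ^ 2 ≤ ∑ k : ι, ∫⁻ ξ, ‖H.mu (chiP c) (pkP K k.1.1) (pkP K k.1.2) ξ‖ₑ ^ 2 * ‖𝓕 f ξ‖ₑ ^ 2 :=
          Finset.sum_le_sum fun k _ => mop_L2 (hsm k) hf
      _ = ∫⁻ ξ, (∑ k : ι, ‖H.mu (chiP c) (pkP K k.1.1) (pkP K k.1.2) ξ‖ₑ ^ 2) * ‖𝓕 f ξ‖ₑ ^ 2 := by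
          rw [← lintegral_finset_sum]
          · refine lintegral_congr fun ξ => ?_
            rw [Finset.sum_mul]
          · intro k _
            exact ((hsm k).smooth.continuous.measurable.enorm.pow_const 2).mul
              ((Vale.Agent.P117.continuous_fourier hf.int).measurable.enorm.pow_const 2)
      _ ≤ ∫⁻ ξ, 4 * ‖𝓕 f ξ‖ₑ ^ 2 := by
          refine lintegral_mono fun ξ => ?_
          gcongr
          set v1 := H.Om ξ 1 / H.Om ξ 0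
          set v2 := H.Om ξ 2 / H.Om ξ 0
          calc ∑ k : ι, ‖H.mu (chiP c) (pkP K k.1.1) (pkP K k.1.2) ξ‖ₑ ^ 2 ≤
              ∑ k : ι, ‖pkP K k.1.1 v1‖ₑ ^ 2 * ‖pkP K k.1.2 v2‖ₑ ^ 2 := by
                apply Finset.sum_le_sum
                intro k _
                rw [← mul_pow]
                gcongr
                exact norm_mu_le (norm_chiP_le c) ξ
            _ = ∑ k ∈ ks K ×ˢ ks K, ‖pkP K k.1 v1‖ₑ ^ 2 * ‖pkP K k.2 v2‖ₑ ^ 2 :=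
                (hatt (fun k => ‖pkP K k.1 v1‖ₑ ^ 2 * ‖pkP K k.2 v2‖ₑ ^ 2)).symm
            _ = (∑ k ∈ ks K, ‖pkP K k v1‖ₑ ^ 2) * ∑ k ∈ ks K, ‖pkP K k v2‖ₑ ^ 2 := by
                rw [Finset.sum_product, Finset.sum_mul_sum]
            _ ≤ 2 * 2 := mul_le_mul' (sum_pkP_le K v1 _) (sum_pkP_le K v2 _)
            _ = 4 := by norm_num
      _ = 4 * ∫⁻ ξ, ‖𝓕 f ξ‖ₑ ^ 2 := lintegral_const_mul' _ _ (by norm_num)
      _ ≤ 4 * ∫⁻ x, ‖f x‖ₑ ^ 2 := mul_le_mul' le_rfl (Vale.Agent.P117.lintegral_sq_fourier_le hf.int hf.meas)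
      _ = _ := by norm_num
  · intro f hf M hM y
    exact mop_sup (hsm y.2) hf (hkn y.2) hM y.1

end Vale.Agent.P106.G
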