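import Vale.Agent.P106.G.Crude

/-! # Pointwise inequalities -/

open MeasureTheory Complex Set
open scoped ENNReal NNReal ContDiff FourierTransform SchwartzMap ComplexConjugate

set_option linter.all false

namespace Vale.Agent.P106.G

open Vale.Agent.P106.Tri

/-- Hölder's inequality for caps -/
theorem holder_pt {ι : Type*} (s : Finset ι) (x S : ι → ℝ≥0∞) :
    (∑ i ∈ s, x i ^ 2) ^ (3/2 : ℝ) * ((∑ i ∈ s, S i) ^ (1/2 : ℝ))⁻¹ ≤ ∑ i ∈ s, x i ^ 3 * (S i ^ (1/2 : ℝ))⁻¹ := by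
  by_cases hSt : ∑ i ∈ s, S i = ⊤
  · rw [hSt]; simp
  have hSi : ∀ i ∈ s, S i ≠ ⊤ := fun i hi => ne_top_of_le_ne_top hSt (Finset.single_le_sum_of_canonicallyOrdered hi)
  by_cases hex : ∃ i ∈ s, x i ≠ 0 ∧ S i = 0
  · obtain ⟨i, hi, h1, h2⟩ := hex
    have : x i ^ 3 * (S i ^ (1/2 : ℝ))⁻¹ = ⊤ := by
      rw [h2, ENNReal.zero_rpow_of_pos (by norm_num), ENNReal.inv_zero, ENNReal.mul_top]
      exact pow_ne_zero _ h1
    have h3 : ∑ i ∈ s, x i ^ 3 * (S i ^ (1/2 : ℝ))⁻¹ = ⊤ := by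
      rw [ENNReal.sum_eq_top]
      exact ⟨i, hi, this⟩
    rw [h3]; exact le_top
  push Not at hex
  by_cases hS0 : ∑ i ∈ s, S i = 0
  · have h0 : ∀ i ∈ s, x i = 0 := by
      intro i hi
      by_contra hc
      have h1 := hex i hi hc
      rw [Finset.sum_eq_zero_iff] at hS0
      exact h1 (hS0 i hi)
    have : ∑ i ∈ s, x i ^ 2 = 0 := Finset.sum_eq_zero fun i hi => by rw [h0 i hi]; simp
    rw [this, ENNReal.zero_rpow_of_pos (by norm_num), zero_mul]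
    exact zero_le
  -- the main case
  have hH := ENNReal.inner_le_Lp_mul_Lq s (fun i => x i ^ 2 * (S i ^ (1/3 : ℝ))⁻¹) (fun i => S i ^ (1/3 : ℝ))
    (p := 3/2) (q := 3) (by constructor <;> norm_num)
  have e1 : ∑ i ∈ s, x i ^ 2 ≤ ∑ i ∈ s, x i ^ 2 * (S i ^ (1/3 : ℝ))⁻¹ * S i ^ (1/3 : ℝ) := by
    refine Finset.sum_le_sum fun i hi => ?_
    by_cases hx : x i = 0
    · rw [hx]; simp
    · have h1 := hex i hi hx
      have h2 : S i ^ (1/3 : ℝ) ≠ 0 := by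
        rw [ne_eq, ENNReal.rpow_eq_zero_iff]
        push Not
        exact ⟨fun h => absurd h h1, fun h => absurd h (hSi i hi)⟩
      have h3 : S i ^ (1/3 : ℝ) ≠ ⊤ := ENNReal.rpow_ne_top_of_nonneg (by norm_num) (hSi i hi)
      rw [mul_assoc, ENNReal.inv_mul_cancel h2 h3, mul_one]
  have e2 : ∀ i, (x i ^ 2 * (S i ^ (1/3 : ℝ))⁻¹) ^ (3/2 : ℝ) = x i ^ 3 * (S i ^ (1/2 : ℝ))⁻¹ := by
    intro i
    rw [ENNReal.mul_rpow_of_nonneg _ _ (by norm_num), ENNReal.inv_rpow, ← ENNReal.rpow_mul, ← ENNReal.rpow_natCast,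
      ← ENNReal.rpow_mul, ← ENNReal.rpow_natCast]
    norm_num
  have e3 : ∀ i, (S i ^ (1/3 : ℝ)) ^ (3 : ℝ) = S i := by
    intro i
    rw [← ENNReal.rpow_mul]; norm_num
  simp only [e2, e3] at hH
  have h4 := e1.trans hH
  have hs0 : (∑ i ∈ s, S i) ^ (1/2 : ℝ) ≠ 0 := by
    rw [ne_eq, ENNReal.rpow_eq_zero_iff]
    push Not
    exact ⟨fun h => absurd h hS0, fun h => absurd h hSt⟩
  have hst : (∑ i ∈ s, S i) ^ (1/2 : ℝ) ≠ ⊤ := ENNReal.rpow_ne_top_of_nonneg (by norm_num) hSt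
  calc (∑ i ∈ s, x i ^ 2) ^ (3/2 : ℝ) * ((∑ i ∈ s, S i) ^ (1/2 : ℝ))⁻¹ ≤
      ((∑ i ∈ s, x i ^ 3 * (S i ^ (1/2 : ℝ))⁻¹) ^ (1/(3/2) : ℝ) * (∑ i ∈ s, S i) ^ (1/3 : ℝ)) ^ (3/2 : ℝ) *
        ((∑ i ∈ s, S i) ^ (1/2 : ℝ))⁻¹ := by gcongr
    _ = (∑ i ∈ s, x i ^ 3 * (S i ^ (1/2 : ℝ))⁻¹) * ((∑ i ∈ s, S i) ^ (1/2 : ℝ) * ((∑ i ∈ s, S i) ^ (1/2 : ℝ))⁻¹) := by
        rw [ENNReal.mul_rpow_of_nonneg _ _ (by norm_num), ← ENNReal.rpow_mul, ← ENNReal.rpow_mul, mul_assoc]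
        norm_num
    _ = _ := by rw [ENNReal.mul_inv_cancel hs0 hst, mul_one]

/-- far apart indices -/
def Far (κ κ' : ℤ × ℤ) : Prop := 10 ≤ |κ.1 - κ'.1| ∨ 10 ≤ |κ.2 - κ'.2|

open Classical in
/-- the broad-narrow alternative -/
theorem bg_pt (K0 : ℕ) (hK : 1 ≤ K0) (x : ℤ × ℤ → ℝ≥0∞) :
    (∑ κ ∈ grd K0, x κ) ^ 3 ≤ 10 ^ 8 * ∑ κ ∈ grd K0, x κ ^ 3 +
      (K0:ℝ≥0∞) ^ 9 * ∑ p ∈ (grd K0 ×ˢ grd K0).filter (fun p => Far p.1 p.2), (x p.1 * x p.2) ^ (3/2 : ℝ) := by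
  have hne : (grd K0).Nonempty := by
    rw [← Finset.card_pos, card_grd]; positivity
  obtain ⟨κ₀, hκ₀, hmax⟩ := Finset.exists_max_image (grd K0) x hne
  have hK0 : (K0 : ℝ≥0∞) ≠ 0 := by
    simp only [ne_eq, Nat.cast_eq_zero]; omega
  have hKt : (K0 : ℝ≥0∞) ≠ ⊤ := ENNReal.natCast_ne_top _
  by_cases hB : ∃ κ ∈ grd K0, Far κ₀ κ ∧ x κ₀ ≤ (K0:ℝ≥0∞) ^ 2 * x κ
  · obtain ⟨κ, hκ, hf, hx⟩ := hB
    have h1 : ∑ κ ∈ grd K0, x κ ≤ (K0:ℝ≥0∞) ^ 2 * x κ₀ := by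
      calc ∑ κ ∈ grd K0, x κ ≤ ∑ κ ∈ grd K0, x κ₀ := Finset.sum_le_sum hmax
        _ = _ := by
          rw [Finset.sum_const, card_grd, nsmul_eq_mul]; push_cast; ring
    have h2 : ((K0:ℝ≥0∞) ^ 2 * x κ₀) ^ 3 ≤ (K0:ℝ≥0∞) ^ 9 * (x κ₀ * x κ) ^ (3/2 : ℝ) := by
      have e1 : x κ₀ ^ 3 = x κ₀ ^ (3/2 : ℝ) * x κ₀ ^ (3/2 : ℝ) := by
        rw [← ENNReal.rpow_add_of_nonneg _ _ (by norm_num) (by norm_num), ← ENNReal.rpow_natCast]
        norm_num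
      have e2 : ((K0:ℝ≥0∞) ^ 2 * x κ) ^ (3/2 : ℝ) = (K0:ℝ≥0∞) ^ 3 * x κ ^ (3/2 : ℝ) := by
        rw [ENNReal.mul_rpow_of_nonneg _ _ (by norm_num), ← ENNReal.rpow_natCast, ← ENNReal.rpow_natCast, ← ENNReal.rpow_mul]
        norm_num
      calc ((K0:ℝ≥0∞) ^ 2 * x κ₀) ^ 3 = (K0:ℝ≥0∞) ^ 6 * (x κ₀ ^ (3/2 : ℝ) * x κ₀ ^ (3/2 : ℝ)) := by rw [← e1]; ring
        _ ≤ (K0:ℝ≥0∞) ^ 6 * (x κ₀ ^ (3/2 : ℝ) * ((K0:ℝ≥0∞) ^ 2 * x κ) ^ (3/2 : ℝ)) := by gcongr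
        _ = _ := by
          rw [e2, ENNReal.mul_rpow_of_nonneg _ _ (by norm_num)]; ring
    calc _ ≤ ((K0:ℝ≥0∞) ^ 2 * x κ₀) ^ 3 := by gcongr
      _ ≤ (K0:ℝ≥0∞) ^ 9 * (x κ₀ * x κ) ^ (3/2 : ℝ) := h2
      _ ≤ (K0:ℝ≥0∞) ^ 9 * ∑ p ∈ (grd K0 ×ˢ grd K0).filter (fun p => Far p.1 p.2), (x p.1 * x p.2) ^ (3/2 : ℝ) := by
          gcongr
          have hm : (κ₀, κ) ∈ (grd K0 ×ˢ grd K0).filter (fun p => Far p.1 p.2) := by
            rw [Finset.mem_filter, Finset.mem_product]; exact ⟨⟨hκ₀, hκ⟩, hf⟩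
          exact Finset.single_le_sum_of_canonicallyOrdered (f := fun p : (ℤ × ℤ) × (ℤ × ℤ) => (x p.1 * x p.2) ^ (3/2 : ℝ)) hm
      _ ≤ _ := le_add_self
  · push Not at hB
    -- near and far parts
    have h1 : ∑ κ ∈ (grd K0).filter (fun κ => ¬ Far κ₀ κ), x κ ≤ 361 * x κ₀ := by
      have hsub : (grd K0).filter (fun κ => ¬ Far κ₀ κ) ⊆ Finset.Icc (κ₀.1 - 9) (κ₀.1 + 9) ×ˢ Finset.Icc (κ₀.2 - 9) (κ₀.2 + 9) := by
        intro κ hκ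
        rw [Finset.mem_filter] at hκ
        obtain ⟨_, h2⟩ := hκ
        unfold Far at h2
        push Not at h2
        obtain ⟨h3, h4⟩ := h2
        rw [abs_lt] at h3 h4
        rw [Finset.mem_product, Finset.mem_Icc, Finset.mem_Icc]
        exact ⟨⟨by omega, by omega⟩, by omega, by omega⟩
      have hcard : ((grd K0).filter (fun κ => ¬ Far κ₀ κ)).card ≤ 361 := by
        refine (Finset.card_le_card hsub).trans ?_
        rw [Finset.card_product, Int.card_Icc, Int.card_Icc]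
        have e1 : (κ₀.1 + 9 + 1 - (κ₀.1 - 9)).toNat = 19 := by
          have : κ₀.1 + 9 + 1 - (κ₀.1 - 9) = 19 := by ring
          rw [this]; rfl
        have e2 : (κ₀.2 + 9 + 1 - (κ₀.2 - 9)).toNat = 19 := by
          have : κ₀.2 + 9 + 1 - (κ₀.2 - 9) = 19 := by ring
          rw [this]; rfl
        rw [e1, e2]
      calc _ ≤ ∑ κ ∈ (grd K0).filter (fun κ => ¬ Far κ₀ κ), x κ₀ :=
            Finset.sum_le_sum fun κ hκ => hmax κ (Finset.mem_filter.1 hκ).1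
        _ = ((grd K0).filter (fun κ => ¬ Far κ₀ κ)).card * x κ₀ := by rw [Finset.sum_const, nsmul_eq_mul]
        _ ≤ _ := by
          gcongr
          exact_mod_cast hcard
    have h2 : ∑ κ ∈ (grd K0).filter (fun κ => Far κ₀ κ), x κ ≤ x κ₀ := by
      have h3 : (K0:ℝ≥0∞) ^ 2 * ∑ κ ∈ (grd K0).filter (fun κ => Far κ₀ κ), x κ ≤ (K0:ℝ≥0∞) ^ 2 * x κ₀ := by
        rw [Finset.mul_sum]
        calc _ ≤ ∑ κ ∈ (grd K0).filter (fun κ => Far κ₀ κ), x κ₀ := by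
              refine Finset.sum_le_sum fun κ hκ => ?_
              rw [Finset.mem_filter] at hκ
              exact (hB κ hκ.1 hκ.2).le
          _ = ((grd K0).filter (fun κ => Far κ₀ κ)).card * x κ₀ := by rw [Finset.sum_const, nsmul_eq_mul]
          _ ≤ _ := by
            gcongr
            have : ((grd K0).filter (fun κ => Far κ₀ κ)).card ≤ K0 ^ 2 := by
              rw [← card_grd K0]; exact Finset.card_filter_le _ _
            exact_mod_cast this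
      exact (ENNReal.mul_le_mul_iff_right (pow_ne_zero _ hK0) (ENNReal.pow_ne_top hKt)).1 h3
    have h3 : ∑ κ ∈ grd K0, x κ ≤ 362 * x κ₀ := by
      rw [← Finset.sum_filter_add_sum_filter_not (grd K0) (fun κ => Far κ₀ κ)]
      calc _ ≤ x κ₀ + 361 * x κ₀ := add_le_add h2 h1
        _ = _ := by ring
    calc _ ≤ (362 * x κ₀) ^ 3 := by gcongr
      _ = 362 ^ 3 * x κ₀ ^ 3 := by rw [mul_pow]
      _ ≤ 10 ^ 8 * ∑ κ ∈ grd K0, x κ ^ 3 := by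
          refine mul_le_mul' (by norm_num) ?_
          exact Finset.single_le_sum_of_canonicallyOrdered (f := fun κ => x κ ^ 3) hκ₀
      _ ≤ _ := le_self_add

theorem add_rpow_q {p : ℝ} (hp : 0 ≤ p) (x y : ℝ≥0∞) : (x + y) ^ p ≤ 2 ^ p * (x ^ p + y ^ p) := by
  have h1 : x + y ≤ 2 * max x y := by
    rw [two_mul]
    exact add_le_add (le_max_left _ _) (le_max_right _ _)
  calc (x + y) ^ p ≤ (2 * max x y) ^ p := by gcongr
    _ = 2 ^ p * (max x y) ^ p := ENNReal.mul_rpow_of_nonneg _ _ hp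
    _ ≤ _ := by
      gcongr
      rcases le_total x y with h | h
      · rw [max_eq_right h]; exact le_add_self
      · rw [max_eq_left h]; exact le_self_add

open Classical in
/-- sums of functions with finite overlap -/
theorem overlap_pt {ι α : Type*} (s : Finset ι) (h : ι → α → ℂ) (P : ℕ)
    (hP : ∀ i ∈ s, (s.filter (fun j => ∃ ζ, h i ζ ≠ 0 ∧ h j ζ ≠ 0)).card ≤ P) (ζ : α) :
    ‖∑ i ∈ s, h i ζ‖ₑ ^ 2 ≤ P * ∑ i ∈ s, ‖h i ζ‖ₑ ^ 2 := by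
  have e : ∑ i ∈ s, h i ζ = ∑ i ∈ s.filter (fun i => h i ζ ≠ 0), h i ζ := by
    rw [Finset.sum_filter_ne_zero]
  have hc : (s.filter (fun i => h i ζ ≠ 0)).card ≤ P := by
    rcases (s.filter (fun i => h i ζ ≠ 0)).eq_empty_or_nonempty with he | ⟨i, hi⟩
    · rw [he]; simp
    · rw [Finset.mem_filter] at hi
      refine (Finset.card_le_card ?_).trans (hP i hi.1)
      intro j hj
      rw [Finset.mem_filter] at hj ⊢
      exact ⟨hj.1, ζ, hi.2, hj.2⟩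
  rw [e]
  refine (enorm_sum_sq_le _ _).trans ?_
  have h2 : ((s.filter (fun i => h i ζ ≠ 0)).card : ℝ≥0∞) ≤ (P : ℝ≥0∞) := by exact_mod_cast hc
  refine mul_le_mul' h2 ?_
  exact Finset.sum_le_sum_of_subset (Finset.filter_subset _ _)

end Vale.Agent.P106.G
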