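import Vale.Agent.P106.G.RecB

/-! # Induction on scales -/

open MeasureTheory Complex Set Filter
open scoped ENNReal NNReal ContDiff FourierTransform Topology SchwartzMap

set_option linter.all false

namespace Vale.Agent.P106.G

open Vale.Agent.P117 (Adm contDiff_st)

theorem piece_U {H : Hyp} (hH : H.ok2) {c0 K : ℝ} (hc0 : 0 < c0) (hc1 : c0 ≤ 1) (hK : 5 ≤ K) {k : ℤ × ℤ}
    (h1 : k.1 ∈ ks K) (h2 : k.2 ∈ ks K) {h : E3 → ℂ} (hh : Adm volume h) (t : ℝ) :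
    H.U (Mk H c0 K k) h t = H.U (H.mu (chi0 c0) (pk K k.1) (pk K k.2))
      (mop (H.mu (chiP c0) (pkP K k.1) (pkP K k.2)) (mop (H.mu (chiP c0) psv psv) h)) t := by
  have s1 : Sm (H.mu (chiP c0) (pkP K k.1) (pkP K k.2)) :=
    sm_mu hH.ok (r1_chiP hc0 hc1).toRcut (vc_pkP hK h1) (vc_pkP hK h2)
  have s2 : Sm (H.mu (chiP c0) psv psv) := sm_mu hH.ok (r1_chiP hc0 hc1).toRcut vcut_psv.vc vcut_psv.vc
  rw [U_eq, U_eq, mop_mop s2 hh, mop_mop (s1.mul s2) hh]
  congr 1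
  ext ξ
  unfold Hyp.em
  rw [← Mk_eq hH hc0 hc1 hK h1 h2 ξ]
  ring

theorem of_lin {a b x y : ℝ} (ha : 0 ≤ a) (hb : 0 ≤ b) (hx : 0 ≤ x) (hy : 0 ≤ y) (I : ℝ≥0∞) :
    ENNReal.ofReal a * (ENNReal.ofReal x * I) + ENNReal.ofReal b * (ENNReal.ofReal y * I) =
      ENNReal.ofReal (a * x + b * y) * I := by
  rw [ENNReal.ofReal_add (by positivity) (by positivity), ENNReal.ofReal_mul ha, ENNReal.ofReal_mul hb]
  ring

theorem rec_LS {p α c0 : ℝ} (hp : 2 < p) (hα : 0 < α) (hc0 : 0 < c0) (hc1 : c0 ≤ 1) (hBL : StBL p α c0) : StLS2 p α c0 := by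
  obtain ⟨Cp, hCp, hPk⟩ := Pk_bound hp hc0 hc1
  obtain ⟨B, hB, hBk⟩ := ker_L1 (r1_chiP hc0 hc1).toRcut vcut_psv.vc vcut_psv.vc
  obtain ⟨Ct, hCt, htriv⟩ := triv_bd (r1_chi0 hc0 hc1).toRcut vcut_psv.vc vcut_psv.vc (p := p) (by linarith)
  have hp0 : 0 < p := by linarith
  have hap : 0 < α * p := by positivity
  -- choice of `K`
  obtain ⟨K, hK, hKs⟩ : ∃ K : ℝ, 5 ≤ K ∧ 26 ^ p * (K ^ (-(2 * (α * p))) * (Cp * B ^ p)) ≤ 1/2 := by
    have h1 : Tendsto (fun K : ℝ => 26 ^ p * (K ^ (-(2 * (α * p))) * (Cp * B ^ p))) atTop (𝓝 (26 ^ p * (0 * (Cp * B ^ p)))) :=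
      ((tendsto_rpow_neg_atTop (by positivity)).mul_const _).const_mul _
    rw [zero_mul, mul_zero] at h1
    have h2 := (h1.eventually (ge_mem_nhds (show (0:ℝ) < 1/2 by norm_num))).and (eventually_ge_atTop (5:ℝ))
    obtain ⟨K, hK1, hK2⟩ := h2.exists
    exact ⟨K, hK2, hK1⟩
  have hK0 : 0 < K := by linarith
  set S := ks K ×ˢ ks K with hS
  -- bilinear constants
  have hbil : ∀ q ∈ nap S, ∃ C : ℝ, 0 ≤ C ∧ ∀ (R : ℝ) (H : Hyp) (h : E3 → ℂ), 1 ≤ R → H.ok → Adm volume h →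
      DI R (fun t y => (‖H.U (Mk H c0 K q.1) h t y‖ₑ * ‖H.U (Mk H c0 K q.2) h t y‖ₑ) ^ (p / 2)) ≤
      ENNReal.ofReal (C * R ^ (α * p + 1)) * ∫⁻ y, ‖h y‖ₑ ^ p := by
    intro q hq
    have hadj := (Finset.mem_filter.1 hq).2
    exact hBL (1 / (2 * K)) (fun v => psv v * pk K q.1.1 v) (fun v => psv v * pk K q.1.2 v)
      (fun v => psv v * pk K q.2.1 v) (fun v => psv v * pk K q.2.2 v) (by positivity) (vcut_Mk hK) (vcut_Mk hK)
      (vcut_Mk hK) (vcut_Mk hK) (fun v1 v2 v1' v2' h1 h2 => nap_sep hK hadj v1 v2 v1' v2' h1 h2)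
  choose! Cq hCq hq using hbil
  set N : ℝ := (S.card : ℝ) with hN
  set Cb : ℝ := (N ^ 2) ^ p * ∑ q ∈ nap S, Cq q with hCb
  have hCs : 0 ≤ ∑ q ∈ nap S, Cq q := Finset.sum_nonneg fun q hqq => hCq q hqq
  have hCb0 : 0 ≤ Cb := by positivity
  set C := max (Ct * (2 * K ^ 2) ^ (4 * p)) (2 * Cb) with hC
  have hC0 : 0 ≤ C := le_max_of_le_left (by positivity)
  refine ⟨C, hC0, ?_⟩
  have main : ∀ n : ℕ, ∀ (R : ℝ) (H : Hyp) (h : E3 → ℂ), 1 ≤ R → R ≤ 2 ^ n → H.ok2 → Adm volume h →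
      DI R (fun t y => ‖H.U (H.mu (chi0 c0) psv psv) h t y‖ₑ ^ p) ≤
      ENNReal.ofReal (C * R ^ (α * p + 1)) * ∫⁻ y, ‖h y‖ₑ ^ p := by
    intro n
    induction n with
    | zero =>
      intro R H h hR hRn hH hh
      refine (htriv R H h hR hH.ok hh).trans (mul_le_mul' (ENNReal.ofReal_le_ofReal ?_) le_rfl)
      have hR1 : R = 1 := le_antisymm (by simpa using hRn) hR
      rw [hR1]
      simp only [Real.one_rpow, mul_one]
      refine le_trans ?_ (le_max_left _ _)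
      have : 1 ≤ (2 * K ^ 2) ^ (4 * p) := Real.one_le_rpow (by nlinarith) (by positivity)
      nlinarith
    | succ n ih =>
      intro R H h hR hRn hH hh
      have hR0 : 0 < R := by linarith
      by_cases hRK : R ≤ 2 * K ^ 2
      · refine (htriv R H h hR hH.ok hh).trans (mul_le_mul' (ENNReal.ofReal_le_ofReal ?_) le_rfl)
        have h1 : R ^ (4 * p) ≤ (2 * K ^ 2) ^ (4 * p) := Real.rpow_le_rpow hR0.le hRK (by positivity)
        have h2 : R ≤ R ^ (α * p + 1) := by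
          calc R = R ^ (1:ℝ) := (Real.rpow_one R).symm
            _ ≤ R ^ (α * p + 1) := Real.rpow_le_rpow_of_exponent_le hR (by linarith)
        calc Ct * (R ^ (4 * p) * R) ≤ Ct * ((2 * K ^ 2) ^ (4 * p) * R ^ (α * p + 1)) := by gcongr
          _ = Ct * (2 * K ^ 2) ^ (4 * p) * R ^ (α * p + 1) := by ring
          _ ≤ _ := by
              gcongr
              exact le_max_left _ _
      · push Not at hRK
        have hind : ∀ (R' : ℝ) (H' : Hyp) (h' : E3 → ℂ), 1 ≤ R' → R' ≤ R / K ^ 2 → H'.ok2 → Adm volume h' →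
            DI R' (fun t y => ‖H'.U (H'.mu (chi0 c0) psv psv) h' t y‖ₑ ^ p) ≤
            ENNReal.ofReal (C * R' ^ (α * p + 1)) * ∫⁻ y, ‖h' y‖ₑ ^ p := by
          intro R' H' h' hR' hR'2 hH' hh'
          apply ih R' H' h' hR' ?_ hH' hh'
          refine hR'2.trans ?_
          rw [div_le_iff₀ (by positivity)]
          calc R ≤ 2 ^ (n + 1) := hRn
            _ = 2 ^ n * 2 := by ring
            _ ≤ 2 ^ n * K ^ 2 := by
                gcongr
                nlinarith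
        have hsmM : ∀ k : ℤ × ℤ, Sm (Mk H c0 K k) := fun k =>
          sm_mu hH.ok (r1_chi0 hc0 hc1).toRcut (vcut_Mk hK).vc (vcut_Mk hK).vc
        have hcM : ∀ k : ℤ × ℤ, Measurable (fun z : ℝ × E3 => ‖H.U (Mk H c0 K k) h z.1 z.2‖ₑ) := fun k =>
          (cont_U H (hsmM k).int hh.int).measurable.enorm
        have hpw : ∀ t y, ‖H.U (H.mu (chi0 c0) psv psv) h t y‖ₑ ^ p ≤
            ENNReal.ofReal (26 ^ p) * ∑ k ∈ S, ‖H.U (Mk H c0 K k) h t y‖ₑ ^ p +
            ENNReal.ofReal ((N ^ 2) ^ p) * ∑ q ∈ nap S, (‖H.U (Mk H c0 K q.1) h t y‖ₑ * ‖H.U (Mk H c0 K q.2) h t y‖ₑ) ^ (p / 2) := by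
          intro t y
          rw [U_sum H S (M := Mk H c0 K) (fun k _ => (hsmM k).int) hh.int (Mk_sum H c0 hK0) t y]
          exact bn_pw S _ hp0
        have hm1 : ∀ k : ℤ × ℤ, Measurable (fun z : ℝ × E3 => ‖H.U (Mk H c0 K k) h z.1 z.2‖ₑ ^ p) := fun k =>
          (hcM k).pow_const p
        have hm2 : ∀ q : (ℤ × ℤ) × (ℤ × ℤ), Measurable (fun z : ℝ × E3 =>
            (‖H.U (Mk H c0 K q.1) h z.1 z.2‖ₑ * ‖H.U (Mk H c0 K q.2) h z.1 z.2‖ₑ) ^ (p / 2)) := fun q =>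
          ((hcM q.1).mul (hcM q.2)).pow_const _
        set g0 := mop (H.mu (chiP c0) psv psv) h with hg0
        have s2 : Sm (H.mu (chiP c0) psv psv) := sm_mu hH.ok (r1_chiP hc0 hc1).toRcut vcut_psv.vc vcut_psv.vc
        have hg0a : Adm volume g0 := mop_adm s2 hh
        have hnar : ∑ k ∈ S, DI R (fun t y => ‖H.U (Mk H c0 K k) h t y‖ₑ ^ p) ≤
            ENNReal.ofReal (C * (K ^ (-(2 * (α * p))) * R ^ (α * p + 1)) * (Cp * B ^ p)) * ∫⁻ y, ‖h y‖ₑ ^ p := by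
          calc ∑ k ∈ S, DI R (fun t y => ‖H.U (Mk H c0 K k) h t y‖ₑ ^ p) ≤
              ∑ k ∈ S, ENNReal.ofReal (C * (K ^ (-(2 * (α * p))) * R ^ (α * p + 1))) *
                ∫⁻ y, ‖mop (H.mu (chiP c0) (pkP K k.1) (pkP K k.2)) g0 y‖ₑ ^ p := by
                apply Finset.sum_le_sum
                intro k hk
                obtain ⟨k1, k2⟩ := Finset.mem_product.1 hk
                have s1 : Sm (H.mu (chiP c0) (pkP K k.1) (pkP K k.2)) :=
                  sm_mu hH.ok (r1_chiP hc0 hc1).toRcut (vc_pkP hK k1) (vc_pkP hK k2)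
                simp_rw [piece_U hH hc0 hc1 hK k1 k2 hh]
                exact nar hc0 hc1 hα.le (by linarith) hC0 hK hRK.le hind hH k1 k2 (mop_adm s1 hg0a)
            _ = ENNReal.ofReal (C * (K ^ (-(2 * (α * p))) * R ^ (α * p + 1))) *
                ∑ k ∈ S, ∫⁻ y, ‖mop (H.mu (chiP c0) (pkP K k.1) (pkP K k.2)) g0 y‖ₑ ^ p := by rw [Finset.mul_sum]
            _ ≤ ENNReal.ofReal (C * (K ^ (-(2 * (α * p))) * R ^ (α * p + 1))) *
                (ENNReal.ofReal Cp * (ENNReal.ofReal (B ^ p) * ∫⁻ y, ‖h y‖ₑ ^ p)) := by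
                gcongr
                refine (hPk H K g0 hH hK hg0a).trans ?_
                gcongr
                apply mop_Lp s2 hh (by linarith) hB
                have := hBk H hH.ok 0
                rw [em_zero] at this
                refine this.trans (ENNReal.ofReal_le_ofReal ?_)
                simp
            _ = _ := by
                rw [ENNReal.ofReal_mul (show 0 ≤ C * (K ^ (-(2 * (α * p))) * R ^ (α * p + 1)) by positivity),
                  ENNReal.ofReal_mul hCp]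
                ring
        have hbro : ∑ q ∈ nap S, DI R (fun t y => (‖H.U (Mk H c0 K q.1) h t y‖ₑ * ‖H.U (Mk H c0 K q.2) h t y‖ₑ) ^ (p / 2)) ≤
            ENNReal.ofReal ((∑ q ∈ nap S, Cq q) * R ^ (α * p + 1)) * ∫⁻ y, ‖h y‖ₑ ^ p := by
          rw [Finset.sum_mul, ENNReal.ofReal_sum_of_nonneg (fun q hqq => mul_nonneg (hCq q hqq) (by positivity)), Finset.sum_mul]
          exact Finset.sum_le_sum fun q hqq => hq q hqq R H h hR hH.ok hh
        calc DI R (fun t y => ‖H.U (H.mu (chi0 c0) psv psv) h t y‖ₑ ^ p) ≤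
            DI R (fun t y => ENNReal.ofReal (26 ^ p) * ∑ k ∈ S, ‖H.U (Mk H c0 K k) h t y‖ₑ ^ p +
            ENNReal.ofReal ((N ^ 2) ^ p) * ∑ q ∈ nap S, (‖H.U (Mk H c0 K q.1) h t y‖ₑ * ‖H.U (Mk H c0 K q.2) h t y‖ₑ) ^ (p / 2)) :=
              DI_mono R fun t _ y => hpw t y
          _ = ENNReal.ofReal (26 ^ p) * ∑ k ∈ S, DI R (fun t y => ‖H.U (Mk H c0 K k) h t y‖ₑ ^ p) +
              ENNReal.ofReal ((N ^ 2) ^ p) * ∑ q ∈ nap S, DI R (fun t y =>
                (‖H.U (Mk H c0 K q.1) h t y‖ₑ * ‖H.U (Mk H c0 K q.2) h t y‖ₑ) ^ (p / 2)) := by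
              rw [DI_add R ((Finset.measurable_sum _ fun k _ => hm1 k).const_mul _) ((Finset.measurable_sum _ fun q _ => hm2 q).const_mul _),
                DI_mul R _ ENNReal.ofReal_ne_top, DI_mul R _ ENNReal.ofReal_ne_top, DI_sum R S (fun k => hm1 k),
                DI_sum R (nap S) (F := fun q t y => (‖H.U (Mk H c0 K q.1) h t y‖ₑ * ‖H.U (Mk H c0 K q.2) h t y‖ₑ) ^ (p / 2)) (fun q => hm2 q)]
          _ ≤ ENNReal.ofReal (26 ^ p) * (ENNReal.ofReal (C * (K ^ (-(2 * (α * p))) * R ^ (α * p + 1)) * (Cp * B ^ p)) * ∫⁻ y, ‖h y‖ₑ ^ p) +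
              ENNReal.ofReal ((N ^ 2) ^ p) * (ENNReal.ofReal ((∑ q ∈ nap S, Cq q) * R ^ (α * p + 1)) * ∫⁻ y, ‖h y‖ₑ ^ p) := by
              gcongr
          _ = ENNReal.ofReal (26 ^ p * (C * (K ^ (-(2 * (α * p))) * R ^ (α * p + 1)) * (Cp * B ^ p)) +
                (N ^ 2) ^ p * ((∑ q ∈ nap S, Cq q) * R ^ (α * p + 1))) * ∫⁻ y, ‖h y‖ₑ ^ p := by
              exact of_lin (by positivity) (by positivity) (by positivity) (by positivity) _
          _ ≤ _ := by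
              refine mul_le_mul' (ENNReal.ofReal_le_ofReal ?_) le_rfl
              have e1 : 26 ^ p * (C * (K ^ (-(2 * (α * p))) * R ^ (α * p + 1)) * (Cp * B ^ p)) =
                  (26 ^ p * (K ^ (-(2 * (α * p))) * (Cp * B ^ p))) * (C * R ^ (α * p + 1)) := by ring
              have e2 : (N ^ 2) ^ p * ((∑ q ∈ nap S, Cq q) * R ^ (α * p + 1)) = Cb * R ^ (α * p + 1) := by rw [hCb]; ring
              rw [e1, e2]
              have h2Cb : 2 * Cb ≤ C := le_max_right _ _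
              have hRp : 0 ≤ R ^ (α * p + 1) := by positivity
              calc _ ≤ 1/2 * (C * R ^ (α * p + 1)) + C / 2 * R ^ (α * p + 1) := by
                    gcongr
                    linarith
                _ = C * R ^ (α * p + 1) := by ring
  intro R H h hR hH hh
  obtain ⟨n, hn⟩ := pow_unbounded_of_one_lt R (show (1:ℝ) < 2 by norm_num)
  exact main n R H h hR hn.le hH hh

end Vale.Agent.P106.G
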