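import Vale.Agent.P106.G.PkB

/-! # Tools for the induction on scales -/

open MeasureTheory Complex Set Filter
open scoped ENNReal NNReal ContDiff FourierTransform Topology SchwartzMap

set_option linter.all false

namespace Vale.Agent.P106.G

open Vale.Agent.P117 (Adm contDiff_st)

/-- joint continuity of the multiplier transform -/
theorem cont_mt3 {F : E3 → ℂ} (hF : Integrable F) {m : ℝ → E3 → ℂ} (hm : ∀ t, Measurable (m t)) {B : ℝ}
    (hB : ∀ t ξ, ‖m t ξ‖ ≤ B) (hc : ∀ ξ, Continuous (fun t => m t ξ)) :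
    Continuous (fun z : ℝ × E3 => 𝓕⁻ (fun ξ => m z.1 ξ * F ξ) z.2) := by
  simp_rw [Real.fourierInv_eq']
  apply continuous_of_dominated (bound := fun ξ => B * ‖F ξ‖)
  · intro z
    have h1 : AEStronglyMeasurable (fun ξ : E3 => cexp ((2 * Real.pi * inner ℝ ξ z.2 : ℝ) * I)) volume := by
      apply Continuous.aestronglyMeasurable
      fun_prop
    exact h1.smul ((hm z.1).aestronglyMeasurable.mul hF.1)
  · intro z
    filter_upwards with ξ
    rw [norm_smul, norm_mul, Complex.norm_exp_ofReal_mul_I, one_mul]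
    gcongr
    exact hB _ _
  · exact hF.norm.const_mul B
  · filter_upwards with ξ
    have h1 : Continuous (fun z : ℝ × E3 => m z.1 ξ) := (hc ξ).comp continuous_fst
    have h2 : Continuous (fun z : ℝ × E3 => cexp ((2 * Real.pi * inner ℝ ξ z.2 : ℝ) * I)) := by fun_prop
    have h3 : Continuous (fun z : ℝ × E3 => m z.1 ξ * F ξ) := h1.mul continuous_const
    exact h2.smul h3

theorem norm_ex3 (r : ℝ) : ‖cexp (2 * Real.pi * I * (r : ℝ))‖ = 1 := by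
  have : (2 * Real.pi * I * (r : ℝ) : ℂ) = ((2 * Real.pi * r : ℝ) : ℂ) * I := by push_cast; ring
  rw [this, Complex.norm_exp_ofReal_mul_I]

theorem measurable_om (H : Hyp) : Measurable H.om := by
  unfold Hyp.om Hyp.B
  fun_prop

theorem cont_U (H : Hyp) {M h : E3 → ℂ} (hM : Integrable M) (hh : Integrable h) :
    Continuous (fun z : ℝ × E3 => H.U M h z.1 z.2) := by
  unfold Hyp.U
  apply cont_mt3 (mint hM hh) (m := fun t ξ => cexp (2 * Real.pi * I * (t * H.om ξ : ℝ))) (B := 1)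
  · intro t
    have := measurable_om H
    fun_prop
  · intro t ξ
    exact (norm_ex3 _).le
  · intro ξ
    fun_prop

/-- linearity in the multiplier -/
theorem U_sum (H : Hyp) {ι : Type*} (s : Finset ι) {M : ι → E3 → ℂ} {M0 h : E3 → ℂ} (hM : ∀ i ∈ s, Integrable (M i))
    (hh : Integrable h) (h0 : ∀ ξ, M0 ξ = ∑ i ∈ s, M i ξ) (t : ℝ) (y : E3) :
    H.U M0 h t y = ∑ i ∈ s, H.U (M i) h t y := by
  unfold Hyp.U
  have hi : ∀ i ∈ s, Integrable (fun ξ : E3 => cexp (2 * Real.pi * I * (t * H.om ξ : ℝ)) * (M i ξ * 𝓕 h ξ)) := by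
    intro i hi
    apply (mint (hM i hi) hh).bdd_mul (c := 1)
    · have := measurable_om H
      exact (by fun_prop : Measurable (fun ξ : E3 => cexp (2 * Real.pi * I * (t * H.om ξ : ℝ)))).aestronglyMeasurable
    · exact Eventually.of_forall fun ξ => (norm_ex3 _).le
  rw [← inv_sum3 s hi y]
  have e : (fun ξ : E3 => cexp (2 * Real.pi * I * (t * H.om ξ : ℝ)) * (M0 ξ * 𝓕 h ξ)) =
      fun ξ => ∑ i ∈ s, cexp (2 * Real.pi * I * (t * H.om ξ : ℝ)) * (M i ξ * 𝓕 h ξ) := by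
    ext ξ
    rw [h0, Finset.sum_mul, Finset.mul_sum]
  rw [e]

/-- product of multipliers -/
theorem mu_mul {H : Hyp} (hb : H.Bd) {χ φ1 φ2 χ' φ1' φ2' : ℝ → ℂ} (hχ : R1 χ) (h1 : Vc φ1) (h2 : Vc φ2) (ξ : E3) :
    H.mu χ φ1 φ2 ξ * H.mu χ' φ1' φ2' ξ =
      H.mu (fun t => χ t * χ' t) (fun t => φ1 t * φ1' t) (fun t => φ2 t * φ2' t) ξ := by
  by_cases h : H.mu χ φ1 φ2 ξ = 0
  · rw [h, zero_mul]
    rw [mu_eq] at h ⊢
    unfold cutw at h ⊢
    rcases mul_eq_zero.1 h with h3 | h3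
    · rw [h3, zero_mul]
    · have : χ (H.Om ξ 0) * χ' (H.Om ξ 0) * (φ1 (H.Om ξ 1 / H.Om ξ 0) * φ1' (H.Om ξ 1 / H.Om ξ 0) *
        (φ2 (H.Om ξ 2 / H.Om ξ 0) * φ2' (H.Om ξ 2 / H.Om ξ 0))) = χ (H.Om ξ 0) * (φ1 (H.Om ξ 1 / H.Om ξ 0) *
        φ2 (H.Om ξ 2 / H.Om ξ 0)) * (χ' (H.Om ξ 0) * (φ1' (H.Om ξ 1 / H.Om ξ 0) * φ2' (H.Om ξ 2 / H.Om ξ 0))) := by
        ring
      rw [this, h3]
      simp
  · obtain ⟨w, e1, e2, e3, e4, e5, e6⟩ := mu_cone hb hχ h1 h2 h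
    rw [e1, mu_Ph hb e2 e3 e4, mu_Ph hb e2 e3 e4, mu_Ph hb e2 e3 e4]
    unfold cutw
    ring

/-! ### pointwise broad-narrow decomposition -/

/-- adjacency of caps -/
def adj (k k' : ℤ × ℤ) : Prop := |k.1 - k'.1| ≤ 2 ∧ |k.2 - k'.2| ≤ 2

instance : DecidableRel adj := fun k k' => by unfold adj; infer_instance

theorem card_adj (s : Finset (ℤ × ℤ)) (k : ℤ × ℤ) : (s.filter (fun k' => adj k k')).card ≤ 25 := by
  calc (s.filter (fun k' => adj k k')).card ≤ (Finset.Icc (k.1 - 2) (k.1 + 2) ×ˢ Finset.Icc (k.2 - 2) (k.2 + 2)).card := by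
        apply Finset.card_le_card
        intro k' hk'
        obtain ⟨h1, h2⟩ := (Finset.mem_filter.1 hk').2
        rw [abs_le] at h1 h2
        rw [Finset.mem_product, Finset.mem_Icc, Finset.mem_Icc]
        constructor <;> constructor <;> omega
    _ = 25 := by
        rw [Finset.card_product, Int.card_Icc, Int.card_Icc]
        have e1 : (k.1 + 2 + 1 - (k.1 - 2)).toNat = 5 := by omega
        have e2 : (k.2 + 2 + 1 - (k.2 - 2)).toNat = 5 := by omega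
        rw [e1, e2]

theorem bn_real (s : Finset (ℤ × ℤ)) (a : ℤ × ℤ → ℂ) :
    (∃ k ∈ s, ‖∑ i ∈ s, a i‖ ≤ 26 * ‖a k‖) ∨
    (∃ k ∈ s, ∃ k' ∈ s, ¬ adj k k' ∧ ‖∑ i ∈ s, a i‖ ≤ (s.card : ℝ) ^ 2 * Real.sqrt (‖a k‖ * ‖a k'‖)) ∨
    ‖∑ i ∈ s, a i‖ = 0 := by
  classical
  rcases s.eq_empty_or_nonempty with rfl | hne
  · right; right; simp
  obtain ⟨k, hk, hmax⟩ := Finset.exists_max_image s (fun i => ‖a i‖) hne
  have hN : (1:ℝ) ≤ s.card := by exact_mod_cast Finset.card_pos.2 hne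
  have hN0 : (0:ℝ) < s.card := by linarith
  by_cases h : ∀ k' ∈ s, ¬ adj k k' → ‖a k'‖ ≤ ‖a k‖ / s.card
  · left
    refine ⟨k, hk, ?_⟩
    calc ‖∑ i ∈ s, a i‖ ≤ ∑ i ∈ s, ‖a i‖ := norm_sum_le _ _
      _ = ∑ i ∈ s.filter (fun k' => adj k k'), ‖a i‖ + ∑ i ∈ s.filter (fun k' => ¬ adj k k'), ‖a i‖ :=
          (Finset.sum_filter_add_sum_filter_not s _ _).symm
      _ ≤ ∑ i ∈ s.filter (fun k' => adj k k'), ‖a k‖ + ∑ i ∈ s.filter (fun k' => ¬ adj k k'), ‖a k‖ / s.card := by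
          apply add_le_add
          · exact Finset.sum_le_sum fun i hi => hmax i (Finset.mem_filter.1 hi).1
          · exact Finset.sum_le_sum fun i hi => h i (Finset.mem_filter.1 hi).1 (Finset.mem_filter.1 hi).2
      _ ≤ 25 * ‖a k‖ + s.card * (‖a k‖ / s.card) := by
          rw [Finset.sum_const, Finset.sum_const, nsmul_eq_mul, nsmul_eq_mul]
          gcongr
          · exact_mod_cast card_adj s k
          · exact Finset.filter_subset _ _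
      _ = 26 * ‖a k‖ := by field_simp; ring
  · right; left
    push Not at h
    obtain ⟨k', hk', hadj, hlt⟩ := h
    refine ⟨k, hk, k', hk', hadj, ?_⟩
    have h1 : ‖∑ i ∈ s, a i‖ ≤ s.card * ‖a k‖ := by
      calc ‖∑ i ∈ s, a i‖ ≤ ∑ i ∈ s, ‖a i‖ := norm_sum_le _ _
        _ ≤ ∑ i ∈ s, ‖a k‖ := Finset.sum_le_sum fun i hi => hmax i hi
        _ = s.card * ‖a k‖ := by rw [Finset.sum_const, nsmul_eq_mul]
    have h2 : ‖a k‖ ≤ s.card * ‖a k'‖ := by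
      rw [div_lt_iff₀ hN0] at hlt
      linarith
    refine h1.trans ?_
    rw [← Real.sqrt_sq (show 0 ≤ (s.card : ℝ) ^ 2 by positivity), ← Real.sqrt_mul (by positivity)]
    apply Real.le_sqrt_of_sq_le
    have h0 := norm_nonneg (a k)
    have h0' := norm_nonneg (a k')
    calc ((s.card : ℝ) * ‖a k‖) ^ 2 = (s.card : ℝ) ^ 2 * (‖a k‖ * ‖a k‖) := by ring
      _ ≤ (s.card : ℝ) ^ 2 * (‖a k‖ * (s.card * ‖a k'‖)) := by gcongr
      _ = (s.card : ℝ) ^ 3 * (‖a k‖ * ‖a k'‖) := by ring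
      _ ≤ (s.card : ℝ) ^ 4 * (‖a k‖ * ‖a k'‖) := by
          exact mul_le_mul_of_nonneg_right (pow_le_pow_right₀ hN (by norm_num)) (by positivity)
      _ = _ := by ring

/-- nonadjacent pairs -/
def nap (s : Finset (ℤ × ℤ)) : Finset ((ℤ × ℤ) × (ℤ × ℤ)) := (s ×ˢ s).filter (fun q => ¬ adj q.1 q.2)

theorem bn_pw (s : Finset (ℤ × ℤ)) (a : ℤ × ℤ → ℂ) {p : ℝ} (hp : 0 < p) :
    ‖∑ i ∈ s, a i‖ₑ ^ p ≤ ENNReal.ofReal (26 ^ p) * ∑ k ∈ s, ‖a k‖ₑ ^ p +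
      ENNReal.ofReal (((s.card : ℝ) ^ 2) ^ p) * ∑ q ∈ nap s, (‖a q.1‖ₑ * ‖a q.2‖ₑ) ^ (p / 2) := by
  have hc : ∀ {x y : ℝ}, 0 ≤ x → 0 ≤ y → ENNReal.ofReal (x ^ p) * ENNReal.ofReal (y ^ p) = ENNReal.ofReal ((x * y) ^ p) := by
    intro x y hx hy
    rw [← ENNReal.ofReal_mul (by positivity), Real.mul_rpow hx hy]
  have hn : ∀ z : ℂ, ‖z‖ₑ ^ p = ENNReal.ofReal (‖z‖ ^ p) := by
    intro z
    rw [← ofReal_norm, ENNReal.ofReal_rpow_of_nonneg (norm_nonneg _) hp.le]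
  rcases bn_real s a with ⟨k, hk, h⟩ | ⟨k, hk, k', hk', hadj, h⟩ | h
  · calc ‖∑ i ∈ s, a i‖ₑ ^ p ≤ ENNReal.ofReal (26 ^ p) * ‖a k‖ₑ ^ p := by
          rw [hn, hn, hc (by norm_num) (norm_nonneg _)]
          apply ENNReal.ofReal_le_ofReal
          exact Real.rpow_le_rpow (norm_nonneg _) h hp.le
      _ ≤ ENNReal.ofReal (26 ^ p) * ∑ k ∈ s, ‖a k‖ₑ ^ p := by
          gcongr
          exact Finset.single_le_sum (f := fun k => ‖a k‖ₑ ^ p) (fun _ _ => zero_le) hk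
      _ ≤ _ := le_self_add
  · have hq : (k, k') ∈ nap s := by
      unfold nap
      rw [Finset.mem_filter, Finset.mem_product]
      exact ⟨⟨hk, hk'⟩, hadj⟩
    have e : (‖a k‖ₑ * ‖a k'‖ₑ) ^ (p / 2) = ENNReal.ofReal (Real.sqrt (‖a k‖ * ‖a k'‖) ^ p) := by
      rw [← ofReal_norm, ← ofReal_norm, ← ENNReal.ofReal_mul (norm_nonneg _),
        ENNReal.ofReal_rpow_of_nonneg (by positivity) (by positivity), Real.sqrt_eq_rpow, ← Real.rpow_mul (by positivity)]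
      congr 2
      ring
    calc ‖∑ i ∈ s, a i‖ₑ ^ p ≤ ENNReal.ofReal (((s.card : ℝ) ^ 2) ^ p) * (‖a k‖ₑ * ‖a k'‖ₑ) ^ (p / 2) := by
          rw [hn, e, hc (by positivity) (Real.sqrt_nonneg _)]
          apply ENNReal.ofReal_le_ofReal
          exact Real.rpow_le_rpow (norm_nonneg _) h hp.le
      _ ≤ ENNReal.ofReal (((s.card : ℝ) ^ 2) ^ p) * ∑ q ∈ nap s, (‖a q.1‖ₑ * ‖a q.2‖ₑ) ^ (p / 2) := by
          gcongr
          exact Finset.single_le_sum (f := fun q : (ℤ × ℤ) × (ℤ × ℤ) => (‖a q.1‖ₑ * ‖a q.2‖ₑ) ^ (p / 2)) (fun _ _ => zero_le) hq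
      _ ≤ _ := le_add_self
  · rw [hn, h, Real.zero_rpow hp.ne', ENNReal.ofReal_zero]
    exact zero_le

end Vale.Agent.P106.G
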