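import Vale.Agent.P106.G.RecA

/-! # Induction on scales: from the bilinear to the linear estimate -/

open MeasureTheory Complex Set Filter
open scoped ENNReal NNReal ContDiff FourierTransform Topology SchwartzMap

set_option linter.all false

namespace Vale.Agent.P106.G

open Vale.Agent.P117 (Adm contDiff_st)

/-- space-time integral -/
noncomputable def DI (R : ℝ) (F : ℝ → E3 → ℝ≥0∞) : ℝ≥0∞ := ∫⁻ t in Icc R (2 * R), ∫⁻ y, F t y

theorem DI_mono (R : ℝ) {F G : ℝ → E3 → ℝ≥0∞} (h : ∀ t ∈ Icc R (2 * R), ∀ y, F t y ≤ G t y) : DI R F ≤ DI R G := by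
  unfold DI
  exact setLIntegral_mono' measurableSet_Icc fun t ht => lintegral_mono fun y => h t ht y

theorem DI_prod (R : ℝ) {F : ℝ → E3 → ℝ≥0∞} (h : Measurable (fun z : ℝ × E3 => F z.1 z.2)) :
    DI R F = ∫⁻ z, F z.1 z.2 ∂((volume.restrict (Icc R (2 * R))).prod (volume : Measure E3)) := by
  unfold DI
  rw [lintegral_prod _ h.aemeasurable]

theorem DI_add (R : ℝ) {F G : ℝ → E3 → ℝ≥0∞} (h : Measurable (fun z : ℝ × E3 => F z.1 z.2))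
    (h' : Measurable (fun z : ℝ × E3 => G z.1 z.2)) : DI R (fun t y => F t y + G t y) = DI R F + DI R G := by
  rw [DI_prod R h, DI_prod R h', DI_prod R (h.add h'), lintegral_add_left h]

theorem DI_sum (R : ℝ) {ι : Type*} (s : Finset ι) {F : ι → ℝ → E3 → ℝ≥0∞}
    (h : ∀ i, Measurable (fun z : ℝ × E3 => F i z.1 z.2)) :
    DI R (fun t y => ∑ i ∈ s, F i t y) = ∑ i ∈ s, DI R (F i) := by
  rw [DI_prod R (Finset.measurable_sum _ fun i _ => h i), lintegral_finset_sum _ (fun i _ => h i)]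
  exact Finset.sum_congr rfl fun i _ => (DI_prod R (h i)).symm

theorem DI_mul (R : ℝ) (a : ℝ≥0∞) (ha : a ≠ ⊤) (F : ℝ → E3 → ℝ≥0∞) : DI R (fun t y => a * F t y) = a * DI R F := by
  unfold DI
  simp_rw [lintegral_const_mul' a _ ha]

/-- the estimate for the model family -/
def StLS2 (p α c0 : ℝ) : Prop := ∃ C : ℝ, 0 ≤ C ∧ ∀ (R : ℝ) (H : Hyp) (h : E3 → ℂ), 1 ≤ R → H.ok2 → Adm volume h →
    DI R (fun t y => ‖H.U (H.mu (chi0 c0) psv psv) h t y‖ₑ ^ p) ≤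
      ENNReal.ofReal (C * R ^ (α * p + 1)) * ∫⁻ y, ‖h y‖ₑ ^ p

/-- trivial bound -/
theorem triv_bd {χ φ1 φ2 : ℝ → ℂ} (hχ : Rcut χ) (h1 : Vc φ1) (h2 : Vc φ2) {p : ℝ} (hp : 1 ≤ p) :
    ∃ C : ℝ, 0 ≤ C ∧ ∀ (R : ℝ) (H : Hyp) (h : E3 → ℂ), 1 ≤ R → H.ok → Adm volume h →
    DI R (fun t y => ‖H.U (H.mu χ φ1 φ2) h t y‖ₑ ^ p) ≤ ENNReal.ofReal (C * (R ^ (4 * p) * R)) * ∫⁻ y, ‖h y‖ₑ ^ p := by
  obtain ⟨B, hB, hBk⟩ := ker_L1 hχ h1 h2
  refine ⟨(B * 81) ^ p, by positivity, ?_⟩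
  intro R H h hR hH hh
  have hR0 : 0 < R := by linarith
  unfold DI
  calc ∫⁻ t in Icc R (2 * R), ∫⁻ y, ‖H.U (H.mu χ φ1 φ2) h t y‖ₑ ^ p ≤
      ∫⁻ t in Icc R (2 * R), ENNReal.ofReal ((B * 81 * R ^ 4) ^ p) * ∫⁻ y, ‖h y‖ₑ ^ p := by
        apply setLIntegral_mono' measurableSet_Icc
        intro t ht
        rw [U_eq]
        apply mop_Lp (sm_em hH hχ h1 h2 t) hh hp (by positivity)
        refine (hBk H hH t).trans (ENNReal.ofReal_le_ofReal ?_)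
        have h0 : 0 ≤ t := by linarith [ht.1]
        rw [abs_of_nonneg h0]
        calc B * (1 + t) ^ 4 ≤ B * (3 * R) ^ 4 := by
              gcongr
              linarith [ht.2]
          _ = _ := by ring
    _ = ENNReal.ofReal R * (ENNReal.ofReal ((B * 81 * R ^ 4) ^ p) * ∫⁻ y, ‖h y‖ₑ ^ p) := by
        rw [lintegral_const, Measure.restrict_apply MeasurableSet.univ, univ_inter, Real.volume_Icc, mul_comm]
        congr 2
        ring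
    _ = _ := by
        rw [← mul_assoc, ← ENNReal.ofReal_mul hR0.le]
        congr 2
        rw [Real.mul_rpow (by positivity) (by positivity), ← Real.rpow_natCast R 4, ← Real.rpow_mul hR0.le]
        push_cast
        ring

theorem of4 {a b c d : ℝ} (ha : 0 ≤ a) (hb : 0 ≤ b) (hc : 0 ≤ c) (I : ℝ≥0∞) :
    ENNReal.ofReal a * (ENNReal.ofReal b * (ENNReal.ofReal c * (ENNReal.ofReal d * I))) =
      ENNReal.ofReal (a * (b * (c * d))) * I := by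
  rw [ENNReal.ofReal_mul ha, ENNReal.ofReal_mul hb, ENNReal.ofReal_mul hc]
  ring

/-- the narrow terms -/
theorem nar {p α c0 Ci R K : ℝ} (hc0 : 0 < c0) (hc1 : c0 ≤ 1) (hα : 0 ≤ α) (hp : 1 ≤ p) (hCi : 0 ≤ Ci) (hK : 5 ≤ K) (hR : 2 * K ^ 2 ≤ R)
    (hind : ∀ (R' : ℝ) (H' : Hyp) (h' : E3 → ℂ), 1 ≤ R' → R' ≤ R / K ^ 2 → H'.ok2 → Adm volume h' →
      DI R' (fun t y => ‖H'.U (H'.mu (chi0 c0) psv psv) h' t y‖ₑ ^ p) ≤
      ENNReal.ofReal (Ci * R' ^ (α * p + 1)) * ∫⁻ y, ‖h' y‖ₑ ^ p)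
    {H : Hyp} (hH : H.ok2) {k1 k2 : ℤ} (h1 : k1 ∈ ks K) (h2 : k2 ∈ ks K) {g : E3 → ℂ} (hg : Adm volume g) :
    DI R (fun t y => ‖H.U (H.mu (chi0 c0) (pk K k1) (pk K k2)) g t y‖ₑ ^ p) ≤
      ENNReal.ofReal (Ci * (K ^ (-(2 * (α * p))) * R ^ (α * p + 1))) * ∫⁻ y, ‖g y‖ₑ ^ p := by
  have hK0 : 0 < K := by linarith
  obtain ⟨m1, m2⟩ := m_bk hH hK h1 h2
  have hR0 : 0 < R := by nlinarith
  have hm0 : 0 < H.m (bk K k1) (bk K k2) := by linarith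
  have hτ : 0 < K⁻¹ := by positivity
  have e1 : (fun t => pk K k1 (bk K k1 + K⁻¹ * t)) = psv := by ext t; exact pk_bk hK0 k1 t
  have e2 : (fun t => pk K k2 (bk K k2 + K⁻¹ * t)) = psv := by ext t; exact pk_bk hK0 k2 t
  have hsub := sub_ok2 hH hK h1 h2
  have hr := resc_norm (hH.ok.bd) (hsub.ok.bd) hm0 hτ (r1_chi0 hc0 hc1) (vc_pk hK h1) (vc_pk hK h2)
    (by rw [e1]; exact vcut_psv.vc) (by rw [e2]; exact vcut_psv.vc) g p R
  rw [e1, e2] at hr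
  have hdp := AT_det_pos (H := H) (β1 := bk K k1) (β2 := bk K k2) hm0 hτ
  set l := K⁻¹ ^ 2 / H.m (bk K k1) (bk K k2) with hl
  set A := H.AT (bk K k1) (bk K k2) K⁻¹ with hA
  have hl0 : 0 < l := by positivity
  have hl1 : l ≤ K⁻¹ ^ 2 := by rw [hl]; exact div_le_self (by positivity) m1
  have hlR : 1 ≤ l * R := by
    have : l = 1 / (K ^ 2 * H.m (bk K k1) (bk K k2)) := by rw [hl]; field_simp
    rw [this, div_mul_eq_mul_div, one_mul, le_div_iff₀ (by positivity)]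
    nlinarith [sq_nonneg K]
  have hlR2 : l * R ≤ R / K ^ 2 := by
    calc l * R ≤ K⁻¹ ^ 2 * R := by gcongr
      _ = R / K ^ 2 := by field_simp
  have hAt : A.transpose.det ≠ 0 := by rw [Matrix.det_transpose]; exact hdp.ne'
  have hAi : (A.transpose)⁻¹.det ≠ 0 := by
    rw [Matrix.det_nonsing_inv, Ring.inverse_eq_inv']
    exact inv_ne_zero hAt
  have hgt : Adm volume (fun x => g (mat3 (A.transpose)⁻¹ x)) := adm_mat3 hAi hg
  have h3 := hind (l * R) _ _ hlR hlR2 hsub hgt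
  have h4 : ∫⁻ y, ‖g (mat3 (A.transpose)⁻¹ y)‖ₑ ^ p = ENNReal.ofReal A.det * ∫⁻ y, ‖g y‖ₑ ^ p := by
    rw [lintegral_mat3 hAi (fun x => ‖g x‖ₑ ^ p), Matrix.det_nonsing_inv, Ring.inverse_eq_inv', inv_inv,
      Matrix.det_transpose, abs_of_pos hdp]
  rw [h4] at h3
  have hR1 : DI R (fun t y => ‖H.U (H.mu (chi0 c0) (pk K k1) (pk K k2)) g t y‖ₑ ^ p) =
    ENNReal.ofReal l⁻¹ * (ENNReal.ofReal A.det⁻¹ * DI (l * R) (fun t y =>
      ‖(H.sub (bk K k1) (bk K k2) K⁻¹).U ((H.sub (bk K k1) (bk K k2) K⁻¹).mu (chi0 c0) psv psv)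
        (fun x => g (mat3 (A.transpose)⁻¹ x)) t y‖ₑ ^ p)) := hr
  rw [hR1]
  calc _ ≤ ENNReal.ofReal l⁻¹ * (ENNReal.ofReal A.det⁻¹ * (ENNReal.ofReal (Ci * (l * R) ^ (α * p + 1)) *
      (ENNReal.ofReal A.det * ∫⁻ y, ‖g y‖ₑ ^ p))) := by gcongr
    _ = ENNReal.ofReal (l⁻¹ * (A.det⁻¹ * ((Ci * (l * R) ^ (α * p + 1)) * A.det))) * ∫⁻ y, ‖g y‖ₑ ^ p :=
        of4 (by positivity) (by positivity) (by positivity) _
    _ ≤ _ := by
        refine mul_le_mul' (ENNReal.ofReal_le_ofReal ?_) le_rfl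
        have e3 : l⁻¹ * (A.det⁻¹ * ((Ci * (l * R) ^ (α * p + 1)) * A.det)) = Ci * (l ^ (α * p) * R ^ (α * p + 1)) := by
          rw [Real.mul_rpow hl0.le hR0.le, Real.rpow_add hl0, Real.rpow_one]
          have := hdp.ne'
          field_simp
        rw [e3]
        have e4 : l ^ (α * p) ≤ K ^ (-(2 * (α * p))) := by
          calc l ^ (α * p) ≤ (K⁻¹ ^ 2) ^ (α * p) := Real.rpow_le_rpow hl0.le hl1 (by positivity)
            _ = K ^ (-(2 * (α * p))) := by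
                rw [← Real.rpow_natCast (K⁻¹) 2, ← Real.rpow_mul (by positivity), Real.inv_rpow hK0.le,
                  ← Real.rpow_neg hK0.le]
                push_cast
                ring_nf
        gcongr

/-- cap pieces of the multiplier -/
noncomputable def Mk (H : Hyp) (c0 K : ℝ) (k : ℤ × ℤ) : E3 → ℂ :=
  H.mu (chi0 c0) (fun v => psv v * pk K k.1 v) (fun v => psv v * pk K k.2 v)

theorem Mk_sum (H : Hyp) (c0 : ℝ) {K : ℝ} (hK : 0 < K) (ξ : E3) :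
    H.mu (chi0 c0) psv psv ξ = ∑ k ∈ ks K ×ˢ ks K, Mk H c0 K k ξ := by
  unfold Mk Hyp.mu
  rw [← Finset.mul_sum, ← Finset.mul_sum]
  congr 2
  have e1 := sum_pk hK (H.Om ξ 1 / H.Om ξ 0)
  have e2 := sum_pk hK (H.Om ξ 2 / H.Om ξ 0)
  calc psv (H.Om ξ 1 / H.Om ξ 0) * psv (H.Om ξ 2 / H.Om ξ 0) =
      (∑ k ∈ ks K, psv (H.Om ξ 1 / H.Om ξ 0) * pk K k (H.Om ξ 1 / H.Om ξ 0)) *
      (∑ k ∈ ks K, psv (H.Om ξ 2 / H.Om ξ 0) * pk K k (H.Om ξ 2 / H.Om ξ 0)) := by rw [e1, e2]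
    _ = _ := by rw [Finset.sum_mul_sum, Finset.sum_product]

theorem vcut_Mk {K : ℝ} (hK : 5 ≤ K) {k : ℤ} : Vcut (fun v => psv v * pk K k v) := by
  refine ⟨contDiff_psv.mul (contDiff_psi.comp (by fun_prop)), fun v hv => ?_⟩
  exact vcut_psv.supp v (left_ne_zero_of_mul hv)

theorem Mk_eq {H : Hyp} (hH : H.ok2) {c0 K : ℝ} (hc0 : 0 < c0) (hc1 : c0 ≤ 1) (hK : 5 ≤ K) {k : ℤ × ℤ}
    (h1 : k.1 ∈ ks K) (h2 : k.2 ∈ ks K) (ξ : E3) :
    H.mu (chi0 c0) (pk K k.1) (pk K k.2) ξ * (H.mu (chiP c0) (pkP K k.1) (pkP K k.2) ξ * H.mu (chiP c0) psv psv ξ) =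
      Mk H c0 K k ξ := by
  rw [← mul_assoc, mu_mul hH.ok.bd (r1_chi0 hc0 hc1) (vc_pk hK h1) (vc_pk hK h2)]
  have e1 : (fun t => chi0 c0 t * chiP c0 t) = chi0 c0 := by ext t; exact chi0_mul_chiP hc0 t
  have e2 : (fun t => pk K k.1 t * pkP K k.1 t) = pk K k.1 := by ext t; exact psi_mul_psiP _
  have e3 : (fun t => pk K k.2 t * pkP K k.2 t) = pk K k.2 := by ext t; exact psi_mul_psiP _
  rw [e1, e2, e3, mu_mul hH.ok.bd (r1_chi0 hc0 hc1) (vc_pk hK h1) (vc_pk hK h2), e1]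
  unfold Mk
  congr 1
  · ext t; ring
  · ext t; ring

/-- separation of nonadjacent caps -/
theorem nap_sep {K : ℝ} (hK : 5 ≤ K) {k k' : ℤ × ℤ} (h : ¬ adj k k') (v1 v2 v1' v2' : ℝ)
    (h1 : (psv v1 * pk K k.1 v1) * (psv v2 * pk K k.2 v2) ≠ 0)
    (h2 : (psv v1' * pk K k'.1 v1') * (psv v2' * pk K k'.2 v2') ≠ 0) : 1 / (2 * K) ≤ |v1 - v1'| ∨ 1 / (2 * K) ≤ |v2 - v2'| := by
  have hK0 : 0 < K := by linarith
  have key : ∀ (a b : ℤ) (x y : ℝ), pk K a x ≠ 0 → pk K b y ≠ 0 → ¬ |a - b| ≤ 2 → 1 / (2 * K) ≤ |x - y| := by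
    intro a b x y ha hb hab
    obtain ⟨p1, p2⟩ := psi_supp ha
    obtain ⟨p3, p4⟩ := psi_supp hb
    rw [div_le_iff₀ (by positivity)]
    have e : |x - y| * (2 * K) = |2 * K * (x - y)| := by
      rw [abs_mul, abs_of_pos (by positivity : 0 < 2 * K)]; ring
    rw [e]
    by_contra hc
    push Not at hc
    rw [abs_lt] at hc
    apply hab
    rw [abs_le]
    obtain ⟨c1, c2⟩ := hc
    have d1 : ((a:ℝ) - b) < 3 := by nlinarith
    have d2 : -3 < ((a:ℝ) - b) := by nlinarith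
    have d3 : a - b < 3 := by exact_mod_cast d1
    have d4 : -3 < a - b := by exact_mod_cast d2
    constructor <;> omega
  have a1 := right_ne_zero_of_mul (left_ne_zero_of_mul h1)
  have a2 := right_ne_zero_of_mul (right_ne_zero_of_mul h1)
  have b1 := right_ne_zero_of_mul (left_ne_zero_of_mul h2)
  have b2 := right_ne_zero_of_mul (right_ne_zero_of_mul h2)
  by_cases hc : |k.1 - k'.1| ≤ 2
  · right
    refine key _ _ _ _ a2 b2 ?_
    intro hd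
    exact h ⟨hc, hd⟩
  · left
    exact key _ _ _ _ a1 b1 hc

end Vale.Agent.P106.G
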