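import Vale.Agent.P106.G.Wt

/-! # Reproducing formula and local constancy -/

open MeasureTheory Complex Set
open scoped ENNReal NNReal ContDiff FourierTransform SchwartzMap ComplexConjugate Topology

set_option linter.all false

namespace Vale.Agent.P106.G

open Tri (ec norm_ec enorm_ec ec_add ec_zero continuous_ec)

noncomputable def bmq : ContDiffBump (0 : E4) := ⟨1, 2, by norm_num, by norm_num⟩

noncomputable def X0 (x : E4) : ℂ := ((bmq x : ℝ) : ℂ)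

theorem contDiff_X0 : ContDiff ℝ ∞ X0 := Complex.ofRealCLM.contDiff.comp bmq.contDiff

theorem hasCompactSupport_X0 : HasCompactSupport X0 :=
  (bmq.hasCompactSupport).comp_left (g := fun r : ℝ => (r : ℂ)) (by simp)

noncomputable def XS : 𝓢(E4, ℂ) := hasCompactSupport_X0.toSchwartzMap contDiff_X0

theorem XS_one {x : E4} (h : ‖x‖ ≤ 1) : XS x = 1 := by
  show X0 x = 1
  unfold X0
  rw [bmq.one_of_mem_closedBall (by rw [Metric.mem_closedBall, dist_zero_right]; exact h)]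
  simp

noncomputable def kSr : 𝓢(E4, ℂ) := 𝓕⁻ XS

theorem fourier_kS (ζ : E4) : ∫ y : E4, ec (-(inner ℝ y ζ)) * kSr y = XS ζ := by
  have h : 𝓕 kSr = XS := by unfold kSr; simp
  have h2 : 𝓕 (kSr : E4 → ℂ) ζ = XS ζ := by rw [← SchwartzMap.fourier_coe, h]
  rw [← h2, Real.fourier_eq']
  congr 1
  ext y
  simp only [ec, smul_eq_mul]
  congr 2
  push_cast
  ring

theorem schwartz_decay (f : 𝓢(E4, ℂ)) (M : ℕ) : ∃ C : ℝ, 0 ≤ C ∧ ∀ x : E4, ‖f x‖ ≤ C * ((1 + ‖x‖) ^ M)⁻¹ := by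
  obtain ⟨C, hC⟩ := f.decay M 0
  obtain ⟨C', hC'⟩ := f.decay 0 0
  refine ⟨2 ^ M * (C + C'), by
    have := hC.1; have := hC'.1; positivity, ?_⟩
  intro x
  have h1 := hC.2 x
  have h2 := hC'.2 x
  rw [norm_iteratedFDeriv_zero] at h1 h2
  rw [pow_zero, one_mul] at h2
  rw [← div_eq_mul_inv, le_div_iff₀ (by positivity)]
  have h3 : (1 + ‖x‖) ^ M ≤ 2 ^ M * (1 + ‖x‖ ^ M) := by
    rcases le_total ‖x‖ 1 with h | h
    · calc (1 + ‖x‖) ^ M ≤ 2 ^ M := pow_le_pow_left₀ (by positivity) (by linarith) _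
        _ ≤ _ := by
          have : 0 ≤ ‖x‖ ^ M := by positivity
          have : (0:ℝ) < 2 ^ M := by positivity
          nlinarith
    · calc (1 + ‖x‖) ^ M ≤ (2 * ‖x‖) ^ M := pow_le_pow_left₀ (by positivity) (by linarith) _
        _ = 2 ^ M * ‖x‖ ^ M := by rw [mul_pow]
        _ ≤ _ := by
          have : (0:ℝ) < 2 ^ M := by positivity
          nlinarith
  calc ‖f x‖ * (1 + ‖x‖) ^ M ≤ ‖f x‖ * (2 ^ M * (1 + ‖x‖ ^ M)) := by gcongr
    _ = 2 ^ M * (‖x‖ ^ M * ‖f x‖ + ‖f x‖) := by ring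
    _ ≤ _ := by gcongr

/-- reproducing kernel -/
noncomputable def rk (A : ℝ) (ζ₀ y : E4) : ℂ := ((A ^ 4 : ℝ) : ℂ) * kSr (A • y) * ec (inner ℝ ζ₀ y)

theorem integrable_rk {A : ℝ} (hA : 0 < A) (ζ₀ : E4) : Integrable (rk A ζ₀) := by
  have h1 : Integrable (fun y : E4 => ((A ^ 4 : ℝ) : ℂ) * kSr (A • y)) := (kSr.integrable.comp_smul hA.ne').const_mul _
  refine h1.norm.mono' ?_ ?_
  · have h2 := continuous_ec
    exact ((continuous_const.mul (kSr.continuous.comp (by fun_prop))).mul (h2.comp (by fun_prop))).aestronglyMeasurable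
  · filter_upwards with y
    unfold rk
    rw [norm_mul, norm_ec, mul_one]

theorem int_rk {A : ℝ} (hA : 0 < A) (ζ₀ ζ : E4) (h : ‖ζ - ζ₀‖ ≤ A) :
    ∫ y : E4, rk A ζ₀ y * ec (-(inner ℝ ζ y)) = 1 := by
  have hx : ‖A⁻¹ • (ζ - ζ₀)‖ ≤ 1 := by
    rw [norm_smul, norm_inv, Real.norm_of_nonneg hA.le, inv_mul_le_iff₀ hA, mul_one]
    exact h
  rw [← XS_one hx, ← fourier_kS]
  have hc := Measure.integral_comp_smul (volume : Measure E4)
    (fun v => ec (-(inner ℝ v (A⁻¹ • (ζ - ζ₀)))) * kSr v) A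
  rw [finrank_euclideanSpace_fin] at hc
  have e : ∀ y : E4, rk A ζ₀ y * ec (-(inner ℝ ζ y)) =
      ((A ^ 4 : ℝ) : ℂ) * (ec (-(inner ℝ (A • y) (A⁻¹ • (ζ - ζ₀)))) * kSr (A • y)) := by
    intro y
    unfold rk
    have e1 : (inner ℝ (A • y) (A⁻¹ • (ζ - ζ₀)) : ℝ) = inner ℝ ζ y - inner ℝ ζ₀ y := by
      rw [inner_smul_left, inner_smul_right, inner_sub_right, real_inner_comm y ζ, real_inner_comm y ζ₀]
      simp only [conj_trivial]
      rw [← mul_assoc, mul_inv_cancel₀ hA.ne', one_mul]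
    rw [e1, show -(inner ℝ ζ y - inner ℝ ζ₀ y : ℝ) = inner ℝ ζ₀ y + -(inner ℝ ζ y) by ring, ec_add]
    ring
  simp_rw [e]
  rw [integral_const_mul, hc, Complex.real_smul, ← mul_assoc, ← Complex.ofReal_mul]
  have : A ^ 4 * |((A ^ 4)⁻¹)| = 1 := by
    rw [abs_of_pos (by positivity)]
    field_simp
  rw [this, Complex.ofReal_one, one_mul]

theorem repro {A : ℝ} (hA : 0 < A) (ζ₀ : E4) {g : E4 → ℂ} (hg : Integrable g)
    (hs : ∀ ζ, g ζ ≠ 0 → ‖ζ - ζ₀‖ ≤ A) (z : E4) :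
    𝓕⁻ g z = ∫ y, rk A ζ₀ y * 𝓕⁻ g (z - y) := by
  have hint : Integrable (fun p : E4 × E4 => rk A ζ₀ p.1 * (ec (inner ℝ p.2 (z - p.1)) * g p.2))
      (volume.prod volume) := by
    have h1 : Integrable (fun p : E4 × E4 => rk A ζ₀ p.1 * g p.2) (volume.prod volume) :=
      (integrable_rk hA ζ₀).mul_prod hg
    refine h1.norm.mono' ?_ ?_
    · have h2 := continuous_ec
      have h3 : Continuous (fun p : E4 × E4 => ec (inner ℝ p.2 (z - p.1))) := h2.comp (by fun_prop)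
      have h4 := h1.aestronglyMeasurable.mul h3.aestronglyMeasurable
      refine h4.congr ?_
      filter_upwards with p
      simp only [Pi.mul_apply]
      ring
    · filter_upwards with p
      rw [norm_mul, norm_mul, norm_mul, norm_ec, one_mul]
  simp_rw [inv_eq g]
  have e1 : ∀ y : E4, rk A ζ₀ y * ∫ v, ec (inner ℝ v (z - y)) * g v =
      ∫ v, rk A ζ₀ y * (ec (inner ℝ v (z - y)) * g v) := fun y => (integral_const_mul _ _).symm
  simp_rw [e1]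
  rw [integral_integral_swap hint]
  congr 1
  ext v
  have e2 : ∀ y : E4, rk A ζ₀ y * (ec (inner ℝ v (z - y)) * g v) =
      (ec (inner ℝ v z) * g v) * (rk A ζ₀ y * ec (-(inner ℝ v y))) := by
    intro y
    rw [inner_sub_right, sub_eq_add_neg, ec_add]
    ring
  simp_rw [e2]
  rw [integral_const_mul]
  by_cases hv : g v = 0
  · rw [hv]; simp
  · rw [int_rk hA ζ₀ v (hs v hv), mul_one]

/-- local constancy -/
theorem inv_le_Gav (M : ℕ) (B : ℝ) (hB : 1 ≤ B) : ∃ C : ℝ, 0 ≤ C ∧ ∀ (K : ℝ), 0 < K → ∀ (ζ₀ : E4) (g : E4 → ℂ),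
    Integrable g → (∀ ζ, g ζ ≠ 0 → ‖ζ - ζ₀‖ ≤ B / K) → ∀ z, ‖𝓕⁻ g z‖ₑ ≤ ENNReal.ofReal C * Gav M K g z := by
  obtain ⟨C, hC, hk⟩ := schwartz_decay kSr M
  refine ⟨B ^ 4 * C, by positivity, ?_⟩
  intro K hK ζ₀ g hg hs z
  have hA : 0 < B / K := by positivity
  rw [repro hA ζ₀ hg hs z]
  refine (enorm_integral_le_lintegral_enorm _).trans ?_
  have e : ENNReal.ofReal (B ^ 4 * C) * Gav M K g z = ∫⁻ y, ENNReal.ofReal (B ^ 4 * C) * (‖𝓕⁻ g (z - y)‖ₑ * wK M K y) := by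
    rw [lintegral_const_mul' _ _ ENNReal.ofReal_ne_top]
    congr 1
    unfold Gav
    rw [← lintegral_sub_left_eq_self (fun y => ‖𝓕⁻ g y‖ₑ * wK M K (z - y)) z]
    refine lintegral_congr fun y => ?_
    rw [sub_sub_cancel]
  rw [e]
  refine lintegral_mono fun y => ?_
  rw [enorm_mul]
  have h1 : ‖rk (B / K) ζ₀ y‖ₑ ≤ ENNReal.ofReal (B ^ 4 * C) * wK M K y := by
    unfold wK rk
    rw [← ENNReal.ofReal_mul (by positivity), ← ofReal_norm, norm_mul, norm_mul, norm_ec, mul_one, Complex.norm_real,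
      Real.norm_of_nonneg (by positivity)]
    apply ENNReal.ofReal_le_ofReal
    have h2 := hk ((B / K) • y)
    rw [norm_smul, Real.norm_of_nonneg hA.le] at h2
    have h3 : 1 + ‖y‖ / K ≤ 1 + B / K * ‖y‖ := by
      have : ‖y‖ / K ≤ B / K * ‖y‖ := by
        rw [div_mul_eq_mul_div]
        gcongr
        have := norm_nonneg y
        nlinarith
      linarith
    calc (B / K) ^ 4 * ‖kSr ((B / K) • y)‖ ≤ (B / K) ^ 4 * (C * ((1 + B / K * ‖y‖) ^ M)⁻¹) := by gcongr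
      _ ≤ (B / K) ^ 4 * (C * ((1 + ‖y‖ / K) ^ M)⁻¹) := by gcongr
      _ = _ := by rw [div_pow]; field_simp
  calc ‖rk (B / K) ζ₀ y‖ₑ * ‖𝓕⁻ g (z - y)‖ₑ ≤ (ENNReal.ofReal (B ^ 4 * C) * wK M K y) * ‖𝓕⁻ g (z - y)‖ₑ := by gcongr
    _ = _ := by ring

theorem Gav_sq_le (M : ℕ) {K : ℝ} (hK : 0 < K) {g : E4 → ℂ} (hg : Integrable g) (z : E4) :
    Gav M K g z ^ 2 ≤ cw M * Gsq M K g z := by
  have h1 := (continuous_inv hg).measurable
  have h2 : Measurable (fun y => wK M K (z - y)) := (measurable_wK M K).comp (by fun_prop)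
  have m1 : Measurable (fun y => ‖𝓕⁻ g y‖ₑ * wK M K (z - y) ^ (1/2 : ℝ)) := h1.enorm.mul (h2.pow_const _)
  have m2 : Measurable (fun y => wK M K (z - y) ^ (1/2 : ℝ)) := h2.pow_const _
  have hH := ENNReal.lintegral_mul_le_Lp_mul_Lq (μ := (volume : Measure E4)) (p := 2) (q := 2)
    (by constructor <;> norm_num) (f := fun y => ‖𝓕⁻ g y‖ₑ * wK M K (z - y) ^ (1/2 : ℝ))
    (g := fun y => wK M K (z - y) ^ (1/2 : ℝ)) m1.aemeasurable m2.aemeasurable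
  have e1 : ∀ y, (‖𝓕⁻ g y‖ₑ * wK M K (z - y) ^ (1/2 : ℝ)) * wK M K (z - y) ^ (1/2 : ℝ) = ‖𝓕⁻ g y‖ₑ * wK M K (z - y) := by
    intro y
    rw [mul_assoc, ← ENNReal.rpow_add_of_nonneg _ _ (by norm_num) (by norm_num)]
    norm_num
  have e2 : ∀ y, (‖𝓕⁻ g y‖ₑ * wK M K (z - y) ^ (1/2 : ℝ)) ^ (2:ℝ) = ‖𝓕⁻ g y‖ₑ ^ 2 * wK M K (z - y) := by
    intro y
    rw [ENNReal.mul_rpow_of_nonneg _ _ (by norm_num), ← ENNReal.rpow_mul]
    norm_num
  have e3 : ∀ y, (wK M K (z - y) ^ (1/2 : ℝ)) ^ (2 : ℝ) = wK M K (z - y) := by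
    intro y
    rw [← ENNReal.rpow_mul]; norm_num
  simp only [Pi.mul_apply, e1, e2, e3] at hH
  have e4 : ∫⁻ y, wK M K (z - y) = cw M := by
    rw [lintegral_sub_left_eq_self (fun y => wK M K y), lint_wK M hK]
  rw [e4] at hH
  have hG : Gav M K g z ≤ Gsq M K g z ^ (1/2 : ℝ) * cw M ^ (1/2 : ℝ) := hH
  calc Gav M K g z ^ 2 ≤ (Gsq M K g z ^ (1/2 : ℝ) * cw M ^ (1/2 : ℝ)) ^ 2 := by gcongr
    _ = _ := by
        rw [mul_pow, ← ENNReal.rpow_natCast, ← ENNReal.rpow_natCast, ← ENNReal.rpow_mul, ← ENNReal.rpow_mul]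
        norm_num
        rw [mul_comm]

end Vale.Agent.P106.G
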