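import Vale.Agent.P106.G.Four4

/-! # Exact affine rescaling of caps -/

open MeasureTheory Complex Set
open scoped ENNReal NNReal ContDiff FourierTransform SchwartzMap ComplexConjugate Topology

set_option linter.all false

namespace Vale.Agent.P106.G

open Tri (ec norm_ec enorm_ec ec_add ec_zero continuous_ec)

/-- rescaling map of frequencies -/
noncomputable def LL (N : ℕ) (k : ℤ × ℤ) (ζ : E4) : E4 :=
  !₂[ζ 0, (k.1 / N) * ζ 0 + ζ 1 / N, (k.2 / N) * ζ 0 + ζ 2 / N,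
    ((k.1 / N) ^ 2 + (k.2 / N) ^ 2) * ζ 0 + 2 * (k.1 / N) * ζ 1 / N + 2 * (k.2 / N) * ζ 2 / N + ζ 3 / N ^ 2]

section coords
variable (N : ℕ) (k : ℤ × ℤ) (z : E4)
@[simp] theorem LL0 : (LL N k z) 0 = z 0 := rfl
@[simp] theorem LL1 : (LL N k z) 1 = (k.1 / N) * z 0 + z 1 / N := rfl
@[simp] theorem LL2 : (LL N k z) 2 = (k.2 / N) * z 0 + z 2 / N := rfl
@[simp] theorem LL3 : (LL N k z) 3 = ((k.1 / N) ^ 2 + (k.2 / N) ^ 2) * z 0 + 2 * (k.1 / N) * z 1 / N +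
    2 * (k.2 / N) * z 2 / N + z 3 / N ^ 2 := rfl
@[simp] theorem LT0 : (LT N k z) 0 = z 0 + (k.1 / N) * z 1 + (k.2 / N) * z 2 + ((k.1 / N) ^ 2 + (k.2 / N) ^ 2) * z 3 := rfl
@[simp] theorem LT1 : (LT N k z) 1 = (z 1 + 2 * (k.1 / N) * z 3) / N := rfl
@[simp] theorem LT2 : (LT N k z) 2 = (z 2 + 2 * (k.2 / N) * z 3) / N := rfl
@[simp] theorem LT3 : (LT N k z) 3 = z 3 / N ^ 2 := rfl
end coords

theorem ext4 {x y : E4} (h0 : x 0 = y 0) (h1 : x 1 = y 1) (h2 : x 2 = y 2) (h3 : x 3 = y 3) : x = y := by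
  ext i
  fin_cases i
  · exact h0
  · exact h1
  · exact h2
  · exact h3

theorem inner_LT (N : ℕ) (k : ℤ × ℤ) (z ζ : E4) : inner ℝ ζ (LT N k z) = inner ℝ (LL N k ζ) z := by
  rw [inner4, inner4]
  simp only [LL0, LL1, LL2, LL3, LT0, LT1, LT2, LT3]
  ring

/-! ### Jacobians -/

noncomputable def mat4 (A : Matrix (Fin 4) (Fin 4) ℝ) : E4 →ₗ[ℝ] E4 :=
  Matrix.toLin (EuclideanSpace.basisFun (Fin 4) ℝ).toBasis (EuclideanSpace.basisFun (Fin 4) ℝ).toBasis A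

theorem mat4_apply (A : Matrix (Fin 4) (Fin 4) ℝ) (y : E4) (i : Fin 4) :
    mat4 A y i = A i 0 * y 0 + A i 1 * y 1 + A i 2 * y 2 + A i 3 * y 3 := by
  unfold mat4
  rw [Matrix.toLin_apply]
  simp [Matrix.mulVec, dotProduct, Fin.sum_univ_four]
  fin_cases i <;> simp

theorem mat4_det (A : Matrix (Fin 4) (Fin 4) ℝ) : LinearMap.det (mat4 A) = A.det := by
  unfold mat4
  rw [LinearMap.det_toLin]

theorem mat4_emb {A : Matrix (Fin 4) (Fin 4) ℝ} (h : A.det ≠ 0) : MeasurableEmbedding (mat4 A) := by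
  have hdet : LinearMap.det (mat4 A) ≠ 0 := by rwa [mat4_det]
  have : Function.Injective (mat4 A) := (LinearMap.equivOfDetNeZero _ hdet).injective
  exact ((mat4 A).continuous_of_finiteDimensional.measurableEmbedding this)

theorem integral_mat4 {A : Matrix (Fin 4) (Fin 4) ℝ} (h : A.det ≠ 0) (F : E4 → ℂ) :
    ∫ y : E4, F (mat4 A y) = (|A.det⁻¹| : ℝ) • ∫ x, F x := by
  have hdet : LinearMap.det (mat4 A) ≠ 0 := by rwa [mat4_det]
  have hmap := Measure.map_linearMap_addHaar_eq_smul_addHaar (μ := (volume : Measure E4)) hdet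
  have h2 : ∫ y, F (mat4 A y) = ∫ ξ, F ξ ∂(Measure.map (mat4 A) volume) := ((mat4_emb h).integral_map F).symm
  rw [h2, hmap, integral_smul_measure, mat4_det, ENNReal.toReal_ofReal (abs_nonneg _)]

theorem lintegral_mat4 {A : Matrix (Fin 4) (Fin 4) ℝ} (h : A.det ≠ 0) (F : E4 → ℝ≥0∞) :
    ∫⁻ y : E4, F (mat4 A y) = ENNReal.ofReal |A.det⁻¹| * ∫⁻ x, F x := by
  have hdet : LinearMap.det (mat4 A) ≠ 0 := by rwa [mat4_det]
  have hmap := Measure.map_linearMap_addHaar_eq_smul_addHaar (μ := (volume : Measure E4)) hdet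
  have h2 : ∫⁻ y, F (mat4 A y) = ∫⁻ ξ, F ξ ∂(Measure.map (mat4 A) volume) := ((mat4_emb h).lintegral_map F).symm
  rw [h2, hmap, lintegral_smul_measure, mat4_det, smul_eq_mul]

theorem integrable_mat4 {A : Matrix (Fin 4) (Fin 4) ℝ} (h : A.det ≠ 0) {F : E4 → ℂ} (hF : Integrable F) :
    Integrable (fun y : E4 => F (mat4 A y)) := by
  have hdet : LinearMap.det (mat4 A) ≠ 0 := by rwa [mat4_det]
  have hmap := Measure.map_linearMap_addHaar_eq_smul_addHaar (μ := (volume : Measure E4)) hdet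
  have := ((mat4_emb h).integrable_map_iff (g := F) (μ := volume)).1 (by
    rw [hmap]
    exact hF.smul_measure ENNReal.ofReal_ne_top)
  exact this

/-- matrix of `LL` -/
noncomputable def AL (N : ℕ) (k : ℤ × ℤ) : Matrix (Fin 4) (Fin 4) ℝ :=
  !![1, 0, 0, 0; (k.1 / N : ℝ), 1 / (N:ℝ), 0, 0; (k.2 / N : ℝ), 0, 1 / (N:ℝ), 0;
    (k.1 / N : ℝ) ^ 2 + (k.2 / N : ℝ) ^ 2, 2 * (k.1 / N : ℝ) / N, 2 * (k.2 / N : ℝ) / N, 1 / (N:ℝ) ^ 2]

theorem AL_det (N : ℕ) (k : ℤ × ℤ) : (AL N k).det = ((N:ℝ) ^ 4)⁻¹ := by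
  unfold AL
  rw [Matrix.det_succ_row_zero]
  simp [Fin.sum_univ_four, Matrix.det_fin_three, Fin.succAbove, Matrix.submatrix]
  ring

theorem LL_eq (N : ℕ) (k : ℤ × ℤ) : LL N k = mat4 (AL N k) := by
  ext ζ i
  rw [mat4_apply]
  fin_cases i
  · simp [AL, LL]
  · simp [AL, LL]; ring
  · simp [AL, LL]; ring
  · simp [AL, LL]; ring

theorem LT_eq (N : ℕ) (k : ℤ × ℤ) : LT N k = mat4 (AL N k).transpose := by
  ext ζ i
  rw [mat4_apply]
  fin_cases i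
  · simp [AL, LT]
  · simp [AL, LT]; ring
  · simp [AL, LT]; ring
  · simp [AL, LT]; ring

section
variable {N : ℕ} (hN : 1 ≤ N) (k : ℤ × ℤ)

include hN in
theorem AL_det_ne : (AL N k).det ≠ 0 := by
  rw [AL_det]
  have : (0:ℝ) < N := by exact_mod_cast hN
  positivity

include hN in
theorem lint_LL (F : E4 → ℝ≥0∞) : ∫⁻ y, F (LL N k y) = ENNReal.ofReal ((N:ℝ) ^ 4) * ∫⁻ x, F x := by
  rw [LL_eq, lintegral_mat4 (AL_det_ne hN k), AL_det, inv_inv, abs_of_nonneg (by positivity)]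

include hN in
theorem lint_LT (F : E4 → ℝ≥0∞) : ∫⁻ y, F (LT N k y) = ENNReal.ofReal ((N:ℝ) ^ 4) * ∫⁻ x, F x := by
  rw [LT_eq, lintegral_mat4 (by rw [Matrix.det_transpose]; exact AL_det_ne hN k), Matrix.det_transpose, AL_det,
    inv_inv, abs_of_nonneg (by positivity)]

include hN in
theorem int_LL (F : E4 → ℂ) : ∫ y, F (LL N k y) = (((N:ℝ) ^ 4 : ℝ) : ℂ) * ∫ x, F x := by
  rw [LL_eq, integral_mat4 (AL_det_ne hN k), AL_det, inv_inv, abs_of_nonneg (by positivity), Complex.real_smul]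

include hN in
theorem integrable_LL {F : E4 → ℂ} (hF : Integrable F) : Integrable (fun y => F (LL N k y)) := by
  rw [LL_eq]; exact integrable_mat4 (AL_det_ne hN k) hF

theorem continuous_LT : Continuous (LT N k) := by
  rw [LT_eq]; exact (mat4 (AL N k).transpose).continuous_of_finiteDimensional

theorem continuous_LL : Continuous (LL N k) := by
  rw [LL_eq]; exact (mat4 (AL N k)).continuous_of_finiteDimensional

theorem LT_sub (z w : E4) : LT N k (z - w) = LT N k z - LT N k w := by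
  rw [LT_eq]; exact map_sub _ _ _

theorem LT_add (z w : E4) : LT N k (z + w) = LT N k z + LT N k w := by
  rw [LT_eq]; exact map_add _ _ _

/-- rescaled amplitude -/
noncomputable def resc (N : ℕ) (k : ℤ × ℤ) (a : E4 → ℂ) (ζ : E4) : ℂ := ampk N k a (LL N k ζ)

theorem measurable_cpi (N : ℕ) : Measurable (cpi N) := by
  unfold cpi
  have h1 : Measurable (fun ζ : E4 => (N:ℝ) * (ζ 1 / ζ 0)) := by fun_prop
  have h2 : Measurable (fun ζ : E4 => (N:ℝ) * (ζ 2 / ζ 0)) := by fun_prop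
  exact (Int.measurable_floor.comp h1).prodMk (Int.measurable_floor.comp h2)

theorem ampk_eq_indicator (N : ℕ) (k : ℤ × ℤ) (a : E4 → ℂ) : ampk N k a = {ζ | cpi N ζ = k}.indicator a := by
  classical
  ext ζ
  unfold ampk
  by_cases h : cpi N ζ = k
  · rw [if_pos h, indicator_of_mem (show ζ ∈ {ζ | cpi N ζ = k} from h)]
  · rw [if_neg h, indicator_of_notMem (show ζ ∉ {ζ | cpi N ζ = k} from h)]

theorem measurableSet_cpi (N : ℕ) (k : ℤ × ℤ) : MeasurableSet {ζ : E4 | cpi N ζ = k} :=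
  (measurable_cpi N) (measurableSet_singleton k)

theorem ampk_ne {N : ℕ} {k : ℤ × ℤ} {a : E4 → ℂ} {ζ : E4} (h : ampk N k a ζ ≠ 0) : cpi N ζ = k ∧ a ζ ≠ 0 := by
  rw [ampk_eq_indicator] at h
  have h1 : ζ ∈ {ζ | cpi N ζ = k} := by
    by_contra hc
    exact h (indicator_of_notMem hc _)
  rw [indicator_of_mem h1] at h
  exact ⟨h1, h⟩

theorem enorm_ampk_le (N : ℕ) (k : ℤ × ℤ) (a : E4 → ℂ) (ζ : E4) : ‖ampk N k a ζ‖ₑ ≤ ‖a ζ‖ₑ := by
  rw [ampk_eq_indicator]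
  by_cases h : ζ ∈ {ζ | cpi N ζ = k}
  · rw [indicator_of_mem h]
  · rw [indicator_of_notMem h]; simp

theorem Amp.ampk {c0 R : ℝ} {a : E4 → ℂ} (ha : Amp c0 R a) (N : ℕ) (k : ℤ × ℤ) : Amp c0 R (ampk N k a) where
  meas := by rw [ampk_eq_indicator]; exact ha.meas.indicator (measurableSet_cpi N k)
  int := by rw [ampk_eq_indicator]; exact ha.int.indicator (measurableSet_cpi N k)
  sq := by
    refine lt_of_le_of_lt (lintegral_mono fun ζ => ?_) ha.sq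
    gcongr
    exact enorm_ampk_le N k a ζ
  supp := fun ζ h => ha.supp ζ (ampk_ne h).2

include hN in
theorem Amp.resc {c0 R : ℝ} (hR : 0 < R) {a : E4 → ℂ} (ha : Amp c0 R a) : Amp c0 (R / N ^ 2) (resc N k a) where
  meas := (ha.ampk N k).meas.comp (continuous_LL k).measurable
  int := integrable_LL hN k (ha.ampk N k).int
  sq := by
    have := lint_LL hN k (fun ζ => ‖G.ampk N k a ζ‖ₑ ^ 2)
    unfold G.resc
    rw [this]
    exact ENNReal.mul_lt_top ENNReal.ofReal_lt_top (ha.ampk N k).sq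
  supp := by
    intro ζ h
    obtain ⟨h1, h2⟩ := ampk_ne h
    obtain ⟨⟨s1, s2⟩, s3, s4, s5⟩ := ha.supp _ h2
    have hN0 : (0:ℝ) < N := by exact_mod_cast hN
    unfold cpi at h1
    rw [Prod.ext_iff] at h1
    obtain ⟨f1, f2⟩ := h1
    simp only [LL0, LL1, LL2, LL3] at *
    have h0 : 0 < ζ 0 := by linarith
    rw [Int.floor_eq_iff] at f1 f2
    have e1 : (N:ℝ) * (((k.1 / N) * ζ 0 + ζ 1 / N) / ζ 0) = k.1 + ζ 1 / ζ 0 := by field_simp
    have e2 : (N:ℝ) * (((k.2 / N) * ζ 0 + ζ 2 / N) / ζ 0) = k.2 + ζ 2 / ζ 0 := by field_simp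
    rw [e1] at f1
    rw [e2] at f2
    refine ⟨⟨s1, s2⟩, ⟨?_, ?_⟩, ⟨?_, ?_⟩, ?_⟩
    · have : 0 ≤ ζ 1 / ζ 0 := by linarith [f1.1]
      rwa [le_div_iff₀ h0, zero_mul] at this
    · have : ζ 1 / ζ 0 < 1 := by linarith [f1.2]
      rwa [div_lt_one h0] at this
    · have : 0 ≤ ζ 2 / ζ 0 := by linarith [f2.1]
      rwa [le_div_iff₀ h0, zero_mul] at this
    · have : ζ 2 / ζ 0 < 1 := by linarith [f2.2]
      rwa [div_lt_one h0] at this
    · have e : ((k.1 / N) ^ 2 + (k.2 / N) ^ 2) * ζ 0 + 2 * (k.1 / N) * ζ 1 / N + 2 * (k.2 / N) * ζ 2 / N +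
          ζ 3 / N ^ 2 - (((k.1 / N) * ζ 0 + ζ 1 / N) ^ 2 + ((k.2 / N) * ζ 0 + ζ 2 / N) ^ 2) / ζ 0 =
          (ζ 3 - (ζ 1 ^ 2 + ζ 2 ^ 2) / ζ 0) / N ^ 2 := by
        field_simp
        ring
      rw [e, abs_div, abs_of_pos (by positivity : (0:ℝ) < N ^ 2), div_le_iff₀ (by positivity)] at s5
      rw [inv_div]
      have e6 : (N:ℝ) ^ 2 / R = R⁻¹ * N ^ 2 := by rw [div_eq_mul_inv]; ring
      rw [e6]
      exact s5

include hN in
theorem inv_resc {a : E4 → ℂ} (z : E4) :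
    𝓕⁻ (ampk N k a) z = ((((N:ℝ) ^ 4)⁻¹ : ℝ) : ℂ) * 𝓕⁻ (resc N k a) (LT N k z) := by
  rw [inv_eq, inv_eq]
  have e : ∀ v : E4, ec (inner ℝ v (LT N k z)) * resc N k a v =
      (fun ζ : E4 => ec (inner ℝ ζ z) * ampk N k a ζ) (LL N k v) := by
    intro v
    rw [inner_LT]
    rfl
  have e' : ∫ v : E4, ec (inner ℝ v (LT N k z)) * resc N k a v =
      ∫ v : E4, (fun ζ : E4 => ec (inner ℝ ζ z) * ampk N k a ζ) (LL N k v) := integral_congr_ae (by
        filter_upwards with v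
        exact e v)
  rw [e', int_LL hN k (fun ζ : E4 => ec (inner ℝ ζ z) * ampk N k a ζ), ← mul_assoc, ← Complex.ofReal_mul, inv_mul_cancel₀ (by
    have : (0:ℝ) < N := by exact_mod_cast hN
    positivity), Complex.ofReal_one, one_mul]

end

/-- subcaps -/
def sub (N : ℕ) (κ k : ℤ × ℤ) : ℤ × ℤ := (κ.1 * N + k.1, κ.2 * N + k.2)

theorem cpi_LL {N' N : ℕ} (hN' : 1 ≤ N') (κ : ℤ × ℤ) {ζ : E4} (h0 : ζ 0 ≠ 0) :
    cpi (N' * N) (LL N' κ ζ) = sub N κ (cpi N ζ) := by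
  have hN0 : (0:ℝ) < N' := by exact_mod_cast hN'
  unfold cpi sub
  simp only [LL0, LL1, LL2]
  have e1 : ((N' * N : ℕ):ℝ) * (((κ.1 / N') * ζ 0 + ζ 1 / N') / ζ 0) = (N:ℝ) * (ζ 1 / ζ 0) + ((κ.1 * N : ℤ) : ℝ) := by
    push_cast; field_simp; ring
  have e2 : ((N' * N : ℕ):ℝ) * (((κ.2 / N') * ζ 0 + ζ 2 / N') / ζ 0) = (N:ℝ) * (ζ 2 / ζ 0) + ((κ.2 * N : ℤ) : ℝ) := by
    push_cast; field_simp; ring
  rw [e1, e2, Int.floor_add_intCast, Int.floor_add_intCast]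
  ext
  · simp; ring
  · simp; ring

theorem LT_sub_comp {N' N : ℕ} (hN' : 1 ≤ N') (hN : 1 ≤ N) (κ k : ℤ × ℤ) (z : E4) :
    LT (N' * N) (sub N κ k) z = LT N k (LT N' κ z) := by
  have h1 : (0:ℝ) < N' := by exact_mod_cast hN'
  have h2 : (0:ℝ) < N := by exact_mod_cast hN
  apply ext4
  · simp only [LT0, LT1, LT2, LT3, sub]; push_cast; field_simp; ring
  · simp only [LT0, LT1, LT2, LT3, sub]; push_cast; field_simp; ring
  · simp only [LT0, LT1, LT2, LT3, sub]; push_cast; field_simp; ring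
  · simp only [LT0, LT1, LT2, LT3, sub]; push_cast; field_simp

theorem sub_inj {N : ℕ} {κ κ' k k' : ℤ × ℤ} (hk : k ∈ grd N) (hk' : k' ∈ grd N) (h : sub N κ k = sub N κ' k') :
    κ = κ' ∧ k = k' := by
  unfold grd at hk hk'
  rw [Finset.mem_product, Finset.mem_Ico, Finset.mem_Ico] at hk hk'
  unfold sub at h
  rw [Prod.ext_iff] at h
  obtain ⟨h1, h2⟩ := h
  simp only at h1 h2
  have key : ∀ a a' b b' : ℤ, 0 ≤ b → b < N → 0 ≤ b' → b' < N → a * N + b = a' * N + b' → a = a' ∧ b = b' := by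
    intro a a' b b' i1 i2 i3 i4 he
    have hN : (0:ℤ) < N := by omega
    have e1 : (a * N + b) / N = a := by
      rw [add_comm, Int.add_mul_ediv_right _ _ hN.ne', Int.ediv_eq_zero_of_lt i1 i2, zero_add]
    have e2 : (a' * N + b') / N = a' := by
      rw [add_comm, Int.add_mul_ediv_right _ _ hN.ne', Int.ediv_eq_zero_of_lt i3 i4, zero_add]
    have : a = a' := by rw [← e1, he, e2]
    subst this
    exact ⟨rfl, by linarith⟩
  obtain ⟨a1, a2⟩ := key _ _ _ _ hk.1.1 hk.1.2 hk'.1.1 hk'.1.2 h1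
  obtain ⟨b1, b2⟩ := key _ _ _ _ hk.2.1 hk.2.2 hk'.2.1 hk'.2.2 h2
  exact ⟨Prod.ext a1 b1, Prod.ext a2 b2⟩

theorem grd_prod {N' N : ℕ} {β : Type*} [AddCommMonoid β] (f : ℤ × ℤ → β) :
    ∑ k ∈ grd (N' * N), f k = ∑ κ ∈ grd N', ∑ k ∈ grd N, f (sub N κ k) := by
  classical
  rw [← Finset.sum_product']
  symm
  apply Finset.sum_bij (fun (p : (ℤ × ℤ) × (ℤ × ℤ)) _ => sub N p.1 p.2)
  · intro p hp
    rw [Finset.mem_product] at hp
    obtain ⟨h1, h2⟩ := hp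
    unfold grd at h1 h2 ⊢
    rw [Finset.mem_product, Finset.mem_Ico, Finset.mem_Ico] at h1 h2 ⊢
    unfold sub
    push_cast
    obtain ⟨⟨a1, a2⟩, a3, a4⟩ := h1
    obtain ⟨⟨b1, b2⟩, b3, b4⟩ := h2
    refine ⟨⟨?_, ?_⟩, ?_, ?_⟩
    · have : 0 ≤ p.1.1 * (N:ℤ) := mul_nonneg a1 (by omega)
      omega
    · have : p.1.1 + 1 ≤ N' := by omega
      have := mul_le_mul_of_nonneg_right this (by omega : (0:ℤ) ≤ N)
      nlinarith
    · have : 0 ≤ p.1.2 * (N:ℤ) := mul_nonneg a3 (by omega)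
      omega
    · have : p.1.2 + 1 ≤ N' := by omega
      have := mul_le_mul_of_nonneg_right this (by omega : (0:ℤ) ≤ N)
      nlinarith
  · intro p hp p' hp' h
    rw [Finset.mem_product] at hp hp'
    obtain ⟨h1, h2⟩ := sub_inj hp.2 hp'.2 h
    exact Prod.ext h1 h2
  · intro k hk
    unfold grd at hk
    rw [Finset.mem_product, Finset.mem_Ico, Finset.mem_Ico] at hk
    push_cast at hk
    obtain ⟨⟨a1, a2⟩, a3, a4⟩ := hk
    have hN : (0:ℤ) < N := by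
      by_contra hc
      have : (N:ℤ) = 0 := by omega
      rw [this, mul_zero] at a2
      omega
    refine ⟨((k.1 / N, k.2 / N), (k.1 % N, k.2 % N)), ?_, ?_⟩
    · unfold grd
      simp only [Finset.mem_product, Finset.mem_Ico]
      refine ⟨⟨⟨Int.ediv_nonneg a1 hN.le, ?_⟩, Int.ediv_nonneg a3 hN.le, ?_⟩,
        ⟨Int.emod_nonneg _ hN.ne', Int.emod_lt_of_pos _ hN⟩, Int.emod_nonneg _ hN.ne', Int.emod_lt_of_pos _ hN⟩
      · exact Int.ediv_lt_of_lt_mul hN a2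
      · exact Int.ediv_lt_of_lt_mul hN a4
    · unfold sub
      ext
      · simp only; rw [mul_comm]; exact Int.mul_ediv_add_emod k.1 N
      · simp only; rw [mul_comm]; exact Int.mul_ediv_add_emod k.2 N
  · intro p hp
    rfl

end Vale.Agent.P106.G
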