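import Vale.Agent.P106.G.LO

/-! # The slab estimate -/

open MeasureTheory Complex Set
open scoped ENNReal NNReal ContDiff FourierTransform SchwartzMap ComplexConjugate

set_option linter.all false

namespace Vale.Agent.P106.G

open Vale.Agent.P117 (E3)

theorem prod4 {f0 f1 f2 f3 : ℝ → ℝ≥0∞} (h0 : Measurable f0) (h1 : Measurable f1) (h2 : Measurable f2) (h3 : Measurable f3) :
    ∫⁻ x : E4, f0 (x 0) * f1 (x 1) * f2 (x 2) * f3 (x 3) = (∫⁻ t, f0 t) * (∫⁻ t, f1 t) * (∫⁻ t, f2 t) * ∫⁻ t, f3 t := by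
  have mF : Measurable (fun x : E4 => f0 (x 0) * f1 (x 1) * f2 (x 2) * f3 (x 3)) := by
    have a0 : Measurable (fun x : E4 => f0 (x 0)) := h0.comp (by fun_prop)
    have a1 : Measurable (fun x : E4 => f1 (x 1)) := h1.comp (by fun_prop)
    have a2 : Measurable (fun x : E4 => f2 (x 2)) := h2.comp (by fun_prop)
    have a3 : Measurable (fun x : E4 => f3 (x 3)) := h3.comp (by fun_prop)
    exact ((a0.mul a1).mul a2).mul a3
  rw [lint4 mF]
  simp only [cn0, cn1, cn2, cn3]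
  have e3 : ∫⁻ x : E3, f1 (x 0) * f2 (x 1) * f3 (x 2) = (∫⁻ t, f1 t) * (∫⁻ t, f2 t) * ∫⁻ t, f3 t := by
    rw [Vale.Agent.P117.lintegral_E3 (fun z => f1 z.1.1 * f2 z.1.2 * f3 z.2)]
    have m12 : Measurable (fun z : ℝ × ℝ => f1 z.1 * f2 z.2) := (h1.comp measurable_fst).mul (h2.comp measurable_snd)
    rw [Measure.volume_eq_prod]
    have e4 := lintegral_prod_mul (μ := (volume : Measure (ℝ × ℝ))) (ν := (volume : Measure ℝ)) m12.aemeasurable h3.aemeasurable
    rw [e4, Measure.volume_eq_prod, lintegral_prod_mul h1.aemeasurable h2.aemeasurable]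
  have m3 : Measurable (fun x : E3 => f1 (x 0) * f2 (x 1) * f3 (x 2)) := by
    have a1 : Measurable (fun x : E3 => f1 (x 0)) := h1.comp (by fun_prop)
    have a2 : Measurable (fun x : E3 => f2 (x 1)) := h2.comp (by fun_prop)
    have a3 : Measurable (fun x : E3 => f3 (x 2)) := h3.comp (by fun_prop)
    exact (a1.mul a2).mul a3
  calc ∫⁻ t, ∫⁻ x : E3, f0 t * f1 (x 0) * f2 (x 1) * f3 (x 2) = ∫⁻ t, f0 t * ∫⁻ x : E3, f1 (x 0) * f2 (x 1) * f3 (x 2) := by
        refine lintegral_congr fun t => ?_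
        rw [← lintegral_const_mul _ m3]
        refine lintegral_congr fun x => ?_
        ring
    _ = _ := by
        rw [lintegral_mul_const _ h0, e3]
        ring

/-- one dimensional profile -/
noncomputable def fj (Λ : ℝ) (s : ℝ) : ℝ≥0∞ := ENNReal.ofReal (((1 + |s| / Λ) ^ 2)⁻¹)

theorem measurable_fj (Λ : ℝ) : Measurable (fj Λ) := by unfold fj; fun_prop

theorem lint_fj {Λ : ℝ} (hΛ : 1 ≤ Λ) : ∫⁻ s, fj Λ s ≠ ⊤ := by
  have h1 := finite_integral_one_add_norm (E := ℝ) (μ := (volume : Measure ℝ)) (r := 2) (by simp)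
  have h2 : ∫⁻ s : ℝ, fj Λ s ≤ ∫⁻ s : ℝ, ENNReal.ofReal (Λ ^ 2) * ENNReal.ofReal ((1 + ‖s‖) ^ (-(2:ℝ))) := by
    refine lintegral_mono fun s => ?_
    unfold fj
    rw [← ENNReal.ofReal_mul (by positivity)]
    apply ENNReal.ofReal_le_ofReal
    have e : (1 + ‖s‖) ^ (-(2:ℝ)) = ((1 + |s|) ^ 2)⁻¹ := by
      rw [Real.rpow_neg (by positivity), Real.norm_eq_abs]
      norm_cast
    rw [e]
    have h3 : (1 + |s|) ≤ Λ * (1 + |s| / Λ) := by
      have : Λ * (1 + |s| / Λ) = Λ + |s| := by field_simp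
      rw [this]; linarith
    have h4 : (1 + |s|) ^ 2 ≤ Λ ^ 2 * (1 + |s| / Λ) ^ 2 := by
      rw [← mul_pow]
      exact pow_le_pow_left₀ (by positivity) h3 2
    have h5 : 0 < (1 + |s| / Λ) ^ 2 := by positivity
    have h6 : 0 < (1 + |s|) ^ 2 := by positivity
    rw [← div_eq_mul_inv, inv_eq_one_div, div_le_div_iff₀ h5 h6]
    linarith
  refine (lt_of_le_of_lt h2 ?_).ne
  rw [lintegral_const_mul' _ _ ENNReal.ofReal_ne_top]
  exact ENNReal.mul_lt_top ENNReal.ofReal_lt_top h1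

theorem plank_int1 {Λ : ℝ} {p1 p2 r p1' p2' r' s1 s2 y2 y3 n : ℝ} (hp : p1 ≠ p1') :
    ∫⁻ z : E4, fj Λ (z 0 + p1 * z 1 + p2 * z 2 + r * z 3 - s1) * fj Λ (z 0 + p1' * z 1 + p2' * z 2 + r' * z 3 - s2) *
      (Metric.closedBall y2 n).indicator (fun _ => (1:ℝ≥0∞)) (z 2) * (Metric.closedBall y3 n).indicator (fun _ => (1:ℝ≥0∞)) (z 3) =
    ENNReal.ofReal |(p1' - p1)⁻¹| * ((∫⁻ s, fj Λ s) * (∫⁻ s, fj Λ s) * ENNReal.ofReal (2 * n) * ENNReal.ofReal (2 * n)) := by
  set A : Matrix (Fin 4) (Fin 4) ℝ := !![1, p1, p2, r; 1, p1', p2', r'; 0, 0, 1, 0; 0, 0, 0, 1] with hA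
  have hdet : A.det = p1' - p1 := by
    rw [hA, Matrix.det_succ_row_zero]
    simp [Fin.sum_univ_four, Matrix.det_fin_three, Fin.succAbove, Matrix.submatrix]
    ring
  have hne : A.det ≠ 0 := by rw [hdet]; exact sub_ne_zero.2 (Ne.symm hp)
  set F : E4 → ℝ≥0∞ := fun w => fj Λ (w 0 - s1) * fj Λ (w 1 - s2) *
      (Metric.closedBall y2 n).indicator (fun _ => (1:ℝ≥0∞)) (w 2) * (Metric.closedBall y3 n).indicator (fun _ => (1:ℝ≥0∞)) (w 3) with hF
  have e : ∀ z : E4, fj Λ (z 0 + p1 * z 1 + p2 * z 2 + r * z 3 - s1) * fj Λ (z 0 + p1' * z 1 + p2' * z 2 + r' * z 3 - s2) *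
      (Metric.closedBall y2 n).indicator (fun _ => (1:ℝ≥0∞)) (z 2) * (Metric.closedBall y3 n).indicator (fun _ => (1:ℝ≥0∞)) (z 3) = F (mat4 A z) := by
    intro z
    simp only [hF]
    rw [mat4_apply, mat4_apply, mat4_apply, mat4_apply]
    simp [hA]
  simp_rw [e]
  rw [lintegral_mat4 hne F, hdet]
  congr 1
  have m1 := measurable_fj Λ
  rw [hF, prod4 (f0 := fun t => fj Λ (t - s1)) (f1 := fun t => fj Λ (t - s2)) (m1.comp (by fun_prop)) (m1.comp (by fun_prop))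
    (measurable_const.indicator measurableSet_closedBall) (measurable_const.indicator measurableSet_closedBall),
    lintegral_sub_right_eq_self (fun t => fj Λ t), lintegral_sub_right_eq_self (fun t => fj Λ t),
    lintegral_indicator measurableSet_closedBall, lintegral_indicator measurableSet_closedBall, setLIntegral_const, setLIntegral_const,
    one_mul, one_mul, Real.volume_closedBall, Real.volume_closedBall]

theorem plank_int2 {Λ : ℝ} {p1 p2 r p1' p2' r' s1 s2 y1 y3 n : ℝ} (hp : p2 ≠ p2') :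
    ∫⁻ z : E4, fj Λ (z 0 + p1 * z 1 + p2 * z 2 + r * z 3 - s1) * fj Λ (z 0 + p1' * z 1 + p2' * z 2 + r' * z 3 - s2) *
      (Metric.closedBall y1 n).indicator (fun _ => (1:ℝ≥0∞)) (z 1) * (Metric.closedBall y3 n).indicator (fun _ => (1:ℝ≥0∞)) (z 3) =
    ENNReal.ofReal |(p2' - p2)⁻¹| * ((∫⁻ s, fj Λ s) * (∫⁻ s, fj Λ s) * ENNReal.ofReal (2 * n) * ENNReal.ofReal (2 * n)) := by
  set A : Matrix (Fin 4) (Fin 4) ℝ := !![1, p1, p2, r; 1, p1', p2', r'; 0, 1, 0, 0; 0, 0, 0, 1] with hA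
  have hdet : A.det = -(p2' - p2) := by
    rw [hA, Matrix.det_succ_row_zero]
    simp [Fin.sum_univ_four, Matrix.det_fin_three, Fin.succAbove, Matrix.submatrix]
    ring
  have hne : A.det ≠ 0 := by rw [hdet]; exact neg_ne_zero.2 (sub_ne_zero.2 (Ne.symm hp))
  set F : E4 → ℝ≥0∞ := fun w => fj Λ (w 0 - s1) * fj Λ (w 1 - s2) *
      (Metric.closedBall y1 n).indicator (fun _ => (1:ℝ≥0∞)) (w 2) * (Metric.closedBall y3 n).indicator (fun _ => (1:ℝ≥0∞)) (w 3) with hF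
  have e : ∀ z : E4, fj Λ (z 0 + p1 * z 1 + p2 * z 2 + r * z 3 - s1) * fj Λ (z 0 + p1' * z 1 + p2' * z 2 + r' * z 3 - s2) *
      (Metric.closedBall y1 n).indicator (fun _ => (1:ℝ≥0∞)) (z 1) * (Metric.closedBall y3 n).indicator (fun _ => (1:ℝ≥0∞)) (z 3) = F (mat4 A z) := by
    intro z
    simp only [hF]
    rw [mat4_apply, mat4_apply, mat4_apply, mat4_apply]
    simp [hA]
  simp_rw [e]
  rw [lintegral_mat4 hne F, hdet]
  have e5 : |(-(p2' - p2))⁻¹| = |(p2' - p2)⁻¹| := by rw [inv_neg, abs_neg]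
  rw [e5]
  congr 1
  have m1 := measurable_fj Λ
  rw [hF, prod4 (f0 := fun t => fj Λ (t - s1)) (f1 := fun t => fj Λ (t - s2)) (m1.comp (by fun_prop)) (m1.comp (by fun_prop))
    (measurable_const.indicator measurableSet_closedBall) (measurable_const.indicator measurableSet_closedBall),
    lintegral_sub_right_eq_self (fun t => fj Λ t), lintegral_sub_right_eq_self (fun t => fj Λ t),
    lintegral_indicator measurableSet_closedBall, lintegral_indicator measurableSet_closedBall, setLIntegral_const, setLIntegral_const,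
    one_mul, one_mul, Real.volume_closedBall, Real.volume_closedBall]

end Vale.Agent.P106.G
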