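import Vale.Agent.P106.G.SlabA
import Vale.Agent.P106.G.KinA

/-! # The slab estimate for shifted grids -/

open MeasureTheory Complex Set
open scoped ENNReal NNReal ContDiff FourierTransform SchwartzMap ComplexConjugate

set_option linter.all false

namespace Vale.Agent.P106.G

theorem norm_TT_sh {N : ℕ} (hN : 1 ≤ N) {k : ℤ × ℤ} (hk : k ∈ grd N) {b1 b2 : ℝ} (hb1 : |b1| ≤ 1/8) (hb2 : |b2| ≤ 1/8)
    {u : E4} (hu : ‖u‖ ≤ N) : ‖TT N k (shT b1 b2 u)‖ ≤ 40 := by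
  set w := shT b1 b2 u with hw
  have h1 : ‖w‖ ≤ 2 * N := (norm_shT_le hb1 hb2 u).trans (by linarith)
  have e : w = (1/2 : ℝ) • w - (-(1/2) : ℝ) • w := by
    rw [← sub_smul]; norm_num
  have n1 : ‖(1/2 : ℝ) • w‖ ≤ N := by
    rw [norm_smul]; norm_num; linarith
  have n2 : ‖(-(1/2) : ℝ) • w‖ ≤ N := by
    rw [norm_smul]; norm_num; linarith
  rw [e, TT_sub]
  refine (norm_sub_le _ _).trans ?_
  have := norm_TT_small hN hk n1
  have := norm_TT_small hN hk n2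
  linarith

/-- the plank weight is bounded by the tube weight and a one dimensional profile -/
theorem phk_le2 {Λ : ℝ} (hΛ : 1 ≤ Λ) {M : ℕ} (hM : 4 ≤ M) {N : ℕ} (hN : 1 ≤ N) {k : ℤ × ℤ} (hk : k ∈ grd N) (y y1 z : E4)
    (hz : ‖TT N k (z - y)‖ ≤ 40) :
    phk Λ M N k (z - y1) ≤ ENNReal.ofReal (N * (41 * Λ) ^ (M - 2)) * Phk (M - 2) N k (y - y1) * fj Λ (LT N k z 0 - LT N k y1 0) := by
  have hN0 : (0:ℝ) < N := by exact_mod_cast hN
  have hN1 : (1:ℝ) ≤ N := by exact_mod_cast hN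
  have hΛ0 : 0 < Λ := by linarith
  unfold phk Phk fj
  rw [← ENNReal.ofReal_mul (by positivity), ← ENNReal.ofReal_mul (by positivity)]
  apply ENNReal.ofReal_le_ofReal
  set X := 1 + ‖LT N k (z - y1)‖ / Λ with hX
  set Y := 1 + ‖TT N k (y - y1)‖ with hY
  set Z := 1 + |LT N k z 0 - LT N k y1 0| / Λ with hZ
  have hX1 : 1 ≤ X := by
    have : 0 ≤ ‖LT N k (z - y1)‖ / Λ := by positivity
    linarith
  have hY1 : 1 ≤ Y := by
    have := norm_nonneg (TT N k (y - y1))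
    linarith
  have hZ1 : 1 ≤ Z := by
    have : 0 ≤ |LT N k z 0 - LT N k y1 0| / Λ := by positivity
    linarith
  have hZX : Z ≤ X := by
    have := abs_coord_le (LT N k (z - y1)) 0
    have e : LT N k (z - y1) 0 = LT N k z 0 - LT N k y1 0 := by rw [LT_sub, PiLp.sub_apply]
    rw [e] at this
    rw [hZ, hX]
    gcongr
  have hYX : Y ≤ 41 * Λ * X := by
    have h1 : ‖TT N k (y - y1)‖ ≤ ‖TT N k (z - y1)‖ + 40 := by
      have e : TT N k (y - y1) = TT N k (z - y1) - TT N k (z - y) := by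
        rw [← TT_sub]; congr 1; abel
      rw [e]
      refine (norm_sub_le _ _).trans ?_
      linarith
    have h2 := norm_TT_le_LT hN k (z - y1)
    have h3 : Λ * X = Λ + ‖LT N k (z - y1)‖ := by rw [hX]; field_simp
    have h4 := norm_nonneg (LT N k (z - y1))
    calc Y ≤ 41 + ‖LT N k (z - y1)‖ := by rw [hY]; linarith
      _ ≤ 41 * (Λ * X) := by rw [h3]; linarith
      _ = _ := by ring
  have e1 : X ^ M = X ^ (M - 2) * X ^ 2 := by rw [← pow_add]; congr 1; omega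
  have h5 : Y ^ (M - 2) ≤ (41 * Λ) ^ (M - 2) * X ^ (M - 2) := by
    rw [← mul_pow]
    exact pow_le_pow_left₀ (by linarith) hYX _
  have h6 : Z ^ 2 ≤ X ^ 2 := pow_le_pow_left₀ (by linarith) hZX _
  have hXp : 0 < X := by linarith
  have hYp : 0 < Y := by linarith
  have hZp : 0 < Z := by linarith
  have h7 : (X ^ M)⁻¹ ≤ (41 * Λ) ^ (M - 2) * (Y ^ (M - 2))⁻¹ * (Z ^ 2)⁻¹ := by
    rw [e1, mul_inv]
    have h8 : (X ^ (M - 2))⁻¹ ≤ (41 * Λ) ^ (M - 2) * (Y ^ (M - 2))⁻¹ := by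
      rw [← div_eq_mul_inv, inv_eq_one_div, div_le_div_iff₀ (by positivity) (by positivity)]
      linarith
    have h9 : (X ^ 2)⁻¹ ≤ (Z ^ 2)⁻¹ := inv_anti₀ (by positivity) h6
    exact mul_le_mul h8 h9 (by positivity) (by positivity)
  calc ((N:ℝ) ^ 4)⁻¹ * (X ^ M)⁻¹ ≤ ((N:ℝ) ^ 4)⁻¹ * ((41 * Λ) ^ (M - 2) * (Y ^ (M - 2))⁻¹ * (Z ^ 2)⁻¹) := by gcongr
    _ = _ := by field_simp


theorem cap_sep2 {c0 R : ℝ} {N : ℕ} (hN : 1 ≤ N) {a b : E4 → ℂ} (ha : Amp c0 R a) (hb : Amp c0 R b) {c : ℝ} (hcN : 8 / N ≤ c)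
    {b1 b2 b1' b2' : ℝ} (h1 : |b1| ≤ 1 / N) (h2 : |b2| ≤ 1 / N) (h1' : |b1'| ≤ 1 / N) (h2' : |b2'| ≤ 1 / N)
    (hsep : ∀ ζ ζ', a ζ ≠ 0 → b ζ' ≠ 0 → c ≤ |ζ 1 / ζ 0 - ζ' 1 / ζ' 0| ∨ c ≤ |ζ 2 / ζ 0 - ζ' 2 / ζ' 0|)
    {k l : ℤ × ℤ} {ζ ζ' : E4} (h : ampk N k a ζ ≠ 0) (h' : ampk N l b ζ' ≠ 0) :
    (8 ≤ N ∧ (c / 2 ≤ |((l.1:ℝ) / N + b1') - (k.1 / N + b1)| ∨ c / 2 ≤ |((l.2:ℝ) / N + b2') - (k.2 / N + b2)|)) := by
  have hN0 : (0:ℝ) < N := by exact_mod_cast hN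
  have key : ∀ (ζ : E4) (k : ℤ × ℤ), cpi N ζ = k → |ζ 1 / ζ 0 - k.1 / N| ≤ 1 / N ∧ |ζ 2 / ζ 0 - k.2 / N| ≤ 1 / N := by
    intro ζ k hk
    unfold cpi at hk
    rw [Prod.ext_iff] at hk
    obtain ⟨k1, k2⟩ := hk
    simp only at k1 k2
    rw [Int.floor_eq_iff] at k1 k2
    have g : ∀ (x : ℝ) (j : ℤ), (j:ℝ) ≤ N * x → N * x < j + 1 → |x - j / N| ≤ 1 / N := by
      intro x j h1 h2
      have e : x - j / N = (N * x - j) / N := by field_simp
      rw [e, abs_div, abs_of_pos hN0, div_le_div_iff_of_pos_right hN0, abs_le]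
      constructor <;> linarith
    exact ⟨g _ _ k1.1 k1.2, g _ _ k2.1 k2.2⟩
  obtain ⟨g1, g2⟩ := ampk_ne h
  obtain ⟨g1', g2'⟩ := ampk_ne h'
  obtain ⟨a1, a2⟩ := key _ _ g1
  obtain ⟨d1, d2⟩ := key _ _ g1'
  have e4 : 8 / (N:ℝ) = 8 * (1 / N) := by ring
  rw [e4] at hcN
  have hv : ∀ {a : E4 → ℂ} {ζ : E4}, Amp c0 R a → a ζ ≠ 0 → (0 ≤ ζ 1 / ζ 0 ∧ ζ 1 / ζ 0 ≤ 1) ∧ (0 ≤ ζ 2 / ζ 0 ∧ ζ 2 / ζ 0 ≤ 1) := by
    intro a ζ ha hz
    obtain ⟨⟨s1, s2⟩, ⟨s3, s4⟩, ⟨s5, s6⟩, s7⟩ := ha.supp ζ hz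
    have h0 : 0 < ζ 0 := by linarith
    refine ⟨⟨by positivity, ?_⟩, by positivity, ?_⟩
    · rw [div_le_one h0]; exact s4.le
    · rw [div_le_one h0]; exact s6.le
  obtain ⟨⟨r1, r2⟩, r3, r4⟩ := hv ha g2
  obtain ⟨⟨t1, t2⟩, t3, t4⟩ := hv hb g2'
  have h8 : 8 ≤ N := by
    have hc1 : c ≤ 1 := by
      rcases hsep _ _ g2 g2' with h3 | h3
      · refine h3.trans (abs_le.2 ⟨by linarith, by linarith⟩)
      · refine h3.trans (abs_le.2 ⟨by linarith, by linarith⟩)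
    have : 8 * (1 / (N:ℝ)) ≤ 1 := hcN.trans hc1
    rw [mul_one_div, div_le_one hN0] at this
    exact_mod_cast this
  refine ⟨h8, ?_⟩
  rcases hsep _ _ g2 g2' with h3 | h3
  · left
    have e : ζ 1 / ζ 0 - ζ' 1 / ζ' 0 = (ζ 1 / ζ 0 - k.1 / N) - (ζ' 1 / ζ' 0 - l.1 / N) - (((l.1:ℝ) / N + b1') - (k.1 / N + b1)) - (b1 - b1') := by ring
    have h5 : |ζ 1 / ζ 0 - ζ' 1 / ζ' 0| ≤ 1 / N + 1 / N + |((l.1:ℝ) / N + b1') - (k.1 / N + b1)| + (1 / N + 1 / N) := by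
      rw [e]
      exact (abs_sub _ _).trans (add_le_add ((abs_sub _ _).trans (add_le_add ((abs_sub _ _).trans (add_le_add a1 d1)) le_rfl))
        ((abs_sub _ _).trans (add_le_add h1 h1')))
    linarith
  · right
    have e : ζ 2 / ζ 0 - ζ' 2 / ζ' 0 = (ζ 2 / ζ 0 - k.2 / N) - (ζ' 2 / ζ' 0 - l.2 / N) - (((l.2:ℝ) / N + b2') - (k.2 / N + b2)) - (b2 - b2') := by ring
    have h5 : |ζ 2 / ζ 0 - ζ' 2 / ζ' 0| ≤ 1 / N + 1 / N + |((l.2:ℝ) / N + b2') - (k.2 / N + b2)| + (1 / N + 1 / N) := by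
      rw [e]
      exact (abs_sub _ _).trans (add_le_add ((abs_sub _ _).trans (add_le_add ((abs_sub _ _).trans (add_le_add a2 d2)) le_rfl))
        ((abs_sub _ _).trans (add_le_add h2 h2')))
    linarith

/-- the integral of the two profiles over a ball -/
theorem prof_int2 {Λ : ℝ} {c : ℝ} (hc : 0 < c) {N : ℕ} (hN : 1 ≤ N) (k l : ℤ × ℤ) (y : E4) (s1 s2 b1 b2 b1' b2' : ℝ)
    (h : c / 2 ≤ |((l.1:ℝ) / N + b1') - (k.1 / N + b1)| ∨ c / 2 ≤ |((l.2:ℝ) / N + b2') - (k.2 / N + b2)|) :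
    ∫⁻ z in Metric.closedBall y (N:ℝ), fj Λ (LT N k (shT b1 b2 z) 0 - s1) * fj Λ (LT N l (shT b1' b2' z) 0 - s2) ≤
      ENNReal.ofReal (2 / c) * ((∫⁻ s, fj Λ s) * (∫⁻ s, fj Λ s) * ENNReal.ofReal (2 * N) * ENNReal.ofReal (2 * N)) := by
  have hco : ∀ i : Fin 4, ∀ z ∈ Metric.closedBall y (N:ℝ), z i ∈ Metric.closedBall (y i) (N:ℝ) := by
    intro i z hz
    rw [Metric.mem_closedBall, dist_eq_norm] at hz ⊢
    have := abs_coord_le (z - y) i
    rw [PiLp.sub_apply] at this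
    rw [Real.norm_eq_abs]
    exact this.trans hz
  have hL : ∀ (k : ℤ × ℤ) (b1 b2 : ℝ) (z : E4), LT N k (shT b1 b2 z) 0 = z 0 + ((k.1:ℝ) / N + b1) * z 1 + ((k.2:ℝ) / N + b2) * z 2 +
      (((k.1:ℝ) / N + b1) ^ 2 + ((k.2:ℝ) / N + b2) ^ 2) * z 3 := by
    intro k b1 b2 z
    rw [LT0]
    simp only [shT0, shT1, shT2, shT3]
    ring
  have hinv : ∀ x : ℝ, c / 2 ≤ |x| → ENNReal.ofReal |x⁻¹| ≤ ENNReal.ofReal (2 / c) := by
    intro x hx
    apply ENNReal.ofReal_le_ofReal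
    rw [abs_inv]
    have : (2 / c) = (c / 2)⁻¹ := by rw [inv_div]
    rw [this]
    exact inv_anti₀ (by positivity) hx
  rcases h with h | h
  · have hne : (k.1:ℝ) / N + b1 ≠ (l.1:ℝ) / N + b1' := by
      intro he
      rw [he, sub_self, abs_zero] at h
      linarith
    have hmain := plank_int1 (Λ := Λ) (p1 := (k.1:ℝ) / N + b1) (p2 := (k.2:ℝ) / N + b2) (r := ((k.1:ℝ) / N + b1) ^ 2 + ((k.2:ℝ) / N + b2) ^ 2)
      (p1' := (l.1:ℝ) / N + b1') (p2' := (l.2:ℝ) / N + b2') (r' := ((l.1:ℝ) / N + b1') ^ 2 + ((l.2:ℝ) / N + b2') ^ 2) (s1 := s1) (s2 := s2)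
      (y2 := y 2) (y3 := y 3) (n := N) hne
    calc _ ≤ ∫⁻ z in Metric.closedBall y (N:ℝ), fj Λ (LT N k (shT b1 b2 z) 0 - s1) * fj Λ (LT N l (shT b1' b2' z) 0 - s2) *
          (Metric.closedBall (y 2) (N:ℝ)).indicator (fun _ => (1:ℝ≥0∞)) (z 2) * (Metric.closedBall (y 3) (N:ℝ)).indicator (fun _ => (1:ℝ≥0∞)) (z 3) := by
          refine setLIntegral_mono' measurableSet_closedBall fun z hz => ?_
          rw [indicator_of_mem (hco 2 z hz), indicator_of_mem (hco 3 z hz), mul_one, mul_one]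
      _ ≤ _ := setLIntegral_le_lintegral _ _
      _ = _ := by
          simp_rw [hL k, hL l]
          exact hmain
      _ ≤ _ := mul_le_mul' (hinv _ h) le_rfl
  · have hne : (k.2:ℝ) / N + b2 ≠ (l.2:ℝ) / N + b2' := by
      intro he
      rw [he, sub_self, abs_zero] at h
      linarith
    have hmain := plank_int2 (Λ := Λ) (p1 := (k.1:ℝ) / N + b1) (p2 := (k.2:ℝ) / N + b2) (r := ((k.1:ℝ) / N + b1) ^ 2 + ((k.2:ℝ) / N + b2) ^ 2)
      (p1' := (l.1:ℝ) / N + b1') (p2' := (l.2:ℝ) / N + b2') (r' := ((l.1:ℝ) / N + b1') ^ 2 + ((l.2:ℝ) / N + b2') ^ 2) (s1 := s1) (s2 := s2)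
      (y1 := y 1) (y3 := y 3) (n := N) hne
    calc _ ≤ ∫⁻ z in Metric.closedBall y (N:ℝ), fj Λ (LT N k (shT b1 b2 z) 0 - s1) * fj Λ (LT N l (shT b1' b2' z) 0 - s2) *
          (Metric.closedBall (y 1) (N:ℝ)).indicator (fun _ => (1:ℝ≥0∞)) (z 1) * (Metric.closedBall (y 3) (N:ℝ)).indicator (fun _ => (1:ℝ≥0∞)) (z 3) := by
          refine setLIntegral_mono' measurableSet_closedBall fun z hz => ?_
          rw [indicator_of_mem (hco 1 z hz), indicator_of_mem (hco 3 z hz), mul_one, mul_one]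
      _ ≤ _ := setLIntegral_le_lintegral _ _
      _ = _ := by
          simp_rw [hL k, hL l]
          exact hmain
      _ ≤ _ := mul_le_mul' (hinv _ h) le_rfl

theorem stSLABs : StSLABs := by
  intro Λ c M hΛ hc hM
  set J := ∫⁻ s, fj Λ s with hJ
  have hJt : J ≠ ⊤ := lint_fj hΛ
  refine ⟨(41 * Λ) ^ (M - 2) * (41 * Λ) ^ (M - 2) * (2 / c) * J.toReal ^ 2 * 4, by positivity, ?_⟩
  intro N hN a b c0 R b1 b2 b1' b2' ha hb hb1 hb2 hb1' hb2' hsep hcN y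
  have hN0 : (0:ℝ) < N := by exact_mod_cast hN
  have mB : MeasurableSet (Metric.closedBall y (N:ℝ)) := measurableSet_closedBall
  have mS : ∀ k, Measurable (Sk Λ M N a k) := fun k => measurable_Sk Λ M N ha.int k
  have mS' : ∀ k, Measurable (Sk Λ M N b k) := fun k => measurable_Sk Λ M N hb.int k
  have hpair : ∀ k ∈ grd N, ∀ l ∈ grd N, ∫⁻ z in Metric.closedBall y (N:ℝ), Sk Λ M N a k (shT b1 b2 z) * Sk Λ M N b l (shT b1' b2' z) ≤
      ENNReal.ofReal (((41 * Λ) ^ (M - 2) * (41 * Λ) ^ (M - 2) * (2 / c) * J.toReal ^ 2 * 4) * (N:ℝ) ^ 4) *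
      ((∫⁻ y1, ‖𝓕⁻ (ampk N k a) y1‖ₑ ^ 2 * Phk (M - 2) N k (shT b1 b2 y - y1)) * ∫⁻ y1, ‖𝓕⁻ (ampk N l b) y1‖ₑ ^ 2 * Phk (M - 2) N l (shT b1' b2' y - y1)) := by
    intro k hk l hl
    by_cases hk0 : ∀ ζ, ampk N k a ζ = 0
    · have : ∀ z, Sk Λ M N a k z = 0 := by
        intro z
        unfold Sk
        simp [ampk_zero_inv hk0]
      simp [this]
    by_cases hl0 : ∀ ζ, ampk N l b ζ = 0
    · have : ∀ z, Sk Λ M N b l z = 0 := by
        intro z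
        unfold Sk
        simp [ampk_zero_inv hl0]
      simp [this]
    push Not at hk0 hl0
    obtain ⟨ζ, hζ⟩ := hk0
    obtain ⟨ζ', hζ'⟩ := hl0
    obtain ⟨hN8, hs⟩ := cap_sep2 hN ha hb hcN hb1 hb2 hb1' hb2' hsep hζ hζ'
    have h8N : 1 / (N:ℝ) ≤ 1/8 := by
      have : (8:ℝ) ≤ N := by exact_mod_cast hN8
      exact one_div_le_one_div_of_le (by norm_num) this
    have k1 := hb1.trans h8N
    have k2 := hb2.trans h8N
    have k1' := hb1'.trans h8N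
    have k2' := hb2'.trans h8N
    have hsh : ∀ {k : ℤ × ℤ}, k ∈ grd N → ∀ {b1 b2 : ℝ}, |b1| ≤ 1/8 → |b2| ≤ 1/8 → ∀ {z : E4}, z ∈ Metric.closedBall y (N:ℝ) →
        ‖TT N k (shT b1 b2 z - shT b1 b2 y)‖ ≤ 40 := by
      intro k hk b1 b2 h1 h2 z hz
      rw [← shT_sub]
      rw [Metric.mem_closedBall, dist_eq_norm] at hz
      exact norm_TT_sh hN hk h1 h2 hz
    have mf : Measurable (fun y1 => ‖𝓕⁻ (ampk N k a) y1‖ₑ ^ 2) := (continuous_inv (ha.ampk N k).int).measurable.enorm.pow_const 2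
    have mg : Measurable (fun y1 => ‖𝓕⁻ (ampk N l b) y1‖ₑ ^ 2) := (continuous_inv (hb.ampk N l).int).measurable.enorm.pow_const 2
    have mp := measurable_phk Λ M N k
    have mp' := measurable_phk Λ M N l
    have mP := measurable_Phk (M - 2) N k
    have mP' := measurable_Phk (M - 2) N l
    have e1 : ∀ z, Sk Λ M N a k (shT b1 b2 z) * Sk Λ M N b l (shT b1' b2' z) = ∫⁻ p : E4 × E4, (‖𝓕⁻ (ampk N k a) p.1‖ₑ ^ 2 * phk Λ M N k (shT b1 b2 z - p.1)) *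
        (‖𝓕⁻ (ampk N l b) p.2‖ₑ ^ 2 * phk Λ M N l (shT b1' b2' z - p.2)) := by
      intro z
      have h1 : Measurable (fun y1 => ‖𝓕⁻ (ampk N k a) y1‖ₑ ^ 2 * phk Λ M N k (shT b1 b2 z - y1)) := mf.mul (mp.comp (by fun_prop))
      have h2 : Measurable (fun y1 => ‖𝓕⁻ (ampk N l b) y1‖ₑ ^ 2 * phk Λ M N l (shT b1' b2' z - y1)) := mg.mul (mp'.comp (by fun_prop))
      rw [Measure.volume_eq_prod]
      exact (lintegral_prod_mul h1.aemeasurable h2.aemeasurable).symm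
    have mI : Measurable (fun q : E4 × (E4 × E4) => (‖𝓕⁻ (ampk N k a) q.2.1‖ₑ ^ 2 * phk Λ M N k (shT b1 b2 q.1 - q.2.1)) *
        (‖𝓕⁻ (ampk N l b) q.2.2‖ₑ ^ 2 * phk Λ M N l (shT b1' b2' q.1 - q.2.2))) := by
      have a1 : Measurable (fun q : E4 × (E4 × E4) => ‖𝓕⁻ (ampk N k a) q.2.1‖ₑ ^ 2) := mf.comp (by fun_prop)
      have a2 : Measurable (fun q : E4 × (E4 × E4) => ‖𝓕⁻ (ampk N l b) q.2.2‖ₑ ^ 2) := mg.comp (by fun_prop)
      have B1 : Measurable (fun q : E4 × (E4 × E4) => phk Λ M N k (shT b1 b2 q.1 - q.2.1)) :=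
        mp.comp (((continuous_shT b1 b2).measurable.comp measurable_fst).sub (by fun_prop))
      have B2 : Measurable (fun q : E4 × (E4 × E4) => phk Λ M N l (shT b1' b2' q.1 - q.2.2)) :=
        mp'.comp (((continuous_shT b1' b2').measurable.comp measurable_fst).sub (by fun_prop))
      exact (a1.mul B1).mul (a2.mul B2)
    set D := ENNReal.ofReal (N * (41 * Λ) ^ (M - 2)) with hD
    calc ∫⁻ z in Metric.closedBall y (N:ℝ), Sk Λ M N a k (shT b1 b2 z) * Sk Λ M N b l (shT b1' b2' z) =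
        ∫⁻ z in Metric.closedBall y (N:ℝ), ∫⁻ p : E4 × E4, (‖𝓕⁻ (ampk N k a) p.1‖ₑ ^ 2 * phk Λ M N k (shT b1 b2 z - p.1)) *
        (‖𝓕⁻ (ampk N l b) p.2‖ₑ ^ 2 * phk Λ M N l (shT b1' b2' z - p.2)) := by simp_rw [e1]
      _ = ∫⁻ p : E4 × E4, ∫⁻ z in Metric.closedBall y (N:ℝ), (‖𝓕⁻ (ampk N k a) p.1‖ₑ ^ 2 * phk Λ M N k (shT b1 b2 z - p.1)) *
        (‖𝓕⁻ (ampk N l b) p.2‖ₑ ^ 2 * phk Λ M N l (shT b1' b2' z - p.2)) := lintegral_lintegral_swap mI.aemeasurable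
      _ ≤ ∫⁻ p : E4 × E4, (D * D * (ENNReal.ofReal (2 / c) * (J * J * ENNReal.ofReal (2 * N) * ENNReal.ofReal (2 * N)))) *
          ((‖𝓕⁻ (ampk N k a) p.1‖ₑ ^ 2 * Phk (M - 2) N k (shT b1 b2 y - p.1)) * (‖𝓕⁻ (ampk N l b) p.2‖ₑ ^ 2 * Phk (M - 2) N l (shT b1' b2' y - p.2))) := by
          refine lintegral_mono fun p => ?_
          calc _ ≤ ∫⁻ z in Metric.closedBall y (N:ℝ), (D * D * ((‖𝓕⁻ (ampk N k a) p.1‖ₑ ^ 2 * Phk (M - 2) N k (shT b1 b2 y - p.1)) *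
                (‖𝓕⁻ (ampk N l b) p.2‖ₑ ^ 2 * Phk (M - 2) N l (shT b1' b2' y - p.2)))) *
                (fj Λ (LT N k (shT b1 b2 z) 0 - LT N k p.1 0) * fj Λ (LT N l (shT b1' b2' z) 0 - LT N l p.2 0)) := by
                refine setLIntegral_mono' mB fun z hz => ?_
                have h1 := phk_le2 hΛ hM hN hk (shT b1 b2 y) p.1 (shT b1 b2 z) (hsh hk k1 k2 hz)
                have h2 := phk_le2 hΛ hM hN hl (shT b1' b2' y) p.2 (shT b1' b2' z) (hsh hl k1' k2' hz)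
                calc _ ≤ (‖𝓕⁻ (ampk N k a) p.1‖ₑ ^ 2 * (D * Phk (M - 2) N k (shT b1 b2 y - p.1) * fj Λ (LT N k (shT b1 b2 z) 0 - LT N k p.1 0))) *
                    (‖𝓕⁻ (ampk N l b) p.2‖ₑ ^ 2 * (D * Phk (M - 2) N l (shT b1' b2' y - p.2) * fj Λ (LT N l (shT b1' b2' z) 0 - LT N l p.2 0))) :=
                    mul_le_mul' (mul_le_mul' le_rfl h1) (mul_le_mul' le_rfl h2)
                  _ = _ := by ring
            _ = (D * D * ((‖𝓕⁻ (ampk N k a) p.1‖ₑ ^ 2 * Phk (M - 2) N k (shT b1 b2 y - p.1)) *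
                (‖𝓕⁻ (ampk N l b) p.2‖ₑ ^ 2 * Phk (M - 2) N l (shT b1' b2' y - p.2)))) *
                ∫⁻ z in Metric.closedBall y (N:ℝ), (fj Λ (LT N k (shT b1 b2 z) 0 - LT N k p.1 0) * fj Λ (LT N l (shT b1' b2' z) 0 - LT N l p.2 0)) := by
                apply lintegral_const_mul
                have mj := measurable_fj Λ
                have c1 : Measurable (fun z => LT N k (shT b1 b2 z) 0) := by
                  have := (continuous_LT (N := N) k).measurable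
                  have := (continuous_shT b1 b2).measurable
                  fun_prop
                have c2 : Measurable (fun z => LT N l (shT b1' b2' z) 0) := by
                  have := (continuous_LT (N := N) l).measurable
                  have := (continuous_shT b1' b2').measurable
                  fun_prop
                exact (mj.comp (c1.sub_const _)).mul (mj.comp (c2.sub_const _))
            _ ≤ (D * D * ((‖𝓕⁻ (ampk N k a) p.1‖ₑ ^ 2 * Phk (M - 2) N k (shT b1 b2 y - p.1)) *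
                (‖𝓕⁻ (ampk N l b) p.2‖ₑ ^ 2 * Phk (M - 2) N l (shT b1' b2' y - p.2)))) *
                (ENNReal.ofReal (2 / c) * (J * J * ENNReal.ofReal (2 * N) * ENNReal.ofReal (2 * N))) :=
                mul_le_mul' le_rfl (prof_int2 hc hN k l y _ _ b1 b2 b1' b2' hs)
            _ = _ := by ring
      _ = (D * D * (ENNReal.ofReal (2 / c) * (J * J * ENNReal.ofReal (2 * N) * ENNReal.ofReal (2 * N)))) *
          ((∫⁻ y1, ‖𝓕⁻ (ampk N k a) y1‖ₑ ^ 2 * Phk (M - 2) N k (shT b1 b2 y - y1)) * ∫⁻ y1, ‖𝓕⁻ (ampk N l b) y1‖ₑ ^ 2 * Phk (M - 2) N l (shT b1' b2' y - y1)) := by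
          have h1 : Measurable (fun y1 => ‖𝓕⁻ (ampk N k a) y1‖ₑ ^ 2 * Phk (M - 2) N k (shT b1 b2 y - y1)) := mf.mul (mP.comp (by fun_prop))
          have h2 : Measurable (fun y1 => ‖𝓕⁻ (ampk N l b) y1‖ₑ ^ 2 * Phk (M - 2) N l (shT b1' b2' y - y1)) := mg.mul (mP'.comp (by fun_prop))
          have m12 : Measurable (fun p : E4 × E4 => (‖𝓕⁻ (ampk N k a) p.1‖ₑ ^ 2 * Phk (M - 2) N k (shT b1 b2 y - p.1)) * (‖𝓕⁻ (ampk N l b) p.2‖ₑ ^ 2 * Phk (M - 2) N l (shT b1' b2' y - p.2))) :=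
            (h1.comp measurable_fst).mul (h2.comp measurable_snd)
          rw [lintegral_const_mul _ m12, Measure.volume_eq_prod]
          congr 1
          exact lintegral_prod_mul h1.aemeasurable h2.aemeasurable
      _ = _ := by
          congr 1
          rw [hD, ← ENNReal.ofReal_toReal hJt, ← ENNReal.ofReal_mul (by positivity), ← ENNReal.ofReal_mul (by positivity),
            ← ENNReal.ofReal_mul (by positivity), ← ENNReal.ofReal_mul (by positivity), ← ENNReal.ofReal_mul (by positivity),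
            ← ENNReal.ofReal_mul (by positivity)]
          rw [ENNReal.toReal_ofReal ENNReal.toReal_nonneg]
          congr 1
          ring
  calc ∫⁻ z in Metric.closedBall y (N:ℝ), Sq Λ M N a (shT b1 b2 z) * Sq Λ M N b (shT b1' b2' z) =
      ∑ k ∈ grd N, ∑ l ∈ grd N, ∫⁻ z in Metric.closedBall y (N:ℝ), Sk Λ M N a k (shT b1 b2 z) * Sk Λ M N b l (shT b1' b2' z) := by
        have mm : ∀ k l, Measurable (fun z => Sk Λ M N a k (shT b1 b2 z) * Sk Λ M N b l (shT b1' b2' z)) := fun k l =>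
          ((mS k).comp (continuous_shT b1 b2).measurable).mul ((mS' l).comp (continuous_shT b1' b2').measurable)
        simp_rw [Sq_eq, Finset.sum_mul_sum]
        rw [lintegral_finset_sum _ (fun k _ => Finset.measurable_sum _ fun l _ => mm k l)]
        refine Finset.sum_congr rfl fun k _ => ?_
        exact lintegral_finset_sum _ (fun l _ => mm k l)
    _ ≤ ∑ k ∈ grd N, ∑ l ∈ grd N, ENNReal.ofReal (((41 * Λ) ^ (M - 2) * (41 * Λ) ^ (M - 2) * (2 / c) * J.toReal ^ 2 * 4) * (N:ℝ) ^ 4) *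
      ((∫⁻ y1, ‖𝓕⁻ (ampk N k a) y1‖ₑ ^ 2 * Phk (M - 2) N k (shT b1 b2 y - y1)) * ∫⁻ y1, ‖𝓕⁻ (ampk N l b) y1‖ₑ ^ 2 * Phk (M - 2) N l (shT b1' b2' y - y1)) :=
        Finset.sum_le_sum fun k hk => Finset.sum_le_sum fun l hl => hpair k hk l hl
    _ = _ := by
        unfold Mu
        rw [Finset.sum_mul_sum, Finset.mul_sum]
        refine Finset.sum_congr rfl fun k _ => ?_
        rw [Finset.mul_sum]

end Vale.Agent.P106.G
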