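import Vale.Agent.P106.G.Pt

/-! # Slicing in the first variable -/

open MeasureTheory Complex Set
open scoped ENNReal NNReal ContDiff FourierTransform SchwartzMap ComplexConjugate

set_option linter.all false

namespace Vale.Agent.P106.G

open Vale.Agent.P106.Tri
open Vale.Agent.P117 (E3)

/-- four-space as a product -/
noncomputable def q4 : E4 ≃ᵐ ℝ × E3 :=
  ((MeasurableEquiv.toLp 2 (Fin 4 → ℝ)).symm.trans
    (MeasurableEquiv.piFinSuccAbove (fun _ => ℝ) (0 : Fin 4))).trans
    (MeasurableEquiv.prodCongr (MeasurableEquiv.refl ℝ) (MeasurableEquiv.toLp 2 (Fin 3 → ℝ)))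

theorem mp_q4 : MeasurePreserving q4 volume volume := by
  have h1 : MeasurePreserving (MeasurableEquiv.toLp 2 (Fin 4 → ℝ)).symm volume volume :=
    PiLp.volume_preserving_ofLp (Fin 4)
  have h2 := volume_preserving_piFinSuccAbove (fun _ : Fin 4 => ℝ) (0 : Fin 4)
  have h3 : MeasurePreserving (MeasurableEquiv.prodCongr (MeasurableEquiv.refl ℝ)
      (MeasurableEquiv.toLp 2 (Fin 3 → ℝ))) (volume.prod volume) (volume.prod volume) :=
    (MeasurePreserving.id volume).prod (PiLp.volume_preserving_toLp (Fin 3))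
  exact h3.comp (h2.comp h1)

/-- last three coordinates -/
noncomputable def tl (x : E4) : E3 := !₂[x 1, x 2, x 3]

/-- joining -/
noncomputable def cn (t : ℝ) (x : E3) : E4 := !₂[t, x 0, x 1, x 2]

theorem cn0 (t : ℝ) (x : E3) : cn t x 0 = t := rfl
theorem cn1 (t : ℝ) (x : E3) : cn t x 1 = x 0 := rfl
theorem cn2 (t : ℝ) (x : E3) : cn t x 2 = x 1 := rfl
theorem cn3 (t : ℝ) (x : E3) : cn t x 3 = x 2 := rfl
theorem tl0 (x : E4) : tl x 0 = x 1 := rfl
theorem tl1 (x : E4) : tl x 1 = x 2 := rfl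
theorem tl2 (x : E4) : tl x 2 = x 3 := rfl

theorem q4_apply (x : E4) : q4 x = (x 0, tl x) := by
  refine Prod.ext rfl ?_
  apply PiLp.ext
  intro i
  fin_cases i <;> rfl

theorem cn_tl (x : E4) : cn (x 0) (tl x) = x := by
  apply ext4 <;> rfl

theorem tl_cn (t : ℝ) (x : E3) : tl (cn t x) = x := by
  apply PiLp.ext
  intro i
  fin_cases i <;> rfl

theorem q4_symm (p : ℝ × E3) : q4.symm p = cn p.1 p.2 := by
  rw [MeasurableEquiv.symm_apply_eq, q4_apply, cn0, tl_cn]

theorem measurable_cn : Measurable (fun p : ℝ × E3 => cn p.1 p.2) := by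
  have : (fun p : ℝ × E3 => cn p.1 p.2) = q4.symm := by
    ext1 p; rw [q4_symm]
  rw [this]; exact q4.symm.measurable

theorem measurable_cn' (t : ℝ) : Measurable (cn t) := measurable_cn.comp (measurable_const.prodMk measurable_id)

theorem lint4 {F : E4 → ℝ≥0∞} (hF : Measurable F) : ∫⁻ x, F x = ∫⁻ t : ℝ, ∫⁻ x : E3, F (cn t x) := by
  have h := mp_q4.symm.lintegral_comp_emb q4.symm.measurableEmbedding F
  rw [← h, Measure.volume_eq_prod]
  simp_rw [q4_symm]
  exact lintegral_prod _ (hF.comp measurable_cn).aemeasurable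

theorem lint4' {F : E4 → ℝ≥0∞} (hF : Measurable F) : ∫⁻ x, F x = ∫⁻ x : E3, ∫⁻ t : ℝ, F (cn t x) := by
  have h := mp_q4.symm.lintegral_comp_emb q4.symm.measurableEmbedding F
  rw [← h, Measure.volume_eq_prod]
  simp_rw [q4_symm]
  exact lintegral_prod_symm' _ (hF.comp measurable_cn)

theorem integrable_cn {F : E4 → ℂ} (hF : Integrable F) : Integrable (fun p : ℝ × E3 => F (cn p.1 p.2)) (volume.prod volume) := by
  have h := mp_q4.symm.integrable_comp_emb q4.symm.measurableEmbedding (g := F)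
  have h2 := h.2 hF
  refine h2.congr ?_
  filter_upwards with p
  simp only [Function.comp, q4_symm]

theorem int4 {F : E4 → ℂ} (hF : Integrable F) : ∫ x, F x = ∫ x : E3, ∫ t : ℝ, F (cn t x) := by
  have h := mp_q4.symm.integral_comp q4.symm.measurableEmbedding F
  rw [← h]
  have h2 : ∫ p, F (q4.symm p) = ∫ p : ℝ × E3, F (cn p.1 p.2) ∂(volume.prod volume) := by
    rw [← Measure.volume_eq_prod]
    refine integral_congr_ae ?_
    filter_upwards with p
    rw [q4_symm]
  rw [h2, integral_prod_symm _ (integrable_cn hF)]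

theorem inner_cn (t s : ℝ) (x y : E3) : inner ℝ (cn t x) (cn s y) = t * s + inner ℝ x y := by
  rw [inner4]
  simp only [cn0, cn1, cn2, cn3]
  simp [PiLp.inner_apply, Fin.sum_univ_three]
  ring

/-- slice of an amplitude -/
noncomputable def sl (g : E4 → ℂ) (s : ℝ) (η : E3) : ℂ := ∫ t : ℝ, ec (t * s) * g (cn t η)

theorem measurable_sl {g : E4 → ℂ} (hg : Measurable g) (s : ℝ) : Measurable (sl g s) := by
  unfold sl
  have h1 : Measurable (fun p : E3 × ℝ => ec (p.2 * s) * g (cn p.2 p.1)) := by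
    have h2 : Measurable (fun p : E3 × ℝ => cn p.2 p.1) := measurable_cn.comp measurable_swap
    have h3 : Measurable (fun p : E3 × ℝ => ec (p.2 * s)) := continuous_ec.measurable.comp (by fun_prop)
    exact h3.mul (hg.comp h2)
  exact (h1.stronglyMeasurable.integral_prod_right').measurable

theorem integrable_sl_prod {g : E4 → ℂ} (hi : Integrable g) (s : ℝ) (z : E3) :
    Integrable (fun p : ℝ × E3 => ec (inner ℝ (cn p.1 p.2) (cn s z)) * g (cn p.1 p.2)) (volume.prod volume) := by
  have h2 := integrable_cn hi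
  refine h2.mono ?_ ?_
  · have h3 : Measurable (fun p : ℝ × E3 => ec (inner ℝ (cn p.1 p.2) (cn s z))) := by
      refine continuous_ec.measurable.comp ?_
      simp_rw [inner_cn]
      fun_prop
    exact h3.aestronglyMeasurable.mul h2.aestronglyMeasurable
  · filter_upwards with p
    rw [norm_mul, norm_ec, one_mul]

theorem integrable_sl {g : E4 → ℂ} (hi : Integrable g) (s : ℝ) : Integrable (sl g s) := by
  have h := (integrable_sl_prod hi s 0).integral_prod_right
  refine h.congr ?_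
  filter_upwards with η
  unfold sl
  refine integral_congr_ae ?_
  filter_upwards with t
  rw [inner_cn, inner_zero_right, add_zero]

theorem inv_sl {g : E4 → ℂ} (hi : Integrable g) (s : ℝ) (z : E3) :
    𝓕⁻ (sl g s) z = 𝓕⁻ g (cn s z) := by
  rw [inv_eq, Vale.Agent.P106.Tri.inv_eq]
  have hcont : Continuous (fun v : E4 => ec (inner ℝ v (cn s z))) := by
    have := continuous_ec
    fun_prop
  have hF : Integrable (fun v : E4 => ec (inner ℝ v (cn s z)) * g v) := by
    refine hi.mono (hcont.aestronglyMeasurable.mul hi.aestronglyMeasurable) ?_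
    filter_upwards with v
    rw [norm_mul, norm_ec, one_mul]
  rw [int4 hF]
  refine integral_congr_ae ?_
  filter_upwards with η
  unfold sl
  rw [← integral_const_mul]
  refine integral_congr_ae ?_
  filter_upwards with t
  rw [inner_cn, ec_add]
  ring

theorem sl_supp {g : E4 → ℂ} {s : ℝ} {η : E3} (h : sl g s η ≠ 0) : ∃ t, g (cn t η) ≠ 0 := by
  by_contra hc
  push Not at hc
  apply h
  unfold sl
  simp [hc]

theorem sl_L2 {g : E4 → ℂ} (hg : Measurable g) {w c : ℝ} (hw : 0 ≤ w) (hs : ∀ ζ, g ζ ≠ 0 → |ζ 0 - c| ≤ w) (s : ℝ) :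
    ∫⁻ η, ‖sl g s η‖ₑ ^ 2 ≤ ENNReal.ofReal (2 * w) * ∫⁻ ζ, ‖g ζ‖ₑ ^ 2 := by
  rw [lint4' (hg.enorm.pow_const 2), ← lintegral_const_mul' _ _ ENNReal.ofReal_ne_top]
  refine lintegral_mono fun η => ?_
  have mg : Measurable (fun t => g (cn t η)) := hg.comp (measurable_cn.comp (measurable_id.prodMk measurable_const))
  have hI : MeasurableSet (Metric.closedBall c w) := measurableSet_closedBall
  have h1 : ‖sl g s η‖ₑ ≤ ∫⁻ t, ((Metric.closedBall c w).indicator (fun _ => (1 : ℝ≥0∞)) t) ^ (1/2 : ℝ) *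
      (‖g (cn t η)‖ₑ ^ 2) ^ (1/2 : ℝ) := by
    unfold sl
    refine (enorm_integral_le_lintegral_enorm _).trans ?_
    refine lintegral_mono fun t => ?_
    rw [enorm_mul, enorm_ec, one_mul]
    have e : (‖g (cn t η)‖ₑ ^ 2) ^ (1/2 : ℝ) = ‖g (cn t η)‖ₑ := by
      rw [← ENNReal.rpow_natCast, ← ENNReal.rpow_mul]; norm_num
    rw [e]
    by_cases h0 : g (cn t η) = 0
    · rw [h0]; simp
    · have h2 := hs _ h0
      rw [cn0] at h2
      have : t ∈ Metric.closedBall c w := by rw [Metric.mem_closedBall, Real.dist_eq]; exact h2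
      rw [indicator_of_mem this]; simp
  have h2 := h1.trans (lintegral_sqrt_mul_le volume (measurable_const.indicator hI) (mg.enorm.pow_const 2))
  rw [lintegral_indicator hI, setLIntegral_const, one_mul, Real.volume_closedBall] at h2
  calc ‖sl g s η‖ₑ ^ 2 ≤ (ENNReal.ofReal (2 * w) ^ (1/2 : ℝ) * (∫⁻ t, ‖g (cn t η)‖ₑ ^ 2) ^ (1/2 : ℝ)) ^ 2 := by gcongr
    _ = _ := by
      rw [mul_pow, ← ENNReal.rpow_natCast, ← ENNReal.rpow_natCast, ← ENNReal.rpow_mul, ← ENNReal.rpow_mul]
      norm_num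

end Vale.Agent.P106.G
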