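import Vale.Agent.P106.G.SqR

/-! # Splitting amplitudes into caps, the crude bound, and the support of a cap -/

open MeasureTheory Complex Set
open scoped ENNReal NNReal ContDiff FourierTransform SchwartzMap ComplexConjugate

set_option linter.all false

namespace Vale.Agent.P106.G

open Vale.Agent.P106.Tri

/-- the parent of a cap -/
def par (m : ℕ) (k : ℤ × ℤ) : ℤ × ℤ := (k.1 / m, k.2 / m)

theorem floor_par (m : ℕ) (hm : 1 ≤ m) (x : ℝ) : ⌊(m:ℝ) * x⌋ / (m:ℤ) = ⌊x⌋ := by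
  have hm0 : (0:ℤ) < m := by exact_mod_cast hm
  have hm1 : (0:ℝ) < m := by exact_mod_cast hm
  symm
  rw [Int.floor_eq_iff]
  have h1 := Int.floor_le ((m:ℝ) * x)
  have h2 := Int.lt_floor_add_one ((m:ℝ) * x)
  have h3 := Int.mul_ediv_add_emod ⌊(m:ℝ) * x⌋ m
  have h4 := Int.emod_nonneg ⌊(m:ℝ) * x⌋ hm0.ne'
  have h5 := Int.emod_lt_of_pos ⌊(m:ℝ) * x⌋ hm0
  set f := ⌊(m:ℝ) * x⌋ with hf
  set d := f / (m:ℤ) with hd
  have h6 : (m:ℤ) * d ≤ f := by linarith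
  have h7 : f + 1 ≤ (m:ℤ) * (d + 1) := by
    have : f + 1 ≤ m * d + m := by omega
    linarith
  have h6' : (m:ℝ) * d ≤ f := by exact_mod_cast h6
  have h7' : (f:ℝ) + 1 ≤ m * (d + 1) := by exact_mod_cast h7
  constructor
  · have : (m:ℝ) * d ≤ m * x := by linarith
    exact le_of_mul_le_mul_left this hm1
  · have : (m:ℝ) * x < m * (d + 1) := by linarith
    exact lt_of_mul_lt_mul_left this hm1.le

theorem cpi_par {N m : ℕ} (hm : 1 ≤ m) (ζ : E4) : par m (cpi (N * m) ζ) = cpi N ζ := by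
  unfold par cpi
  simp only
  have e1 : (((N * m : ℕ):ℝ) * (ζ 1 / ζ 0)) = (m:ℝ) * ((N:ℝ) * (ζ 1 / ζ 0)) := by push_cast; ring
  have e2 : (((N * m : ℕ):ℝ) * (ζ 2 / ζ 0)) = (m:ℝ) * ((N:ℝ) * (ζ 2 / ζ 0)) := by push_cast; ring
  rw [e1, e2, floor_par m hm, floor_par m hm]

theorem par_mem {N m : ℕ} (hm : 1 ≤ m) {k : ℤ × ℤ} (hk : k ∈ grd (N * m)) : par m k ∈ grd N := by
  unfold grd at *
  rw [Finset.mem_product, Finset.mem_Ico, Finset.mem_Ico] at *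
  unfold par
  have hm0 : (0:ℤ) < m := by exact_mod_cast hm
  obtain ⟨⟨a1, a2⟩, a3, a4⟩ := hk
  push_cast at a2 a4
  exact ⟨⟨Int.ediv_nonneg a1 hm0.le, Int.ediv_lt_of_lt_mul hm0 a2⟩, Int.ediv_nonneg a3 hm0.le, Int.ediv_lt_of_lt_mul hm0 a4⟩

/-- the index of a frequency of the support is in the grid -/
theorem cpi_mem {c0 R : ℝ} {a : E4 → ℂ} (ha : Amp c0 R a) {N : ℕ} (hN : 1 ≤ N) {ζ : E4} (h : a ζ ≠ 0) :
    cpi N ζ ∈ grd N := by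
  obtain ⟨⟨h0, _⟩, ⟨h1, h2⟩, ⟨h3, h4⟩, _⟩ := ha.supp ζ h
  have hp : 0 < ζ 0 := by linarith
  have hN0 : (0:ℝ) < N := by exact_mod_cast hN
  unfold grd cpi
  rw [Finset.mem_product, Finset.mem_Ico, Finset.mem_Ico]
  simp only
  rw [Int.floor_nonneg, Int.floor_nonneg, Int.floor_lt, Int.floor_lt]
  refine ⟨⟨by positivity, ?_⟩, by positivity, ?_⟩
  · have : ζ 1 / ζ 0 < 1 := by rwa [div_lt_one hp]
    push_cast
    nlinarith
  · have : ζ 2 / ζ 0 < 1 := by rwa [div_lt_one hp]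
    push_cast
    nlinarith

open Classical in
/-- a cap is the union of its subcaps -/
theorem ampk_split {c0 R : ℝ} {a : E4 → ℂ} (ha : Amp c0 R a) {N m : ℕ} (hN : 1 ≤ N) (hm : 1 ≤ m) (κ : ℤ × ℤ) (ζ : E4) :
    ampk N κ a ζ = ∑ k ∈ (grd (N * m)).filter (fun k => par m k = κ), ampk (N * m) k a ζ := by
  by_cases h : a ζ = 0
  · have : ∀ N k, ampk N k a ζ = 0 := by
      intro N k
      by_contra hc
      exact (ampk_ne hc).2 h
    simp [this]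
  · have hmem := cpi_mem ha (N := N * m) (Nat.mul_pos hN hm) h
    by_cases hk : cpi N ζ = κ
    · have e1 : ampk N κ a ζ = a ζ := by unfold ampk; rw [if_pos hk]
      rw [e1]
      symm
      rw [Finset.sum_eq_single (cpi (N * m) ζ)]
      · unfold ampk; rw [if_pos rfl]
      · intro b _ hb
        unfold ampk; rw [if_neg (Ne.symm hb)]
      · intro hc
        exfalso
        apply hc
        rw [Finset.mem_filter]
        exact ⟨hmem, by rw [cpi_par hm]; exact hk⟩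
    · have e1 : ampk N κ a ζ = 0 := by unfold ampk; rw [if_neg hk]
      rw [e1]
      symm
      apply Finset.sum_eq_zero
      intro k hk2
      rw [Finset.mem_filter] at hk2
      unfold ampk
      rw [if_neg]
      intro hc
      apply hk
      rw [← cpi_par hm (N := N), hc]
      exact hk2.2

/-- an amplitude is the sum of its caps -/
theorem ampk_sum {c0 R : ℝ} {a : E4 → ℂ} (ha : Amp c0 R a) {N : ℕ} (hN : 1 ≤ N) (ζ : E4) :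
    a ζ = ∑ k ∈ grd N, ampk N k a ζ := by
  by_cases h : a ζ = 0
  · have : ∀ N k, ampk N k a ζ = 0 := by
      intro N k
      by_contra hc
      exact (ampk_ne hc).2 h
    simp [this, h]
  · have hmem := cpi_mem ha hN h
    symm
    rw [Finset.sum_eq_single (cpi N ζ)]
    · unfold ampk; rw [if_pos rfl]
    · intro b _ hb
      unfold ampk; rw [if_neg (Ne.symm hb)]
    · intro hc
      exact absurd hmem hc

theorem inv_sum {ι : Type*} (s : Finset ι) {f : ι → E4 → ℂ} (hf : ∀ i ∈ s, Integrable (f i)) (z : E4) :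
    𝓕⁻ (fun ζ => ∑ i ∈ s, f i ζ) z = ∑ i ∈ s, 𝓕⁻ (f i) z := by
  rw [inv_eq]
  simp_rw [Finset.mul_sum]
  rw [integral_finset_sum]
  · refine Finset.sum_congr rfl fun i _ => ?_
    rw [inv_eq]
  · intro i hi
    have h1 : Continuous (fun v : E4 => ec (inner ℝ v z)) := by
      have := continuous_ec
      fun_prop
    refine (hf i hi).mono (h1.aestronglyMeasurable.mul (hf i hi).aestronglyMeasurable) ?_
    filter_upwards with v
    rw [norm_mul, norm_ec, one_mul]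

theorem inv_split_all {c0 R : ℝ} {a : E4 → ℂ} (ha : Amp c0 R a) {N : ℕ} (hN : 1 ≤ N) (z : E4) :
    𝓕⁻ a z = ∑ k ∈ grd N, 𝓕⁻ (ampk N k a) z := by
  rw [← inv_sum _ (fun i _ => (ha.ampk N i).int)]
  have e : a = fun ζ => ∑ k ∈ grd N, ampk N k a ζ := funext fun ζ => ampk_sum ha hN ζ
  exact congrArg (fun f : E4 → ℂ => 𝓕⁻ f z) e

open Classical in
theorem inv_split {c0 R : ℝ} {a : E4 → ℂ} (ha : Amp c0 R a) {N m : ℕ} (hN : 1 ≤ N) (hm : 1 ≤ m) (κ : ℤ × ℤ) (z : E4) :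
    𝓕⁻ (ampk N κ a) z = ∑ k ∈ (grd (N * m)).filter (fun k => par m k = κ), 𝓕⁻ (ampk (N * m) k a) z := by
  rw [← inv_sum _ (fun i _ => (ha.ampk _ i).int)]
  have e : ampk N κ a = fun ζ => ∑ k ∈ (grd (N * m)).filter (fun k => par m k = κ), ampk (N * m) k a ζ :=
    funext fun ζ => ampk_split ha hN hm κ ζ
  exact congrArg (fun f : E4 → ℂ => 𝓕⁻ f z) e

open Classical in
/-- energies of the caps -/
theorem lint_ampk_le {c0 R : ℝ} {a : E4 → ℂ} (ha : Amp c0 R a) (N : ℕ) :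
    ∑ k ∈ grd N, ∫⁻ ζ, ‖ampk N k a ζ‖ₑ ^ 2 ≤ ∫⁻ ζ, ‖a ζ‖ₑ ^ 2 := by
  rw [← lintegral_finset_sum _ (fun k _ => ((ha.ampk N k).meas.enorm.pow_const 2))]
  refine lintegral_mono fun ζ => ?_
  calc ∑ k ∈ grd N, ‖ampk N k a ζ‖ₑ ^ 2 = ∑ k ∈ grd N, (if k = cpi N ζ then ‖a ζ‖ₑ ^ 2 else 0) := by
        refine Finset.sum_congr rfl fun k _ => ?_
        unfold ampk
        by_cases h : cpi N ζ = k
        · rw [if_pos h, if_pos h.symm]
        · rw [if_neg h, if_neg (Ne.symm h)]; simp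
    _ ≤ _ := by
        rw [Finset.sum_ite_eq']
        split_ifs
        · exact le_rfl
        · exact zero_le

theorem cap_real {z0 z3 v1 v2 x1 x2 i : ℝ} (hi : 0 < i) (d0 : 1 ≤ z0) (d1 : z0 - 1 ≤ i)
    (b1 : 0 ≤ v1) (b2 : 0 ≤ v2) (b1' : v1 ≤ 1) (b2' : v2 ≤ 1) (q1 : x1 ≤ v1) (q1' : v1 ≤ x1 + i) (q2 : x2 ≤ v2)
    (q2' : v2 ≤ x2 + i) (hx1 : 0 ≤ x1) (hx2 : 0 ≤ x2) (s3 : |z3 - z0 * (v1 ^ 2 + v2 ^ 2)| ≤ i) :
    |z0 - 1| ≤ 7 * i ∧ |z0 * v1 - x1| ≤ 7 * i ∧ |z0 * v2 - x2| ≤ 7 * i ∧ |z3 - (x1 ^ 2 + x2 ^ 2)| ≤ 7 * i := by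
  refine ⟨?_, ?_, ?_, ?_⟩
  · rw [abs_of_nonneg (by linarith)]; linarith
  · have : z0 * v1 - x1 = (z0 - 1) * v1 + (v1 - x1) := by ring
    have h1 : 0 ≤ (z0 - 1) * v1 := mul_nonneg (by linarith) b1
    have h2 : (z0 - 1) * v1 ≤ i * 1 := mul_le_mul d1 b1' b1 hi.le
    rw [this, abs_of_nonneg (by linarith)]
    linarith
  · have : z0 * v2 - x2 = (z0 - 1) * v2 + (v2 - x2) := by ring
    have h1 : 0 ≤ (z0 - 1) * v2 := mul_nonneg (by linarith) b2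
    have h2 : (z0 - 1) * v2 ≤ i * 1 := mul_le_mul d1 b2' b2 hi.le
    rw [this, abs_of_nonneg (by linarith)]
    linarith
  · have e4 : z3 - (x1 ^ 2 + x2 ^ 2) = (z3 - z0 * (v1 ^ 2 + v2 ^ 2)) + (z0 - 1) * (v1 ^ 2 + v2 ^ 2) +
        ((v1 - x1) * (v1 + x1) + (v2 - x2) * (v2 + x2)) := by ring
    rw [e4]
    have f1 : |(z0 - 1) * (v1 ^ 2 + v2 ^ 2)| ≤ i * 2 := by
      rw [abs_of_nonneg (mul_nonneg (by linarith) (by positivity))]
      have : v1 ^ 2 + v2 ^ 2 ≤ 2 := by nlinarith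
      exact mul_le_mul d1 this (by positivity) hi.le
    have f2 : |(v1 - x1) * (v1 + x1)| ≤ i * 2 := by
      rw [abs_of_nonneg (mul_nonneg (by linarith) (by linarith))]
      exact mul_le_mul (by linarith) (by linarith) (by linarith) hi.le
    have f3 : |(v2 - x2) * (v2 + x2)| ≤ i * 2 := by
      rw [abs_of_nonneg (mul_nonneg (by linarith) (by linarith))]
      exact mul_le_mul (by linarith) (by linarith) (by linarith) hi.le
    calc _ ≤ |z3 - z0 * (v1 ^ 2 + v2 ^ 2)| + |(z0 - 1) * (v1 ^ 2 + v2 ^ 2)| +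
          (|(v1 - x1) * (v1 + x1)| + |(v2 - x2) * (v2 + x2)|) :=
          (abs_add_le _ _).trans (add_le_add (abs_add_le _ _) (abs_add_le _ _))
      _ ≤ _ := by linarith

/-- the amplitude of a cap lies in a small ball -/
theorem supp_cap {c0 R K : ℝ} {a : E4 → ℂ} (ha : Amp c0 R a) {N : ℕ} (hN : 1 ≤ N) (hK : 0 < K) (hKN : K ≤ N)
    (hc : c0 ≤ 1 / K) (hR : R⁻¹ ≤ 1 / K) {k : ℤ × ℤ} {ζ : E4} (h : ampk N k a ζ ≠ 0) :
    |ζ 0 - 1| ≤ 7 * (1 / K) ∧ |ζ 1 - k.1 / N| ≤ 7 * (1 / K) ∧ |ζ 2 - k.2 / N| ≤ 7 * (1 / K) ∧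
      |ζ 3 - (((k.1:ℝ) / N) ^ 2 + ((k.2:ℝ) / N) ^ 2)| ≤ 7 * (1 / K) := by
  obtain ⟨hk, ha0⟩ := ampk_ne h
  obtain ⟨⟨s0, s0'⟩, ⟨s1, s1'⟩, ⟨s2, s2'⟩, s3⟩ := ha.supp ζ ha0
  have hp : 0 < ζ 0 := by linarith
  have hN0 : (0:ℝ) < N := by exact_mod_cast hN
  unfold cpi at hk
  rw [Prod.ext_iff] at hk
  obtain ⟨k1, k2⟩ := hk
  simp only at k1 k2
  have n1 : 0 ≤ k.1 := by
    rw [← k1, Int.floor_nonneg]; positivity
  have n2 : 0 ≤ k.2 := by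
    rw [← k2, Int.floor_nonneg]; positivity
  rw [Int.floor_eq_iff] at k1 k2
  have n1' : (0:ℝ) ≤ k.1 := by exact_mod_cast n1
  have n2' : (0:ℝ) ≤ k.2 := by exact_mod_cast n2
  have hi : 1 / (N:ℝ) ≤ 1 / K := one_div_le_one_div_of_le hK hKN
  have e1 : ζ 1 = ζ 0 * (ζ 1 / ζ 0) := by field_simp
  have e2 : ζ 2 = ζ 0 * (ζ 2 / ζ 0) := by field_simp
  have e3 : (ζ 1 ^ 2 + ζ 2 ^ 2) / ζ 0 = ζ 0 * ((ζ 1 / ζ 0) ^ 2 + (ζ 2 / ζ 0) ^ 2) := by field_simp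
  rw [e3] at s3
  have q1 : (k.1:ℝ) / N ≤ ζ 1 / ζ 0 := by rw [div_le_iff₀ hN0]; linarith [k1.1]
  have q1' : ζ 1 / ζ 0 ≤ (k.1:ℝ) / N + 1 / N := by rw [← add_div, le_div_iff₀ hN0]; linarith [k1.2]
  have q2 : (k.2:ℝ) / N ≤ ζ 2 / ζ 0 := by rw [div_le_iff₀ hN0]; linarith [k2.1]
  have q2' : ζ 2 / ζ 0 ≤ (k.2:ℝ) / N + 1 / N := by rw [← add_div, le_div_iff₀ hN0]; linarith [k2.2]
  have := cap_real (z0 := ζ 0) (z3 := ζ 3) (v1 := ζ 1 / ζ 0) (v2 := ζ 2 / ζ 0) (x1 := k.1 / N) (x2 := k.2 / N)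
    (i := 1 / K) (by positivity) s0 (by linarith) (by positivity) (by positivity)
    (by rw [div_le_one hp]; exact s1'.le) (by rw [div_le_one hp]; exact s2'.le) q1 (by linarith) q2 (by linarith)
    (by positivity) (by positivity) (s3.trans hR)
  rwa [← e1, ← e2] at this

/-- centre of a cap -/
noncomputable def nuk (N : ℕ) (k : ℤ × ℤ) : E4 := !₂[1, (k.1:ℝ) / N, (k.2:ℝ) / N, ((k.1:ℝ) / N) ^ 2 + ((k.2:ℝ) / N) ^ 2]

theorem nuk0 (N : ℕ) (k : ℤ × ℤ) : nuk N k 0 = 1 := rfl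
theorem nuk1 (N : ℕ) (k : ℤ × ℤ) : nuk N k 1 = (k.1:ℝ) / N := rfl
theorem nuk2 (N : ℕ) (k : ℤ × ℤ) : nuk N k 2 = (k.2:ℝ) / N := rfl
theorem nuk3 (N : ℕ) (k : ℤ × ℤ) : nuk N k 3 = ((k.1:ℝ) / N) ^ 2 + ((k.2:ℝ) / N) ^ 2 := rfl

theorem supp_cap_norm {c0 R K : ℝ} {a : E4 → ℂ} (ha : Amp c0 R a) {N : ℕ} (hN : 1 ≤ N) (hK : 0 < K) (hKN : K ≤ N)
    (hc : c0 ≤ 1 / K) (hR : R⁻¹ ≤ 1 / K) {k : ℤ × ℤ} {ζ : E4} (h : ampk N k a ζ ≠ 0) :
    ‖ζ - nuk N k‖ ≤ 14 / K := by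
  obtain ⟨h0, h1, h2, h3⟩ := supp_cap ha hN hK hKN hc hR h
  have := norm4_le (ζ - nuk N k) (r := 7 * (1 / K)) (by positivity) (by
    intro i
    fin_cases i
    · exact h0
    · exact h1
    · exact h2
    · exact h3)
  calc _ ≤ _ := this
    _ = _ := by ring

/-- local constancy of the function of a cap -/
theorem cap_le_Gav (M : ℕ) : ∃ C : ℝ, 1 ≤ C ∧ ∀ (N : ℕ), 1 ≤ N → ∀ (c0 R : ℝ) (a : E4 → ℂ), Amp c0 R a →
    c0 ≤ 1 / N → R⁻¹ ≤ 1 / N → ∀ k z, ‖𝓕⁻ (ampk N k a) z‖ₑ ≤ ENNReal.ofReal C * Gav M N (ampk N k a) z := by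
  obtain ⟨C, hC, h⟩ := inv_le_Gav M 14 (by norm_num)
  refine ⟨C + 1, by linarith, ?_⟩
  intro N hN c0 R a ha hc hR k z
  have hN0 : (0:ℝ) < N := by exact_mod_cast hN
  refine (h N hN0 (nuk N k) (ampk N k a) (ha.ampk N k).int
    (fun ζ hζ => supp_cap_norm ha hN hN0 le_rfl hc hR hζ) z).trans ?_
  gcongr
  linarith

end Vale.Agent.P106.G
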