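import Vale.Agent.P106.G.Rep

/-! # Rescaling of the square function -/

open MeasureTheory Complex Set
open scoped ENNReal NNReal ContDiff FourierTransform SchwartzMap ComplexConjugate Topology

set_option linter.all false

namespace Vale.Agent.P106.G

open Tri (ec norm_ec enorm_ec ec_add ec_zero continuous_ec)

/-- one term of the square function -/
noncomputable def Sk (Λ : ℝ) (M N : ℕ) (a : E4 → ℂ) (k : ℤ × ℤ) (z : E4) : ℝ≥0∞ :=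
  ∫⁻ y, ‖𝓕⁻ (ampk N k a) y‖ₑ ^ 2 * phk Λ M N k (z - y)

theorem Sq_eq (Λ : ℝ) (M N : ℕ) (a : E4 → ℂ) (z : E4) : Sq Λ M N a z = ∑ k ∈ grd N, Sk Λ M N a k z := rfl

theorem measurable_phk (Λ : ℝ) (M N : ℕ) (k : ℤ × ℤ) : Measurable (phk Λ M N k) := by
  unfold phk
  have := (continuous_LT (N := N) k).measurable
  fun_prop

theorem measurable_Sk (Λ : ℝ) (M N : ℕ) {a : E4 → ℂ} (ha : Integrable a) (k : ℤ × ℤ) : Measurable (Sk Λ M N a k) := by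
  unfold Sk
  have hi : Integrable (ampk N k a) := by rw [ampk_eq_indicator]; exact ha.indicator (measurableSet_cpi N k)
  have h1 := (continuous_inv hi).measurable
  have h2 := measurable_phk Λ M N k
  apply Measurable.lintegral_prod_right' (f := fun p : E4 × E4 => ‖𝓕⁻ (ampk N k a) p.2‖ₑ ^ 2 * phk Λ M N k (p.1 - p.2))
  fun_prop

theorem measurable_Sq (Λ : ℝ) (M N : ℕ) {a : E4 → ℂ} (ha : Integrable a) : Measurable (Sq Λ M N a) := by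
  have : Sq Λ M N a = fun z => ∑ k ∈ grd N, Sk Λ M N a k z := by ext z; rfl
  rw [this]
  exact Finset.measurable_sum _ fun k _ => measurable_Sk Λ M N ha k

theorem grd_bd {N : ℕ} {k : ℤ × ℤ} (hk : k ∈ grd N) : 0 ≤ ((k.1:ℝ) / N) ∧ ((k.1:ℝ) / N) ≤ 1 ∧ 0 ≤ ((k.2:ℝ) / N) ∧ ((k.2:ℝ) / N) ≤ 1 := by
  unfold grd at hk
  rw [Finset.mem_product, Finset.mem_Ico, Finset.mem_Ico] at hk
  obtain ⟨⟨a1, a2⟩, a3, a4⟩ := hk
  have hN : (0:ℝ) < N := by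
    have : (0:ℤ) < N := by omega
    exact_mod_cast this
  have b1 : (0:ℝ) ≤ k.1 := by exact_mod_cast a1
  have b2 : (k.1:ℝ) ≤ N := by exact_mod_cast a2.le
  have b3 : (0:ℝ) ≤ k.2 := by exact_mod_cast a3
  have b4 : (k.2:ℝ) ≤ N := by exact_mod_cast a4.le
  exact ⟨by positivity, by rw [div_le_one hN]; exact b2, by positivity, by rw [div_le_one hN]; exact b4⟩

theorem norm_LT_le {N : ℕ} (hN : 1 ≤ N) {k : ℤ × ℤ} (hk : k ∈ grd N) (u : E4) : ‖LT N k u‖ ≤ 10 * ‖u‖ := by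
  obtain ⟨b1, b2, b3, b4⟩ := grd_bd hk
  have h0 := abs_coord_le u 0
  have h1 := abs_coord_le u 1
  have h2 := abs_coord_le u 2
  have h3 := abs_coord_le u 3
  have hu := norm_nonneg u
  have hN1 : (1:ℝ) ≤ N := by exact_mod_cast hN
  set p := (k.1:ℝ) / N with hp
  set q := (k.2:ℝ) / N with hq
  have : ∀ i, |LT N k u i| ≤ 5 * ‖u‖ := by
    intro i
    have a0 := abs_le.1 h0
    have a1 := abs_le.1 h1
    have a2 := abs_le.1 h2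
    have a3 := abs_le.1 h3
    fin_cases i
    · show |u 0 + p * u 1 + q * u 2 + (p ^ 2 + q ^ 2) * u 3| ≤ _
      have t1 : |p * u 1| ≤ ‖u‖ := by
        rw [abs_mul, abs_of_nonneg b1]
        calc p * |u 1| ≤ 1 * ‖u‖ := by gcongr
          _ = _ := one_mul _
      have t2 : |q * u 2| ≤ ‖u‖ := by
        rw [abs_mul, abs_of_nonneg b3]
        calc q * |u 2| ≤ 1 * ‖u‖ := by gcongr
          _ = _ := one_mul _
      have t3 : |(p ^ 2 + q ^ 2) * u 3| ≤ 2 * ‖u‖ := by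
        rw [abs_mul, abs_of_nonneg (by positivity)]
        have : p ^ 2 + q ^ 2 ≤ 2 := by nlinarith
        gcongr
      have := abs_add_le (u 0 + p * u 1 + q * u 2) ((p ^ 2 + q ^ 2) * u 3)
      have := abs_add_le (u 0 + p * u 1) (q * u 2)
      have := abs_add_le (u 0) (p * u 1)
      linarith
    · show |(u 1 + 2 * p * u 3) / N| ≤ _
      rw [abs_div, abs_of_pos (by linarith : (0:ℝ) < N)]
      have t1 : |u 1 + 2 * p * u 3| ≤ 3 * ‖u‖ := by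
        have : |2 * p * u 3| ≤ 2 * ‖u‖ := by
          rw [abs_mul, abs_of_nonneg (by positivity)]
          have : 2 * p ≤ 2 := by linarith
          gcongr
        have := abs_add_le (u 1) (2 * p * u 3)
        linarith
      calc |u 1 + 2 * p * u 3| / N ≤ |u 1 + 2 * p * u 3| := div_le_self (abs_nonneg _) hN1
        _ ≤ _ := by linarith
    · show |(u 2 + 2 * q * u 3) / N| ≤ _
      rw [abs_div, abs_of_pos (by linarith : (0:ℝ) < N)]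
      have t1 : |u 2 + 2 * q * u 3| ≤ 3 * ‖u‖ := by
        have : |2 * q * u 3| ≤ 2 * ‖u‖ := by
          rw [abs_mul, abs_of_nonneg (by positivity)]
          have : 2 * q ≤ 2 := by linarith
          gcongr
        have := abs_add_le (u 2) (2 * q * u 3)
        linarith
      calc |u 2 + 2 * q * u 3| / N ≤ |u 2 + 2 * q * u 3| := div_le_self (abs_nonneg _) hN1
        _ ≤ _ := by linarith
    · show |u 3 / N ^ 2| ≤ _
      rw [abs_div, abs_of_pos (by positivity : (0:ℝ) < N ^ 2)]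
      calc |u 3| / N ^ 2 ≤ |u 3| := div_le_self (abs_nonneg _) (one_le_pow₀ hN1)
        _ ≤ _ := by linarith
  have := norm4_le (LT N k u) (by positivity) this
  linarith

theorem phk_shift {Λ : ℝ} (hΛ : 0 < Λ) (M : ℕ) {N : ℕ} (hN : 1 ≤ N) {k : ℤ × ℤ} (hk : k ∈ grd N) (z u : E4) :
    phk Λ M N k (z + u) ≤ ENNReal.ofReal ((1 + ‖u‖ / (Λ / 10)) ^ M) * phk Λ M N k z := by
  unfold phk
  rw [← ENNReal.ofReal_mul (by positivity)]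
  apply ENNReal.ofReal_le_ofReal
  rw [LT_add]
  have h1 : 1 + ‖LT N k z‖ / Λ ≤ (1 + ‖LT N k z + LT N k u‖ / Λ) * (1 + ‖u‖ / (Λ / 10)) := by
    have h2 : ‖LT N k z‖ ≤ ‖LT N k z + LT N k u‖ + ‖LT N k u‖ := by
      have := norm_sub_le (LT N k z + LT N k u) (LT N k u)
      rwa [add_sub_cancel_right] at this
    have h3 := norm_LT_le hN hk u
    have h4 : ‖LT N k z‖ / Λ ≤ ‖LT N k z + LT N k u‖ / Λ + ‖u‖ / (Λ / 10) := by
      have e : ‖u‖ / (Λ / 10) = (10 * ‖u‖) / Λ := by field_simp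
      rw [e, ← add_div]
      gcongr
      linarith
    have h5 : 0 ≤ ‖LT N k z + LT N k u‖ / Λ * (‖u‖ / (Λ / 10)) := by positivity
    nlinarith
  have h2 : (1 + ‖LT N k z‖ / Λ) ^ M ≤ (1 + ‖LT N k z + LT N k u‖ / Λ) ^ M * (1 + ‖u‖ / (Λ / 10)) ^ M := by
    rw [← mul_pow]
    exact pow_le_pow_left₀ (by positivity) h1 _
  have h3 : ((1 + ‖LT N k z + LT N k u‖ / Λ) ^ M)⁻¹ ≤ (1 + ‖u‖ / (Λ / 10)) ^ M * ((1 + ‖LT N k z‖ / Λ) ^ M)⁻¹ := by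
    rw [← div_eq_mul_inv, inv_eq_one_div, div_le_div_iff₀ (by positivity) (by positivity)]
    linarith
  calc ((N:ℝ) ^ 4)⁻¹ * ((1 + ‖LT N k z + LT N k u‖ / Λ) ^ M)⁻¹ ≤
      ((N:ℝ) ^ 4)⁻¹ * ((1 + ‖u‖ / (Λ / 10)) ^ M * ((1 + ‖LT N k z‖ / Λ) ^ M)⁻¹) := by gcongr
    _ = _ := by ring

theorem Sk_SV {Λ : ℝ} (hΛ : 0 < Λ) (M : ℕ) {N : ℕ} (hN : 1 ≤ N) {a : E4 → ℂ} {k : ℤ × ℤ} (hk : k ∈ grd N) :
    SV M (Λ / 10) (Sk Λ M N a k) := by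
  intro z u
  unfold Sk
  rw [← lintegral_const_mul' _ _ ENNReal.ofReal_ne_top]
  refine lintegral_mono fun y => ?_
  have : z + u - y = z - y + u := by abel
  rw [this]
  calc ‖𝓕⁻ (ampk N k a) y‖ₑ ^ 2 * phk Λ M N k (z - y + u) ≤
      ‖𝓕⁻ (ampk N k a) y‖ₑ ^ 2 * (ENNReal.ofReal ((1 + ‖u‖ / (Λ / 10)) ^ M) * phk Λ M N k (z - y)) := by
        gcongr; exact phk_shift hΛ M hN hk _ _
    _ = _ := by ring

theorem SV.sum {ι : Type*} {M : ℕ} {L : ℝ} {s : Finset ι} {W : ι → E4 → ℝ≥0∞} (h : ∀ i ∈ s, SV M L (W i)) :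
    SV M L (fun z => ∑ i ∈ s, W i z) := by
  intro z u
  rw [Finset.mul_sum]
  exact Finset.sum_le_sum fun i hi => h i hi z u

/-- `S ↦ S^{-1/2}` preserves slow variation -/
theorem SV.inv_sqrt {M : ℕ} {L : ℝ} (hL : 0 < L) {W : E4 → ℝ≥0∞} (h : SV M L W) :
    SV M L (fun z => (W z ^ (1/2 : ℝ))⁻¹) := by
  intro z u
  have h1 := h (z + u) (-u)
  rw [add_neg_cancel_right, norm_neg] at h1
  set c := ENNReal.ofReal ((1 + ‖u‖ / L) ^ M) with hc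
  have hc1 : 1 ≤ c := by
    rw [hc, ← ENNReal.ofReal_one]
    apply ENNReal.ofReal_le_ofReal
    apply one_le_pow₀
    have : 0 ≤ ‖u‖ / L := by positivity
    linarith
  have hct : c ≠ ⊤ := ENNReal.ofReal_ne_top
  have hc0 : c ≠ 0 := (lt_of_lt_of_le one_pos hc1).ne'
  have h2 : W z ^ (1/2 : ℝ) ≤ c * W (z + u) ^ (1/2 : ℝ) := by
    calc W z ^ (1/2 : ℝ) ≤ (c * W (z + u)) ^ (1/2 : ℝ) := by gcongr
      _ = c ^ (1/2 : ℝ) * W (z + u) ^ (1/2 : ℝ) := ENNReal.mul_rpow_of_nonneg _ _ (by norm_num)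
      _ ≤ c * W (z + u) ^ (1/2 : ℝ) := by
        gcongr
        calc c ^ (1/2 : ℝ) ≤ c ^ (1:ℝ) := ENNReal.rpow_le_rpow_of_exponent_le hc1 (by norm_num)
          _ = c := ENNReal.rpow_one _
  have h3 : (W (z + u) ^ (1/2 : ℝ))⁻¹ ≤ c * (W z ^ (1/2 : ℝ))⁻¹ := by
    calc (W (z + u) ^ (1/2 : ℝ))⁻¹ = c * (c * W (z + u) ^ (1/2 : ℝ))⁻¹ := by
          rw [ENNReal.mul_inv (Or.inl hc0) (Or.inl hct), ← mul_assoc, ENNReal.mul_inv_cancel hc0 hct, one_mul]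
      _ ≤ _ := by gcongr
  exact h3

/-! ### rescaling -/

theorem inv_LL {N : ℕ} (hN : 1 ≤ N) (k : ℤ × ℤ) (b : E4 → ℂ) (z : E4) :
    𝓕⁻ b z = ((((N:ℝ) ^ 4)⁻¹ : ℝ) : ℂ) * 𝓕⁻ (fun ζ => b (LL N k ζ)) (LT N k z) := by
  rw [inv_eq, inv_eq]
  have e' : ∫ v : E4, ec (inner ℝ v (LT N k z)) * b (LL N k v) =
      ∫ v : E4, (fun ζ : E4 => ec (inner ℝ ζ z) * b ζ) (LL N k v) := integral_congr_ae (by
        filter_upwards with v
        rw [inner_LT])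
  rw [e', int_LL hN k (fun ζ : E4 => ec (inner ℝ ζ z) * b ζ), ← mul_assoc, ← Complex.ofReal_mul, inv_mul_cancel₀ (by
    have : (0:ℝ) < N := by exact_mod_cast hN
    positivity), Complex.ofReal_one, one_mul]

theorem cpi_in {N : ℕ} {ζ : E4} (hk : cpi N ζ ∈ grd N) (h0 : 0 < ζ 0) :
    0 ≤ ζ 1 / ζ 0 ∧ ζ 1 / ζ 0 < 1 ∧ 0 ≤ ζ 2 / ζ 0 ∧ ζ 2 / ζ 0 < 1 := by
  unfold grd cpi at hk
  rw [Finset.mem_product, Finset.mem_Ico, Finset.mem_Ico] at hk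
  obtain ⟨⟨a1, a2⟩, a3, a4⟩ := hk
  have hN : (0:ℝ) < N := by
    have : (0:ℤ) < N := by omega
    exact_mod_cast this
  simp only at a1 a2 a3 a4
  rw [Int.floor_nonneg] at a1 a3
  rw [Int.floor_lt] at a2 a4
  refine ⟨?_, ?_, ?_, ?_⟩
  · exact nonneg_of_mul_nonneg_right a1 hN
  · have : (N:ℝ) * (ζ 1 / ζ 0) < N * 1 := by rw [mul_one]; exact_mod_cast a2
    exact lt_of_mul_lt_mul_left this hN.le
  · exact nonneg_of_mul_nonneg_right a3 hN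
  · have : (N:ℝ) * (ζ 2 / ζ 0) < N * 1 := by rw [mul_one]; exact_mod_cast a4
    exact lt_of_mul_lt_mul_left this hN.le

/-- amplitudes of subcaps -/
theorem ampk_sub {N' N : ℕ} (hN' : 1 ≤ N') {a : E4 → ℂ} (ha : ∀ ζ, a ζ ≠ 0 → 0 < ζ 0)
    (κ : ℤ × ℤ) {k : ℤ × ℤ} (hk : k ∈ grd N) (ζ : E4) :
    ampk (N' * N) (sub N κ k) a (LL N' κ ζ) = ampk N k (resc N' κ a) ζ := by
  classical
  by_cases h0 : 0 < ζ 0
  · have e1 := cpi_LL (N := N) hN' κ h0.ne'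
    by_cases h : cpi N ζ = k
    · -- both sides equal `a (LL ζ)`
      have h2 := cpi_in (h ▸ hk) h0
      have e2 : cpi N' (LL N' κ ζ) = κ := by
        have e3 := cpi_LL (N := 1) hN' κ h0.ne'
        rw [mul_one] at e3
        rw [e3]
        unfold sub cpi
        have f1 : ⌊((1:ℕ):ℝ) * (ζ 1 / ζ 0)⌋ = 0 := by
          rw [Int.floor_eq_iff]; push_cast; exact ⟨by linarith [h2.1], by linarith [h2.2.1]⟩
        have f2 : ⌊((1:ℕ):ℝ) * (ζ 2 / ζ 0)⌋ = 0 := by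
          rw [Int.floor_eq_iff]; push_cast; exact ⟨by linarith [h2.2.2.1], by linarith [h2.2.2.2]⟩
        rw [f1, f2]
        simp
      unfold ampk resc
      unfold ampk
      rw [if_pos (by rw [e1, h]), if_pos h, if_pos e2]
    · unfold ampk
      rw [if_neg h, if_neg]
      rw [e1]
      intro hc
      apply h
      unfold sub at hc
      rw [Prod.ext_iff] at hc ⊢
      obtain ⟨c1, c2⟩ := hc
      simp only at c1 c2
      exact ⟨by linarith, by linarith⟩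
  · have h1 : a (LL N' κ ζ) = 0 := by
      by_contra hc
      have h2 := ha (LL N' κ ζ) hc
      rw [LL0] at h2
      exact h0 h2
    unfold ampk resc
    unfold ampk
    rw [h1]
    simp

/-- partial square function of a coarse cap -/
noncomputable def Skk (Λ : ℝ) (M N' N : ℕ) (a : E4 → ℂ) (κ : ℤ × ℤ) (z : E4) : ℝ≥0∞ :=
  ∑ k ∈ grd N, Sk Λ M (N' * N) a (sub N κ k) z

theorem Sq_split (Λ : ℝ) (M N' N : ℕ) (a : E4 → ℂ) (z : E4) :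
    Sq Λ M (N' * N) a z = ∑ κ ∈ grd N', Skk Λ M N' N a κ z := by
  rw [Sq_eq, grd_prod]
  rfl

theorem Skk_resc {Λ : ℝ} (hΛ : 0 < Λ) (M : ℕ) {N' N : ℕ} (hN' : 1 ≤ N') (hN : 1 ≤ N) {a : E4 → ℂ}
    (ha : ∀ ζ, a ζ ≠ 0 → 0 < ζ 0) (κ : ℤ × ℤ) (z : E4) :
    Skk Λ M N' N a κ z = ENNReal.ofReal (((N':ℝ) ^ 8)⁻¹) * Sq Λ M N (resc N' κ a) (LT N' κ z) := by
  have hN0 : (0:ℝ) < N' := by exact_mod_cast hN'
  have hN1 : (0:ℝ) < N := by exact_mod_cast hN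
  unfold Skk
  rw [Sq_eq, Finset.mul_sum]
  refine Finset.sum_congr rfl fun k hk => ?_
  unfold Sk
  have e1 : (fun ζ => ampk (N' * N) (sub N κ k) a (LL N' κ ζ)) = ampk N k (resc N' κ a) := by
    ext ζ; exact ampk_sub hN' ha κ hk ζ
  have e2 : ∀ y, ‖𝓕⁻ (ampk (N' * N) (sub N κ k) a) y‖ₑ ^ 2 * phk Λ M (N' * N) (sub N κ k) (z - y) =
      ENNReal.ofReal (((N':ℝ) ^ 8)⁻¹ * ((N':ℝ) ^ 4)⁻¹) *
        (fun w => ‖𝓕⁻ (ampk N k (resc N' κ a)) w‖ₑ ^ 2 * phk Λ M N k (LT N' κ z - w)) (LT N' κ y) := by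
    intro y
    rw [inv_LL hN' κ, e1, enorm_mul, mul_pow]
    have e3 : ‖((((N':ℝ) ^ 4)⁻¹ : ℝ) : ℂ)‖ₑ ^ 2 = ENNReal.ofReal (((N':ℝ) ^ 8)⁻¹) := by
      rw [← ofReal_norm, Complex.norm_real, Real.norm_of_nonneg (by positivity), ← ENNReal.ofReal_pow (by positivity)]
      congr 1
      rw [inv_pow, ← pow_mul]
    have e4 : phk Λ M (N' * N) (sub N κ k) (z - y) = ENNReal.ofReal (((N':ℝ) ^ 4)⁻¹) * phk Λ M N k (LT N' κ z - LT N' κ y) := by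
      unfold phk
      rw [LT_sub_comp hN' hN, LT_sub, ← ENNReal.ofReal_mul (by positivity)]
      congr 1
      push_cast
      rw [mul_pow, mul_inv]
      ring
    rw [e3, e4, ENNReal.ofReal_mul (by positivity)]
    ring
  simp_rw [e2]
  have hm : ENNReal.ofReal (((N':ℝ) ^ 8)⁻¹ * ((N':ℝ) ^ 4)⁻¹) ≠ ⊤ := ENNReal.ofReal_ne_top
  rw [lintegral_const_mul' _ _ hm, lint_LT hN' κ (fun w => ‖𝓕⁻ (ampk N k (resc N' κ a)) w‖ₑ ^ 2 * phk Λ M N k (LT N' κ z - w)),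
    ← mul_assoc, ← ENNReal.ofReal_mul (by positivity)]
  congr 2
  field_simp

/-- the scale invariant inequality -/
def RefB (Λ c0 : ℝ) (M N : ℕ) (A : ℝ≥0∞) : Prop := ∀ a : E4 → ℂ, Amp c0 ((N:ℝ) ^ 2) a →
  ∫⁻ z, ‖𝓕⁻ a z‖ₑ ^ 3 * (Sq Λ M N a z ^ (1/2 : ℝ))⁻¹ ≤ A * ∫⁻ ζ, ‖a ζ‖ₑ ^ 2

theorem RefB.cap {Λ c0 : ℝ} (hΛ : 0 < Λ) {M N' N : ℕ} {A : ℝ≥0∞} (h : RefB Λ c0 M N A) (hN' : 1 ≤ N') (hN : 1 ≤ N)
    {a : E4 → ℂ} (ha : Amp c0 (((N' * N : ℕ):ℝ) ^ 2) a) (κ : ℤ × ℤ) :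
    ∫⁻ z, ‖𝓕⁻ (ampk N' κ a) z‖ₑ ^ 3 * (Skk Λ M N' N a κ z ^ (1/2 : ℝ))⁻¹ ≤ A * ∫⁻ ζ, ‖ampk N' κ a ζ‖ₑ ^ 2 := by
  have hN0 : (0:ℝ) < N' := by exact_mod_cast hN'
  have hN1 : (0:ℝ) < N := by exact_mod_cast hN
  have hpos : ∀ ζ, a ζ ≠ 0 → 0 < ζ 0 := fun ζ hζ => by have := (ha.supp ζ hζ).1.1; linarith
  set b := resc N' κ a with hb
  have hb' : Amp c0 ((N:ℝ) ^ 2) b := by
    have := Amp.resc hN' κ (by positivity) ha
    have e : (((N' * N : ℕ):ℝ) ^ 2) / (N':ℝ) ^ 2 = (N:ℝ) ^ 2 := by push_cast; field_simp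
    rwa [e] at this
  have hmain := h b hb'
  have e1 : ∀ z, ‖𝓕⁻ (ampk N' κ a) z‖ₑ ^ 3 * (Skk Λ M N' N a κ z ^ (1/2 : ℝ))⁻¹ =
      ENNReal.ofReal (((N':ℝ) ^ 8)⁻¹) * (fun w => ‖𝓕⁻ b w‖ₑ ^ 3 * (Sq Λ M N b w ^ (1/2 : ℝ))⁻¹) (LT N' κ z) := by
    intro z
    rw [inv_LL hN' κ, Skk_resc hΛ M hN' hN hpos, enorm_mul, mul_pow, ENNReal.mul_rpow_of_nonneg _ _ (by norm_num)]
    have e3 : ‖((((N':ℝ) ^ 4)⁻¹ : ℝ) : ℂ)‖ₑ ^ 3 = ENNReal.ofReal (((N':ℝ) ^ 12)⁻¹) := by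
      rw [← ofReal_norm, Complex.norm_real, Real.norm_of_nonneg (by positivity), ← ENNReal.ofReal_pow (by positivity)]
      congr 1
      rw [inv_pow, ← pow_mul]
    have e4 : ENNReal.ofReal (((N':ℝ) ^ 8)⁻¹) ^ (1/2 : ℝ) = ENNReal.ofReal (((N':ℝ) ^ 4)⁻¹) := by
      rw [ENNReal.ofReal_rpow_of_nonneg (by positivity) (by norm_num)]
      congr 1
      have : ((N':ℝ) ^ 8)⁻¹ = (((N':ℝ) ^ 4)⁻¹) ^ (2:ℝ) := by
        rw [Real.rpow_two, inv_pow, ← pow_mul]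
      rw [this, ← Real.rpow_mul (by positivity)]
      norm_num
    have e5 : (ENNReal.ofReal (((N':ℝ) ^ 4)⁻¹))⁻¹ = ENNReal.ofReal ((N':ℝ) ^ 4) := by
      rw [← ENNReal.ofReal_inv_of_pos (by positivity), inv_inv]
    rw [e3, e4, ENNReal.mul_inv (Or.inl (by rw [ne_eq, ENNReal.ofReal_eq_zero, not_le]; positivity))
      (Or.inl ENNReal.ofReal_ne_top), e5]
    have e6 : ENNReal.ofReal (((N':ℝ) ^ 12)⁻¹) * ENNReal.ofReal ((N':ℝ) ^ 4) = ENNReal.ofReal (((N':ℝ) ^ 8)⁻¹) := by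
      rw [← ENNReal.ofReal_mul (by positivity)]
      congr 1
      field_simp
    rw [← e6]
    have e7 : (fun ζ => ampk N' κ a (LL N' κ ζ)) = b := rfl
    rw [e7]
    ring
  simp_rw [e1]
  rw [lintegral_const_mul' _ _ ENNReal.ofReal_ne_top,
    lint_LT hN' κ (fun w => ‖𝓕⁻ b w‖ₑ ^ 3 * (Sq Λ M N b w ^ (1/2 : ℝ))⁻¹), ← mul_assoc,
    ← ENNReal.ofReal_mul (by positivity)]
  have e8 : ∫⁻ ζ, ‖b ζ‖ₑ ^ 2 = ENNReal.ofReal ((N':ℝ) ^ 4) * ∫⁻ ζ, ‖ampk N' κ a ζ‖ₑ ^ 2 :=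
    lint_LL hN' κ (fun ζ => ‖ampk N' κ a ζ‖ₑ ^ 2)
  calc _ ≤ ENNReal.ofReal (((N':ℝ) ^ 8)⁻¹ * (N':ℝ) ^ 4) * (A * ∫⁻ ζ, ‖b ζ‖ₑ ^ 2) := by gcongr
    _ = (ENNReal.ofReal (((N':ℝ) ^ 8)⁻¹ * (N':ℝ) ^ 4) * ENNReal.ofReal ((N':ℝ) ^ 4)) * (A * ∫⁻ ζ, ‖ampk N' κ a ζ‖ₑ ^ 2) := by
        rw [e8]; ring
    _ = _ := by
        rw [← ENNReal.ofReal_mul (by positivity)]
        have : ((N':ℝ) ^ 8)⁻¹ * (N':ℝ) ^ 4 * (N':ℝ) ^ 4 = 1 := by field_simp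
        rw [this, ENNReal.ofReal_one, one_mul]

end Vale.Agent.P106.G
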