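import Vale.Agent.P106.G.LO

/-! # The trilinear estimate for caps -/

open MeasureTheory Complex Set
open scoped ENNReal NNReal ContDiff FourierTransform SchwartzMap ComplexConjugate

set_option linter.all false

namespace Vale.Agent.P106.G

open Vale.Agent.P106.Tri (ec norm_ec enorm_ec ec_add continuous_ec TriBd Gd LinAt triBd_iter dt nv hz)
open Vale.Agent.P117 (E3)

/-- modulation -/
noncomputable def mo (u : E4) (g : E4 → ℂ) (ζ : E4) : ℂ := ec (-(inner ℝ ζ u)) * g ζ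

theorem inv_mo (u : E4) (g : E4 → ℂ) (z : E4) : 𝓕⁻ (mo u g) z = 𝓕⁻ g (z - u) := by
  rw [inv_eq, inv_eq]
  congr 1
  ext v
  unfold mo
  rw [← mul_assoc, ← ec_add, inner_sub_right]
  congr 2

theorem norm_mo (u : E4) (g : E4 → ℂ) (ζ : E4) : ‖mo u g ζ‖ = ‖g ζ‖ := by
  unfold mo; rw [norm_mul, norm_ec, one_mul]

theorem enorm_mo (u : E4) (g : E4 → ℂ) (ζ : E4) : ‖mo u g ζ‖ₑ = ‖g ζ‖ₑ := by
  unfold mo; rw [enorm_mul, enorm_ec, one_mul]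

theorem measurable_mo (u : E4) {g : E4 → ℂ} (hg : Measurable g) : Measurable (mo u g) := by
  unfold mo
  have : Continuous (fun ζ : E4 => ec (-(inner ℝ ζ u))) := by
    have := continuous_ec
    fun_prop
  exact this.measurable.mul hg

theorem integrable_mo (u : E4) {g : E4 → ℂ} (hg : Measurable g) (hi : Integrable g) : Integrable (mo u g) := by
  refine hi.mono (measurable_mo u hg).aestronglyMeasurable ?_
  filter_upwards with ζ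
  rw [norm_mo]

theorem mo_ne {u : E4} {g : E4 → ℂ} {ζ : E4} (h : mo u g ζ ≠ 0) : g ζ ≠ 0 := by
  intro hc
  apply h
  unfold mo
  rw [hc, mul_zero]

/-- the surface -/
def qq (ξ : ℝ × ℝ) : ℝ := ξ.1 ^ 2 + ξ.2 ^ 2

theorem measurable_qq : Measurable qq := by unfold qq; fun_prop

theorem qq_lin (c : ℝ × ℝ) {δ θ : ℝ} (h : 4 * δ ≤ θ) : LinAt qq c (2 * c.1, 2 * c.2) δ θ := by
  intro ξ ξ' h1 h2
  have a1 : |ξ.1 - c.1| ≤ δ := by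
    have := norm_fst_le (ξ - c); rw [Real.norm_eq_abs] at this; exact this.trans h1
  have a2 : |ξ.2 - c.2| ≤ δ := by
    have := norm_snd_le (ξ - c); rw [Real.norm_eq_abs] at this; exact this.trans h1
  have b1 : |ξ'.1 - c.1| ≤ δ := by
    have := norm_fst_le (ξ' - c); rw [Real.norm_eq_abs] at this; exact this.trans h2
  have b2 : |ξ'.2 - c.2| ≤ δ := by
    have := norm_snd_le (ξ' - c); rw [Real.norm_eq_abs] at this; exact this.trans h2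
  have d1 : |ξ.1 - ξ'.1| ≤ ‖ξ - ξ'‖ := by
    have := norm_fst_le (ξ - ξ'); rw [Real.norm_eq_abs] at this; exact this
  have d2 : |ξ.2 - ξ'.2| ≤ ‖ξ - ξ'‖ := by
    have := norm_snd_le (ξ - ξ'); rw [Real.norm_eq_abs] at this; exact this
  have e : qq ξ - qq ξ' - (2 * c.1 * (ξ.1 - ξ'.1) + 2 * c.2 * (ξ.2 - ξ'.2)) =
      ((ξ.1 - c.1) + (ξ'.1 - c.1)) * (ξ.1 - ξ'.1) + ((ξ.2 - c.2) + (ξ'.2 - c.2)) * (ξ.2 - ξ'.2) := by
    unfold qq; ring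
  simp only
  rw [e]
  have hδ : 0 ≤ δ := (abs_nonneg _).trans a1
  calc _ ≤ |(ξ.1 - c.1) + (ξ'.1 - c.1)| * |ξ.1 - ξ'.1| + |(ξ.2 - c.2) + (ξ'.2 - c.2)| * |ξ.2 - ξ'.2| := by
        rw [← abs_mul, ← abs_mul]; exact abs_add_le _ _
    _ ≤ (2 * δ) * ‖ξ - ξ'‖ + (2 * δ) * ‖ξ - ξ'‖ := by
        have f1 : |(ξ.1 - c.1) + (ξ'.1 - c.1)| ≤ 2 * δ := (abs_add_le _ _).trans (by linarith)
        have f2 : |(ξ.2 - c.2) + (ξ'.2 - c.2)| ≤ 2 * δ := (abs_add_le _ _).trans (by linarith)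
        gcongr
    _ = (4 * δ) * ‖ξ - ξ'‖ := by ring
    _ ≤ _ := by gcongr

/-- centre of a cap in the plane -/
noncomputable def cc (K : ℕ) (k : ℤ × ℤ) : ℝ × ℝ := ((k.1:ℝ) / K, (k.2:ℝ) / K)

/-- determinant of three points -/
def d3 (a b c : ℝ × ℝ) : ℝ := (b.1 - a.1) * (c.2 - a.2) - (c.1 - a.1) * (b.2 - a.2)

theorem dt_nv (a b c : ℝ × ℝ) :
    dt (nv (2 * a.1, 2 * a.2)) (nv (2 * b.1, 2 * b.2)) (nv (2 * c.1, 2 * c.2)) = -(4 * d3 a b c) := by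
  have e0 : ∀ w : ℝ × ℝ, nv w 0 = w.1 := fun w => rfl
  have e1 : ∀ w : ℝ × ℝ, nv w 1 = w.2 := fun w => rfl
  have e2 : ∀ w : ℝ × ℝ, nv w 2 = -1 := fun w => rfl
  unfold dt d3
  simp only [e0, e1, e2]
  ring

/-- supports of the localised pieces with respect to the surface -/
theorem gk_surf {K' N : ℕ} (hK' : 1 ≤ K') (hN : 1 ≤ N) (hKN : K' ≤ N) {c0 R : ℝ} {a : E4 → ℂ} (ha : Amp c0 R a)
    (hc : c0 ≤ 1 / N) (hR : R⁻¹ ≤ 1 / N) {k : ℤ × ℤ} {y ζ : E4} (h : gk N (ampk K' k a) y ζ ≠ 0) :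
    |ζ 0 - 1| ≤ 2 / N ∧ |ζ 1 - k.1 / K'| ≤ 8 / K' ∧ |ζ 2 - k.2 / K'| ≤ 8 / K' ∧
      |ζ 3 - (ζ 1 ^ 2 + ζ 2 ^ 2)| ≤ 16 / N := by
  have hN0 : (0:ℝ) < N := by exact_mod_cast hN
  have hK0 : (0:ℝ) < K' := by exact_mod_cast hK'
  have hN1 : (1:ℝ) / N ≤ 1 := by rw [div_le_one hN0]; exact_mod_cast hN
  have hKN' : (1:ℝ) / N ≤ 1 / K' := one_div_le_one_div_of_le hK0 (by exact_mod_cast hKN)
  obtain ⟨t, ht, hd⟩ := gk_supp hN0 h
  obtain ⟨h0, h1, h2, h3⟩ := supp_cap ha hK' hK0 le_rfl (hc.trans hKN') (hR.trans hKN') ht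
  obtain ⟨⟨s0, s0'⟩, ⟨s1, s1'⟩, ⟨s2, s2'⟩, s3⟩ := ha.supp t (ampk_ne ht).2
  have dd : ∀ i : Fin 4, |ζ i - t i| ≤ 1 / N := by
    intro i
    have := abs_coord_le (ζ - t) i
    rw [PiLp.sub_apply] at this
    exact this.trans hd
  have i0 := dd 0
  have i1 := dd 1
  have i2 := dd 2
  have i3 := dd 3
  set n := 1 / (N:ℝ) with hn
  have hn0 : 0 < n := by positivity
  have e8 : (8:ℝ) / K' = 1 / K' + 7 * (1 / K') := by ring
  have e2 : (2:ℝ) / N = 2 * n := by rw [hn]; ring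
  have e16 : (16:ℝ) / N = 16 * n := by rw [hn]; ring
  have hp : 0 < t 0 := by linarith
  refine ⟨?_, ?_, ?_, ?_⟩
  · have : ζ 0 - 1 = (ζ 0 - t 0) + (t 0 - 1) := by ring
    rw [this, e2]
    refine (abs_add_le _ _).trans ?_
    rw [abs_of_nonneg (by linarith : 0 ≤ t 0 - 1)]
    linarith
  · have : ζ 1 - k.1 / K' = (ζ 1 - t 1) + (t 1 - k.1 / K') := by ring
    rw [this, e8]
    exact (abs_add_le _ _).trans (add_le_add (i1.trans hKN') h1)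
  · have : ζ 2 - k.2 / K' = (ζ 2 - t 2) + (t 2 - k.2 / K') := by ring
    rw [this, e8]
    exact (abs_add_le _ _).trans (add_le_add (i2.trans hKN') h2)
  · rw [e16]
    have ht2 : t 0 ≤ 2 := by linarith
    have g1 : |(t 1 ^ 2 + t 2 ^ 2) / t 0 - (t 1 ^ 2 + t 2 ^ 2)| ≤ 4 * n := by
      have : (t 1 ^ 2 + t 2 ^ 2) / t 0 - (t 1 ^ 2 + t 2 ^ 2) = -(((t 1 ^ 2 + t 2 ^ 2) / t 0) * (t 0 - 1)) := by
        field_simp; ring
      rw [this, abs_neg, abs_of_nonneg (mul_nonneg (by positivity) (by linarith))]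
      have : (t 1 ^ 2 + t 2 ^ 2) / t 0 ≤ 4 := by
        rw [div_le_iff₀ hp]
        nlinarith
      exact mul_le_mul this (by linarith) (by linarith) (by norm_num)
    have g2 : ∀ x y : ℝ, 0 ≤ y → y ≤ 2 → |x - y| ≤ n → |x ^ 2 - y ^ 2| ≤ 5 * n := by
      intro x y hy hy2 hxy
      have : x ^ 2 - y ^ 2 = (x - y) * ((x - y) + 2 * y) := by ring
      rw [this, abs_mul]
      have h5 : |(x - y) + 2 * y| ≤ 5 := by
        refine (abs_add_le _ _).trans ?_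
        rw [abs_of_nonneg (by linarith : 0 ≤ 2 * y)]
        linarith
      calc _ ≤ n * 5 := mul_le_mul hxy h5 (abs_nonneg _) hn0.le
        _ = _ := by ring
    have g3 := g2 (ζ 1) (t 1) s1 (by linarith) i1
    have g4 := g2 (ζ 2) (t 2) s2 (by linarith) i2
    have e : ζ 3 - (ζ 1 ^ 2 + ζ 2 ^ 2) = (ζ 3 - t 3) + (t 3 - (t 1 ^ 2 + t 2 ^ 2) / t 0) +
        ((t 1 ^ 2 + t 2 ^ 2) / t 0 - (t 1 ^ 2 + t 2 ^ 2)) - ((ζ 1 ^ 2 - t 1 ^ 2) + (ζ 2 ^ 2 - t 2 ^ 2)) := by ring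
    rw [e]
    have := abs_sub ((ζ 3 - t 3) + (t 3 - (t 1 ^ 2 + t 2 ^ 2) / t 0) +
        ((t 1 ^ 2 + t 2 ^ 2) / t 0 - (t 1 ^ 2 + t 2 ^ 2))) ((ζ 1 ^ 2 - t 1 ^ 2) + (ζ 2 ^ 2 - t 2 ^ 2))
    have h1' := abs_add_le ((ζ 3 - t 3) + (t 3 - (t 1 ^ 2 + t 2 ^ 2) / t 0)) ((t 1 ^ 2 + t 2 ^ 2) / t 0 - (t 1 ^ 2 + t 2 ^ 2))
    have h2' := abs_add_le (ζ 3 - t 3) (t 3 - (t 1 ^ 2 + t 2 ^ 2) / t 0)
    have h3' := abs_add_le (ζ 1 ^ 2 - t 1 ^ 2) (ζ 2 ^ 2 - t 2 ^ 2)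
    linarith

/-- sum of the local energies of the caps -/
noncomputable def Hs (M K : ℕ) (a : E4 → ℂ) (y : E4) : ℝ≥0∞ := ∑ k ∈ grd K, Gsq M K (ampk K k a) y

open Classical in
/-- energy of a localised coarse cap -/
theorem gk_Hs (M : ℕ) : ∃ C : ℝ, 0 ≤ C ∧ ∀ (K' m : ℕ), 1 ≤ K' → 1 ≤ m → ∀ (c0 R : ℝ) (a : E4 → ℂ), Amp c0 R a →
    c0 ≤ 1 / ((K' * m : ℕ):ℝ) → R⁻¹ ≤ 1 / ((K' * m : ℕ):ℝ) → ∀ (k : ℤ × ℤ) (y : E4),
    ∫⁻ ζ, ‖gk ((K' * m : ℕ):ℝ) (ampk K' k a) y ζ‖ₑ ^ 2 ≤ ENNReal.ofReal (C * ((K' * m : ℕ):ℝ) ^ 4) * Hs M (K' * m) a y := by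
  obtain ⟨C, hC, h⟩ := LO M
  refine ⟨C, hC, ?_⟩
  intro K' m hK' hm c0 R a ha hc hR k y
  have hK : 1 ≤ K' * m := Nat.mul_pos hK' hm
  have e : ∀ ζ, gk ((K' * m : ℕ):ℝ) (ampk K' k a) y ζ =
      ∑ l ∈ (grd (K' * m)).filter (fun l => par m l = k), gk ((K' * m : ℕ):ℝ) (ampk (K' * m) l a) y ζ := by
    intro ζ
    unfold gk ga
    rw [← integral_finset_sum]
    · congr 1
      ext t
      rw [ampk_split ha hK' hm k t, Finset.sum_mul]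
    · intro l _
      obtain ⟨B, hB⟩ := Kk_bdd (r0 / ((K' * m : ℕ):ℝ))
      refine (ha.ampk _ l).int.mul_bdd (c := B) ((continuous_ky _ y).comp (by fun_prop)).aestronglyMeasurable ?_
      filter_upwards with t
      rw [norm_ky]
      exact hB _
  simp_rw [e]
  refine (h (K' * m) hK c0 R a ha hc hR _ y).trans ?_
  refine mul_le_mul' le_rfl ?_
  unfold Hs
  exact Finset.sum_le_sum_of_subset (Finset.filter_subset _ _)

end Vale.Agent.P106.G
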