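import Vale.Agent.P106.G.TriP

/-! # The trilinear estimate for caps, conclusion -/

open MeasureTheory Complex Set
open scoped ENNReal NNReal ContDiff FourierTransform SchwartzMap ComplexConjugate

set_option linter.all false

namespace Vale.Agent.P106.G

open Vale.Agent.P106.Tri (ec norm_ec enorm_ec ec_add continuous_ec TriBd Gd LinAt triBd_iter dt nv hz)
open Vale.Agent.P117 (E3)

theorem theta_choice {B ε : ℝ} (hB0 : 0 < B) (hε : 0 < ε) :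
    ∃ θ : ℝ, 0 < θ ∧ θ ≤ 1/2 ∧ B * θ ^ (3/2 : ℝ) ≤ θ ^ (3/2 - ε) := by
  refine ⟨min (1/2) ((B + 1) ^ (-ε⁻¹)), by positivity, min_le_left _ _, ?_⟩
  set θ := min (1/2) ((B + 1) ^ (-ε⁻¹)) with hθd
  have hθ0 : 0 < θ := by rw [hθd]; positivity
  have h1 : θ ^ ε ≤ (B + 1)⁻¹ := by
    calc θ ^ ε ≤ ((B + 1) ^ (-ε⁻¹)) ^ ε := Real.rpow_le_rpow hθ0.le (min_le_right _ _) hε.le
      _ = (B + 1)⁻¹ := by
        rw [← Real.rpow_mul (by positivity), neg_mul, inv_mul_cancel₀ hε.ne', Real.rpow_neg_one]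
  have h2 : B * θ ^ ε ≤ 1 := by
    calc B * θ ^ ε ≤ B * (B + 1)⁻¹ := by gcongr
      _ ≤ 1 := by
        rw [← div_eq_mul_inv, div_le_one (by positivity)]; linarith
  have h3 : θ ^ (3/2 : ℝ) = θ ^ (3/2 - ε) * θ ^ ε := by
    rw [← Real.rpow_add hθ0]; congr 1; ring
  rw [h3]
  calc B * (θ ^ (3/2 - ε) * θ ^ ε) = θ ^ (3/2 - ε) * (B * θ ^ ε) := by ring
    _ ≤ θ ^ (3/2 - ε) * 1 := by gcongr
    _ = _ := mul_one _

/-- trilinear bound at the scale `H⁻¹` -/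
theorem tri_scale (ν ε : ℝ) (hν : 0 < ν) (hε : 0 < ε) (hε1 : ε ≤ 1) : ∃ δ : ℝ, 0 < δ ∧ δ ≤ 1 ∧ ∃ C : ℝ, 0 ≤ C ∧
    ∀ (c : Fin 3 → ℝ × ℝ), (∀ i, |(c i).1| ≤ 1 ∧ |(c i).2| ≤ 1) → ν ≤ |d3 (c 0) (c 1) (c 2)| →
    ∀ H : ℝ, 16 / H ≤ δ → 1 ≤ H →
    TriBd (fun _ => qq) c (C * H ^ (ε - 3/2)) (δ / 2) (16 / H) := by
  obtain ⟨C₁, hC₁, hiter⟩ := triBd_iter
  set B := C₁ * ν ^ (-1/2 : ℝ) * (1 + 2) ^ (3/2 : ℝ) with hB
  have hB0 : 0 < B := by positivity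
  obtain ⟨θ, hθ, hθ2, hθB⟩ := theta_choice hB0 hε
  have hθ1 : θ < 1 := by linarith
  set δ := θ / 4 with hδd
  have hδ : 0 < δ := by positivity
  refine ⟨δ, hδ, by linarith, (16 / (θ * δ)) ^ (3/2 - ε) * (8 * δ ^ 2 * δ) ^ (1/2 : ℝ), by positivity, ?_⟩
  intro c hc hdet H hH hH1
  have hH0 : 0 < H := by linarith
  -- choice of n
  obtain ⟨n, hn1, hn2⟩ : ∃ n : ℕ, 16 / H ≤ θ ^ n * δ ∧ θ ^ n * (θ * δ) ≤ 16 / H := by
    have hex : ∃ n : ℕ, θ ^ n * δ < 16 / H := by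
      obtain ⟨n, hn⟩ := exists_pow_lt_of_lt_one (show 0 < 16 / H / δ by positivity) hθ1
      refine ⟨n, ?_⟩
      rwa [lt_div_iff₀ hδ] at hn
    classical
    have h0 : 0 < Nat.find hex := by
      rw [Nat.pos_iff_ne_zero]
      intro h
      have := Nat.find_spec hex
      rw [h, pow_zero, one_mul] at this
      linarith
    refine ⟨Nat.find hex - 1, ?_, ?_⟩
    · have hm := Nat.find_min hex (Nat.sub_lt h0 one_pos)
      push Not at hm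
      exact hm
    · have e : θ ^ (Nat.find hex - 1) * (θ * δ) = θ ^ (Nat.find hex) * δ := by
        have : θ ^ (Nat.find hex) = θ ^ (Nat.find hex - 1) * θ := by
          rw [← pow_succ]; congr 1; omega
        rw [this]; ring
      rw [e]
      exact (Nat.find_spec hex).le
  have hdet' : ν ≤ |dt (nv ((fun i => (2 * (c i).1, 2 * (c i).2)) 0)) (nv ((fun i => (2 * (c i).1, 2 * (c i).2)) 1))
      (nv ((fun i => (2 * (c i).1, 2 * (c i).2)) 2))| := by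
    simp only
    rw [dt_nv, abs_neg, abs_mul, abs_of_pos (by norm_num : (0:ℝ) < 4)]
    have := abs_nonneg (d3 (c 0) (c 1) (c 2))
    linarith
  have hT := hiter (fun _ => qq) c (fun i => (2 * (c i).1, 2 * (c i).2)) ν 2 δ θ hν hdet' (by norm_num) (by
      intro i
      simp only
      rw [abs_mul, abs_mul, abs_of_pos (by norm_num : (0:ℝ) < 2)]
      have := hc i
      constructor <;> linarith [this.1, this.2]) hθ hθ2 hδ (fun _ => measurable_qq)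
    (fun i => qq_lin (c i) (by rw [hδd]; linarith)) n
  refine hT.mono ?_ ?_ hn1
  · have hθn : θ ^ n ≤ 16 / (θ * δ) / H := by
      rw [div_div, mul_comm (θ * δ) H, ← div_div, le_div_iff₀ (by positivity)]
      exact hn2
    have e1 : (B * θ ^ (3/2 : ℝ)) ^ n ≤ (θ ^ n) ^ (3/2 - ε) := by
      calc (B * θ ^ (3/2 : ℝ)) ^ n ≤ (θ ^ (3/2 - ε)) ^ n := by gcongr
        _ = (θ ^ n) ^ (3/2 - ε) := by
          rw [← Real.rpow_natCast, ← Real.rpow_mul hθ.le, ← Real.rpow_natCast, ← Real.rpow_mul hθ.le,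
            mul_comm]
    have e2 : (θ ^ n) ^ (3/2 - ε) ≤ (16 / (θ * δ)) ^ (3/2 - ε) * H ^ (ε - 3/2) := by
      calc (θ ^ n) ^ (3/2 - ε) ≤ (16 / (θ * δ) / H) ^ (3/2 - ε) :=
            Real.rpow_le_rpow (by positivity) hθn (by linarith)
        _ = _ := by
          rw [Real.div_rpow (by positivity) hH0.le, div_eq_mul_inv _ (H ^ (3/2 - ε)), ← Real.rpow_neg hH0.le]
          congr 2
          ring
    calc _ ≤ ((16 / (θ * δ)) ^ (3/2 - ε) * H ^ (ε - 3/2)) * (8 * δ ^ 2 * δ) ^ (1/2 : ℝ) := by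
          gcongr
          exact e1.trans e2
      _ = _ := by ring
  · have : 0 ≤ θ ^ n * δ := by positivity
    linarith

theorem triP (M : ℕ) (ν ε : ℝ) (hν : 0 < ν) (hε : 0 < ε) (hε1 : ε ≤ 1) : ∃ δ : ℝ, 0 < δ ∧ ∃ C : ℝ, 0 ≤ C ∧
    ∀ (K' m : ℕ), 1 ≤ K' → 1 ≤ m → 1 / (K':ℝ) ≤ δ → ∀ (c0 R : ℝ) (a : E4 → ℂ), Amp c0 R a →
    c0 ≤ 1 / ((K' * m : ℕ):ℝ) → R⁻¹ ≤ 1 / ((K' * m : ℕ):ℝ) → ∀ (k : Fin 3 → ℤ × ℤ), (∀ i, k i ∈ grd K') →
    ν ≤ |d3 (cc K' (k 0)) (cc K' (k 1)) (cc K' (k 2))| → ∀ (y : E4) (u : Fin 3 → E4),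
    ∫⁻ z in Metric.closedBall y ((K' * m : ℕ):ℝ), ‖𝓕⁻ (ampk K' (k 0) a) (z - u 0)‖ₑ * ‖𝓕⁻ (ampk K' (k 1) a) (z - u 1)‖ₑ *
        ‖𝓕⁻ (ampk K' (k 2) a) (z - u 2)‖ₑ ≤
      ENNReal.ofReal (C * ((K' * m : ℕ):ℝ) ^ (4 + ε)) * (Hs M (K' * m) a (y - u 0) ^ (1/2 : ℝ) *
        Hs M (K' * m) a (y - u 1) ^ (1/2 : ℝ) * Hs M (K' * m) a (y - u 2) ^ (1/2 : ℝ)) := by
  obtain ⟨δ, hδ, hδ1, C, hC, hT⟩ := tri_scale ν ε hν hε hε1
  obtain ⟨D, hD, hL⟩ := gk_Hs M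
  refine ⟨δ / 16, by positivity, 16 * C * (4 * D) ^ (3/2 : ℝ), by positivity, ?_⟩
  intro K' m hK' hm hKδ c0 R a ha hc hR k hk hdet y u
  have hK : 1 ≤ K' * m := Nat.mul_pos hK' hm
  have hK0 : (0:ℝ) < ((K' * m : ℕ):ℝ) := by exact_mod_cast hK
  have hK1 : (1:ℝ) ≤ ((K' * m : ℕ):ℝ) := by exact_mod_cast hK
  have hK'0 : (0:ℝ) < K' := by exact_mod_cast hK'
  have hKK : K' ≤ K' * m := Nat.le_mul_of_pos_right _ hm
  have hKK' : (K':ℝ) ≤ ((K' * m : ℕ):ℝ) := by exact_mod_cast hKK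
  set H : ℝ := ((K' * m : ℕ):ℝ) with hH
  have hi : 1 / H ≤ 1 / (K':ℝ) := one_div_le_one_div_of_le hK'0 hKK'
  have h16 : 16 / H ≤ δ := by
    have : 16 / H = 16 * (1 / H) := by ring
    rw [this]; linarith
  have hT2 := hT (fun i => cc K' (k i)) (by
    intro i
    have := grd_bd (hk i)
    unfold cc
    simp only
    rw [abs_of_nonneg this.1, abs_of_nonneg this.2.2.1]
    exact ⟨this.2.1, this.2.2.2⟩) hdet H h16 hK1
  -- the localised pieces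
  set A : Fin 3 → E4 → ℂ := fun i => ampk K' (k i) a with hA
  set g : Fin 3 → E4 → ℂ := fun i => mo (u i) (gk H (A i) (y - u i)) with hg
  have iA : ∀ i, Integrable (A i) := fun i => (ha.ampk _ _).int
  have mgk : ∀ i, Measurable (gk H (A i) (y - u i)) := fun i => (continuous_ga (iA i) _).measurable
  have igk : ∀ i, Integrable (gk H (A i) (y - u i)) := fun i => integrable_ga (div_pos r0_pos hK0) (iA i) _
  have mg : ∀ i, Measurable (g i) := fun i => measurable_mo _ (mgk i)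
  have ig : ∀ i, Integrable (g i) := fun i => integrable_mo _ (mgk i) (igk i)
  have hinv : ∀ i z, 𝓕⁻ (g i) z = Psi ((r0 / H) • (z - y)) * 𝓕⁻ (A i) (z - u i) := by
    intro i z
    rw [hg]
    simp only
    rw [inv_mo, inv_gk hK0 (iA i)]
    congr 3
    abel
  have hsurf : ∀ i ζ, g i ζ ≠ 0 → |ζ 0 - 1| ≤ 2 / H ∧ |ζ 1 - (k i).1 / K'| ≤ 8 / K' ∧ |ζ 2 - (k i).2 / K'| ≤ 8 / K' ∧
      |ζ 3 - (ζ 1 ^ 2 + ζ 2 ^ 2)| ≤ 16 / H := by
    intro i ζ h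
    exact gk_surf hK' hK hKK ha hc hR (mo_ne h)
  have hGd : ∀ s i, Gd ((fun _ => qq) i) ((fun i => cc K' (k i)) i) (δ / 2) (16 / H) (sl (g i) s) := by
    intro s i
    refine ⟨measurable_sl (mg i) s, integrable_sl (ig i) s, ?_⟩
    intro η hη
    obtain ⟨t, ht⟩ := sl_supp hη
    obtain ⟨_, h1, h2, h3⟩ := hsurf i _ ht
    rw [cn1] at h1
    rw [cn2] at h2
    rw [cn3, cn1, cn2] at h3
    have h8 : (8:ℝ) / K' ≤ δ / 2 := by
      have : (8:ℝ) / K' = 8 * (1 / K') := by ring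
      rw [this]; linarith
    refine ⟨?_, h3⟩
    rw [Prod.norm_def]
    apply max_le
    · exact h1.trans h8
    · exact h2.trans h8
  have hE : ∀ i, ∫⁻ ζ, ‖g i ζ‖ₑ ^ 2 ≤ ENNReal.ofReal (D * H ^ 4) * Hs M (K' * m) a (y - u i) := by
    intro i
    calc ∫⁻ ζ, ‖g i ζ‖ₑ ^ 2 = ∫⁻ ζ, ‖gk H (A i) (y - u i) ζ‖ₑ ^ 2 := by
          refine lintegral_congr fun ζ => ?_
          rw [hg]; simp only; rw [enorm_mo]
      _ ≤ _ := hL K' m hK' hm c0 R a ha hc hR (k i) (y - u i)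
  have hsl : ∀ s i, (∫⁻ η, ‖sl (g i) s η‖ₑ ^ 2) ^ (1/2 : ℝ) ≤ ENNReal.ofReal ((4 * D * H ^ 3) ^ (1/2 : ℝ)) *
      Hs M (K' * m) a (y - u i) ^ (1/2 : ℝ) := by
    intro s i
    have h1 := sl_L2 (mg i) (w := 2 / H) (c := 1) (by positivity) (fun ζ h => (hsurf i ζ h).1) s
    calc (∫⁻ η, ‖sl (g i) s η‖ₑ ^ 2) ^ (1/2 : ℝ) ≤
        (ENNReal.ofReal (2 * (2 / H)) * (ENNReal.ofReal (D * H ^ 4) * Hs M (K' * m) a (y - u i))) ^ (1/2 : ℝ) := by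
          gcongr
          exact h1.trans (mul_le_mul' le_rfl (hE i))
      _ = _ := by
          rw [← mul_assoc, ← ENNReal.ofReal_mul (by positivity), ENNReal.mul_rpow_of_nonneg _ _ (by norm_num),
            ENNReal.ofReal_rpow_of_nonneg (by positivity) (by norm_num)]
          congr 3
          field_simp
          ring
  set W := Hs M (K' * m) a (y - u 0) ^ (1/2 : ℝ) * Hs M (K' * m) a (y - u 1) ^ (1/2 : ℝ) *
    Hs M (K' * m) a (y - u 2) ^ (1/2 : ℝ) with hW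
  set Q := (4 * D * H ^ 3) ^ (1/2 : ℝ) with hQ
  have hQ0 : 0 ≤ Q := by rw [hQ]; positivity
  have hslice : ∀ s : ℝ, ∫⁻ x : E3, ‖𝓕⁻ (g 0) (cn s x)‖ₑ * ‖𝓕⁻ (g 1) (cn s x)‖ₑ * ‖𝓕⁻ (g 2) (cn s x)‖ₑ ≤
      ENNReal.ofReal (C * H ^ (ε - 3/2) * Q ^ 3) * W := by
    intro s
    have h1 := hT2 (fun i => sl (g i) s) (hGd s)
    simp only [inv_sl (ig 0), inv_sl (ig 1), inv_sl (ig 2)] at h1
    refine h1.trans ?_
    calc _ ≤ ENNReal.ofReal (C * H ^ (ε - 3/2)) * ((ENNReal.ofReal Q * Hs M (K' * m) a (y - u 0) ^ (1/2 : ℝ)) *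
          (ENNReal.ofReal Q * Hs M (K' * m) a (y - u 1) ^ (1/2 : ℝ)) *
          (ENNReal.ofReal Q * Hs M (K' * m) a (y - u 2) ^ (1/2 : ℝ))) := by
          gcongr
          · exact hsl s 0
          · exact hsl s 1
          · exact hsl s 2
      _ = _ := by
          rw [ENNReal.ofReal_mul (p := C * H ^ (ε - 3/2)) (by positivity), ENNReal.ofReal_pow hQ0, hW]
          ring
  have mT : Measurable (fun z => ‖𝓕⁻ (g 0) z‖ₑ * ‖𝓕⁻ (g 1) z‖ₑ * ‖𝓕⁻ (g 2) z‖ₑ) :=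
    ((continuous_inv (ig 0)).measurable.enorm.mul (continuous_inv (ig 1)).measurable.enorm).mul
      (continuous_inv (ig 2)).measurable.enorm
  have mI : MeasurableSet {z : E4 | |z 0 - y 0| ≤ H} := by
    have : Measurable (fun z : E4 => |z 0 - y 0|) := by fun_prop
    exact measurableSet_le this measurable_const
  have hwin : ∀ z ∈ Metric.closedBall y H, ‖𝓕⁻ (A 0) (z - u 0)‖ₑ * ‖𝓕⁻ (A 1) (z - u 1)‖ₑ * ‖𝓕⁻ (A 2) (z - u 2)‖ₑ ≤
      8 * ({z : E4 | |z 0 - y 0| ≤ H}.indicator (fun z => ‖𝓕⁻ (g 0) z‖ₑ * ‖𝓕⁻ (g 1) z‖ₑ * ‖𝓕⁻ (g 2) z‖ₑ) z) := by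
    intro z hz
    rw [Metric.mem_closedBall, dist_eq_norm] at hz
    have hmem : z ∈ {z : E4 | |z 0 - y 0| ≤ H} := by
      have := abs_coord_le (z - y) 0
      rw [PiLp.sub_apply] at this
      exact this.trans hz
    rw [indicator_of_mem hmem]
    have h1 : 1/2 ≤ ‖Psi ((r0 / H) • (z - y))‖ := by
      apply r0_spec
      rw [norm_smul, Real.norm_of_nonneg (div_pos r0_pos hK0).le]
      calc r0 / H * ‖z - y‖ ≤ r0 / H * H := mul_le_mul_of_nonneg_left hz (div_pos r0_pos hK0).le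
        _ = r0 := by field_simp
    have h2 : (1 : ℝ≥0∞) ≤ 8 * ‖Psi ((r0 / H) • (z - y))‖ₑ ^ 3 := by
      rw [← ofReal_norm, ← ENNReal.ofReal_pow (norm_nonneg _), show (8 : ℝ≥0∞) = ENNReal.ofReal 8 by norm_num,
        ← ENNReal.ofReal_mul (by norm_num), ← ENNReal.ofReal_one]
      apply ENNReal.ofReal_le_ofReal
      have : (1/2 : ℝ) ^ 3 ≤ ‖Psi ((r0 / H) • (z - y))‖ ^ 3 := by gcongr
      linarith
    simp only [hinv, enorm_mul]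
    calc ‖𝓕⁻ (A 0) (z - u 0)‖ₑ * ‖𝓕⁻ (A 1) (z - u 1)‖ₑ * ‖𝓕⁻ (A 2) (z - u 2)‖ₑ =
        1 * (‖𝓕⁻ (A 0) (z - u 0)‖ₑ * ‖𝓕⁻ (A 1) (z - u 1)‖ₑ * ‖𝓕⁻ (A 2) (z - u 2)‖ₑ) := (one_mul _).symm
      _ ≤ (8 * ‖Psi ((r0 / H) • (z - y))‖ₑ ^ 3) *
          (‖𝓕⁻ (A 0) (z - u 0)‖ₑ * ‖𝓕⁻ (A 1) (z - u 1)‖ₑ * ‖𝓕⁻ (A 2) (z - u 2)‖ₑ) := by gcongr
      _ = _ := by ring
  calc _ ≤ ∫⁻ z in Metric.closedBall y H, 8 * ({z : E4 | |z 0 - y 0| ≤ H}.indicator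
          (fun z => ‖𝓕⁻ (g 0) z‖ₑ * ‖𝓕⁻ (g 1) z‖ₑ * ‖𝓕⁻ (g 2) z‖ₑ) z) :=
        setLIntegral_mono' measurableSet_closedBall hwin
    _ ≤ ∫⁻ z, 8 * ({z : E4 | |z 0 - y 0| ≤ H}.indicator
          (fun z => ‖𝓕⁻ (g 0) z‖ₑ * ‖𝓕⁻ (g 1) z‖ₑ * ‖𝓕⁻ (g 2) z‖ₑ) z) := setLIntegral_le_lintegral _ _
    _ = 8 * ∫⁻ s : ℝ, ∫⁻ x : E3, ({z : E4 | |z 0 - y 0| ≤ H}.indicator
          (fun z => ‖𝓕⁻ (g 0) z‖ₑ * ‖𝓕⁻ (g 1) z‖ₑ * ‖𝓕⁻ (g 2) z‖ₑ) (cn s x)) := by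
        rw [lintegral_const_mul' _ _ (by norm_num), lint4 (mT.indicator mI)]
    _ ≤ 8 * ∫⁻ s : ℝ, (Metric.closedBall (y 0) H).indicator (fun _ => ENNReal.ofReal (C * H ^ (ε - 3/2) * Q ^ 3) * W) s := by
        gcongr with s
        by_cases hs : s ∈ Metric.closedBall (y 0) H
        · rw [indicator_of_mem hs]
          refine le_trans (lintegral_mono fun x => ?_) (hslice s)
          exact indicator_le_self _ (fun z => ‖𝓕⁻ (g 0) z‖ₑ * ‖𝓕⁻ (g 1) z‖ₑ * ‖𝓕⁻ (g 2) z‖ₑ) _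
        · rw [indicator_of_notMem hs]
          have : ∀ x : E3, ({z : E4 | |z 0 - y 0| ≤ H}.indicator
              (fun z => ‖𝓕⁻ (g 0) z‖ₑ * ‖𝓕⁻ (g 1) z‖ₑ * ‖𝓕⁻ (g 2) z‖ₑ) (cn s x)) = 0 := by
            intro x
            apply indicator_of_notMem
            intro hc
            apply hs
            rw [Metric.mem_closedBall, Real.dist_eq]
            exact hc
          simp [this]
    _ = 8 * ((ENNReal.ofReal (C * H ^ (ε - 3/2) * Q ^ 3) * W) * ENNReal.ofReal (2 * H)) := by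
        rw [lintegral_indicator measurableSet_closedBall, setLIntegral_const, Real.volume_closedBall]
    _ = ENNReal.ofReal (8 * (C * H ^ (ε - 3/2) * Q ^ 3) * (2 * H)) * W := by
        rw [ENNReal.ofReal_mul (p := 8 * (C * H ^ (ε - 3/2) * Q ^ 3)) (by positivity), ENNReal.ofReal_mul (p := 8) (by norm_num),
          show ENNReal.ofReal 8 = (8 : ℝ≥0∞) by norm_num]
        ring
    _ = _ := by
        congr 2
        have e1 : Q ^ 3 = (4 * D) ^ (3/2 : ℝ) * H ^ (9/2 : ℝ) := by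
          rw [hQ, ← Real.rpow_natCast, ← Real.rpow_mul (by positivity), Real.mul_rpow (by positivity) (by positivity),
            ← Real.rpow_natCast H 3, ← Real.rpow_mul hK0.le]
          norm_num
        have e2 : H ^ (4 + ε) = H ^ (ε - 3/2) * H ^ (9/2 : ℝ) * H := by
          nth_rewrite 4 [← Real.rpow_one H]
          rw [← Real.rpow_add hK0, ← Real.rpow_add hK0]
          congr 1
          ring
        rw [e1, e2]
        ring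

end Vale.Agent.P106.G
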