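import Vale.Agent.P106.G.Rescale

/-! # Weights -/

open MeasureTheory Complex Set
open scoped ENNReal NNReal ContDiff FourierTransform SchwartzMap ComplexConjugate Topology

set_option linter.all false

namespace Vale.Agent.P106.G

/-- polynomial weight of scale `K` -/
noncomputable def wK (M : ℕ) (K : ℝ) (u : E4) : ℝ≥0∞ := ENNReal.ofReal ((K ^ 4)⁻¹ * ((1 + ‖u‖ / K) ^ M)⁻¹)

theorem measurable_wK (M : ℕ) (K : ℝ) : Measurable (wK M K) := by unfold wK; fun_prop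

theorem wK_neg (M : ℕ) (K : ℝ) (u : E4) : wK M K (-u) = wK M K u := by unfold wK; rw [norm_neg]

theorem wK_sub_comm (M : ℕ) (K : ℝ) (u v : E4) : wK M K (u - v) = wK M K (v - u) := by
  rw [← wK_neg, neg_sub]

/-- total mass -/
noncomputable def cw (M : ℕ) : ℝ≥0∞ := ∫⁻ u, wK M 1 u

theorem lint_wK (M : ℕ) {K : ℝ} (hK : 0 < K) : ∫⁻ u, wK M K u = cw M := by
  have h := lintegral_smul4 (inv_pos.2 hK) (wK M 1)
  have e : ∀ u : E4, wK M K u = ENNReal.ofReal ((K ^ 4)⁻¹) * wK M 1 (K⁻¹ • u) := by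
    intro u
    unfold wK
    have e0 : K⁻¹ * ‖u‖ = ‖u‖ / K := by rw [inv_mul_eq_div]
    rw [← ENNReal.ofReal_mul (by positivity), norm_smul, norm_inv, Real.norm_of_nonneg hK.le, e0]
    congr 1
    rw [one_pow, inv_one, one_mul, div_one]
  have hm : Measurable (fun u : E4 => wK M 1 (K⁻¹ • u)) := (measurable_wK M 1).comp (by fun_prop)
  simp_rw [e]
  rw [lintegral_const_mul _ hm, h, ← mul_assoc, ← ENNReal.ofReal_mul (by positivity)]
  have : (K ^ 4)⁻¹ * (K⁻¹ ^ 4)⁻¹ = 1 := by field_simp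
  rw [this, ENNReal.ofReal_one, one_mul]
  rfl

theorem cw_lt_top {M : ℕ} (hM : 5 ≤ M) : cw M < ⊤ := by
  have hint : Integrable (fun x : E4 => (1 + ‖x‖) ^ (-(5:ℝ))) := by
    apply integrable_one_add_norm
    rw [finrank_euclideanSpace_fin]; norm_num
  unfold cw
  refine lt_of_le_of_lt (lintegral_mono fun u => ?_) hint.lintegral_lt_top
  unfold wK
  apply ENNReal.ofReal_le_ofReal
  rw [one_pow, inv_one, one_mul, div_one, Real.rpow_neg (by positivity)]
  apply inv_anti₀ (by positivity)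
  have : (1 + ‖u‖) ^ (5:ℝ) = (1 + ‖u‖) ^ 5 := by exact_mod_cast Real.rpow_natCast (1 + ‖u‖) 5
  rw [this]
  exact pow_le_pow_right₀ (by linarith [norm_nonneg u]) hM

theorem cw_pos (M : ℕ) : 0 < cw M := by
  unfold cw
  rw [lintegral_pos_iff_support (measurable_wK M 1)]
  have : Function.support (wK M 1) = Set.univ := by
    ext u
    simp only [Function.mem_support, mem_univ, iff_true]
    unfold wK
    rw [ne_eq, ENNReal.ofReal_eq_zero, not_le]
    positivity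
  rw [this]
  exact Measure.measure_univ_pos.2 (NeZero.ne _)

/-- slowly varying functions -/
def SV (M : ℕ) (L : ℝ) (W : E4 → ℝ≥0∞) : Prop := ∀ z u, W (z + u) ≤ ENNReal.ofReal ((1 + ‖u‖ / L) ^ M) * W z

theorem SV.sub {M : ℕ} {L : ℝ} {W : E4 → ℝ≥0∞} (h : SV M L W) (z y : E4) :
    W z ≤ ENNReal.ofReal ((1 + ‖z - y‖ / L) ^ M) * W y := by
  have := h y (z - y)
  rwa [add_sub_cancel] at this

theorem SV.mono {M M' : ℕ} {L L' : ℝ} {W : E4 → ℝ≥0∞} (h : SV M L W) (hM : M ≤ M') (hL : 0 < L') (hL' : L' ≤ L) :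
    SV M' L' W := by
  intro z u
  refine (h z u).trans (mul_le_mul' (ENNReal.ofReal_le_ofReal ?_) le_rfl)
  have h1 : 1 + ‖u‖ / L ≤ 1 + ‖u‖ / L' := by
    have := norm_nonneg u
    gcongr
  have h0 : 0 ≤ 1 + ‖u‖ / L := by
    have : 0 ≤ ‖u‖ / L := div_nonneg (norm_nonneg _) (by linarith)
    linarith
  calc (1 + ‖u‖ / L) ^ M ≤ (1 + ‖u‖ / L') ^ M := pow_le_pow_left₀ h0 h1 _
    _ ≤ (1 + ‖u‖ / L') ^ M' := pow_le_pow_right₀ (by
        have : 0 ≤ ‖u‖ / L' := div_nonneg (norm_nonneg _) hL.le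
        linarith) hM

theorem wK_shift (M : ℕ) {K : ℝ} (hK : 0 < K) (u v : E4) :
    wK M K (u + v) ≤ ENNReal.ofReal ((1 + ‖v‖ / K) ^ M) * wK M K u := by
  unfold wK
  rw [← ENNReal.ofReal_mul (by positivity)]
  apply ENNReal.ofReal_le_ofReal
  have h1 : 1 + ‖u‖ / K ≤ (1 + ‖u + v‖ / K) * (1 + ‖v‖ / K) := by
    have : ‖u‖ ≤ ‖u + v‖ + ‖v‖ := by
      have := norm_sub_le (u + v) v
      rwa [add_sub_cancel_right] at this
    have h2 : ‖u‖ / K ≤ ‖u + v‖ / K + ‖v‖ / K := by rw [← add_div]; gcongr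
    have h3 : 0 ≤ ‖u + v‖ / K * (‖v‖ / K) := by positivity
    nlinarith
  have h2 : (1 + ‖u‖ / K) ^ M ≤ (1 + ‖u + v‖ / K) ^ M * (1 + ‖v‖ / K) ^ M := by
    rw [← mul_pow]
    exact pow_le_pow_left₀ (by positivity) h1 _
  have h3 : ((1 + ‖u + v‖ / K) ^ M)⁻¹ ≤ (1 + ‖v‖ / K) ^ M * ((1 + ‖u‖ / K) ^ M)⁻¹ := by
    rw [← div_eq_mul_inv, inv_eq_one_div, div_le_div_iff₀ (by positivity) (by positivity)]
    linarith
  calc (K ^ 4)⁻¹ * ((1 + ‖u + v‖ / K) ^ M)⁻¹ ≤ (K ^ 4)⁻¹ * ((1 + ‖v‖ / K) ^ M * ((1 + ‖u‖ / K) ^ M)⁻¹) := by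
        gcongr
    _ = _ := by ring

theorem wK_mul (M M' : ℕ) {K : ℝ} (hK : 0 < K) (u : E4) :
    wK (M + M') K u * ENNReal.ofReal ((1 + ‖u‖ / K) ^ M') = wK M K u := by
  unfold wK
  rw [← ENNReal.ofReal_mul (by positivity)]
  congr 1
  rw [pow_add]
  field_simp

theorem wK_anti {M M' : ℕ} (h : M ≤ M') {K : ℝ} (hK : 0 < K) (u : E4) : wK M' K u ≤ wK M K u := by
  unfold wK
  apply ENNReal.ofReal_le_ofReal
  gcongr
  have : 0 ≤ ‖u‖ / K := by positivity
  linarith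

/-- averaging a slowly varying function -/
theorem conv_SV {M M' : ℕ} (hM : M + 5 ≤ M') {K L : ℝ} (hK : 0 < K) (hKL : K ≤ L) {W : E4 → ℝ≥0∞} (hW : SV M L W)
    (y : E4) : ∫⁻ z, wK M' K (z - y) * W z ≤ cw 5 * W y := by
  calc ∫⁻ z, wK M' K (z - y) * W z ≤ ∫⁻ z, wK 5 K (z - y) * W y := by
        refine lintegral_mono fun z => ?_
        have h1 := (hW.mono le_rfl hK hKL).sub z y
        calc wK M' K (z - y) * W z ≤ wK (5 + M) K (z - y) * (ENNReal.ofReal ((1 + ‖z - y‖ / K) ^ M) * W y) :=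
              mul_le_mul' (wK_anti (by omega) hK _) h1
          _ = wK 5 K (z - y) * W y := by rw [← mul_assoc, wK_mul 5 M hK]
    _ = (∫⁻ z, wK 5 K (z - y)) * W y := by
        have hm : Measurable (fun z : E4 => wK 5 K (z - y)) := (measurable_wK 5 K).comp (by fun_prop)
        rw [lintegral_mul_const _ hm]
    _ = _ := by
        rw [lintegral_sub_right_eq_self (fun z => wK 5 K z) y, lint_wK 5 hK]

theorem vol_ball (z : E4) {r : ℝ} (hr : 0 ≤ r) : volume (Metric.closedBall z r) =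
    ENNReal.ofReal (r ^ 4) * volume (Metric.closedBall (0 : E4) 1) := by
  rw [Measure.addHaar_closedBall' volume z hr, finrank_euclideanSpace_fin]

noncomputable def vb : ℝ≥0∞ := volume (Metric.closedBall (0 : E4) 1)

theorem vb_pos : 0 < vb := Metric.measure_closedBall_pos _ _ one_pos
theorem vb_lt : vb < ⊤ := (isCompact_closedBall _ _).measure_lt_top

/-- averaging over balls -/
theorem avg_ball {M : ℕ} {r L : ℝ} (hr : 0 < r) (hrL : r ≤ L) {W f : E4 → ℝ≥0∞} (hW : SV M L W) (hWm : Measurable W)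
    (hf : Measurable f) :
    ∫⁻ z, f z * W z ≤ (2 ^ M * (ENNReal.ofReal (r ^ 4) * vb)⁻¹) * ∫⁻ c, W c * ∫⁻ z in Metric.closedBall c r, f z := by
  have hv0 : ENNReal.ofReal (r ^ 4) * vb ≠ 0 := mul_ne_zero (by
    rw [ne_eq, ENNReal.ofReal_eq_zero, not_le]; positivity) vb_pos.ne'
  have hvt : ENNReal.ofReal (r ^ 4) * vb ≠ ⊤ := ENNReal.mul_ne_top ENNReal.ofReal_ne_top vb_lt.ne
  have mB : MeasurableSet {p : E4 × E4 | p.1 ∈ Metric.closedBall p.2 r} := by
    have : {p : E4 × E4 | p.1 ∈ Metric.closedBall p.2 r} = {p : E4 × E4 | dist p.1 p.2 ≤ r} := by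
      ext p; simp
    rw [this]
    exact (isClosed_le (by fun_prop) continuous_const).measurableSet
  have key : ∫⁻ z, (ENNReal.ofReal (r ^ 4) * vb) * (f z * W z) ≤
      2 ^ M * ∫⁻ c, W c * ∫⁻ z in Metric.closedBall c r, f z := by
    calc ∫⁻ z, (ENNReal.ofReal (r ^ 4) * vb) * (f z * W z) ≤
        ∫⁻ z, ∫⁻ c, {p : E4 × E4 | p.1 ∈ Metric.closedBall p.2 r}.indicator (fun p => 2 ^ M * W p.2 * f p.1) (z, c) := by
          refine lintegral_mono fun z => ?_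
          have e : ∀ c, {p : E4 × E4 | p.1 ∈ Metric.closedBall p.2 r}.indicator (fun p => 2 ^ M * W p.2 * f p.1) (z, c) =
              (Metric.closedBall z r).indicator (fun c => 2 ^ M * W c * f z) c := by
            intro c
            simp only [indicator, mem_setOf_eq, Metric.mem_closedBall]
            rw [dist_comm]
          simp_rw [e]
          rw [lintegral_indicator measurableSet_closedBall]
          calc (ENNReal.ofReal (r ^ 4) * vb) * (f z * W z) = ∫⁻ c in Metric.closedBall z r, W z * f z := by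
                rw [setLIntegral_const, vol_ball z hr.le]
                unfold vb
                ring
            _ ≤ _ := by
                refine setLIntegral_mono' measurableSet_closedBall fun c hc => ?_
                gcongr
                have h1 := hW.sub z c
                refine h1.trans ?_
                gcongr
                have e2 : (2:ℝ≥0∞) ^ M = ENNReal.ofReal (2 ^ M) := by
                  rw [ENNReal.ofReal_pow (by norm_num), ENNReal.ofReal_ofNat]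
                rw [e2]
                apply ENNReal.ofReal_le_ofReal
                have h2 : ‖z - c‖ / L ≤ 1 := by
                  rw [div_le_one (by linarith)]
                  rw [Metric.mem_closedBall, dist_comm, dist_eq_norm] at hc
                  linarith
                have h3 : 0 ≤ ‖z - c‖ / L := div_nonneg (norm_nonneg _) (by linarith)
                exact pow_le_pow_left₀ (by linarith) (by linarith) _
      _ = ∫⁻ c, ∫⁻ z, {p : E4 × E4 | p.1 ∈ Metric.closedBall p.2 r}.indicator (fun p => 2 ^ M * W p.2 * f p.1) (z, c) := by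
          rw [lintegral_lintegral_swap]
          refine Measurable.aemeasurable ?_
          exact Measurable.indicator (by fun_prop) mB
      _ = ∫⁻ c, 2 ^ M * (W c * ∫⁻ z in Metric.closedBall c r, f z) := by
          refine lintegral_congr fun c => ?_
          have e : ∀ z, {p : E4 × E4 | p.1 ∈ Metric.closedBall p.2 r}.indicator (fun p => 2 ^ M * W p.2 * f p.1) (z, c) =
              (Metric.closedBall c r).indicator (fun z => 2 ^ M * W c * f z) z := by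
            intro z
            rfl
          simp_rw [e]
          rw [lintegral_indicator measurableSet_closedBall, lintegral_const_mul _ hf, mul_assoc]
      _ = _ := by
          rw [lintegral_const_mul']
          exact ENNReal.pow_ne_top (by norm_num)
  rw [lintegral_const_mul' _ _ hvt] at key
  calc ∫⁻ z, f z * W z = (ENNReal.ofReal (r ^ 4) * vb)⁻¹ * ((ENNReal.ofReal (r ^ 4) * vb) * ∫⁻ z, f z * W z) := by
        rw [← mul_assoc, ENNReal.inv_mul_cancel hv0 hvt, one_mul]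
    _ ≤ (ENNReal.ofReal (r ^ 4) * vb)⁻¹ * (2 ^ M * ∫⁻ c, W c * ∫⁻ z in Metric.closedBall c r, f z) := by gcongr
    _ = _ := by ring

/-- weighted average of the modulus -/
noncomputable def Gav (M : ℕ) (K : ℝ) (g : E4 → ℂ) (z : E4) : ℝ≥0∞ := ∫⁻ y, ‖𝓕⁻ g y‖ₑ * wK M K (z - y)

/-- weighted average of the square -/
noncomputable def Gsq (M : ℕ) (K : ℝ) (g : E4 → ℂ) (z : E4) : ℝ≥0∞ := ∫⁻ y, ‖𝓕⁻ g y‖ₑ ^ 2 * wK M K (z - y)

theorem measurable_Gav (M : ℕ) (K : ℝ) {g : E4 → ℂ} (hg : Integrable g) : Measurable (Gav M K g) := by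
  unfold Gav
  have h1 := (continuous_inv hg).measurable
  have h2 := measurable_wK M K
  apply Measurable.lintegral_prod_right' (f := fun p : E4 × E4 => ‖𝓕⁻ g p.2‖ₑ * wK M K (p.1 - p.2))
  fun_prop

theorem measurable_Gsq (M : ℕ) (K : ℝ) {g : E4 → ℂ} (hg : Integrable g) : Measurable (Gsq M K g) := by
  unfold Gsq
  have h1 := (continuous_inv hg).measurable
  have h2 := measurable_wK M K
  apply Measurable.lintegral_prod_right' (f := fun p : E4 × E4 => ‖𝓕⁻ g p.2‖ₑ ^ 2 * wK M K (p.1 - p.2))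
  fun_prop

theorem Gav_SV (M : ℕ) {K : ℝ} (hK : 0 < K) {g : E4 → ℂ} (hg : Integrable g) : SV M K (Gav M K g) := by
  intro z u
  unfold Gav
  rw [← lintegral_const_mul' _ _ ENNReal.ofReal_ne_top]
  refine lintegral_mono fun y => ?_
  have : z + u - y = z - y + u := by abel
  rw [this]
  calc ‖𝓕⁻ g y‖ₑ * wK M K (z - y + u) ≤ ‖𝓕⁻ g y‖ₑ * (ENNReal.ofReal ((1 + ‖u‖ / K) ^ M) * wK M K (z - y)) := by
        gcongr; exact wK_shift M hK _ _
    _ = _ := by ring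

theorem Gsq_SV (M : ℕ) {K : ℝ} (hK : 0 < K) {g : E4 → ℂ} (hg : Integrable g) : SV M K (Gsq M K g) := by
  intro z u
  unfold Gsq
  rw [← lintegral_const_mul' _ _ ENNReal.ofReal_ne_top]
  refine lintegral_mono fun y => ?_
  have : z + u - y = z - y + u := by abel
  rw [this]
  calc ‖𝓕⁻ g y‖ₑ ^ 2 * wK M K (z - y + u) ≤ ‖𝓕⁻ g y‖ₑ ^ 2 * (ENNReal.ofReal ((1 + ‖u‖ / K) ^ M) * wK M K (z - y)) := by
        gcongr; exact wK_shift M hK _ _
    _ = _ := by ring

/-- Hölder: cube of a weighted average -/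
theorem Gav_cube (M : ℕ) {K : ℝ} (hK : 0 < K) {g : E4 → ℂ} (hg : Integrable g) (z : E4) :
    Gav M K g z ^ 3 ≤ cw M ^ 2 * ∫⁻ y, ‖𝓕⁻ g y‖ₑ ^ 3 * wK M K (z - y) := by
  have h1 := (continuous_inv hg).measurable
  have h2 : Measurable (fun y => wK M K (z - y)) := (measurable_wK M K).comp (by fun_prop)
  have hH := ENNReal.lintegral_mul_le_Lp_mul_Lq (μ := (volume : Measure E4)) (p := 3) (q := 3/2)
    (by constructor <;> norm_num) (f := fun y => ‖𝓕⁻ g y‖ₑ * wK M K (z - y) ^ (1/3 : ℝ))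
    (g := fun y => wK M K (z - y) ^ (2/3 : ℝ)) (h1.enorm.mul (h2.pow_const _)).aemeasurable
    (h2.pow_const _).aemeasurable
  have e1 : ∀ y, (‖𝓕⁻ g y‖ₑ * wK M K (z - y) ^ (1/3 : ℝ)) * wK M K (z - y) ^ (2/3 : ℝ) = ‖𝓕⁻ g y‖ₑ * wK M K (z - y) := by
    intro y
    rw [mul_assoc, ← ENNReal.rpow_add_of_nonneg _ _ (by norm_num) (by norm_num)]
    norm_num
  have e2 : ∀ y, (‖𝓕⁻ g y‖ₑ * wK M K (z - y) ^ (1/3 : ℝ)) ^ (3:ℝ) = ‖𝓕⁻ g y‖ₑ ^ 3 * wK M K (z - y) := by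
    intro y
    rw [ENNReal.mul_rpow_of_nonneg _ _ (by norm_num), ← ENNReal.rpow_mul]
    norm_num
  have e3 : ∀ y, (wK M K (z - y) ^ (2/3 : ℝ)) ^ (3/2 : ℝ) = wK M K (z - y) := by
    intro y
    rw [← ENNReal.rpow_mul]; norm_num
  simp only [Pi.mul_apply, e1, e2, e3] at hH
  have e4 : ∫⁻ y, wK M K (z - y) = cw M := by
    rw [lintegral_sub_left_eq_self (fun y => wK M K y), lint_wK M hK]
  rw [e4] at hH
  have hG : Gav M K g z ≤ (∫⁻ y, ‖𝓕⁻ g y‖ₑ ^ 3 * wK M K (z - y)) ^ (1/3 : ℝ) * cw M ^ (1/(3/2) : ℝ) := hH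
  calc Gav M K g z ^ 3 ≤ ((∫⁻ y, ‖𝓕⁻ g y‖ₑ ^ 3 * wK M K (z - y)) ^ (1/3 : ℝ) * cw M ^ (1/(3/2) : ℝ)) ^ 3 := by gcongr
    _ = _ := by
        rw [mul_pow, ← ENNReal.rpow_natCast, ← ENNReal.rpow_natCast, ← ENNReal.rpow_mul, ← ENNReal.rpow_mul]
        norm_num
        rw [mul_comm]

/-- Hölder: square average to the power 3/2 -/
theorem Gsq_cube (M : ℕ) {K : ℝ} (hK : 0 < K) {g : E4 → ℂ} (hg : Integrable g) (z : E4) :
    Gsq M K g z ^ (3/2 : ℝ) ≤ cw M ^ (1/2 : ℝ) * ∫⁻ y, ‖𝓕⁻ g y‖ₑ ^ 3 * wK M K (z - y) := by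
  have h1 := (continuous_inv hg).measurable
  have h2 : Measurable (fun y => wK M K (z - y)) := (measurable_wK M K).comp (by fun_prop)
  have m1 : Measurable (fun y => ‖𝓕⁻ g y‖ₑ ^ 2 * wK M K (z - y) ^ (2/3 : ℝ)) :=
    (h1.enorm.pow_const 2).mul (h2.pow_const _)
  have m2 : Measurable (fun y => wK M K (z - y) ^ (1/3 : ℝ)) := h2.pow_const _
  have hH := ENNReal.lintegral_mul_le_Lp_mul_Lq (μ := (volume : Measure E4)) (p := 3/2) (q := 3)
    (by constructor <;> norm_num) (f := fun y => ‖𝓕⁻ g y‖ₑ ^ 2 * wK M K (z - y) ^ (2/3 : ℝ))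
    (g := fun y => wK M K (z - y) ^ (1/3 : ℝ)) m1.aemeasurable m2.aemeasurable
  have e1 : ∀ y, (‖𝓕⁻ g y‖ₑ ^ 2 * wK M K (z - y) ^ (2/3 : ℝ)) * wK M K (z - y) ^ (1/3 : ℝ) = ‖𝓕⁻ g y‖ₑ ^ 2 * wK M K (z - y) := by
    intro y
    rw [mul_assoc, ← ENNReal.rpow_add_of_nonneg _ _ (by norm_num) (by norm_num)]
    norm_num
  have e2 : ∀ y, (‖𝓕⁻ g y‖ₑ ^ 2 * wK M K (z - y) ^ (2/3 : ℝ)) ^ (3/2:ℝ) = ‖𝓕⁻ g y‖ₑ ^ 3 * wK M K (z - y) := by
    intro y
    rw [ENNReal.mul_rpow_of_nonneg _ _ (by norm_num), ← ENNReal.rpow_mul, ← ENNReal.rpow_natCast, ← ENNReal.rpow_mul]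
    norm_num
  have e3 : ∀ y, (wK M K (z - y) ^ (1/3 : ℝ)) ^ (3 : ℝ) = wK M K (z - y) := by
    intro y
    rw [← ENNReal.rpow_mul]; norm_num
  simp only [Pi.mul_apply, e1, e2, e3] at hH
  have e4 : ∫⁻ y, wK M K (z - y) = cw M := by
    rw [lintegral_sub_left_eq_self (fun y => wK M K y), lint_wK M hK]
  rw [e4] at hH
  have hG : Gsq M K g z ≤ (∫⁻ y, ‖𝓕⁻ g y‖ₑ ^ 3 * wK M K (z - y)) ^ (1/(3/2) : ℝ) * cw M ^ (1/3 : ℝ) := hH
  calc Gsq M K g z ^ (3/2 : ℝ) ≤ ((∫⁻ y, ‖𝓕⁻ g y‖ₑ ^ 3 * wK M K (z - y)) ^ (1/(3/2) : ℝ) * cw M ^ (1/3 : ℝ)) ^ (3/2 : ℝ) := by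
        gcongr
    _ = _ := by
        rw [ENNReal.mul_rpow_of_nonneg _ _ (by norm_num), ← ENNReal.rpow_mul, ← ENNReal.rpow_mul]
        norm_num
        rw [mul_comm]

end Vale.Agent.P106.G
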